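import Vale.Agent.Lib.P213.TensorMap

/-! # The Alexander-Whitney map of a simplex of `Δ[m] × Δ[1]`

For a monotone `η : [m] → [1]`, the chain map `C(m) ⟶ C(m) ⊗ I` sending `σ` to
`σ ⊗ η(last σ)`, plus `(σ minus last) ⊗ e` if `η` is `1` exactly on the last vertex of `σ`. -/

open CategoryTheory

namespace Vale.Agent.P213

lemma simplexBd_empty {n : ℕ} (τ : Finset (Fin n)) : simplexBd ∅ τ = 0 := by
  simp [simplexBd]

lemma sum_simplexBd {m : ℕ} (σ : Finset (Fin (m + 1))) (g : Finset (Fin (m + 1)) → ℤ)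
    (hg : g ∅ = 0) : ∑ ρ : SimplexBasis m, simplexBd σ ρ.1 * g ρ.1 =
      ∑ j ∈ σ, (-1) ^ (σ.filter (· < j)).card * g (σ.erase j) := by
  simp only [simplexBd, Finset.sum_mul]
  rw [Finset.sum_comm]
  refine Finset.sum_congr rfl fun j _ => ?_
  by_cases hj : (σ.erase j).Nonempty
  · rw [Finset.sum_eq_single (⟨σ.erase j, hj⟩ : SimplexBasis m)]
    · rw [if_pos rfl]
    · intro ρ _ hρ
      rw [if_neg (fun h => hρ (Subtype.ext h.symm)), zero_mul]
    · intro h
      exact absurd (Finset.mem_univ _) h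
  · rw [Finset.not_nonempty_iff_eq_empty.mp hj, hg, mul_zero]
    refine Finset.sum_eq_zero fun ρ _ => ?_
    rw [if_neg, zero_mul]
    intro h
    exact ρ.2.ne_empty h.symm

lemma sum_ite_simplex {m : ℕ} (S : Finset (Fin (m + 1))) (h : Finset (Fin (m + 1)) → ℤ)
    (h0 : h ∅ = 0) : ∑ ρ : SimplexBasis m, (if ρ.1 = S then h ρ.1 else 0) = h S := by
  by_cases hS : S.Nonempty
  · rw [Finset.sum_eq_single (⟨S, hS⟩ : SimplexBasis m)]
    · rw [if_pos rfl]
    · intro ρ _ hρ
      rw [if_neg (fun h => hρ (Subtype.ext h))]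
    · intro h
      exact absurd (Finset.mem_univ _) h
  · rw [Finset.not_nonempty_iff_eq_empty.mp hS, h0]
    refine Finset.sum_eq_zero fun ρ _ => ?_
    rw [if_neg ρ.2.ne_empty]

/-- The matrix of the Alexander-Whitney map of `η`: coefficient of `τ ⊗ i`. -/
def awL {m : ℕ} (η : Fin (m + 1) →o Fin 2) (σ τ : SimplexBasis m) (i : Bool) : ℕ :=
  if τ = σ ∧ i = decide (∃ v ∈ σ.1, η v ≠ 0) then 1 else 0

/-- The matrix of the Alexander-Whitney map of `η`: coefficient of `τ ⊗ e`. -/
def awR {m : ℕ} (η : Fin (m + 1) →o Fin 2) (σ τ : SimplexBasis m) : ℕ :=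
  if τ.1 = σ.1.filter (fun v => η v = 0) ∧
      (σ.1.filter (fun v => ¬ η v = 0)).card = 1 then 1 else 0

/-- The matrix of the Alexander-Whitney map of `η`. -/
def awMat {m : ℕ} (η : Fin (m + 1) →o Fin 2) (σ : SimplexBasis m) :
    TensorBasis (simplexCpx m) → ℕ
  | Sum.inl (τ, i) => awL η σ τ i
  | Sum.inr τ => awR η σ τ

lemma aw_bd_inr {m : ℕ} (η : Fin (m + 1) →o Fin 2) (σ τ : Finset (Fin (m + 1))) :
    ∑ j ∈ σ, (-1 : ℤ) ^ (σ.filter (· < j)).card *
      (if τ = (σ.erase j).filter (fun v => η v = 0) ∧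
        ((σ.erase j).filter (fun v => ¬ η v = 0)).card = 1 then 1 else 0) =
      if (σ.filter (fun v => ¬ η v = 0)).card = 1 then
        simplexBd (σ.filter (fun v => η v = 0)) τ else 0 := by
  rw [← Finset.sum_filter_add_sum_filter_not σ (fun v => η v = 0)]
  have h1 : ∑ j ∈ σ.filter (fun v => η v = 0), (-1 : ℤ) ^ (σ.filter (· < j)).card *
      (if τ = (σ.erase j).filter (fun v => η v = 0) ∧
        ((σ.erase j).filter (fun v => ¬ η v = 0)).card = 1 then 1 else 0) =
      if (σ.filter (fun v => ¬ η v = 0)).card = 1 then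
        simplexBd (σ.filter (fun v => η v = 0)) τ else 0 := by
    have h2 : ∀ j ∈ σ.filter (fun v => η v = 0), (σ.erase j).filter (fun v => η v = 0) =
        (σ.filter (fun v => η v = 0)).erase j := by
      intro j _
      ext v
      simp only [Finset.mem_filter, Finset.mem_erase]
      tauto
    have h3 : ∀ j ∈ σ.filter (fun v => η v = 0), (σ.erase j).filter (fun v => ¬ η v = 0) =
        σ.filter (fun v => ¬ η v = 0) := by
      intro j hj
      ext v
      simp only [Finset.mem_filter, Finset.mem_erase] at hj ⊢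
      constructor
      · rintro ⟨⟨-, h⟩, h'⟩
        exact ⟨h, h'⟩
      · rintro ⟨h, h'⟩
        exact ⟨⟨fun hv => h' (hv ▸ hj.2), h⟩, h'⟩
    have h4 : ∀ j ∈ σ.filter (fun v => η v = 0), σ.filter (· < j) =
        (σ.filter (fun v => η v = 0)).filter (· < j) := by
      intro j hj
      ext v
      simp only [Finset.mem_filter] at hj ⊢
      constructor
      · rintro ⟨h, h'⟩
        refine ⟨⟨h, ?_⟩, h'⟩
        have := η.monotone h'.le
        rw [hj.2] at this
        exact Fin.le_zero_iff.mp this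
      · rintro ⟨⟨h, -⟩, h'⟩
        exact ⟨h, h'⟩
    by_cases hc : (σ.filter (fun v => ¬ η v = 0)).card = 1
    · rw [if_pos hc]
      unfold simplexBd
      refine Finset.sum_congr rfl fun j hj => ?_
      rw [h2 j hj, h3 j hj, h4 j hj]
      by_cases he : (σ.filter (fun v => η v = 0)).erase j = τ
      · rw [if_pos ⟨he.symm, hc⟩, if_pos he, mul_one]
      · rw [if_neg (fun h => he h.1.symm), if_neg he, mul_zero]
    · rw [if_neg hc]
      refine Finset.sum_eq_zero fun j hj => ?_
      rw [h3 j hj, if_neg (fun h => hc h.2), mul_zero]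
  rw [h1, add_eq_left]
  have h2 : ∀ j ∈ σ.filter (fun v => ¬ η v = 0), (σ.erase j).filter (fun v => ¬ η v = 0) =
      (σ.filter (fun v => ¬ η v = 0)).erase j := by
    intro j _
    ext v
    simp only [Finset.mem_filter, Finset.mem_erase]
    tauto
  have h3 : ∀ j ∈ σ.filter (fun v => ¬ η v = 0), (σ.erase j).filter (fun v => η v = 0) =
      σ.filter (fun v => η v = 0) := by
    intro j hj
    ext v
    simp only [Finset.mem_filter, Finset.mem_erase] at hj ⊢
    constructor
    · rintro ⟨⟨-, h⟩, h'⟩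
      exact ⟨h, h'⟩
    · rintro ⟨h, h'⟩
      exact ⟨⟨fun hv => hj.2 (hv ▸ h'), h⟩, h'⟩
  by_cases hc : (σ.filter (fun v => ¬ η v = 0)).card = 2
  · obtain ⟨a, b, hab, hs⟩ := Finset.card_eq_two.mp hc
    wlog hlt : a < b generalizing a b
    · exact this b a hab.symm (by rw [hs, Finset.pair_comm])
        (lt_of_le_of_ne (not_lt.mp hlt) hab.symm)
    have ha : a ∈ σ.filter (fun v => ¬ η v = 0) := by rw [hs]; simp
    have hb : b ∈ σ.filter (fun v => ¬ η v = 0) := by rw [hs]; simp
    have hfil : (σ.filter (· < b)).card = (σ.filter (· < a)).card + 1 := by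
      have : σ.filter (· < b) = insert a (σ.filter (· < a)) := by
        ext i
        simp only [Finset.mem_filter, Finset.mem_insert]
        constructor
        · rintro ⟨hi, hib⟩
          by_cases hi0 : η i = 0
          · right
            refine ⟨hi, ?_⟩
            by_contra hcon
            have := η.monotone (not_lt.mp hcon)
            rw [hi0] at this
            exact (Finset.mem_filter.mp ha).2 (Fin.le_zero_iff.mp this)
          · left
            have : i ∈ σ.filter (fun v => ¬ η v = 0) := Finset.mem_filter.mpr ⟨hi, hi0⟩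
            rw [hs] at this
            simp only [Finset.mem_insert, Finset.mem_singleton] at this
            rcases this with h | h
            · exact h
            · exact absurd h hib.ne
        · rintro (rfl | ⟨hi, hia⟩)
          · exact ⟨(Finset.mem_filter.mp ha).1, hlt⟩
          · exact ⟨hi, hia.trans hlt⟩
      rw [this, Finset.card_insert_of_notMem (by simp)]
    have hca : ((σ.filter (fun v => ¬ η v = 0)).erase a).card = 1 := by
      rw [Finset.card_erase_of_mem ha, hc]
    have hcb : ((σ.filter (fun v => ¬ η v = 0)).erase b).card = 1 := by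
      rw [Finset.card_erase_of_mem hb, hc]
    have key : ∑ j ∈ ({a, b} : Finset (Fin (m + 1))), (-1 : ℤ) ^ (σ.filter (· < j)).card *
      (if τ = (σ.erase j).filter (fun v => η v = 0) ∧
        ((σ.erase j).filter (fun v => ¬ η v = 0)).card = 1 then 1 else 0) = 0 := by
      rw [Finset.sum_pair hab, h2 a ha, h3 a ha, h2 b hb, h3 b hb, hca, hcb, hfil, pow_succ]
      ring
    rw [← hs] at key
    exact key
  · refine Finset.sum_eq_zero fun j hj => ?_
    rw [h2 j hj, if_neg, mul_zero]
    rintro ⟨-, h⟩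
    rw [Finset.card_erase_of_mem hj] at h
    have := Finset.card_pos.mpr ⟨j, hj⟩
    omega

lemma aw_bd_inl {m : ℕ} (η : Fin (m + 1) →o Fin 2) (σ τ : Finset (Fin (m + 1)))
    (hτ : τ.Nonempty) (i : Bool) :
    simplexBd σ τ * (if i = decide (∃ v ∈ τ, η v ≠ 0) then 1 else 0) =
      (if i = decide (∃ v ∈ σ, η v ≠ 0) then simplexBd σ τ else 0) +
      (if τ = σ.filter (fun v => η v = 0) ∧ (σ.filter (fun v => ¬ η v = 0)).card = 1 then
        (-1 : ℤ) ^ (τ.card - 1) * (if i then 1 else -1) else 0) := by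
  by_cases h : τ = σ.filter (fun v => η v = 0) ∧ (σ.filter (fun v => ¬ η v = 0)).card = 1
  · rw [if_pos h]
    obtain ⟨h1, h2⟩ := h
    obtain ⟨a, ha⟩ := Finset.card_eq_one.mp h2
    have ha' : a ∈ σ.filter (fun v => ¬ η v = 0) := by rw [ha]; simp
    have haσ := (Finset.mem_filter.mp ha').1
    have haη := (Finset.mem_filter.mp ha').2
    have huniq : ∀ v ∈ σ, ¬ η v = 0 → v = a := by
      intro v hv hv'
      have : v ∈ σ.filter (fun v => ¬ η v = 0) := Finset.mem_filter.mpr ⟨hv, hv'⟩
      rw [ha] at this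
      exact Finset.mem_singleton.mp this
    have hτ0 : ¬ ∃ v ∈ τ, η v ≠ 0 := by
      rintro ⟨v, hv, hv'⟩
      rw [h1] at hv
      exact hv' (Finset.mem_filter.mp hv).2
    have hσ1 : ∃ v ∈ σ, η v ≠ 0 := ⟨a, haσ, haη⟩
    have hbd : simplexBd σ τ = (-1) ^ τ.card := by
      unfold simplexBd
      rw [Finset.sum_eq_single a]
      · rw [if_pos]
        · congr 2
          rw [h1]
          ext v
          simp only [Finset.mem_filter]
          constructor
          · rintro ⟨hv, hva⟩
            refine ⟨hv, ?_⟩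
            by_contra hcon
            exact hva.ne (huniq v hv hcon)
          · rintro ⟨hv, hv0⟩
            refine ⟨hv, ?_⟩
            by_contra hcon
            have := η.monotone (not_lt.mp hcon)
            rw [hv0] at this
            exact haη (Fin.le_zero_iff.mp this)
        · rw [h1]
          ext v
          simp only [Finset.mem_filter, Finset.mem_erase]
          constructor
          · rintro ⟨hv, hvσ⟩
            refine ⟨hvσ, ?_⟩
            by_contra hcon
            exact hv (huniq v hvσ hcon)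
          · rintro ⟨hv, hv0⟩
            exact ⟨fun hva => haη (hva ▸ hv0), hv⟩
      · intro j hj hja
        rw [if_neg]
        intro he
        have : a ∈ τ := by
          rw [← he]
          exact Finset.mem_erase.mpr ⟨hja.symm, haσ⟩
        exact hτ0 ⟨a, this, haη⟩
      · intro h
        exact absurd haσ h
    rw [hbd]
    have hc : τ.card = τ.card - 1 + 1 := by
      have := hτ.card_pos
      omega
    have hpow : (-1 : ℤ) ^ τ.card = - (-1) ^ (τ.card - 1) := by
      rw [hc, pow_succ]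
      simp
    rw [hpow]
    simp only [hτ0, hσ1, decide_true, decide_false]
    cases i <;> simp
  · rw [if_neg h, add_zero]
    by_cases hb : simplexBd σ τ = 0
    · rw [hb]
      simp
    · obtain ⟨j, hj, hne⟩ := Finset.exists_ne_zero_of_sum_ne_zero hb
      have he : σ.erase j = τ := by
        by_contra hcon
        exact hne (if_neg hcon)
      have hiff : (∃ v ∈ τ, η v ≠ 0) ↔ (∃ v ∈ σ, η v ≠ 0) := by
        constructor
        · rintro ⟨v, hv, hv'⟩
          rw [← he] at hv
          exact ⟨v, Finset.mem_of_mem_erase hv, hv'⟩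
        · rintro ⟨v, hv, hv'⟩
          by_contra hcon
          push Not at hcon
          apply h
          have huniq : ∀ w ∈ σ, ¬ η w = 0 → w = j := by
            intro w hw hw'
            by_contra hwj
            apply hw'
            apply hcon
            rw [← he]
            exact Finset.mem_erase.mpr ⟨hwj, hw⟩
          have hvj := huniq v hv hv'
          constructor
          · rw [← he]
            ext w
            simp only [Finset.mem_filter, Finset.mem_erase]
            constructor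
            · rintro ⟨hw, hwσ⟩
              refine ⟨hwσ, ?_⟩
              by_contra hc
              exact hw (huniq w hwσ hc)
            · rintro ⟨hw, hw0⟩
              refine ⟨fun hwj => ?_, hw⟩
              rw [hwj, ← hvj] at hw0
              exact hv' hw0
          · rw [Finset.card_eq_one]
            refine ⟨j, ?_⟩
            ext w
            simp only [Finset.mem_filter, Finset.mem_singleton]
            constructor
            · rintro ⟨hw, hw'⟩
              exact huniq w hw hw'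
            · rintro rfl
              exact ⟨hj, hvj ▸ hv'⟩
      simp only [hiff]
      by_cases hi : i = decide (∃ v ∈ σ, η v ≠ 0)
      · rw [if_pos hi, if_pos hi, mul_one]
      · rw [if_neg hi, if_neg hi, mul_zero]

lemma aux_ite {α : Type} {a : α} (P Q : Prop) [Decidable P] [Decidable Q]
    [Decidable (a = a ∧ Q)] (z : ℤ) :
    ((if a = a ∧ Q then 1 else 0 : ℕ) : ℤ) * (if P then z else 0) = if P ∧ Q then z else 0 := by
  by_cases h1 : P <;> by_cases h2 : Q <;> simp [h1, h2]

lemma awL_bd {m : ℕ} (η : Fin (m + 1) →o Fin 2) (σ τ : SimplexBasis m) (i : Bool) :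
    ∑ ρ : SimplexBasis m, simplexBd σ.1 ρ.1 * (awL η ρ τ i : ℤ) =
      ((∑ ρ : SimplexBasis m, (awL η σ ρ false : ℤ) * (if false = i then simplexBd ρ.1 τ.1 else 0)) +
      ∑ ρ : SimplexBasis m, (awL η σ ρ true : ℤ) * (if true = i then simplexBd ρ.1 τ.1 else 0)) +
      ∑ ρ : SimplexBasis m, (awR η σ ρ : ℤ) *
        (if τ = ρ then (-1) ^ (ρ.1.card - 1) * (if i then 1 else -1) else 0) := by
  have hL : ∑ ρ : SimplexBasis m, simplexBd σ.1 ρ.1 * (awL η ρ τ i : ℤ) =
      simplexBd σ.1 τ.1 * (if i = decide (∃ v ∈ τ.1, η v ≠ 0) then 1 else 0) := by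
    rw [Finset.sum_eq_single (τ : SimplexBasis m)]
    · simp [awL]
    · intro ρ _ hρ
      rw [awL, if_neg (fun h => hρ h.1.symm)]
      simp
    · intro h
      exact absurd (Finset.mem_univ _) h
  rw [hL, aw_bd_inl η σ.1 τ.1 τ.2 i]
  congr 1
  · have h : ∀ i' : Bool, (∑ ρ : SimplexBasis m, (awL η σ ρ i' : ℤ) *
        (if i' = i then simplexBd ρ.1 τ.1 else 0)) =
        if i' = i ∧ i' = decide (∃ v ∈ σ.1, η v ≠ 0) then simplexBd σ.1 τ.1 else 0 := by
      intro i'
      rw [Finset.sum_eq_single (σ : SimplexBasis m)]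
      · rw [awL]
        exact aux_ite _ _ _
      · intro b _ hb
        rw [awL, if_neg (fun h => hb h.1)]
        simp
      · intro h
        exact absurd (Finset.mem_univ _) h
    rw [h, h]
    cases i <;> simp
  · have h : ∀ ρ : SimplexBasis m, (awR η σ ρ : ℤ) *
        (if τ = ρ then (-1) ^ (ρ.1.card - 1) * (if i then 1 else -1) else 0) =
        if τ = ρ then (if τ.1 = σ.1.filter (fun v => η v = 0) ∧
          (σ.1.filter (fun v => ¬ η v = 0)).card = 1 then
          (-1 : ℤ) ^ (τ.1.card - 1) * (if i then 1 else -1) else 0) else 0 := by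
      intro ρ
      rw [awR]
      by_cases hb : τ = ρ
      · rw [if_pos hb, if_pos hb, hb]
        split_ifs <;> simp
      · rw [if_neg hb, if_neg hb, mul_zero]
    rw [Finset.sum_congr rfl (fun b _ => h b), Finset.sum_ite_eq Finset.univ τ]
    simp

lemma awR_bd {m : ℕ} (η : Fin (m + 1) →o Fin 2) (σ τ : SimplexBasis m) :
    ∑ ρ : SimplexBasis m, simplexBd σ.1 ρ.1 * (awR η ρ τ : ℤ) =
      ∑ ρ : SimplexBasis m, (awR η σ ρ : ℤ) * simplexBd ρ.1 τ.1 := by
  have hL : ∑ ρ : SimplexBasis m, simplexBd σ.1 ρ.1 * (awR η ρ τ : ℤ) =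
      ∑ ρ : SimplexBasis m, simplexBd σ.1 ρ.1 *
        (fun ρ' : Finset (Fin (m + 1)) => if τ.1 = ρ'.filter (fun v => η v = 0) ∧
          (ρ'.filter (fun v => ¬ η v = 0)).card = 1 then (1 : ℤ) else 0) ρ.1 := by
    refine Finset.sum_congr rfl fun ρ _ => ?_
    rw [awR]
    push_cast
    rfl
  refine hL.trans ((sum_simplexBd σ.1 (fun ρ' : Finset (Fin (m + 1)) =>
    if τ.1 = ρ'.filter (fun v => η v = 0) ∧
      (ρ'.filter (fun v => ¬ η v = 0)).card = 1 then (1 : ℤ) else 0) (by simp)).trans ?_)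
  refine (aw_bd_inr η σ.1 τ.1).trans ?_
  have hR : ∀ b : SimplexBasis m, (awR η σ b : ℤ) * simplexBd b.1 τ.1 =
      if b.1 = σ.1.filter (fun v => η v = 0) then
        (fun ρ' : Finset (Fin (m + 1)) => if (σ.1.filter (fun v => ¬ η v = 0)).card = 1 then
          simplexBd ρ' τ.1 else 0) b.1 else 0 := by
    intro b
    rw [awR]
    by_cases h2 : b.1 = σ.1.filter (fun v => η v = 0) <;>
      by_cases h3 : (σ.1.filter (fun v => ¬ η v = 0)).card = 1 <;> simp [h2, h3]
  symm
  refine (Finset.sum_congr rfl (fun b _ => hR b)).trans ?_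
  exact sum_ite_simplex (σ.1.filter (fun v => η v = 0))
    (fun ρ' : Finset (Fin (m + 1)) => if (σ.1.filter (fun v => ¬ η v = 0)).card = 1 then
      simplexBd ρ' τ.1 else 0) (by simp [simplexBd_empty])

lemma aw_aug {m : ℕ} (η : Fin (m + 1) →o Fin 2) (σ : SimplexBasis m) (h1 : σ.1.card = 1) :
    (∑ ρ : SimplexBasis m, awL η σ ρ false) + (∑ ρ : SimplexBasis m, awL η σ ρ true) +
      ∑ ρ : SimplexBasis m, awR η σ ρ = 1 := by
  have h2 : ∀ i' : Bool, (∑ ρ : SimplexBasis m, awL η σ ρ i') =
      if i' = decide (∃ v ∈ σ.1, η v ≠ 0) then 1 else 0 := by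
    intro i'
    rw [Finset.sum_eq_single (σ : SimplexBasis m)]
    · rw [awL]
      simp
    · intro b _ hb
      rw [awL, if_neg (fun h => hb h.1)]
    · intro h
      exact absurd (Finset.mem_univ _) h
  have h3 : (∑ b : SimplexBasis m, awR η σ b) = 0 := by
    refine Finset.sum_eq_zero fun b _ => ?_
    rw [awR, if_neg]
    rintro ⟨h4, h5⟩
    have h6 := Finset.card_filter_add_card_filter_not (s := σ.1) (fun v => η v = 0)
    have h7 := b.2.card_pos
    rw [← h4, h5] at h6
    omega
  rw [h2, h2, h3]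
  cases decide (∃ v ∈ σ.1, η v ≠ 0) <;> simp

/-- The Alexander-Whitney map of `η : [m] → [1]`. -/
def awHom {m : ℕ} (η : Fin (m + 1) →o Fin 2) :
    Cpx.Hom (simplexCpx m) (tensorI (simplexCpx m)) where
  mat := awMat η
  dim_of_mat := by
    rintro σ (⟨τ, i⟩ | τ) h
    · have h1 : τ = σ ∧ i = decide (∃ v ∈ σ.1, η v ≠ 0) := by
        by_contra hcon
        exact h (if_neg hcon)
      rw [h1.1]
      rfl
    · have h1 : τ.1 = σ.1.filter (fun v => η v = 0) ∧
          (σ.1.filter (fun v => ¬ η v = 0)).card = 1 := by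
        by_contra hcon
        exact h (if_neg hcon)
      change σ.1.card - 1 = τ.1.card - 1 + 1
      have h2 := Finset.card_filter_add_card_filter_not (s := σ.1) (fun v => η v = 0)
      have h3 := τ.2.card_pos
      rw [← h1.1, h1.2] at h2
      omega
  aug_mat σ hσ := by
    have hσ' : σ.1.card - 1 = 0 := hσ
    have h1 : σ.1.card = 1 := by
      have := σ.2.card_pos
      omega
    exact (sum_tensorI _).trans (aw_aug η σ h1)
  bd_mat := by
    rintro σ (⟨τ, i⟩ | τ)
    · refine (awL_bd η σ τ i).trans ?_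
      exact (sum_tensorI (K := simplexCpx m) (fun d => (awMat η σ d : ℤ) *
        (tensorI (simplexCpx m)).bd d (Sum.inl (τ, i)))).symm
    · refine (awR_bd η σ τ).trans (Eq.trans ?_ (sum_tensorI (K := simplexCpx m)
        (fun d => (awMat η σ d : ℤ) * (tensorI (simplexCpx m)).bd d (Sum.inr τ))).symm)
      simp only [tensorI_bd_inl_inr, mul_zero, Finset.sum_const_zero, zero_add]
      rfl

lemma sum_simplexMat {m n : ℕ} (φ : Fin (m + 1) →o Fin (n + 1)) (σ : SimplexBasis m)
    (g : SimplexBasis n → ℕ) : ∑ ρ : SimplexBasis n, simplexMat φ σ ρ * g ρ =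
      if (σ.1.image φ).card = σ.1.card then g ⟨σ.1.image φ, σ.2.image φ⟩ else 0 := by
  by_cases h : (σ.1.image φ).card = σ.1.card
  · rw [if_pos h, Finset.sum_eq_single (⟨σ.1.image φ, σ.2.image φ⟩ : SimplexBasis n)]
    · simp [simplexMat, h]
    · intro ρ _ hρ
      rw [simplexMat, if_neg, zero_mul]
      rintro ⟨h1, -⟩
      exact hρ (Subtype.ext h1.symm)
    · intro h
      exact absurd (Finset.mem_univ _) h
  · rw [if_neg h]
    refine Finset.sum_eq_zero fun ρ _ => ?_
    rw [simplexMat, if_neg, zero_mul]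
    rintro ⟨h1, h2⟩
    exact h (by rw [h1, h2])

lemma aux_iteN {α : Type} {a : α} (P Q : Prop) [Decidable P] [Decidable Q]
    [Decidable (a = a ∧ Q)] (z : ℕ) :
    (if a = a ∧ Q then 1 else 0) * (if P then z else 0) = if P ∧ Q then z else 0 := by
  by_cases h1 : P <;> by_cases h2 : Q <;> simp [h1, h2]

lemma aux_iteM {α : Type} {a : α} (P Q : Prop) [Decidable P] [Decidable Q]
    [Decidable (a = a ∧ P)] :
    (if a = a ∧ P then 1 else 0) * (if Q then 1 else 0) = if P ∧ Q then 1 else 0 := by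
  by_cases h1 : P <;> by_cases h2 : Q <;> simp [h1, h2]

lemma awL_nat {m n : ℕ} (φ : Fin (m + 1) →o Fin (n + 1)) (η : Fin (n + 1) →o Fin 2)
    (σ : SimplexBasis m) (τ : SimplexBasis n) (i : Bool) :
    ∑ ρ : SimplexBasis n, simplexMat φ σ ρ * awL η ρ τ i =
      (∑ ρ : SimplexBasis m, awL (η.comp φ) σ ρ false * (if false = i then simplexMat φ ρ τ else 0)) +
      ∑ ρ : SimplexBasis m, awL (η.comp φ) σ ρ true *
        (if true = i then simplexMat φ ρ τ else 0) := by
  have hL : ∑ ρ : SimplexBasis n, simplexMat φ σ ρ * awL η ρ τ i =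
      if i = decide (∃ v ∈ τ.1, η v ≠ 0) then simplexMat φ σ τ else 0 := by
    rw [Finset.sum_eq_single τ]
    · rw [awL]
      by_cases h : i = decide (∃ v ∈ τ.1, η v ≠ 0) <;> simp [h]
    · intro ρ _ hρ
      rw [awL, if_neg (fun h => hρ h.1.symm), mul_zero]
    · intro h
      exact absurd (Finset.mem_univ _) h
  have hR : ∀ i' : Bool, (∑ ρ : SimplexBasis m, awL (η.comp φ) σ ρ i' *
      (if i' = i then simplexMat φ ρ τ else 0)) =
      if i' = i ∧ i' = decide (∃ v ∈ σ.1, (η.comp φ) v ≠ 0) then simplexMat φ σ τ else 0 := by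
    intro i'
    rw [Finset.sum_eq_single σ]
    · rw [awL]
      exact aux_iteN _ _ _
    · intro ρ _ hρ
      rw [awL, if_neg (fun h => hρ h.1), zero_mul]
    · intro h
      exact absurd (Finset.mem_univ _) h
  rw [hL, hR, hR]
  by_cases hm : simplexMat φ σ τ = 0
  · simp [hm]
  · have him : σ.1.image φ = τ.1 := by
      by_contra hcon
      exact hm (if_neg (fun h => hcon h.1))
    have hiff : (∃ v ∈ τ.1, η v ≠ 0) ↔ (∃ v ∈ σ.1, (η.comp φ) v ≠ 0) := by
      rw [← him]
      simp
    simp only [hiff]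
    cases i <;> cases decide (∃ v ∈ σ.1, (η.comp φ) v ≠ 0) <;> simp

lemma awR_nat {m n : ℕ} (φ : Fin (m + 1) →o Fin (n + 1)) (η : Fin (n + 1) →o Fin 2)
    (σ : SimplexBasis m) (τ : SimplexBasis n) :
    ∑ ρ : SimplexBasis n, simplexMat φ σ ρ * awR η ρ τ =
      ∑ ρ : SimplexBasis m, awR (η.comp φ) σ ρ * simplexMat φ ρ τ := by
  have h0 : (σ.1.image φ).filter (fun v => η v = 0) =
      (σ.1.filter (fun v => (η.comp φ) v = 0)).image φ := by
    rw [Finset.filter_image]
    rfl
  have h1 : (σ.1.image φ).filter (fun v => ¬ η v = 0) =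
      (σ.1.filter (fun v => ¬ (η.comp φ) v = 0)).image φ := by
    rw [Finset.filter_image]
    rfl
  have hcard := Finset.card_filter_add_card_filter_not (s := σ.1) (fun v => (η.comp φ) v = 0)
  have hcard' := Finset.card_filter_add_card_filter_not (s := σ.1.image φ) (fun v => η v = 0)
  have hR : ∑ ρ : SimplexBasis m, awR (η.comp φ) σ ρ * simplexMat φ ρ τ =
      if (σ.1.filter (fun v => ¬ (η.comp φ) v = 0)).card = 1 ∧
        (σ.1.filter (fun v => (η.comp φ) v = 0)).image φ = τ.1 ∧
        τ.1.card = (σ.1.filter (fun v => (η.comp φ) v = 0)).card then 1 else 0 := by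
    by_cases hne : (σ.1.filter (fun v => (η.comp φ) v = 0)).Nonempty
    · rw [Finset.sum_eq_single (⟨σ.1.filter (fun v => (η.comp φ) v = 0), hne⟩ : SimplexBasis m)]
      · rw [awR, simplexMat]
        exact aux_iteM _ _
      · intro ρ _ hρ
        rw [awR, if_neg (fun h => hρ (Subtype.ext h.1)), zero_mul]
      · intro h
        exact absurd (Finset.mem_univ _) h
    · rw [if_neg]
      · refine Finset.sum_eq_zero fun ρ _ => ?_
        rw [awR, if_neg, zero_mul]
        rintro ⟨h2, -⟩
        rw [← h2] at hne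
        exact hne ρ.2
      · rintro ⟨-, h2, -⟩
        rw [Finset.not_nonempty_iff_eq_empty.mp hne, Finset.image_empty] at h2
        exact τ.2.ne_empty h2.symm
  rw [hR, sum_simplexMat, awR]
  simp only [h0, h1] at hcard' ⊢
  by_cases hc : (σ.1.filter (fun v => ¬ (η.comp φ) v = 0)).card = 1 ∧
      (σ.1.filter (fun v => (η.comp φ) v = 0)).image φ = τ.1 ∧
      τ.1.card = (σ.1.filter (fun v => (η.comp φ) v = 0)).card
  · rw [if_pos hc]
    obtain ⟨h2, h3, h4⟩ := hc
    obtain ⟨a, ha⟩ := Finset.card_eq_one.mp h2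
    have h5 : ((σ.1.filter (fun v => ¬ (η.comp φ) v = 0)).image φ).card = 1 := by
      rw [ha]
      simp
    rw [if_pos, if_pos ⟨h3.symm, h5⟩]
    rw [h3, h5] at hcard'
    omega
  · rw [if_neg hc]
    by_cases hi : (σ.1.image φ).card = σ.1.card
    · rw [if_pos hi, if_neg]
      rintro ⟨h2, h3⟩
      have hinj := Finset.card_image_iff.mp hi
      apply hc
      refine ⟨?_, h2.symm, ?_⟩
      · exact (Finset.card_image_of_injOn
          (hinj.mono (fun x hx => (Finset.mem_filter.mp hx).1))).symm.trans h3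
      · rw [h2]
        exact Finset.card_image_of_injOn (hinj.mono (fun x hx => (Finset.mem_filter.mp hx).1))
    · rw [if_neg hi]

/-- Naturality of the Alexander-Whitney maps. -/
lemma awHom_nat {m n : ℕ} (φ : Fin (m + 1) →o Fin (n + 1)) (η : Fin (n + 1) →o Fin 2) :
    (show simplexCpx m ⟶ simplexCpx n from simplexCpxMap φ) ≫
      (show simplexCpx n ⟶ tensorFunctor.obj (simplexCpx n) from awHom η) =
    (show simplexCpx m ⟶ tensorFunctor.obj (simplexCpx m) from awHom (η.comp φ)) ≫
      tensorFunctor.map (show simplexCpx m ⟶ simplexCpx n from simplexCpxMap φ) := by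
  apply Cpx.Hom.ext
  funext σ y
  rcases y with ⟨τ, i⟩ | τ
  · refine Eq.trans (awL_nat φ η σ τ i) ?_
    refine Eq.trans ?_ (sum_tensorI (K := simplexCpx m) (fun z => awMat (η.comp φ) σ z *
      tensorMat (show simplexCpx m ⟶ simplexCpx n from simplexCpxMap φ) z
        (Sum.inl (τ, i)))).symm
    simp only [tensorMat_inr_inl, mul_zero, Finset.sum_const_zero, add_zero]
    rfl
  · refine Eq.trans (awR_nat φ η σ τ) ?_
    refine Eq.trans ?_ (sum_tensorI (K := simplexCpx m) (fun z => awMat (η.comp φ) σ z *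
      tensorMat (show simplexCpx m ⟶ simplexCpx n from simplexCpxMap φ) z (Sum.inr τ))).symm
    simp only [tensorMat_inl_inr, mul_zero, Finset.sum_const_zero, zero_add]
    rfl

lemma awL_zero {m : ℕ} (η : Fin (m + 1) →o Fin 2) (h : ∀ v, η v = 0) (σ τ : SimplexBasis m)
    (i : Bool) : awL η σ τ i = if σ = τ ∧ false = i then 1 else 0 := by
  have h1 : decide (∃ v ∈ σ.1, η v ≠ 0) = false := by simp [h]
  rw [awL, h1]
  by_cases h2 : σ = τ
  · subst h2
    cases i <;> simp
  · rw [if_neg (fun h3 => h2 h3.1.symm), if_neg (fun h3 => h2 h3.1)]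

lemma awR_zero {m : ℕ} (η : Fin (m + 1) →o Fin 2) (h : ∀ v, η v = 0) (σ τ : SimplexBasis m) :
    awR η σ τ = 0 := by
  rw [awR, if_neg]
  rintro ⟨-, h2⟩
  simp [h] at h2

lemma awL_one {m : ℕ} (η : Fin (m + 1) →o Fin 2) (h : ∀ v, η v ≠ 0) (σ τ : SimplexBasis m)
    (i : Bool) : awL η σ τ i = if σ = τ ∧ true = i then 1 else 0 := by
  have h1 : decide (∃ v ∈ σ.1, η v ≠ 0) = true := by
    obtain ⟨v, hv⟩ := σ.2
    simp only [decide_eq_true_eq]
    exact ⟨v, hv, h v⟩
  rw [awL, h1]
  by_cases h2 : σ = τ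
  · subst h2
    cases i <;> simp
  · rw [if_neg (fun h3 => h2 h3.1.symm), if_neg (fun h3 => h2 h3.1)]

lemma awR_one {m : ℕ} (η : Fin (m + 1) →o Fin 2) (h : ∀ v, η v ≠ 0) (σ τ : SimplexBasis m) :
    awR η σ τ = 0 := by
  rw [awR, if_neg]
  rintro ⟨h2, -⟩
  apply τ.2.ne_empty
  rw [h2]
  ext v
  simp [h v]

/-- If `η` is constantly `0`, the Alexander-Whitney map is the inclusion `b ↦ b ⊗ 0`. -/
lemma awHom_zero {m : ℕ} (η : Fin (m + 1) →o Fin 2) (h : ∀ v, η v = 0) :
    awHom η = (tensorIncl false).app (simplexCpx m) := by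
  apply Cpx.Hom.ext
  funext σ y
  rcases y with ⟨τ, i⟩ | τ
  · exact awL_zero η h σ τ i
  · exact awR_zero η h σ τ

/-- If `η` is constantly `1`, the Alexander-Whitney map is the inclusion `b ↦ b ⊗ 1`. -/
lemma awHom_one {m : ℕ} (η : Fin (m + 1) →o Fin 2) (h : ∀ v, η v ≠ 0) :
    awHom η = (tensorIncl true).app (simplexCpx m) := by
  apply Cpx.Hom.ext
  funext σ y
  rcases y with ⟨τ, i⟩ | τ
  · exact awL_one η h σ τ i
  · exact awR_one η h σ τ

lemma aw_proj_aux {m : ℕ} (η : Fin (m + 1) →o Fin 2) (σ τ : SimplexBasis m) :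
    (∑ ρ : SimplexBasis m, awL η σ ρ false * (if ρ = τ then 1 else 0)) +
      (∑ ρ : SimplexBasis m, awL η σ ρ true * (if ρ = τ then 1 else 0)) =
      if σ = τ then 1 else 0 := by
  have h : ∀ i : Bool, (∑ ρ : SimplexBasis m, awL η σ ρ i * (if ρ = τ then 1 else 0)) =
      if i = decide (∃ v ∈ σ.1, η v ≠ 0) then (if σ = τ then 1 else 0) else 0 := by
    intro i
    rw [Finset.sum_eq_single τ]
    · rw [awL]
      by_cases h1 : τ = σ
      · subst h1
        by_cases h2 : i = decide (∃ v ∈ τ.1, η v ≠ 0) <;> simp [h2]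
      · have h2 : ¬ σ = τ := fun h => h1 h.symm
        simp [h1, h2]
    · intro ρ _ hρ
      rw [if_neg hρ, mul_zero]
    · intro h
      exact absurd (Finset.mem_univ _) h
  rw [h, h]
  cases decide (∃ v ∈ σ.1, η v ≠ 0) <;> simp

/-- The Alexander-Whitney map is a section of the projection. -/
lemma awHom_proj {m : ℕ} (η : Fin (m + 1) →o Fin 2) :
    (show simplexCpx m ⟶ tensorFunctor.obj (simplexCpx m) from awHom η) ≫
      tensorProj.app (simplexCpx m) = 𝟙 _ := by
  apply Cpx.Hom.ext
  funext σ τ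
  change ∑ z : (tensorI (simplexCpx m)).B, awMat η σ z * tensorProjMat (simplexCpx m) z τ =
    if σ = τ then 1 else 0
  refine (sum_tensorI (K := simplexCpx m)
    (fun z => awMat η σ z * tensorProjMat (simplexCpx m) z τ)).trans ?_
  refine Eq.trans ?_ (aw_proj_aux η σ τ)
  simp only [tensorProjMat_inr, mul_zero, Finset.sum_const_zero, add_zero]
  rfl

end Vale.Agent.P213
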