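import Vale.Agent.Lib.P213.SSWeq

/-!
# Nerves of posets: homotopies from inequalities, anodyne extensions from retractions
-/

open CategoryTheory MonoidalCategory CartesianMonoidalCategory Simplicial HomotopicalAlgebra Limits
open SSet SSet.modelCategoryQuillen Opposite

universe u

namespace Vale.Agent.P213.SS

section nerve

variable {P Q R : Type u} [PartialOrder P] [PartialOrder Q] [PartialOrder R]

/-- The map of nerves induced by a monotone map. -/
def nm (f : P →o Q) : nerve P ⟶ nerve Q := nerveMap f.monotone.functor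

@[simp] lemma nm_app_obj (f : P →o Q) {m : SimplexCategoryᵒᵖ} (x : (nerve P).obj m)
    (i : Fin (m.unop.len + 1)) : ((nm f).app m x).obj i = f (x.obj i) := rfl

lemma nm_comp (f : P →o Q) (g : Q →o R) : nm f ≫ nm g = nm (g.comp f) := rfl

lemma nm_id : nm (OrderHom.id : P →o P) = 𝟙 _ := rfl

/-- a simplex of the nerve from a monotone map -/
def nmk {m : SimplexCategoryᵒᵖ} (f : Fin (m.unop.len + 1) → P) (h : Monotone f) :
    (nerve P).obj m := h.functor

@[simp] lemma nmk_obj {m : SimplexCategoryᵒᵖ} (f : Fin (m.unop.len + 1) → P) (h : Monotone f)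
    (i : Fin (m.unop.len + 1)) : (nmk (m := m) f h).obj i = f i := rfl

lemma nerve_ext {m : SimplexCategoryᵒᵖ} {x y : (nerve P).obj m} (h : ∀ i, x.obj i = y.obj i) :
    x = y := nerve.ext_of_isThin (funext h)

lemma nerve_mono {m : SimplexCategoryᵒᵖ} (x : (nerve P).obj m) {i j : Fin (m.unop.len + 1)}
    (h : i ≤ j) : x.obj i ≤ x.obj j := leOfHom (x.map (homOfLE h))

lemma nerve_map_obj {m m' : SimplexCategoryᵒᵖ} (φ : m ⟶ m') (x : (nerve P).obj m)
    (i : Fin (m'.unop.len + 1)) : ((nerve P).map φ x).obj i = x.obj (φ.unop.toOrderHom i) := rfl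

instance nm_mono (f : P →o Q) [h : Fact (Function.Injective f)] : Mono (nm f) := by
  rw [NatTrans.mono_iff_mono_app]
  intro m
  rw [mono_iff_injective]
  intro x y hxy
  apply nerve_ext
  intro i
  exact h.1 (congrArg (fun z => z.obj i) hxy)

/-- The homotopy between two comparable monotone maps. -/
def nerveHtpy (f g : P →o Q) (h : ∀ x, f x ≤ g x) : nerve P ⊗ Δ[1] ⟶ nerve Q where
  app m := ↾fun z => nmk (m := m)
    (fun i => if (stdSimplex.objEquiv z.2).toOrderHom i = 0 then f (z.1.obj i) else g (z.1.obj i))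
    (by
      intro i j hij
      have h1 := (stdSimplex.objEquiv z.2).toOrderHom.monotone hij
      have h2 := nerve_mono z.1 hij
      dsimp only
      split_ifs with h3 h4 h4
      · exact f.monotone h2
      · exact (h _).trans (g.monotone h2)
      · exfalso
        rw [h4] at h1
        exact h3 (le_antisymm h1 (Fin.zero_le _))
      · exact g.monotone h2)
  naturality m m' φ := by
    ext z
    rfl

@[simp] lemma ι₀_nerveHtpy (f g : P →o Q) (h : ∀ x, f x ≤ g x) :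
    ι₀ ≫ nerveHtpy f g h = nm f := by
  ext ⟨⟨m⟩⟩ x i
  rfl

@[simp] lemma ι₁_nerveHtpy (f g : P →o Q) (h : ∀ x, f x ≤ g x) :
    ι₁ ≫ nerveHtpy f g h = nm g := by
  ext ⟨⟨m⟩⟩ x i
  rfl

lemma HR_nm (f g : P →o Q) (h : ∀ x, f x ≤ g x) : HR (nm f) (nm g) :=
  ⟨nerveHtpy f g h, ι₀_nerveHtpy f g h, ι₁_nerveHtpy f g h⟩

lemma nerveHtpy_nat {P' Q' : Type u} [PartialOrder P'] [PartialOrder Q'] (f g : P →o Q)
    (h : ∀ x, f x ≤ g x) (f' g' : P' →o Q')
    (h' : ∀ x, f' x ≤ g' x) (a : P →o P') (b : Q →o Q') (hf : ∀ x, b (f x) = f' (a x))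
    (hg : ∀ x, b (g x) = g' (a x)) :
    nm a ▷ _ ≫ nerveHtpy f' g' h' = nerveHtpy f g h ≫ nm b := by
  ext ⟨⟨m⟩⟩ ⟨x, t⟩ i
  change (if (stdSimplex.objEquiv t).toOrderHom i = 0 then f' (a (x.obj i)) else
    g' (a (x.obj i))) = b (if (stdSimplex.objEquiv t).toOrderHom i = 0 then f (x.obj i)
      else g (x.obj i))
  split_ifs
  · exact (hf _).symm
  · exact (hg _).symm

end nerve

section lemmaD

variable {A B A' B' : SSet.{u}}

/-- Deformation lemma for anodyne extensions (homotopy from the identity to the retraction). -/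
lemma anodyne_of_deformation (i : A ⟶ B) [Mono i] (i' : A' ⟶ B') (hi' : anodyneExtensions i')
    (jA : A' ⟶ A) (jB : B' ⟶ B) (uA : A ⟶ A') (uB : B ⟶ B') (hj : i' ≫ jB = jA ≫ i)
    (hu : uA ≫ i' = i ≫ uB) (hA : A ⊗ Δ[1] ⟶ A) (hB : B ⊗ Δ[1] ⟶ B)
    (hA0 : ι₀ ≫ hA = 𝟙 A) (hA1 : ι₁ ≫ hA = uA ≫ jA)
    (hB0 : ι₀ ≫ hB = 𝟙 B) (hB1 : ι₁ ≫ hB = uB ≫ jB) (hAB : i ▷ _ ≫ hB = hA ≫ i) :
    anodyneExtensions i := by
  intro E S p hp
  rw [← HomotopicalAlgebra.fibration_iff] at hp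
  constructor
  intro a b sq
  have sq' : CommSq (jA ≫ a) i' p (jB ≫ b) :=
    ⟨by rw [Category.assoc, sq.w, ← Category.assoc, ← hj, Category.assoc]⟩
  have := hi' p ((HomotopicalAlgebra.fibration_iff _).1 hp)
  obtain ⟨L, h1, h2, h3⟩ := rhlp₁ i p (hB ≫ b) (uB ≫ sq'.lift)
    (by rw [Category.assoc, sq'.fac_right, ← Category.assoc, ← Category.assoc, hB1])
    (hA ≫ a) (by rw [Category.assoc, sq.w, ← Category.assoc, ← hAB, Category.assoc])
    (by rw [← Category.assoc, hA1, ← Category.assoc, ← hu, Category.assoc, Category.assoc,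
      sq'.fac_left])
  refine ⟨⟨{ l := ι₀ ≫ L, fac_left := ?_, fac_right := ?_ }⟩⟩
  · rw [← Category.assoc, ← ι₀_comp, Category.assoc, h2, ← Category.assoc, hA0, Category.id_comp]
  · rw [Category.assoc, h3, ← Category.assoc, hB0, Category.id_comp]

/-- Deformation lemma for anodyne extensions (homotopy from the retraction to the identity). -/
lemma anodyne_of_deformation' (i : A ⟶ B) [Mono i] (i' : A' ⟶ B') (hi' : anodyneExtensions i')
    (jA : A' ⟶ A) (jB : B' ⟶ B) (uA : A ⟶ A') (uB : B ⟶ B') (hj : i' ≫ jB = jA ≫ i)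
    (hu : uA ≫ i' = i ≫ uB) (hA : A ⊗ Δ[1] ⟶ A) (hB : B ⊗ Δ[1] ⟶ B)
    (hA1 : ι₁ ≫ hA = 𝟙 A) (hA0 : ι₀ ≫ hA = uA ≫ jA)
    (hB1 : ι₁ ≫ hB = 𝟙 B) (hB0 : ι₀ ≫ hB = uB ≫ jB) (hAB : i ▷ _ ≫ hB = hA ≫ i) :
    anodyneExtensions i := by
  intro E S p hp
  rw [← HomotopicalAlgebra.fibration_iff] at hp
  constructor
  intro a b sq
  have sq' : CommSq (jA ≫ a) i' p (jB ≫ b) :=
    ⟨by rw [Category.assoc, sq.w, ← Category.assoc, ← hj, Category.assoc]⟩
  have := hi' p ((HomotopicalAlgebra.fibration_iff _).1 hp)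
  obtain ⟨L, h1, h2, h3⟩ := rhlp₀ i p (hB ≫ b) (uB ≫ sq'.lift)
    (by rw [Category.assoc, sq'.fac_right, ← Category.assoc, ← Category.assoc, hB0])
    (hA ≫ a) (by rw [Category.assoc, sq.w, ← Category.assoc, ← hAB, Category.assoc])
    (by rw [← Category.assoc, hA0, ← Category.assoc, ← hu, Category.assoc, Category.assoc,
      sq'.fac_left])
  refine ⟨⟨{ l := ι₁ ≫ L, fac_left := ?_, fac_right := ?_ }⟩⟩
  · rw [← Category.assoc, ← ι₁_comp, Category.assoc, h2, ← Category.assoc, hA1, Category.id_comp]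
  · rw [Category.assoc, h3, ← Category.assoc, hB1, Category.id_comp]

end lemmaD

section posetD

variable {A B A' B' : Type u} [PartialOrder A] [PartialOrder B] [PartialOrder A'] [PartialOrder B']

lemma anodyne_nm_of_le (i : A →o B) (hi : Function.Injective i) (i' : A' →o B')
    (hi' : anodyneExtensions (nm i')) (jA : A' →o A) (jB : B' →o B) (uA : A →o A') (uB : B →o B')
    (hj : ∀ x, jB (i' x) = i (jA x)) (hu : ∀ x, i' (uA x) = uB (i x))
    (hA : ∀ x, x ≤ jA (uA x)) (hB : ∀ x, x ≤ jB (uB x)) : anodyneExtensions (nm i) := by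
  have : Fact (Function.Injective i) := ⟨hi⟩
  refine anodyne_of_deformation (nm i) (nm i') hi' (nm jA) (nm jB) (nm uA) (nm uB) ?_ ?_
    (nerveHtpy OrderHom.id (jA.comp uA) hA) (nerveHtpy OrderHom.id (jB.comp uB) hB)
    ?_ ?_ ?_ ?_ ?_
  · rw [nm_comp, nm_comp]
    congr 1
    ext x
    exact hj x
  · rw [nm_comp, nm_comp]
    congr 1
    ext x
    exact hu x
  · exact ι₀_nerveHtpy _ _ _
  · exact ι₁_nerveHtpy _ _ _
  · exact ι₀_nerveHtpy _ _ _
  · exact ι₁_nerveHtpy _ _ _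
  · apply nerveHtpy_nat
    · intro x
      rfl
    · intro x
      change i (jA (uA x)) = jB (uB (i x))
      rw [← hu, hj]

lemma anodyne_nm_of_ge (i : A →o B) (hi : Function.Injective i) (i' : A' →o B')
    (hi' : anodyneExtensions (nm i')) (jA : A' →o A) (jB : B' →o B) (uA : A →o A') (uB : B →o B')
    (hj : ∀ x, jB (i' x) = i (jA x)) (hu : ∀ x, i' (uA x) = uB (i x))
    (hA : ∀ x, jA (uA x) ≤ x) (hB : ∀ x, jB (uB x) ≤ x) : anodyneExtensions (nm i) := by
  have : Fact (Function.Injective i) := ⟨hi⟩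
  refine anodyne_of_deformation' (nm i) (nm i') hi' (nm jA) (nm jB) (nm uA) (nm uB) ?_ ?_
    (nerveHtpy (jA.comp uA) OrderHom.id hA) (nerveHtpy (jB.comp uB) OrderHom.id hB)
    ?_ ?_ ?_ ?_ ?_
  · rw [nm_comp, nm_comp]
    congr 1
    ext x
    exact hj x
  · rw [nm_comp, nm_comp]
    congr 1
    ext x
    exact hu x
  · exact ι₁_nerveHtpy _ _ _
  · exact ι₀_nerveHtpy _ _ _
  · exact ι₁_nerveHtpy _ _ _
  · exact ι₀_nerveHtpy _ _ _
  · apply nerveHtpy_nat
    · intro x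
      change i (jA (uA x)) = jB (uB (i x))
      rw [← hu, hj]
    · intro x
      rfl

end posetD

end Vale.Agent.P213.SS
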