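import Mathlib
import Vale.Agent.Lib.P213.SSPoset

/-!
# Standard simplices are contractible
-/

open CategoryTheory MonoidalCategory CartesianMonoidalCategory Simplicial HomotopicalAlgebra Limits
open SSet SSet.modelCategoryQuillen MorphismProperty

universe u

namespace Vale.Agent.P213.SS

lemma nm_const {P Q : Type u} [PartialOrder P] [PartialOrder Q] (a : Q) :
    nm (OrderHom.const P a) = SSet.const (nmk (m := .op ⦋0⦌) (fun _ => a) (fun _ _ _ => le_rfl)) := by
  apply NatTrans.ext
  funext m
  ext x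
  rfl

lemma stdSimplex_contract (n : ℕ) :
    ∃ x : (Δ[n] : SSet.{u}) _⦋0⦌, HR (𝟙 (Δ[n] : SSet.{u})) (SSet.const x) := by
  let e := stdSimplex.isoNerve.{u} n
  have h := ((HR_nm (OrderHom.id : ULift.{u} (Fin (n + 1)) →o _) (OrderHom.const _ ⊤)
    (fun _ => le_top)).precomp e.hom).postcomp e.inv
  rw [nm_const, nm_id, Category.comp_id, Iso.hom_inv_id, SSet.comp_const, SSet.const_comp] at h
  exact ⟨_, h⟩

end Vale.Agent.P213.SS
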