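import Mathlib

/-!
# Homotopies of simplicial sets: relative homotopy lifting, horn filling in families
-/

open CategoryTheory MonoidalCategory CartesianMonoidalCategory Simplicial HomotopicalAlgebra Limits
open SSet SSet.modelCategoryQuillen

universe u

namespace Vale.Agent.P213.SS

lemma anodyne_δ (k : Fin 2) : anodyneExtensions.{u} (stdSimplex.δ k : Δ[0] ⟶ Δ[1]) := by
  intro E B p hp
  rw [← HomotopicalAlgebra.fibration_iff] at hp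
  constructor
  intro t b sq
  obtain ⟨φ, h1, h2⟩ := horn.IsCompatible.exists_lift (n := 0) (i := if k = 0 then 1 else 0)
    (f := fun _ _ => t) ((horn.isCompatible_zero_iff_true _).2 trivial) p b (by
      intro j hj
      have : j = k := by fin_cases k <;> fin_cases j <;> simp_all
      subst this
      exact sq.w)
  exact ⟨⟨{ l := φ, fac_left := h1 k (by fin_cases k <;> simp), fac_right := h2 }⟩⟩

variable {A B E S X Y Z K L : SSet.{u}}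

/-- `Δ[0]` on the right. -/
noncomputable def unitIso (X : SSet.{u}) : X ⊗ Δ[0] ≅ X where
  hom := fst _ _
  inv := lift (𝟙 X) (stdSimplex.isTerminalObj₀.from X)
  hom_inv_id := by
    apply CartesianMonoidalCategory.hom_ext
    · simp
    · exact stdSimplex.isTerminalObj₀.hom_ext _ _
  inv_hom_id := by simp

lemma unitIso_inv_δ_one (X : SSet.{u}) : (unitIso X).inv ≫ X ◁ stdSimplex.δ 1 = ι₀ := by
  rw [stdSimplex.δ_one_eq_const]
  rfl

lemma unitIso_inv_δ_zero (X : SSet.{u}) : (unitIso X).inv ≫ X ◁ stdSimplex.δ 0 = ι₁ := by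
  rw [stdSimplex.δ_zero_eq_const]
  rfl

lemma unitIso_hom_ι₀ (X : SSet.{u}) : (unitIso X).hom ≫ ι₀ = X ◁ stdSimplex.δ 1 := by
  rw [← unitIso_inv_δ_one, Iso.hom_inv_id_assoc]

lemma unitIso_hom_ι₁ (X : SSet.{u}) : (unitIso X).hom ≫ ι₁ = X ◁ stdSimplex.δ 0 := by
  rw [← unitIso_inv_δ_zero, Iso.hom_inv_id_assoc]

lemma unitIso_nat (i : A ⟶ B) : i ▷ Δ[0] ≫ (unitIso B).hom = (unitIso A).hom ≫ i := by
  simp [unitIso]

/-- The general relative homotopy lifting property. -/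
lemma rhlp_aux {C D : SSet.{u}} (j : C ⟶ D) (hj : anodyneExtensions j) (i : A ⟶ B) [Mono i]
    (p : E ⟶ S) [Fibration p]
    (H : B ⊗ D ⟶ S) (e : B ⊗ C ⟶ E) (he : e ≫ p = B ◁ j ≫ H) (a : A ⊗ D ⟶ E)
    (ha : a ≫ p = i ▷ D ≫ H) (hae : A ◁ j ≫ a = i ▷ C ≫ e) :
    ∃ L : B ⊗ D ⟶ E, B ◁ j ≫ L = e ∧ i ▷ D ≫ L = a ∧ L ≫ p = H := by
  let sq := Functor.PushoutObjObj.ofHasPushout (curriedTensor SSet.{u}) i j
  have hsq : anodyneExtensions sq.ι := anodyneExtensions_pushoutObjObjι sq hj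
  have := hsq p ((HomotopicalAlgebra.fibration_iff _).1 inferInstance)
  have sq' : CommSq (sq.isPushout.desc e a hae.symm) sq.ι p H := ⟨by
    apply sq.isPushout.hom_ext
    · simp only [IsPushout.inl_desc_assoc, Functor.PushoutObjObj.inl_ι_assoc]
      exact he
    · simp only [IsPushout.inr_desc_assoc, Functor.PushoutObjObj.inr_ι_assoc]
      exact ha⟩
  refine ⟨sq'.lift, ?_, ?_, sq'.fac_right⟩
  · have h1 := sq.inl ≫= sq'.fac_left
    rw [IsPushout.inl_desc, Functor.PushoutObjObj.inl_ι_assoc] at h1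
    exact h1
  · have h1 := sq.inr ≫= sq'.fac_left
    rw [IsPushout.inr_desc, Functor.PushoutObjObj.inr_ι_assoc] at h1
    exact h1

lemma rhlp₀ (i : A ⟶ B) [Mono i] (p : E ⟶ S) [Fibration p]
    (H : B ⊗ Δ[1] ⟶ S) (e : B ⟶ E) (he : e ≫ p = ι₀ ≫ H) (a : A ⊗ Δ[1] ⟶ E)
    (ha : a ≫ p = i ▷ _ ≫ H) (hae : ι₀ ≫ a = i ≫ e) :
    ∃ L : B ⊗ Δ[1] ⟶ E, ι₀ ≫ L = e ∧ i ▷ _ ≫ L = a ∧ L ≫ p = H := by
  obtain ⟨L, h1, h2, h3⟩ := rhlp_aux (stdSimplex.δ 1 : Δ[0] ⟶ Δ[1]) (anodyne_δ 1) i p H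
    ((unitIso B).hom ≫ e) (by rw [Category.assoc, he, ← unitIso_hom_ι₀, Category.assoc]) a ha
    (by rw [← unitIso_hom_ι₀, Category.assoc, hae, ← Category.assoc, ← unitIso_nat,
      Category.assoc])
  refine ⟨L, ?_, h2, h3⟩
  rw [← unitIso_inv_δ_one, Category.assoc, h1, Iso.inv_hom_id_assoc]

lemma rhlp₁ (i : A ⟶ B) [Mono i] (p : E ⟶ S) [Fibration p]
    (H : B ⊗ Δ[1] ⟶ S) (e : B ⟶ E) (he : e ≫ p = ι₁ ≫ H) (a : A ⊗ Δ[1] ⟶ E)
    (ha : a ≫ p = i ▷ _ ≫ H) (hae : ι₁ ≫ a = i ≫ e) :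
    ∃ L : B ⊗ Δ[1] ⟶ E, ι₁ ≫ L = e ∧ i ▷ _ ≫ L = a ∧ L ≫ p = H := by
  obtain ⟨L, h1, h2, h3⟩ := rhlp_aux (stdSimplex.δ 0 : Δ[0] ⟶ Δ[1]) (anodyne_δ 0) i p H
    ((unitIso B).hom ≫ e) (by rw [Category.assoc, he, ← unitIso_hom_ι₁, Category.assoc]) a ha
    (by rw [← unitIso_hom_ι₁, Category.assoc, hae, ← Category.assoc, ← unitIso_nat,
      Category.assoc])
  refine ⟨L, ?_, h2, h3⟩
  rw [← unitIso_inv_δ_zero, Category.assoc, h1, Iso.inv_hom_id_assoc]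

lemma hlp_aux {C D : SSet.{u}} (j : C ⟶ D) (hj : anodyneExtensions j)
    (p : E ⟶ S) [Fibration p]
    (H : B ⊗ D ⟶ S) (e : B ⊗ C ⟶ E) (he : e ≫ p = B ◁ j ≫ H) :
    ∃ L : B ⊗ D ⟶ E, B ◁ j ≫ L = e ∧ L ≫ p = H := by
  have := (hj.whiskerLeft B) p ((HomotopicalAlgebra.fibration_iff _).1 inferInstance)
  have sq' : CommSq e (B ◁ j) p H := ⟨he⟩
  exact ⟨sq'.lift, sq'.fac_left, sq'.fac_right⟩

/-- The homotopy lifting property. -/
lemma hlp₀ (p : E ⟶ S) [Fibration p] (H : B ⊗ Δ[1] ⟶ S) (e : B ⟶ E) (he : e ≫ p = ι₀ ≫ H) :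
    ∃ L : B ⊗ Δ[1] ⟶ E, ι₀ ≫ L = e ∧ L ≫ p = H := by
  obtain ⟨L, h1, h3⟩ := hlp_aux (stdSimplex.δ 1 : Δ[0] ⟶ Δ[1]) (anodyne_δ 1) p H
    ((unitIso B).hom ≫ e) (by rw [Category.assoc, he, ← unitIso_hom_ι₀, Category.assoc])
  refine ⟨L, ?_, h3⟩
  rw [← unitIso_inv_δ_one, Category.assoc, h1, Iso.inv_hom_id_assoc]

lemma hlp₁ (p : E ⟶ S) [Fibration p] (H : B ⊗ Δ[1] ⟶ S) (e : B ⟶ E) (he : e ≫ p = ι₁ ≫ H) :
    ∃ L : B ⊗ Δ[1] ⟶ E, ι₁ ≫ L = e ∧ L ≫ p = H := by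
  obtain ⟨L, h1, h3⟩ := hlp_aux (stdSimplex.δ 0 : Δ[0] ⟶ Δ[1]) (anodyne_δ 0) p H
    ((unitIso B).hom ≫ e) (by rw [Category.assoc, he, ← unitIso_hom_ι₁, Category.assoc])
  refine ⟨L, ?_, h3⟩
  rw [← unitIso_inv_δ_zero, Category.assoc, h1, Iso.inv_hom_id_assoc]

/-! ### Triangles in families -/

lemma ι₀_δ_two (X : SSet.{u}) :
    (ι₀ : X ⟶ X ⊗ Δ[1]) ≫ X ◁ (stdSimplex.δ 2 : Δ[1] ⟶ Δ[2]) = ι₀ ≫ X ◁ stdSimplex.δ 1 := by
  rw [← unitIso_inv_δ_one, Category.assoc, Category.assoc, ← whiskerLeft_comp,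
    ← whiskerLeft_comp]
  congr 2
  exact (stdSimplex.δ_comp_δ (i := 1) (j := 1) le_rfl)

lemma ι₁_δ_two (X : SSet.{u}) :
    (ι₁ : X ⟶ X ⊗ Δ[1]) ≫ X ◁ (stdSimplex.δ 2 : Δ[1] ⟶ Δ[2]) = ι₀ ≫ X ◁ stdSimplex.δ 0 := by
  rw [← unitIso_inv_δ_one, ← unitIso_inv_δ_zero, Category.assoc, Category.assoc,
    ← whiskerLeft_comp, ← whiskerLeft_comp]
  congr 2
  exact (stdSimplex.δ_comp_δ (i := 0) (j := 1) (by decide))

lemma ι₁_δ_one (X : SSet.{u}) :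
    (ι₁ : X ⟶ X ⊗ Δ[1]) ≫ X ◁ (stdSimplex.δ 1 : Δ[1] ⟶ Δ[2]) = ι₁ ≫ X ◁ stdSimplex.δ 0 := by
  rw [← unitIso_inv_δ_zero, Category.assoc, Category.assoc, ← whiskerLeft_comp,
    ← whiskerLeft_comp]
  congr 2

lemma δ_one_curry (H : X ⊗ Δ[1] ⟶ E) :
    stdSimplex.δ 1 ≫ MonoidalClosed.curry H =
      MonoidalClosed.curry ((unitIso X).hom ≫ ι₀ ≫ H) := by
  rw [← MonoidalClosed.curry_natural_left, ← unitIso_hom_ι₀, Category.assoc]

lemma δ_zero_curry (H : X ⊗ Δ[1] ⟶ E) :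
    stdSimplex.δ 0 ≫ MonoidalClosed.curry H =
      MonoidalClosed.curry ((unitIso X).hom ≫ ι₁ ≫ H) := by
  rw [← MonoidalClosed.curry_natural_left, ← unitIso_hom_ι₁, Category.assoc]

lemma tri₂ (p : E ⟶ S) [Fibration p] (b : X ⊗ Δ[2] ⟶ S) (f0 f1 : X ⊗ Δ[1] ⟶ E)
    (h0 : f0 ≫ p = X ◁ stdSimplex.δ 0 ≫ b) (h1 : f1 ≫ p = X ◁ stdSimplex.δ 1 ≫ b)
    (h : ι₁ ≫ f0 = ι₁ ≫ f1) :
    ∃ φ : X ⊗ Δ[2] ⟶ E, X ◁ stdSimplex.δ 0 ≫ φ = f0 ∧ X ◁ stdSimplex.δ 1 ≫ φ = f1 ∧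
      φ ≫ p = b := by
  obtain ⟨φ, hφ, hφ'⟩ := horn.IsCompatible.exists_lift (n := 1) (i := 2)
    (f := fun j _ => if j = 0 then MonoidalClosed.curry f0 else MonoidalClosed.curry f1)
    (by
      rw [horn.isCompatible_iff]
      intro j k hj hk hjk
      obtain ⟨rfl, rfl⟩ : j = 0 ∧ k = 1 := by
        fin_cases j <;> fin_cases k <;> simp_all
      have : stdSimplex.δ 0 ≫ MonoidalClosed.curry f0 = stdSimplex.δ 0 ≫
        MonoidalClosed.curry f1 := by rw [δ_zero_curry, δ_zero_curry, h]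
      simpa using this)
    ((ihom X).map p) (MonoidalClosed.curry b) (by
      intro j hj
      obtain rfl | rfl : j = 0 ∨ j = 1 := by
        fin_cases j <;> simp_all
      · simp only [if_true]
        rw [← MonoidalClosed.curry_natural_right, h0, MonoidalClosed.curry_natural_left]
      · simp only [one_ne_zero, if_false]
        rw [← MonoidalClosed.curry_natural_right, h1, MonoidalClosed.curry_natural_left])
  refine ⟨MonoidalClosed.uncurry φ, ?_, ?_, ?_⟩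
  · rw [← MonoidalClosed.uncurry_natural_left, hφ 0 (by decide)]
    simp
  · rw [← MonoidalClosed.uncurry_natural_left, hφ 1 (by decide)]
    simp
  · rw [← MonoidalClosed.uncurry_natural_right, hφ', MonoidalClosed.uncurry_curry]

lemma tri₀ (p : E ⟶ S) [Fibration p] (b : X ⊗ Δ[2] ⟶ S) (f1 f2 : X ⊗ Δ[1] ⟶ E)
    (h1 : f1 ≫ p = X ◁ stdSimplex.δ 1 ≫ b) (h2 : f2 ≫ p = X ◁ stdSimplex.δ 2 ≫ b)
    (h : ι₀ ≫ f1 = ι₀ ≫ f2) :
    ∃ φ : X ⊗ Δ[2] ⟶ E, X ◁ stdSimplex.δ 1 ≫ φ = f1 ∧ X ◁ stdSimplex.δ 2 ≫ φ = f2 ∧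
      φ ≫ p = b := by
  obtain ⟨φ, hφ, hφ'⟩ := horn.IsCompatible.exists_lift (n := 1) (i := 0)
    (f := fun j _ => if j = 1 then MonoidalClosed.curry f1 else MonoidalClosed.curry f2)
    (by
      rw [horn.isCompatible_iff]
      intro j k hj hk hjk
      obtain ⟨rfl, rfl⟩ : j = 1 ∧ k = 2 := by
        fin_cases j <;> fin_cases k <;> simp_all
      have : stdSimplex.δ 1 ≫ MonoidalClosed.curry f1 = stdSimplex.δ 1 ≫
        MonoidalClosed.curry f2 := by rw [δ_one_curry, δ_one_curry, h]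
      simpa using this)
    ((ihom X).map p) (MonoidalClosed.curry b) (by
      intro j hj
      obtain rfl | rfl : j = 1 ∨ j = 2 := by
        fin_cases j <;> simp_all
      · simp only [if_true]
        rw [← MonoidalClosed.curry_natural_right, h1, MonoidalClosed.curry_natural_left]
      · simp only [(by decide : (2 : Fin 3) ≠ 1), if_false]
        rw [← MonoidalClosed.curry_natural_right, h2, MonoidalClosed.curry_natural_left])
  refine ⟨MonoidalClosed.uncurry φ, ?_, ?_, ?_⟩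
  · rw [← MonoidalClosed.uncurry_natural_left, hφ 1 (by decide)]
    simp
  · rw [← MonoidalClosed.uncurry_natural_left, hφ 2 (by decide)]
    simp
  · rw [← MonoidalClosed.uncurry_natural_right, hφ', MonoidalClosed.uncurry_curry]

/-! ### The homotopy relation -/

/-- Two maps are related by a (one step) homotopy. -/
def HR (f g : X ⟶ Y) : Prop := ∃ h : X ⊗ Δ[1] ⟶ Y, ι₀ ≫ h = f ∧ ι₁ ≫ h = g

lemma HR.refl (f : X ⟶ Y) : HR f f := ⟨fst _ _ ≫ f, by simp, by simp⟩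

lemma HR.of_eq {f g : X ⟶ Y} (h : f = g) : HR f g := h ▸ HR.refl f

lemma HR.postcomp {f g : X ⟶ Y} (h : HR f g) (k : Y ⟶ Z) : HR (f ≫ k) (g ≫ k) := by
  obtain ⟨H, rfl, rfl⟩ := h
  exact ⟨H ≫ k, by simp, by simp⟩

lemma HR.precomp {f g : X ⟶ Y} (h : HR f g) (k : Z ⟶ X) : HR (k ≫ f) (k ≫ g) := by
  obtain ⟨H, rfl, rfl⟩ := h
  exact ⟨k ▷ _ ≫ H, by simp, by simp⟩

lemma HR.euclid [KanComplex Z] {f g g' : X ⟶ Z} (h : HR f g) (h' : HR f g') : HR g g' := by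
  obtain ⟨H, rfl, rfl⟩ := h
  obtain ⟨H', h0, rfl⟩ := h'
  obtain ⟨φ, h1, h2, -⟩ := tri₀ (terminal.from Z) (terminal.from _) H' H
    (Subsingleton.elim _ _) (Subsingleton.elim _ _) h0
  refine ⟨X ◁ stdSimplex.δ 0 ≫ φ, ?_, ?_⟩
  · rw [← h2, ← Category.assoc, ← ι₁_δ_two, Category.assoc]
  · rw [← h1, ← Category.assoc, ← ι₁_δ_one, Category.assoc]

lemma HR.symm [KanComplex Z] {f g : X ⟶ Z} (h : HR f g) : HR g f := h.euclid (HR.refl f)

lemma HR.trans [KanComplex Z] {f g k : X ⟶ Z} (h : HR f g) (h' : HR g k) : HR f k :=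
  h.symm.euclid h'

/-! ### Function complexes -/

/-- The vertex of the function complex corresponding to a map. -/
noncomputable def vert (f : X ⟶ Z) : ((ihom X).obj Z) _⦋0⦌ :=
  yonedaEquiv (MonoidalClosed.curry ((unitIso X).hom ≫ f))

lemma vert_surjective (x : ((ihom X).obj Z) _⦋0⦌) : ∃ f : X ⟶ Z, vert f = x := by
  refine ⟨(unitIso X).inv ≫ MonoidalClosed.uncurry (yonedaEquiv.symm x), ?_⟩
  rw [vert, Iso.hom_inv_id_assoc, MonoidalClosed.curry_uncurry, Equiv.apply_symm_apply]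

lemma vert_injective {f g : X ⟶ Z} (h : vert f = vert g) : f = g := by
  rwa [vert, vert, EmbeddingLike.apply_eq_iff_eq, MonoidalClosed.curry_injective.eq_iff,
    cancel_epi] at h

lemma edge_of_HR {f g : X ⟶ Z} (h : HR f g) : Nonempty (Edge (vert f) (vert g)) := by
  obtain ⟨H, rfl, rfl⟩ := h
  refine ⟨Edge.mk (yonedaEquiv (MonoidalClosed.curry H)) ?_ ?_⟩
  · rw [vert, ← δ_one_curry]
    exact yonedaEquiv_naturality _ _
  · rw [vert, ← δ_zero_curry]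
    exact yonedaEquiv_naturality _ _

lemma HR_of_edge {f g : X ⟶ Z} (h : Edge (vert f) (vert g)) : HR f g := by
  refine ⟨MonoidalClosed.uncurry (yonedaEquiv.symm h.edge), ?_, ?_⟩
  · rw [← cancel_epi (unitIso X).hom, ← MonoidalClosed.curry_injective.eq_iff, ← δ_one_curry,
      MonoidalClosed.curry_uncurry]
    apply yonedaEquiv.injective
    rw [← vert]
    refine Eq.trans ?_ h.src_eq
    refine (yonedaEquiv_naturality _ _).symm.trans ?_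
    rw [Equiv.apply_symm_apply]
    rfl
  · rw [← cancel_epi (unitIso X).hom, ← MonoidalClosed.curry_injective.eq_iff, ← δ_zero_curry,
      MonoidalClosed.curry_uncurry]
    apply yonedaEquiv.injective
    rw [← vert]
    refine Eq.trans ?_ h.tgt_eq
    refine (yonedaEquiv_naturality _ _).symm.trans ?_
    rw [Equiv.apply_symm_apply]
    rfl

lemma HR_iff_edge {f g : X ⟶ Z} : HR f g ↔ Nonempty (Edge (vert f) (vert g)) :=
  ⟨edge_of_HR, fun ⟨h⟩ => HR_of_edge h⟩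

lemma mk_vert_eq_iff [KanComplex Z] {f g : X ⟶ Z} :
    π₀.mk (vert f) = π₀.mk (vert g) ↔ HR f g := by
  constructor
  · intro h
    rw [π₀.mk_eq_mk_iff] at h
    suffices ∀ (x y : ((ihom X).obj Z) _⦋0⦌), Relation.EqvGen π₀Rel x y →
        ∀ (f g : X ⟶ Z), x = vert f → y = vert g → HR f g from this _ _ h f g rfl rfl
    intro x y hxy
    induction hxy with
    | rel x y h =>
      rintro f g rfl rfl
      exact HR_iff_edge.2 h
    | refl x =>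
      rintro f g rfl hg
      exact HR.of_eq (vert_injective hg)
    | symm x y _ ih =>
      rintro f g hf hg
      exact (ih g f hg hf).symm
    | trans x y z _ _ ih1 ih2 =>
      rintro f g hf hg
      obtain ⟨k, rfl⟩ := vert_surjective y
      exact (ih1 f k hf rfl).trans (ih2 k g rfl hg)
  · intro h
    obtain ⟨e⟩ := edge_of_HR h
    exact π₀.sound e

lemma pre_app_vert (u : X ⟶ Y) (g : Y ⟶ Z) :
    ((MonoidalClosed.pre u).app Z).app _ (vert g) = vert (u ≫ g) := by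
  rw [vert, vert, ← yonedaEquiv_comp]
  congr 1

/-! ### Lifting of homotopies against trivial fibrations -/

instance : Mono (ι₀ : X ⟶ X ⊗ Δ[1]) := mono_of_mono_fac (ι₀_fst X)
instance : Mono (ι₁ : X ⟶ X ⊗ Δ[1]) := mono_of_mono_fac (ι₁_fst X)

lemma range_ι₀_inf_range_ι₁ (X : SSet.{u}) :
    Subcomplex.range (ι₀ : X ⟶ X ⊗ Δ[1]) ⊓ Subcomplex.range (ι₁ : X ⟶ X ⊗ Δ[1]) = ⊥ := by
  ext ⟨⟨n⟩⟩ ⟨x, t⟩
  refine ⟨?_, fun h => h.elim⟩
  rintro ⟨⟨y, hy⟩, ⟨z, hz⟩⟩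
  have h0 := congrArg Prod.snd hy
  have h1 := congrArg Prod.snd hz
  have h2 := congrArg (fun (s : Δ[1] _⦋n⦌) => s 0) (h0.trans h1.symm)
  simp at h2

lemma exists_lift_ends (p : E ⟶ S) (hp : I.rlp p) (H : X ⊗ Δ[1] ⟶ S) (a b : X ⟶ E)
    (ha : a ≫ p = ι₀ ≫ H) (hb : b ≫ p = ι₁ ≫ H) :
    ∃ L : X ⊗ Δ[1] ⟶ E, ι₀ ≫ L = a ∧ ι₁ ≫ L = b ∧ L ≫ p = H := by
  let R₀ := Subcomplex.range (ι₀ : X ⟶ X ⊗ Δ[1])
  let R₁ := Subcomplex.range (ι₁ : X ⟶ X ⊗ Δ[1])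
  have sq : Subcomplex.BicartSq ⊥ R₀ R₁ (R₀ ⊔ R₁) :=
    ⟨rfl, range_ι₀_inf_range_ι₁ X⟩
  have := sq.isPushout
  let φ := sq.isPushout.desc (inv (Subcomplex.toRange ι₀) ≫ a) (inv (Subcomplex.toRange ι₁) ≫ b)
    (Subsingleton.elim _ _)
  have sq' : CommSq φ (R₀ ⊔ R₁).ι p H := ⟨by
    apply sq.isPushout.hom_ext
    · rw [← cancel_epi (Subcomplex.toRange ι₀)]
      rw [IsPushout.inl_desc_assoc, Category.assoc, IsIso.hom_inv_id_assoc, ha]
      rfl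
    · rw [← cancel_epi (Subcomplex.toRange ι₁)]
      rw [IsPushout.inr_desc_assoc, Category.assoc, IsIso.hom_inv_id_assoc, hb]
      rfl⟩
  rw [← rlp_monomorphisms] at hp
  have := hp (R₀ ⊔ R₁).ι (.infer_property _)
  refine ⟨sq'.lift, ?_, ?_, sq'.fac_right⟩
  · have h1 := Subcomplex.homOfLE (le_sup_left : R₀ ≤ R₀ ⊔ R₁) ≫= sq'.fac_left
    have h2 := sq.isPushout.inl_desc (inv (Subcomplex.toRange ι₀) ≫ a)
      (inv (Subcomplex.toRange ι₁) ≫ b) (Subsingleton.elim _ _)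
    have h3 := Subcomplex.toRange ι₀ ≫= (h1.trans h2)
    rw [IsIso.hom_inv_id_assoc] at h3
    exact h3
  · have h1 := Subcomplex.homOfLE (le_sup_right : R₁ ≤ R₀ ⊔ R₁) ≫= sq'.fac_left
    have h2 := sq.isPushout.inr_desc (inv (Subcomplex.toRange ι₀) ≫ a)
      (inv (Subcomplex.toRange ι₁) ≫ b) (Subsingleton.elim _ _)
    have h3 := Subcomplex.toRange ι₁ ≫= (h1.trans h2)
    rw [IsIso.hom_inv_id_assoc] at h3
    exact h3

end Vale.Agent.P213.SS
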