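import Mathlib
import Vale.Agent.Lib.P213.SSHtpy

/-!
# Weak homotopy equivalences of simplicial sets
-/

open CategoryTheory MonoidalCategory CartesianMonoidalCategory Simplicial HomotopicalAlgebra Limits
open SSet SSet.modelCategoryQuillen

universe u

namespace Vale.Agent.P213.SS

variable {A B C D E S X Y Z K L : SSet.{u}}

/-- Weak homotopy equivalences: the maps `f : X ⟶ Y` such that for any Kan complex `Z`,
the map of function complexes `Z ^ Y ⟶ Z ^ X` induces a bijection on connected components. -/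
def weq : MorphismProperty SSet.{u} := fun _ _ f =>
  ∀ (Z : SSet.{u}) [KanComplex Z], Function.Bijective (mapπ₀ ((MonoidalClosed.pre f).app Z))

lemma weq_iff (f : X ⟶ Y) : weq f ↔ ∀ (Z : SSet.{u}) [KanComplex Z],
    (∀ g : X ⟶ Z, ∃ h : Y ⟶ Z, HR (f ≫ h) g) ∧
      (∀ h h' : Y ⟶ Z, HR (f ≫ h) (f ≫ h') → HR h h') := by
  refine forall_congr' fun Z => forall_congr' fun hZ => ?_
  constructor
  · rintro ⟨h1, h2⟩
    constructor
    · intro g
      obtain ⟨x, hx⟩ := h2 (π₀.mk (vert g))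
      obtain ⟨y, rfl⟩ := x.mk_surjective
      obtain ⟨h, rfl⟩ := vert_surjective y
      refine ⟨h, ?_⟩
      rw [mapπ₀_mk, pre_app_vert, mk_vert_eq_iff] at hx
      exact hx
    · intro h h' H
      rw [← mk_vert_eq_iff]
      apply h1
      rw [mapπ₀_mk, mapπ₀_mk, pre_app_vert, pre_app_vert, mk_vert_eq_iff]
      exact H
  · rintro ⟨h1, h2⟩
    constructor
    · intro x y hxy
      obtain ⟨x, rfl⟩ := x.mk_surjective
      obtain ⟨y, rfl⟩ := y.mk_surjective
      obtain ⟨h, rfl⟩ := vert_surjective x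
      obtain ⟨h', rfl⟩ := vert_surjective y
      rw [mapπ₀_mk, mapπ₀_mk, pre_app_vert, pre_app_vert, mk_vert_eq_iff] at hxy
      rw [mk_vert_eq_iff]
      exact h2 _ _ hxy
    · intro x
      obtain ⟨x, rfl⟩ := x.mk_surjective
      obtain ⟨g, rfl⟩ := vert_surjective x
      obtain ⟨h, hh⟩ := h1 g
      refine ⟨π₀.mk (vert h), ?_⟩
      rw [mapπ₀_mk, pre_app_vert, mk_vert_eq_iff]
      exact hh

lemma mapπ₀_comp (f : X ⟶ Y) (g : Y ⟶ Z) : mapπ₀ (f ≫ g) = mapπ₀ g ∘ mapπ₀ f := by
  ext x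
  simp

instance : weq.{u}.HasTwoOutOfThreeProperty where
  comp_mem f g hf hg Z hZ := by
    rw [MonoidalClosed.pre_map, NatTrans.comp_app, mapπ₀_comp]
    exact (hf Z).comp (hg Z)
  of_postcomp f g hg hfg Z hZ := by
    have h := hfg Z
    rw [MonoidalClosed.pre_map, NatTrans.comp_app, mapπ₀_comp] at h
    exact (Function.Bijective.of_comp_iff _ (hg Z)).1 h
  of_precomp f g hf hfg Z hZ := by
    have h := hfg Z
    rw [MonoidalClosed.pre_map, NatTrans.comp_app, mapπ₀_comp] at h
    exact (Function.Bijective.of_comp_iff' (hf Z) _).1 h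

lemma weq_of_isIso (f : X ⟶ Y) [IsIso f] : weq f := by
  rw [weq_iff]
  intro Z _
  constructor
  · intro g
    exact ⟨inv f ≫ g, by simpa using HR.refl g⟩
  · intro h h' H
    simpa using H.precomp (inv f)

instance : weq.{u}.RespectsIso :=
  MorphismProperty.RespectsIso.of_respects_arrow_iso _ (by
    intro f g e hf
    have h1 : f.hom ≫ e.hom.right = e.hom.left ≫ g.hom := e.hom.w.symm
    have h2 : weq (e.hom.left ≫ g.hom) := by
      rw [← h1]
      exact weq.comp_mem _ _ hf (weq_of_isIso _)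
    exact weq.of_precomp _ _ (weq_of_isIso _) h2)

instance : weq.{u}.IsStableUnderRetracts where
  of_retract {X Y Z W f g} r hg := by
    rw [weq_iff] at hg ⊢
    intro K _
    obtain ⟨h1, h2⟩ := hg K
    constructor
    · intro a
      obtain ⟨b, hb⟩ := h1 (r.r.left ≫ a)
      refine ⟨r.i.right ≫ b, ?_⟩
      have := hb.precomp r.i.left
      have e1 : r.i.left ≫ g ≫ b = f ≫ r.i.right ≫ b := by
        rw [← Category.assoc, ← Category.assoc]
        exact congrArg (· ≫ b) r.i.w
      have e2 : r.i.left ≫ r.r.left ≫ a = a := by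
        rw [← Category.assoc]
        have := r.retract_left
        rw [this]
        exact Category.id_comp _
      rwa [e1, e2] at this
    · intro a b hab
      have e1 : ∀ c : Y ⟶ K, g ≫ r.r.right ≫ c = r.r.left ≫ f ≫ c := fun c => by
        rw [← Category.assoc, ← Category.assoc]
        exact congrArg (· ≫ c) r.r.w.symm
      have := h2 (r.r.right ≫ a) (r.r.right ≫ b) (by
        rw [e1, e1]
        exact hab.precomp _)
      have := this.precomp r.i.right
      have e2 : ∀ c : Y ⟶ K, r.i.right ≫ r.r.right ≫ c = c := fun c => by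
        rw [← Category.assoc]
        have := r.retract_right
        rw [this]
        exact Category.id_comp _
      rwa [e2, e2] at this

lemma weq_of_HR {f g : X ⟶ Y} (h : HR f g) (hf : weq f) : weq g := by
  rw [weq_iff] at hf ⊢
  intro K _
  obtain ⟨h1, h2⟩ := hf K
  constructor
  · intro a
    obtain ⟨b, hb⟩ := h1 a
    exact ⟨b, (h.postcomp b).euclid hb⟩
  · intro a b hab
    exact h2 _ _ (((h.postcomp a).trans hab).trans (h.postcomp b).symm)

lemma weq_of_HR' {f g : X ⟶ Y} (h : HR f g) (hg : weq g) : weq f := by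
  rw [weq_iff] at hg ⊢
  intro K _
  obtain ⟨h1, h2⟩ := hg K
  constructor
  · intro a
    obtain ⟨b, hb⟩ := h1 a
    exact ⟨b, (h.postcomp b).trans hb⟩
  · intro a b hab
    exact h2 _ _ ((((h.postcomp a).symm).trans hab).trans (h.postcomp b))

/-- The equivalence relation generated by homotopy. -/
def HE (f g : X ⟶ Y) : Prop := Relation.EqvGen HR f g

lemma HE.refl (f : X ⟶ Y) : HE f f := Relation.EqvGen.refl _
lemma HE.symm {f g : X ⟶ Y} (h : HE f g) : HE g f := Relation.EqvGen.symm _ _ h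
lemma HE.trans {f g k : X ⟶ Y} (h : HE f g) (h' : HE g k) : HE f k :=
  Relation.EqvGen.trans _ _ _ h h'
lemma HR.he {f g : X ⟶ Y} (h : HR f g) : HE f g := Relation.EqvGen.rel _ _ h

lemma HE.postcomp {f g : X ⟶ Y} (h : HE f g) (k : Y ⟶ Z) : HE (f ≫ k) (g ≫ k) := by
  induction h with
  | rel x y h => exact (h.postcomp k).he
  | refl x => exact HE.refl _
  | symm x y _ ih => exact ih.symm
  | trans x y z _ _ ih1 ih2 => exact ih1.trans ih2

lemma HE.precomp {f g : X ⟶ Y} (h : HE f g) (k : Z ⟶ X) : HE (k ≫ f) (k ≫ g) := by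
  induction h with
  | rel x y h => exact (h.precomp k).he
  | refl x => exact HE.refl _
  | symm x y _ ih => exact ih.symm
  | trans x y z _ _ ih1 ih2 => exact ih1.trans ih2

lemma HE.hr [KanComplex Y] {f g : X ⟶ Y} (h : HE f g) : HR f g := by
  induction h with
  | rel x y h => exact h
  | refl x => exact HR.refl _
  | symm x y _ ih => exact ih.symm
  | trans x y z _ _ ih1 ih2 => exact ih1.trans ih2

lemma weq_iff_of_HE {f g : X ⟶ Y} (h : HE f g) : weq f ↔ weq g := by
  induction h with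
  | rel x y h => exact ⟨weq_of_HR h, weq_of_HR' h⟩
  | refl x => rfl
  | symm x y _ ih => exact ih.symm
  | trans x y z _ _ ih1 ih2 => exact ih1.trans ih2

/-- (Simplicial) homotopy equivalences are weak homotopy equivalences. -/
lemma weq_of_homotopyEquiv (f : X ⟶ Y) (g : Y ⟶ X) (h1 : HE (f ≫ g) (𝟙 X))
    (h2 : HE (g ≫ f) (𝟙 Y)) : weq f := by
  rw [weq_iff]
  intro K _
  constructor
  · intro a
    refine ⟨g ≫ a, ?_⟩
    have := (h1.postcomp a).hr
    simpa using this
  · intro a b hab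
    have e1 := (h2.postcomp a).hr
    have e2 := (h2.postcomp b).hr
    have e3 := hab.precomp g
    rw [Category.id_comp] at e1 e2
    rw [Category.assoc] at e1 e2
    exact (e1.symm.trans e3).trans e2

/-! ### Trivial fibrations are weak equivalences -/

lemma exists_section (p : E ⟶ S) (hp : I.rlp p) : ∃ s : S ⟶ E, s ≫ p = 𝟙 S := by
  rw [← rlp_monomorphisms] at hp
  have := hp (initial.to S) (.infer_property _)
  have sq : CommSq (initial.to E) (initial.to S) p (𝟙 S) := ⟨by simp⟩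
  exact ⟨sq.lift, sq.fac_right⟩

lemma trivFib_homotopyEquiv (p : E ⟶ S) (hp : I.rlp p) : ∃ s : S ⟶ E, s ≫ p = 𝟙 S ∧
    ∃ w : E ⊗ Δ[1] ⟶ E, ι₀ ≫ w = 𝟙 E ∧ ι₁ ≫ w = p ≫ s ∧ w ≫ p = fst _ _ ≫ p := by
  obtain ⟨s, hs⟩ := exists_section p hp
  refine ⟨s, hs, ?_⟩
  exact exists_lift_ends p hp (fst _ _ ≫ p) (𝟙 E) (p ≫ s) (by simp) (by simp [hs])

lemma weq_of_trivFib (p : E ⟶ S) (hp : I.rlp p) : weq p := by
  obtain ⟨s, hs, w, h0, h1, -⟩ := trivFib_homotopyEquiv p hp
  exact weq_of_homotopyEquiv p s (HR.he ⟨w, h0, h1⟩).symm (by rw [hs]; exact HE.refl _)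

/-! ### Anodyne extensions are weak equivalences -/

lemma mapπ₀_eq_of_HR {f g : X ⟶ Y} (h : HR f g) : mapπ₀ f = mapπ₀ g := by
  obtain ⟨H, rfl, rfl⟩ := h
  ext x
  obtain ⟨x, rfl⟩ := x.mk_surjective
  rw [mapπ₀_mk, mapπ₀_mk]
  refine π₀.sound (Edge.mk (yonedaEquiv (lift (SSet.const x) (𝟙 Δ[1]) ≫ H)) ?_ ?_)
  · refine (SSet.yonedaEquiv_naturality _ _).trans ?_
    have : SSet.stdSimplex.map (SimplexCategory.δ 1) ≫ lift (SSet.const x) (𝟙 Δ[1]) =
        SSet.const x ≫ ι₀ := by
      apply CartesianMonoidalCategory.hom_ext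
      · rfl
      · exact stdSimplex.δ_one_eq_const
    rw [← Category.assoc, this, Category.assoc, SSet.yonedaEquiv_comp, yonedaEquiv_const]
  · refine (SSet.yonedaEquiv_naturality _ _).trans ?_
    have : SSet.stdSimplex.map (SimplexCategory.δ 0) ≫ lift (SSet.const x) (𝟙 Δ[1]) =
        SSet.const x ≫ ι₁ := by
      apply CartesianMonoidalCategory.hom_ext
      · rfl
      · exact stdSimplex.δ_zero_eq_const
    rw [← Category.assoc, this, Category.assoc, SSet.yonedaEquiv_comp, yonedaEquiv_const]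

lemma mapπ₀_bijective_of_trivFib (p : E ⟶ S) (hp : I.rlp p) :
    Function.Bijective (mapπ₀ p) := by
  obtain ⟨s, hs, w, h0, h1, -⟩ := trivFib_homotopyEquiv p hp
  have e1 := mapπ₀_eq_of_HR (f := 𝟙 E) (g := p ≫ s) ⟨w, h0, h1⟩
  constructor
  · intro x y hxy
    have := congrArg (mapπ₀ s) hxy
    rw [← mapπ₀_comp_apply, ← mapπ₀_comp_apply, ← e1] at this
    simpa using this
  · intro x
    refine ⟨mapπ₀ s x, ?_⟩
    rw [← mapπ₀_comp_apply, hs, mapπ₀_id_apply]

lemma lift_pre_iff {i : A ⟶ B} {j : C ⟶ D} (Z : SSet.{u}) :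
    HasLiftingProperty i ((MonoidalClosed.pre j).app Z) ↔
      HasLiftingProperty j ((MonoidalClosed.pre i).app Z) := by
  let sq := Functor.PushoutObjObj.ofHasPushout (curriedTensor SSet.{u}) j i
  have h1 := MonoidalClosed.internalHomAdjunction₂.hasLiftingProperty_iff sq
    (Functor.PullbackObjObj.ofIsTerminal MonoidalClosed.internalHom j (terminal.from Z)
      terminalIsTerminal)
  have h2 := MonoidalClosed.internalHomAdjunction₂.hasLiftingProperty_iff sq.flipTensor
    (Functor.PullbackObjObj.ofIsTerminal MonoidalClosed.internalHom i (terminal.from Z)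
      terminalIsTerminal)
  have h3 := HasLiftingProperty.iff_of_arrow_iso_left
    (show Arrow.mk sq.ι ≅ Arrow.mk sq.flipTensor.ι from
      Arrow.isoMk (Iso.refl _) (β_ _ _)) (terminal.from Z)
  exact h1.symm.trans (h3.trans h2)

lemma trivFib_pre_of_anodyne (j : A ⟶ B) (hj : anodyneExtensions j) (Z : SSet.{u})
    [KanComplex Z] : I.rlp ((MonoidalClosed.pre j).app Z) := by
  rintro _ _ _ ⟨n⟩
  rw [lift_pre_iff]
  exact hj _ ((HomotopicalAlgebra.fibration_iff _).1 inferInstance)

lemma weq_of_anodyne (j : A ⟶ B) (hj : anodyneExtensions j) : weq j := fun Z _ =>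
  mapπ₀_bijective_of_trivFib _ (trivFib_pre_of_anodyne j hj Z)

end Vale.Agent.P213.SS
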