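import Mathlib
import Vale.Agent.Lib.P213.SSWeq

/-!
# Weak equivalences between Kan complexes, trivial cofibrations
-/

open CategoryTheory MonoidalCategory CartesianMonoidalCategory Simplicial HomotopicalAlgebra Limits
open SSet SSet.modelCategoryQuillen

universe u

namespace Vale.Agent.P213.SS

variable {A B C D E S X Y Z K L : SSet.{u}}

/-- A weak equivalence between Kan complexes is a homotopy equivalence. -/
lemma weq.exists_inverse {f : X ⟶ Y} (hf : weq f) [KanComplex X] [KanComplex Y] :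
    ∃ g : Y ⟶ X, HR (f ≫ g) (𝟙 X) ∧ HR (g ≫ f) (𝟙 Y) := by
  rw [weq_iff] at hf
  obtain ⟨g, hg⟩ := (hf X).1 (𝟙 X)
  refine ⟨g, hg, (hf Y).2 _ _ ?_⟩
  have := hg.postcomp f
  simpa using this

/-- The map to a point `0`-simplex degeneracy in families: the constant in the first direction
triangle on a homotopy `H` with faces `H, H, const`. -/
lemma exists_degenerate_triangle (H : X ⊗ Δ[1] ⟶ S) :
    ∃ b : X ⊗ Δ[2] ⟶ S, X ◁ stdSimplex.δ 0 ≫ b = H ∧ X ◁ stdSimplex.δ 1 ≫ b = H ∧
      X ◁ stdSimplex.δ 2 ≫ b = fst _ _ ≫ ι₀ ≫ H := by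
  refine ⟨X ◁ stdSimplex.σ 0 ≫ H, ?_, ?_, ?_⟩
  · have : (stdSimplex.δ 0 : Δ[1] ⟶ Δ[2]) ≫ stdSimplex.σ 0 = 𝟙 _ :=
      stdSimplex.δ_comp_σ_self (i := 0)
    rw [← Category.assoc, ← whiskerLeft_comp, this, whiskerLeft_id, Category.id_comp]
  · have : (stdSimplex.δ 1 : Δ[1] ⟶ Δ[2]) ≫ stdSimplex.σ 0 = 𝟙 _ :=
      stdSimplex.δ_comp_σ_succ (i := 0)
    rw [← Category.assoc, ← whiskerLeft_comp, this, whiskerLeft_id, Category.id_comp]
  · have : (stdSimplex.δ 2 : Δ[1] ⟶ Δ[2]) ≫ stdSimplex.σ 0 = stdSimplex.σ 0 ≫ stdSimplex.δ 1 :=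
      CosimplicialObject.δ_comp_σ_of_gt SSet.stdSimplex (i := 1) (j := 0) (by decide)
    rw [← Category.assoc, ← whiskerLeft_comp, this, whiskerLeft_comp, Category.assoc,
      ← unitIso_hom_ι₀, Category.assoc, ← Category.assoc]
    congr 1

/-- A Kan fibration with a section which is a homotopy inverse is a trivial fibration. -/
lemma trivFib_of_vertical_homotopy (p : E ⟶ S) [Fibration p] (s : S ⟶ E) (hs : s ≫ p = 𝟙 S)
    (w : E ⊗ Δ[1] ⟶ E) (h0 : ι₀ ≫ w = 𝟙 E) (h1 : ι₁ ≫ w = p ≫ s) (hw : w ≫ p = fst _ _ ≫ p) :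
    I.rlp p := by
  rw [← rlp_monomorphisms]
  intro A C i hi
  have : Mono i := hi
  constructor
  intro a b sq
  obtain ⟨L, hL1, hL2, hL3⟩ := rhlp₁ i p (fst _ _ ≫ b) (b ≫ s) (by simp [hs]) (a ▷ _ ≫ w)
    (by simp [hw, sq.w]) (by simp [h1, reassoc_of% sq.w])
  exact ⟨⟨{ l := ι₀ ≫ L
            fac_left := by
              rw [← ι₀_comp_assoc, hL2, ι₀_comp_assoc, h0, Category.comp_id]
            fac_right := by rw [Category.assoc, hL3, ι₀_fst_assoc] }⟩⟩

lemma trivFib_of_fibration_weq (p : E ⟶ S) [Fibration p] [KanComplex E] [KanComplex S]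
    (hp : weq p) : I.rlp p := by
  obtain ⟨s, h1, h2⟩ := hp.exists_inverse
  -- make `s` a strict section
  obtain ⟨H, hH0, hH1⟩ := h2
  obtain ⟨H', hH'0, hH'⟩ := hlp₀ p H s (by rw [hH0])
  let s' := ι₁ ≫ H'
  have hs' : s' ≫ p = 𝟙 S := by rw [Category.assoc, hH', hH1]
  have hss' : HR s s' := ⟨H', hH'0, rfl⟩
  have h3 : HR (𝟙 E) (p ≫ s') := h1.symm.trans (hss'.precomp p)
  obtain ⟨G, hG0, hG1⟩ := h3
  obtain ⟨b, hb0, hb1, hb2⟩ := exists_degenerate_triangle (G ≫ p)
  obtain ⟨φ, hφ0, hφ1, hφ⟩ := tri₂ p b (G ≫ p ≫ s') G (by simp [hb0, hs']) (by simp [hb1]) (by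
    rw [reassoc_of% hG1, hG1, reassoc_of% hs'])
  refine trivFib_of_vertical_homotopy p s' hs' (E ◁ stdSimplex.δ 2 ≫ φ) ?_ ?_ ?_
  · rw [← Category.assoc, ι₀_δ_two, Category.assoc, hφ1, hG0]
  · rw [← Category.assoc, ι₁_δ_two, Category.assoc, hφ0, reassoc_of% hG0]
  · rw [Category.assoc, hφ, hb2, reassoc_of% hG0]

/-! ### Products -/

lemma HR_iff_curry {f g : K ⊗ X ⟶ Z} :
    HR f g ↔ HR (MonoidalClosed.curry f) (MonoidalClosed.curry g) := by
  constructor
  · rintro ⟨H, rfl, rfl⟩
    refine ⟨MonoidalClosed.curry ((α_ K X Δ[1]).inv ≫ H), ?_, ?_⟩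
    · rw [← MonoidalClosed.curry_natural_left]
      rfl
    · rw [← MonoidalClosed.curry_natural_left]
      rfl
  · rintro ⟨H, h0, h1⟩
    refine ⟨(α_ K X Δ[1]).hom ≫ MonoidalClosed.uncurry H, ?_, ?_⟩
    · have : K ◁ ι₀ ≫ MonoidalClosed.uncurry H = f := by
        rw [← MonoidalClosed.uncurry_natural_left, h0, MonoidalClosed.uncurry_curry]
      rw [← this]
      rfl
    · have : K ◁ ι₁ ≫ MonoidalClosed.uncurry H = g := by
        rw [← MonoidalClosed.uncurry_natural_left, h1, MonoidalClosed.uncurry_curry]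
      rw [← this]
      rfl

lemma weq.whiskerLeft {f : X ⟶ Y} (hf : weq f) (K : SSet.{u}) : weq (K ◁ f) := by
  rw [weq_iff] at hf ⊢
  intro Z _
  obtain ⟨h1, h2⟩ := hf ((ihom K).obj Z)
  constructor
  · intro g
    obtain ⟨h, hh⟩ := h1 (MonoidalClosed.curry g)
    refine ⟨MonoidalClosed.uncurry h, ?_⟩
    rw [HR_iff_curry, MonoidalClosed.curry_natural_left, MonoidalClosed.curry_uncurry]
    exact hh
  · intro a b hab
    rw [HR_iff_curry, MonoidalClosed.curry_natural_left, MonoidalClosed.curry_natural_left] at hab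
    rw [HR_iff_curry]
    exact h2 _ _ hab

lemma weq.whiskerRight {f : X ⟶ Y} (hf : weq f) (K : SSet.{u}) : weq (f ▷ K) := by
  have h : f ▷ K = (β_ X K).hom ≫ K ◁ f ≫ (β_ K Y).hom := by simp
  rw [h]
  exact weq.comp_mem _ _ (weq_of_isIso _) (weq.comp_mem _ _ (hf.whiskerLeft K) (weq_of_isIso _))

/-- For a monomorphism `j` that is a weak equivalence, restriction of maps to a Kan complex
is a trivial fibration. -/
lemma trivFib_pre_of_weq (j : A ⟶ B) [Mono j] (hj : weq j) (Z : SSet.{u}) [KanComplex Z] :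
    I.rlp ((MonoidalClosed.pre j).app Z) := by
  apply trivFib_of_fibration_weq
  -- it is a homotopy equivalence
  have key : ∀ K : SSet.{u}, (∀ g : K ⟶ (ihom A).obj Z, ∃ h : K ⟶ (ihom B).obj Z,
      HR (h ≫ (MonoidalClosed.pre j).app Z) g) ∧
      (∀ h h' : K ⟶ (ihom B).obj Z, HR (h ≫ (MonoidalClosed.pre j).app Z)
        (h' ≫ (MonoidalClosed.pre j).app Z) → HR h h') := by
    intro K
    have hjK := hj.whiskerRight K
    rw [weq_iff] at hjK
    obtain ⟨h1, h2⟩ := hjK Z
    constructor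
    · intro g
      obtain ⟨h, hh⟩ := h1 (MonoidalClosed.uncurry g)
      refine ⟨MonoidalClosed.curry h, ?_⟩
      rw [HR_iff_curry] at hh
      rwa [← MonoidalClosed.curry_pre_app, MonoidalClosed.curry_uncurry] at hh
    · intro a b hab
      have := h2 (MonoidalClosed.uncurry a) (MonoidalClosed.uncurry b) (by
        rw [HR_iff_curry]
        rwa [← MonoidalClosed.curry_pre_app, ← MonoidalClosed.curry_pre_app,
          MonoidalClosed.curry_uncurry, MonoidalClosed.curry_uncurry])
      rwa [HR_iff_curry, MonoidalClosed.curry_uncurry, MonoidalClosed.curry_uncurry] at this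
  obtain ⟨s, hs⟩ := (key _).1 (𝟙 _)
  refine weq_of_homotopyEquiv _ s ?_ hs.he
  refine ((key _).2 _ _ ?_).he
  have := hs.precomp ((MonoidalClosed.pre j).app Z)
  simpa using this

/-! ### Trivial cofibrations -/

/-- A class of fibrations between Kan complexes detecting trivial cofibrations. -/
inductive TT : MorphismProperty SSet.{u} where
  | mk (n : ℕ) (Z : SSet.{u}) [KanComplex Z] : TT ((MonoidalClosed.pre ∂Δ[n].ι).app Z)

lemma trivFib_pre_of_llp {j : A ⟶ B} (hj : TT.llp j) (Z : SSet.{u}) [KanComplex Z] :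
    I.rlp ((MonoidalClosed.pre j).app Z) := by
  rintro _ _ _ ⟨n⟩
  rw [lift_pre_iff]
  exact hj _ (TT.mk n Z)

lemma weq_of_llp {j : A ⟶ B} (hj : TT.llp j) : weq j := fun Z _ =>
  mapπ₀_bijective_of_trivFib _ (trivFib_pre_of_llp hj Z)

lemma llp_of_weq (j : A ⟶ B) [Mono j] (hj : weq j) : TT.llp j := by
  rintro _ _ _ ⟨n, Z⟩
  rw [lift_pre_iff]
  exact trivFib_pre_of_weq j hj Z _ (boundary_ι_mem_I n)

/-- Trivial cofibrations: monomorphisms which are weak equivalences. -/
def tcof : MorphismProperty SSet.{u} := MorphismProperty.monomorphisms _ ⊓ weq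

lemma tcof_eq : tcof.{u} = MorphismProperty.monomorphisms _ ⊓ TT.llp := by
  ext A B j
  constructor
  · rintro ⟨h1, h2⟩
    have : Mono j := h1
    exact ⟨h1, llp_of_weq j h2⟩
  · rintro ⟨h1, h2⟩
    exact ⟨h1, weq_of_llp h2⟩

lemma tcof.mono {j : A ⟶ B} (hj : tcof j) : Mono j := hj.1
lemma tcof.weq {j : A ⟶ B} (hj : tcof j) : weq j := hj.2

instance : tcof.{u}.IsStableUnderCobaseChange := by rw [tcof_eq]; infer_instance
instance : tcof.{u}.IsStableUnderRetracts := by rw [tcof_eq]; infer_instance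
instance : tcof.{u}.IsMultiplicative := by rw [tcof_eq]; infer_instance
instance : tcof.{u}.RespectsIso := by rw [tcof_eq]; infer_instance

instance : MorphismProperty.IsStableUnderCoproducts.{u} tcof.{u} where
  isStableUnderCoproductsOfShape J := by
    rw [tcof_eq]
    exact ⟨fun X₁ X₂ c₁ c₂ h₁ h₂ f hf φ hφ =>
      ⟨MorphismProperty.IsStableUnderColimitsOfShape.condition X₁ X₂ c₁ c₂ h₁ h₂ f
        (fun j => (hf j).1) φ hφ,
       MorphismProperty.IsStableUnderColimitsOfShape.condition X₁ X₂ c₁ c₂ h₁ h₂ f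
        (fun j => (hf j).2) φ hφ⟩⟩

instance : MorphismProperty.IsStableUnderTransfiniteComposition.{u} tcof.{u} where
  isStableUnderTransfiniteCompositionOfShape J _ _ _ _ := ⟨by
    rw [tcof_eq]
    refine le_inf ?_ ?_
    · exact (MorphismProperty.transfiniteCompositionsOfShape_monotone J inf_le_left).trans
        (MorphismProperty.transfiniteCompositionsOfShape_le _ _)
    · exact (MorphismProperty.transfiniteCompositionsOfShape_monotone J inf_le_right).trans
        (MorphismProperty.transfiniteCompositionsOfShape_le _ _)⟩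

lemma mono_of_anodyne (j : A ⟶ B) (hj : anodyneExtensions j) : Mono j := by
  have : anodyneExtensions.{u} ≤ MorphismProperty.monomorphisms SSet.{u} := by
    rw [anodyneExtensions_eq_retracts_transfiniteCompositions]
    refine (MorphismProperty.retracts_monotone ?_).trans
      (MorphismProperty.retracts_le (MorphismProperty.monomorphisms SSet.{u}))
    refine le_trans ?_ (MorphismProperty.transfiniteCompositions_le.{u}
      (MorphismProperty.monomorphisms SSet.{u}))
    apply MorphismProperty.transfiniteCompositions_monotone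
    rw [MorphismProperty.pushouts_le_iff]
    refine le_trans ?_ (MorphismProperty.coproducts_le.{u}
      (MorphismProperty.monomorphisms SSet.{u}))
    exact MorphismProperty.coproducts_monotone J_le_monomorphisms
  exact this _ hj

lemma anodyne_le_tcof : anodyneExtensions.{u} ≤ tcof := fun _ _ j hj =>
  ⟨mono_of_anodyne j hj, weq_of_anodyne j hj⟩

/-! ### Lifting of trivial cofibrations against fibrations between Kan complexes -/

lemma fibration_of_trivFib (p : E ⟶ S) (hp : I.rlp p) : Fibration p := by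
  rw [HomotopicalAlgebra.fibration_iff, fibrations_eq]
  rw [← rlp_monomorphisms] at hp
  exact fun _ _ i hi => hp i (J_le_monomorphisms _ hi)

lemma hasLiftingProperty_of_tcof (j : A ⟶ B) (hj : tcof j) (p : E ⟶ S) [Fibration p]
    [KanComplex E] [KanComplex S] : HasLiftingProperty j p := by
  have := hj.mono
  let sq := Functor.PullbackObjObj.ofHasPullback MonoidalClosed.internalHom j p
  have hπ : Fibration sq.π := fibration_pullbackObjObjπ sq
  have h1 : I.rlp sq.fst := by
    refine MorphismProperty.of_isPullback sq.isPullback.flip ?_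
    exact trivFib_pre_of_weq j hj.weq S
  have h2 : I.rlp ((MonoidalClosed.pre j).app E) := trivFib_pre_of_weq j hj.weq E
  have h3 : weq sq.π := by
    refine weq.of_postcomp _ _ (weq_of_trivFib _ h1) ?_
    rw [sq.π_fst]
    exact weq_of_trivFib _ h2
  have hf : Fibration sq.fst := fibration_of_trivFib _ h1
  have : KanComplex ((MonoidalClosed.internalHom.obj (.op A)).obj E) :=
    inferInstanceAs (KanComplex ((ihom A).obj E))
  have : KanComplex sq.pt := isFibrant_of_fibration sq.fst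
  have : KanComplex ((MonoidalClosed.internalHom.obj (.op B)).obj E) :=
    inferInstanceAs (KanComplex ((ihom B).obj E))
  have h4 : I.rlp sq.π := trivFib_of_fibration_weq sq.π h3
  rw [← rlp_monomorphisms] at h4
  let sq' := Functor.PushoutObjObj.ofIsInitialRight (curriedTensor SSet.{u}) j
    (initial.to (𝟙_ SSet.{u})) initialIsInitial
  have h5 := (MonoidalClosed.internalHomAdjunction₂.hasLiftingProperty_iff sq' sq).2
    (h4 _ (.infer_property _))
  refine (HasLiftingProperty.iff_of_arrow_iso_left (?_ : Arrow.mk sq'.ι ≅ Arrow.mk j) p).1 h5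
  exact Arrow.isoMk (ρ_ _) (ρ_ _) (rightUnitor_naturality j).symm

end Vale.Agent.P213.SS
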