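import Mathlib
import Vale.Agent.Lib.P213.SSTriv

/-!
# Left properness and the gluing lemma
-/

open CategoryTheory MonoidalCategory CartesianMonoidalCategory Simplicial HomotopicalAlgebra Limits
open SSet SSet.modelCategoryQuillen MorphismProperty

universe u

namespace Vale.Agent.P213.SS

variable {A B C D E S X Y Z K L P : SSet.{u}}

/-! ### Factorizations -/

attribute [local instance] Cardinal.fact_isRegular_aleph0
  Cardinal.orderBotAleph0OrdToType

instance : MorphismProperty.IsSmall.{u} I.{u} :=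
  isSmall_ofHoms ..

instance : IsCardinalForSmallObjectArgument I.{u} Cardinal.aleph0.{u} where
  preservesColimit {A B X Y} i hi f hf := by
    have : IsFinitelyPresentable.{u} A := by
      obtain ⟨n⟩ := hi
      infer_instance
    infer_instance

instance : HasSmallObjectArgument.{u} I.{u} :=
  ⟨.aleph0, inferInstance, inferInstance, inferInstance⟩

lemma mono_of_llp_rlp (j : A ⟶ B) (hj : I.rlp.llp j) : Mono j := by
  have : I.rlp.llp ≤ monomorphisms SSet.{u} := by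
    rw [llp_rlp_of_hasSmallObjectArgument]
    refine (retracts_monotone ?_).trans (retracts_le (monomorphisms SSet.{u}))
    refine le_trans ?_ (transfiniteCompositions_le.{u} (monomorphisms SSet.{u}))
    apply transfiniteCompositions_monotone
    rw [pushouts_le_iff]
    refine le_trans ?_ (coproducts_le.{u} (monomorphisms SSet.{u}))
    exact coproducts_monotone I_le_monomorphisms
  exact this _ hj

lemma llp_rlp_I : I.{u}.rlp.llp = monomorphisms SSet.{u} := by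
  apply le_antisymm
  · intro _ _ j hj
    exact mono_of_llp_rlp j hj
  · rw [← rlp_monomorphisms]
    exact le_llp_rlp _

/-- Any map factors as a monomorphism followed by a trivial fibration. -/
lemma exists_factorization (f : X ⟶ Y) :
    ∃ (Z : SSet.{u}) (i : X ⟶ Z) (p : Z ⟶ Y), Mono i ∧ I.rlp p ∧ i ≫ p = f := by
  let h := factorizationData I.{u}.rlp.llp I.{u}.rlp f
  exact ⟨h.Z, h.i, h.p, mono_of_llp_rlp _ h.hi, h.hp, h.fac⟩

/-- Any map factors as an anodyne extension followed by a Kan fibration. -/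
lemma exists_factorization' (f : X ⟶ Y) :
    ∃ (Z : SSet.{u}) (i : X ⟶ Z) (p : Z ⟶ Y), anodyneExtensions i ∧ Fibration p ∧ i ≫ p = f := by
  let h := factorizationData J.{u}.rlp.llp J.{u}.rlp f
  exact ⟨h.Z, h.i, h.p, h.hi, (HomotopicalAlgebra.fibration_iff _).2 h.hp, h.fac⟩

/-! ### Homotopies of function complexes -/

/-- The map `A × (W × Δ[1]) ⟶ (A × Δ[1]) × W`. -/
noncomputable def shuf (A W : SSet.{u}) : A ⊗ (W ⊗ Δ[1]) ⟶ (A ⊗ Δ[1]) ⊗ W :=
  lift (lift (fst _ _) (snd _ _ ≫ snd _ _)) (snd _ _ ≫ fst _ _)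

/-- The homotopy of function complexes induced by a homotopy. -/
noncomputable def hmt (w : A ⊗ Δ[1] ⟶ C) (Z : SSet.{u}) :
    (ihom C).obj Z ⊗ Δ[1] ⟶ (ihom A).obj Z :=
  MonoidalClosed.curry (shuf A _ ≫ w ▷ _ ≫ (ihom.ev C).app Z)

lemma curry_whiskerRight_ev (v : A ⟶ C) (Z : SSet.{u}) :
    MonoidalClosed.curry (v ▷ _ ≫ (ihom.ev C).app Z) = (MonoidalClosed.pre v).app Z := by
  rw [← MonoidalClosed.curry_pre_app, ← MonoidalClosed.uncurry_id_eq_ev,
    MonoidalClosed.curry_uncurry, Category.id_comp]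
  rfl

lemma ι₀_hmt (w : A ⊗ Δ[1] ⟶ C) (Z : SSet.{u}) :
    ι₀ ≫ hmt w Z = (MonoidalClosed.pre (ι₀ ≫ w)).app Z := by
  rw [hmt, ← MonoidalClosed.curry_natural_left, ← curry_whiskerRight_ev]
  congr 1

lemma ι₁_hmt (w : A ⊗ Δ[1] ⟶ C) (Z : SSet.{u}) :
    ι₁ ≫ hmt w Z = (MonoidalClosed.pre (ι₁ ≫ w)).app Z := by
  rw [hmt, ← MonoidalClosed.curry_natural_left, ← curry_whiskerRight_ev]
  congr 1

lemma pre_hmt (w : A ⊗ Δ[1] ⟶ C) (f : C ⟶ D) (Z : SSet.{u}) :
    (MonoidalClosed.pre f).app Z ▷ Δ[1] ≫ hmt w Z = hmt (w ≫ f) Z := by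
  rw [hmt, hmt, ← MonoidalClosed.curry_natural_left]
  congr 1

lemma hmt_const (f : A ⟶ D) (Z : SSet.{u}) :
    hmt (fst _ _ ≫ f) Z = fst _ _ ≫ (MonoidalClosed.pre f).app Z := by
  rw [hmt, ← curry_whiskerRight_ev, ← MonoidalClosed.curry_natural_left]
  congr 1

/-- Strong deformation retracts pull back along Kan fibrations. -/
lemma sdr_pullback {E₀ B₀ : SSet.{u}} {j : E₀ ⟶ E} {q : E₀ ⟶ B₀} {π : E ⟶ B} {i₀ : B₀ ⟶ B}
    (sq : IsPullback j q π i₀) [Fibration π] (r : B ⟶ B₀) (hr : i₀ ≫ r = 𝟙 _)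
    (h : B ⊗ Δ[1] ⟶ B) (h0 : ι₀ ≫ h = 𝟙 B) (h1 : ι₁ ≫ h = r ≫ i₀)
    (hrel : i₀ ▷ _ ≫ h = fst _ _ ≫ i₀) :
    ∃ ρ : E ⟶ E₀, j ≫ ρ = 𝟙 _ ∧ ∃ H : E ⊗ Δ[1] ⟶ E, ι₀ ≫ H = 𝟙 E ∧ ι₁ ≫ H = ρ ≫ j := by
  have : Mono i₀ := mono_of_mono_fac hr
  have : Mono j := MorphismProperty.of_isPullback (P := monomorphisms _) sq.flip ‹Mono i₀›
  obtain ⟨L, h0', h1', h2'⟩ := rhlp₀ j π (π ▷ _ ≫ h) (𝟙 E) (by simp [h0]) (fst _ _ ≫ j) (by
    rw [← comp_whiskerRight_assoc, sq.w, comp_whiskerRight_assoc, hrel]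
    simp [sq.w]) (by simp)
  let ρ := sq.lift (ι₁ ≫ L) (π ≫ r) (by simp [h2', h1])
  have hρ : ρ ≫ j = ι₁ ≫ L := sq.lift_fst _ _ _
  refine ⟨ρ, ?_, L, h0', hρ.symm⟩
  rw [← cancel_mono j, Category.assoc, hρ, Category.id_comp, ← ι₁_comp_assoc, h1', ι₁_fst_assoc]

lemma mapπ₀_bijective_of_sdr {E₀ : SSet.{u}} (j : E₀ ⟶ E) (ρ : E ⟶ E₀) (hρ : j ≫ ρ = 𝟙 _)
    (H : E ⊗ Δ[1] ⟶ E) (h0 : ι₀ ≫ H = 𝟙 E) (h1 : ι₁ ≫ H = ρ ≫ j) :
    Function.Bijective (mapπ₀ j) := by
  have e1 := mapπ₀_eq_of_HR (f := 𝟙 E) (g := ρ ≫ j) ⟨H, h0, h1⟩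
  constructor
  · intro x y hxy
    have := congrArg (mapπ₀ ρ) hxy
    rw [← mapπ₀_comp_apply, ← mapπ₀_comp_apply, hρ] at this
    simpa using this
  · intro x
    refine ⟨mapπ₀ ρ x, ?_⟩
    rw [← mapπ₀_comp_apply, ← e1, mapπ₀_id_apply]

/-! ### Left properness -/

lemma isPullback_pre {i : A ⟶ X} {f : A ⟶ Y} {inl : X ⟶ P} {inr : Y ⟶ P}
    (sq : IsPushout i f inl inr) (Z : SSet.{u}) :
    IsPullback ((MonoidalClosed.pre inl).app Z) ((MonoidalClosed.pre inr).app Z)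
      ((MonoidalClosed.pre i).app Z) ((MonoidalClosed.pre f).app Z) := by
  have := sq.op.map (MonoidalClosed.internalHom.flip.obj Z)
  exact this.flip

lemma weq_inl_of_trivFib {i : A ⟶ X} {f : A ⟶ Y} {inl : X ⟶ P} {inr : Y ⟶ P}
    (sq : IsPushout i f inl inr) [Mono i] (hf : I.rlp f) : weq inl := by
  intro Z _
  obtain ⟨s, hs, w, h0, h1, hw⟩ := trivFib_homotopyEquiv f hf
  obtain ⟨ρ, hρ, H, hH0, hH1⟩ := sdr_pullback (isPullback_pre sq Z)
    ((MonoidalClosed.pre s).app Z) (by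
      rw [← NatTrans.comp_app, ← MonoidalClosed.pre_map, hs, MonoidalClosed.pre_id]
      rfl) (hmt w Z) (by
      rw [ι₀_hmt, h0, MonoidalClosed.pre_id]
      rfl) (by
      rw [ι₁_hmt, h1, MonoidalClosed.pre_map]
      rfl) (by
      rw [pre_hmt, hw, hmt_const])
  exact mapπ₀_bijective_of_sdr _ ρ hρ H hH0 hH1

/-- Left properness. -/
lemma weq_inl {i : A ⟶ X} {f : A ⟶ Y} {inl : X ⟶ P} {inr : Y ⟶ P}
    (sq : IsPushout i f inl inr) [Mono i] (hf : weq f) : weq inl := by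
  obtain ⟨A', j, p, hj, hp, rfl⟩ := exists_factorization f
  have hj' : tcof j := ⟨hj, weq.of_postcomp _ _ (weq_of_trivFib p hp) hf⟩
  have sq1 := IsPushout.of_hasPushout i j
  have h1 : tcof (pushout.inl i j) := tcof.of_isPushout sq1 hj'
  have : Mono (pushout.inr i j) := (monomorphisms _).of_isPushout sq1.flip ‹Mono i›
  let m : pushout i j ⟶ P := pushout.desc inl (p ≫ inr) (by simpa using sq.w)
  have hm1 : pushout.inl i j ≫ m = inl := pushout.inl_desc _ _ _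
  have hm2 : pushout.inr i j ≫ m = p ≫ inr := pushout.inr_desc _ _ _
  have sq2 : IsPushout (pushout.inr i j) p m inr :=
    IsPushout.of_top (by rw [hm1]; exact sq) hm2 sq1
  have h2 : weq m := weq_inl_of_trivFib sq2 hp
  rw [← hm1]
  exact weq.comp_mem _ _ h1.weq h2

lemma gluing_aux {X' Q P' : SSet.{u}} {k : A ⟶ X} {k' : A ⟶ X'} [Mono k] [Mono k']
    (r : X ⟶ X') (hr : k ≫ r = k') (hw : weq r) {f : A ⟶ Y} {inl : X ⟶ Q} {inr : Y ⟶ Q}
    (sq : IsPushout k f inl inr) {inl' : X' ⟶ P'} {inr' : Y ⟶ P'}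
    (sq' : IsPushout k' f inl' inr') (q : Q ⟶ P') (h1 : inl ≫ q = r ≫ inl')
    (h2 : inr ≫ q = inr') : weq q := by
  obtain ⟨Y₁, j, p, hj, hp, rfl⟩ := exists_factorization f
  have sq1 := IsPushout.of_hasPushout k j
  have sq1' := IsPushout.of_hasPushout k' j
  have : Mono (pushout.inr k j) := (monomorphisms _).of_isPushout sq1.flip ‹Mono k›
  have : Mono (pushout.inr k' j) := (monomorphisms _).of_isPushout sq1'.flip ‹Mono k'›
  have : Mono (pushout.inl k j) := (monomorphisms _).of_isPushout sq1 hj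
  let m : pushout k j ⟶ Q := pushout.desc inl (p ≫ inr) (by simpa using sq.w)
  have hm1 : pushout.inl k j ≫ m = inl := pushout.inl_desc _ _ _
  have hm2 : pushout.inr k j ≫ m = p ≫ inr := pushout.inr_desc _ _ _
  have hm : weq m := weq_inl_of_trivFib (IsPushout.of_top (by rw [hm1]; exact sq) hm2 sq1) hp
  let m' : pushout k' j ⟶ P' := pushout.desc inl' (p ≫ inr') (by simpa using sq'.w)
  have hm1' : pushout.inl k' j ≫ m' = inl' := pushout.inl_desc _ _ _
  have hm2' : pushout.inr k' j ≫ m' = p ≫ inr' := pushout.inr_desc _ _ _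
  have hm' : weq m' := weq_inl_of_trivFib (IsPushout.of_top (by rw [hm1']; exact sq') hm2' sq1') hp
  let n : pushout k j ⟶ pushout k' j := pushout.desc (r ≫ pushout.inl k' j) (pushout.inr k' j)
    (by rw [reassoc_of% hr, pushout.condition])
  have hn1 : pushout.inl k j ≫ n = r ≫ pushout.inl k' j := pushout.inl_desc _ _ _
  have hn2 : pushout.inr k j ≫ n = pushout.inr k' j := pushout.inr_desc _ _ _
  have sqn : IsPushout (pushout.inl k j) r n (pushout.inl k' j) := by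
    refine (IsPushout.of_left (h₁₁ := k) (v₁₁ := j) (h₂₁ := pushout.inr k j) ?_ hn1.symm
      sq1).flip
    rw [hn2, hr]
    exact sq1'
  have hn : weq n := weq_inl sqn hw
  have hcomm : m ≫ q = n ≫ m' := by
    apply pushout.hom_ext
    · rw [reassoc_of% hm1, reassoc_of% hn1, hm1', h1]
    · rw [reassoc_of% hm2, reassoc_of% hn2, hm2', h2]
  refine weq.of_precomp m q hm ?_
  rw [hcomm]
  exact weq.comp_mem _ _ hn hm'

/-- The gluing lemma. -/
theorem gluing {A' X' Y' P' : SSet.{u}} {i : A ⟶ X} {f : A ⟶ Y} {inl : X ⟶ P} {inr : Y ⟶ P}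
    (sq : IsPushout i f inl inr) {i' : A' ⟶ X'} {f' : A' ⟶ Y'} {inl' : X' ⟶ P'} {inr' : Y' ⟶ P'}
    (sq' : IsPushout i' f' inl' inr') [Mono i] [Mono i'] (a : A ⟶ A') (x : X ⟶ X') (y : Y ⟶ Y')
    (p : P ⟶ P') (hi : i ≫ x = a ≫ i') (hf : f ≫ y = a ≫ f') (hx : inl ≫ p = x ≫ inl')
    (hy : inr ≫ p = y ≫ inr') (wa : weq a) (wx : weq x) (wy : weq y) : weq p := by
  -- first step
  have sq1 := IsPushout.of_hasPushout i (f ≫ y)
  let u : P ⟶ pushout i (f ≫ y) := sq.desc (pushout.inl _ _) (y ≫ pushout.inr _ _)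
    (by rw [sq1.w, Category.assoc])
  have hu1 : inl ≫ u = pushout.inl _ _ := sq.inl_desc _ _ _
  have hu2 : inr ≫ u = y ≫ pushout.inr _ _ := sq.inr_desc _ _ _
  have hinr : Mono inr := (monomorphisms _).of_isPushout sq.flip ‹Mono i›
  have hu : weq u := weq_inl (IsPushout.of_top (by rw [hu1]; exact sq1) hu2 sq) wy
  -- second step
  have sq2 := IsPushout.of_hasPushout i a
  have hR : weq (pushout.inl i a) := weq_inl sq2 wa
  have : Mono (pushout.inr i a) := (monomorphisms _).of_isPushout sq2.flip ‹Mono i›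
  let r : pushout i a ⟶ X' := pushout.desc x i' hi
  have hr1 : pushout.inl i a ≫ r = x := pushout.inl_desc _ _ _
  have hr2 : pushout.inr i a ≫ r = i' := pushout.inr_desc _ _ _
  have hr : weq r := weq.of_precomp _ _ hR (by rw [hr1]; exact wx)
  let v : pushout i a ⟶ pushout i (f ≫ y) := pushout.desc (pushout.inl _ _)
    (f' ≫ pushout.inr _ _) (by rw [sq1.w, Category.assoc, reassoc_of% hf])
  have hv1 : pushout.inl i a ≫ v = pushout.inl _ _ := pushout.inl_desc _ _ _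
  have hv2 : pushout.inr i a ≫ v = f' ≫ pushout.inr _ _ := pushout.inr_desc _ _ _
  have sq3 : IsPushout (pushout.inr i a) f' v (pushout.inr i (f ≫ y)) := by
    refine IsPushout.of_top ?_ hv2 sq2
    rw [hv1, ← hf]
    exact sq1
  let q : pushout i (f ≫ y) ⟶ P' := pushout.desc (x ≫ inl') inr' (by
    rw [reassoc_of% hi, sq'.w, hf, Category.assoc])
  have hq1 : pushout.inl i (f ≫ y) ≫ q = x ≫ inl' := pushout.inl_desc _ _ _
  have hq2 : pushout.inr i (f ≫ y) ≫ q = inr' := pushout.inr_desc _ _ _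
  have hvq : v ≫ q = r ≫ inl' := by
    apply pushout.hom_ext
    · rw [reassoc_of% hv1, hq1, reassoc_of% hr1]
    · rw [reassoc_of% hv2, hq2, reassoc_of% hr2, sq'.w]
  have hqw : weq q := gluing_aux r hr2 hr sq3 sq' q hvq hq2
  have : p = u ≫ q := by
    apply sq.hom_ext
    · rw [reassoc_of% hu1, hq1, hx]
    · rw [reassoc_of% hu2, hq2, hy]
  rw [this]
  exact weq.comp_mem _ _ hu hqw

end Vale.Agent.P213.SS
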