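import Vale.Agent.Lib.P213.SSGlueEx

/-!
# `ex` preserves Kan fibrations; horns in `ex X` have fillers in `ex (ex X)`
-/

open CategoryTheory MonoidalCategory CartesianMonoidalCategory Simplicial HomotopicalAlgebra Limits
open SSet SSet.modelCategoryQuillen Opposite

universe u

namespace Vale.Agent.P213.SS

/-- constructor for `Ch n` from a predicate -/
noncomputable def chOf {n : ℕ} (p : Fin (n + 1) → Prop) (h : ∃ v, p v) : Ch.{u} n := by
  classical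
  exact chMk (Finset.univ.filter (fun v => p v.down)) (by
    obtain ⟨v, hv⟩ := h
    exact ⟨⟨v⟩, Finset.mem_filter.2 ⟨Finset.mem_univ _, hv⟩⟩)

lemma mem_chOf {n : ℕ} {p : Fin (n + 1) → Prop} {h : ∃ v, p v} {x : ULift.{u} (Fin (n + 1))} :
    x ∈ (chOf.{u} p h).finset ↔ p x.down := by
  classical
  have : x ∈ (chOf.{u} p h).finset ↔ x ∈ Finset.univ.filter
    (fun v : ULift.{u} (Fin (n + 1)) => p v.down) := Iff.rfl
  rw [this, Finset.mem_filter]
  simp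

/-- the faces of the horn -/
def HornF (n : ℕ) (k : Fin (n + 1)) : Set (Ch.{u} n) := {c | ∃ j, j ≠ k ∧ ULift.up j ∉ c.finset}

lemma faces_horn (n : ℕ) (k : Fin (n + 1)) : Faces (Λ[n, k] : (Δ[n] : SSet.{u}).Subcomplex)
    (HornF n k) := by
  refine ⟨?_, ?_⟩
  · rintro c c' h ⟨j, hj, hj'⟩
    exact ⟨j, hj, fun h' => hj' (h h')⟩
  · intro m σ
    rw [mem_horn_iff]
    constructor
    · intro h
      rw [Set.ne_univ_iff_exists_notMem] at h
      obtain ⟨j, hj⟩ := h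
      rw [Set.mem_union, not_or, Set.mem_singleton_iff] at hj
      refine ⟨j, hj.2, ?_⟩
      rw [mem_chMap]
      rintro ⟨x, -, hx⟩
      exact hj.1 ⟨x.down, hx⟩
    · rintro ⟨j, hj, hj'⟩
      rw [Set.ne_univ_iff_exists_notMem]
      refine ⟨j, ?_⟩
      rw [Set.mem_union, not_or, Set.mem_singleton_iff]
      refine ⟨?_, hj⟩
      rintro ⟨x, hx⟩
      apply hj'
      rw [mem_chMap]
      exact ⟨⟨x⟩, mem_chTop _, hx⟩

/-- the inclusion of the faces of the horn -/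
def hornIncl (n : ℕ) (k : Fin (n + 1)) : HornF.{u} n k →o Ch.{u} n := ⟨fun c => c.1, fun _ _ h => h⟩

/-- adding the vertex `k` -/
noncomputable def chIns {n : ℕ} (k : Fin (n + 1)) : Ch.{u} n →o Ch.{u} n where
  toFun c := chOf (fun v => ULift.up v ∈ c.finset ∨ v = k) ⟨k, Or.inr rfl⟩
  monotone' c c' h x hx := by
    rw [mem_chOf] at hx ⊢
    exact hx.imp (fun h' => h h') id

lemma mem_chIns {n : ℕ} (k : Fin (n + 1)) (c : Ch.{u} n) (x : ULift.{u} (Fin (n + 1))) :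
    x ∈ (chIns k c).finset ↔ x ∈ c.finset ∨ x.down = k := mem_chOf

/-- the faces containing `k` -/
abbrev QB (n : ℕ) (k : Fin (n + 1)) : Type u := {c : Ch.{u} n // ULift.up k ∈ c.finset}

/-- the faces of the horn containing `k` -/
abbrev QA (n : ℕ) (k : Fin (n + 1)) : Type u := {c : HornF.{u} n k // ULift.up k ∈ c.1.finset}

/-- the inclusion -/
def qIncl (n : ℕ) (k : Fin (n + 1)) : QA.{u} n k →o QB.{u} n k :=
  ⟨fun c => ⟨c.1.1, c.2⟩, fun _ _ h => h⟩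

/-- the vertex `k` -/
noncomputable def chVert {n : ℕ} (k : Fin (n + 1)) : Ch.{u} n := chOf (fun v => v = k) ⟨k, rfl⟩

lemma mem_chVert {n : ℕ} (k : Fin (n + 1)) (x : ULift.{u} (Fin (n + 1))) :
    x ∈ (chVert k).finset ↔ x.down = k := mem_chOf

lemma exists_ne_fin {n : ℕ} (k : Fin (n + 2)) : ∃ j, j ≠ k := exists_ne k

lemma anodyne_qIncl (n : ℕ) (k : Fin (n + 2)) : anodyneExtensions (nm (qIncl.{u} (n + 1) k)) := by
  have hv : chVert.{u} k ∈ HornF.{u} (n + 1) k := by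
    obtain ⟨j, hj⟩ := exists_ne_fin k
    exact ⟨j, hj, fun h => hj ((mem_chVert _ _).1 h)⟩
  have hv' : ULift.up k ∈ (chVert.{u} k).finset := (mem_chVert _ _).2 rfl
  have hle : ∀ c : Ch.{u} (n + 1), ULift.up k ∈ c.finset → chVert k ≤ c := by
    intro c hc x hx
    rw [mem_chVert] at hx
    have : x = ULift.up k := ULift.ext _ _ hx
    rwa [this]
  refine anodyne_nm_of_ge (qIncl (n + 1) k) ?_ (OrderHom.id : PUnit.{u + 1} →o PUnit.{u + 1}) ?_
    ⟨fun _ => ⟨⟨chVert k, hv⟩, hv'⟩, fun _ _ _ => le_rfl⟩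
    ⟨fun _ => ⟨chVert k, hv'⟩, fun _ _ _ => le_rfl⟩
    ⟨fun _ => PUnit.unit, fun _ _ _ => le_rfl⟩ ⟨fun _ => PUnit.unit, fun _ _ _ => le_rfl⟩
    (fun _ => rfl) (fun _ => rfl) ?_ ?_
  · intro c c' h
    have h' : c.1.1 = c'.1.1 := congrArg (fun z : QB.{u} (n + 1) k => z.1) h
    exact Subtype.ext (Subtype.ext h')
  · exact anodyneExtensions.of_isIso (𝟙 (nerve PUnit.{u + 1}))
  · intro c
    exact hle c.1.1 c.2
  · intro c
    exact hle c.1 c.2

lemma anodyne_hornIncl (n : ℕ) (k : Fin (n + 2)) :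
    anodyneExtensions (nm (hornIncl.{u} (n + 1) k)) := by
  have hk : ∀ c : Ch.{u} (n + 1), ULift.up k ∈ (chIns k c).finset := fun c =>
    (mem_chIns _ _ _).2 (Or.inr rfl)
  refine anodyne_nm_of_le (hornIncl (n + 1) k) Subtype.val_injective (qIncl (n + 1) k)
    (anodyne_qIncl n k) ⟨fun c => c.1, fun _ _ h => h⟩ ⟨fun c => c.1, fun _ _ h => h⟩
    ⟨fun c => ⟨⟨chIns k c.1, ?_⟩, hk _⟩, fun _ _ h => (chIns k).monotone h⟩
    ⟨fun c => ⟨chIns k c, hk _⟩, fun _ _ h => (chIns k).monotone h⟩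
    (fun _ => rfl) (fun _ => rfl) ?_ ?_
  · obtain ⟨j, hj, hj'⟩ := c.2
    refine ⟨j, hj, ?_⟩
    rw [mem_chIns, not_or]
    exact ⟨hj', hj⟩
  · intro c x hx
    exact (mem_chIns _ _ _).2 (Or.inl hx)
  · intro c x hx
    exact (mem_chIns _ _ _).2 (Or.inl hx)

variable {X E S : SSet.{u}}

lemma toN_hornIncl {n : ℕ} {k : Fin (n + 1)} {m : SimplexCategoryᵒᵖ}
    {σ : (Δ[n] : SSet.{u}).obj m} (hσ : σ ∈ (Λ[n, k] : (Δ[n] : SSet.{u}).Subcomplex).obj m) :
    toN (faces_horn n k) hσ ≫ nm (hornIncl n k) =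
      SimplexCategory.sd.{u}.map (SSet.stdSimplex.objEquiv σ) := rfl

/-- `ex` preserves Kan fibrations -/
lemma ex_fibration (p : E ⟶ S) [Fibration p] : Fibration (ex.map p) := by
  rw [fibration_iff]
  intro A B i hi
  simp only [J, MorphismProperty.iSup_iff] at hi
  obtain ⟨n, ⟨k⟩⟩ := hi
  constructor
  intro t b sq
  let hK := faces_horn.{u} (n + 1) k
  let bt : nerve (Ch.{u} (n + 1)) ⟶ S := exDown (yonedaEquiv b)
  have hb : ∀ {m : SimplexCategoryᵒᵖ} (σ : (Δ[n + 1] : SSet.{u}).obj m), exDown (b.app m σ) =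
      SimplexCategory.sd.{u}.map (SSet.stdSimplex.objEquiv σ) ≫ bt := by
    intro m σ
    have h1 : b = yonedaEquiv.symm (yonedaEquiv b) := (Equiv.symm_apply_apply _ _).symm
    conv_lhs => rw [h1]
    rfl
  have sq' : CommSq (glueEx t hK) (nm (hornIncl (n + 1) k)) p bt := by
    constructor
    apply ss_ext
    intro l x
    obtain ⟨q⟩ := exists_pres (K := (Λ[n + 1, k] : (Δ[n + 1] : SSet.{u}).Subcomplex)) hK x
    have h1 := glueEx_app t hK x q
    have h2 : (exDown (t.app q.m ⟨q.σ, q.hσ⟩)) ≫ p =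
        SimplexCategory.sd.{u}.map (SSet.stdSimplex.objEquiv q.σ) ≫ bt := by
      rw [← hb]
      have h3 := congrArg (fun z => z.app q.m ⟨q.σ, q.hσ⟩) sq.w
      exact congrArg exDown h3
    have h4 : (nm (hornIncl (n + 1) k)).app l x =
        (SimplexCategory.sd.{u}.map (SSet.stdSimplex.objEquiv q.σ)).app l q.y := by
      apply nerve_ext (P := Ch.{u} (n + 1))
      intro i
      exact (q.hy i).symm
    change p.app l ((glueEx t hK).app l x) = bt.app l ((nm (hornIncl (n + 1) k)).app l x)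
    rw [h1, h4]
    exact congrArg (fun z => z.app l q.y) h2
  have := (anodyne_hornIncl.{u} n k) p ((HomotopicalAlgebra.fibration_iff _).1 inferInstance)
  let L : Δ[n + 1] ⟶ ex.obj E := yonedaEquiv.symm (exMk (m := op ⦋n + 1⦌) sq'.lift)
  refine ⟨⟨{ l := L, fac_left := ?_, fac_right := ?_ }⟩⟩
  · apply ss_ext
    rintro m ⟨σ, hσ⟩
    apply ex_ext
    change SimplexCategory.sd.{u}.map (SSet.stdSimplex.objEquiv σ) ≫ sq'.lift =
      exDown (t.app m ⟨σ, hσ⟩)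
    rw [← toN_glueEx t hK hσ, ← toN_hornIncl hσ]
    exact (Category.assoc _ _ _).trans (congrArg (fun z => toN hK hσ ≫ z) sq'.fac_left)
  · change yonedaEquiv.symm _ ≫ _ = _
    rw [yonedaEquiv_symm_comp, Equiv.symm_apply_eq]
    apply ex_ext
    change sq'.lift ≫ p = _
    rw [sq'.fac_right]

section fill

variable {n : ℕ} (k : Fin (n + 2))

/-- the set underlying the retraction -/
noncomputable def rrSet {l : SimplexCategoryᵒᵖ} (y : (SimplexCategory.sd.{u}.obj ⦋n + 1⦌).obj l)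
    (c : Ch.{u} l.unop.len) : Ch.{u} (n + 1) :=
  chOf (fun v => ∃ i ∈ c.finset, (vt y i.down ∈ HornF (n + 1) k ∧ v = chMax (vt y i.down)) ∨
    (vt y i.down ∉ HornF (n + 1) k ∧ v = k)) (by
      by_cases h : vt y (chMax c) ∈ HornF (n + 1) k
      · exact ⟨_, ⟨chMax c⟩, chMax_mem c, Or.inl ⟨h, rfl⟩⟩
      · exact ⟨_, ⟨chMax c⟩, chMax_mem c, Or.inr ⟨h, rfl⟩⟩)

lemma mem_rrSet {l : SimplexCategoryᵒᵖ} (y : (SimplexCategory.sd.{u}.obj ⦋n + 1⦌).obj l)
    (c : Ch.{u} l.unop.len) (x : ULift.{u} (Fin (n + 2))) : x ∈ (rrSet k y c).finset ↔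
      ∃ i ∈ c.finset, (vt y i.down ∈ HornF (n + 1) k ∧ x.down = chMax (vt y i.down)) ∨
    (vt y i.down ∉ HornF (n + 1) k ∧ x.down = k) := mem_chOf

lemma rrSet_mem {l : SimplexCategoryᵒᵖ} (y : (SimplexCategory.sd.{u}.obj ⦋n + 1⦌).obj l)
    (c : Ch.{u} l.unop.len) : rrSet k y c ∈ HornF (n + 1) k := by
  by_cases h : ∃ i ∈ c.finset, vt y i.down ∈ HornF (n + 1) k
  · let c' : Ch.{u} l.unop.len := chOf (fun i => ULift.up i ∈ c.finset ∧ vt y i ∈ HornF (n + 1) k) (by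
      obtain ⟨i, hi, h⟩ := h
      exact ⟨i.down, hi, h⟩)
    have h1 : ULift.up (chMax c') ∈ c'.finset := chMax_mem c'
    rw [mem_chOf] at h1
    obtain ⟨h1, j, hj, hj'⟩ := h1
    refine ⟨j, hj, fun h2 => ?_⟩
    rw [mem_rrSet] at h2
    obtain ⟨i, hi, ⟨h3, h4⟩ | ⟨h3, h4⟩⟩ := h2
    · have h5 : i ∈ c'.finset := mem_chOf.2 ⟨hi, h3⟩
      apply hj'
      have h6 := vt_mono y (le_chMax h5) (chMax_mem (vt y i.down))
      have h7 : ULift.up j = (⟨chMax (vt y i.down)⟩ : ULift.{u} (Fin (n + 2))) := ULift.ext _ _ h4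
      rw [h7]
      exact h6
    · exact hj h4
  · obtain ⟨j, hj⟩ := exists_ne_fin k
    refine ⟨j, hj, fun h2 => ?_⟩
    rw [mem_rrSet] at h2
    obtain ⟨i, hi, ⟨h3, h4⟩ | ⟨h3, h4⟩⟩ := h2
    · exact h ⟨i, hi, h3⟩
    · exact hj h4

/-- the retraction -/
noncomputable def rr {l : SimplexCategoryᵒᵖ} (y : (SimplexCategory.sd.{u}.obj ⦋n + 1⦌).obj l) :
    Ch.{u} l.unop.len →o HornF.{u} (n + 1) k where
  toFun c := ⟨rrSet k y c, rrSet_mem k y c⟩
  monotone' c c' h x hx := by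
    change x ∈ (rrSet k y c).finset at hx
    change x ∈ (rrSet k y c').finset
    rw [mem_rrSet] at hx ⊢
    obtain ⟨i, hi, h'⟩ := hx
    exact ⟨i, h hi, h'⟩

lemma rr_nat {l l' : SimplexCategoryᵒᵖ} (ψ : l ⟶ l')
    (y : (SimplexCategory.sd.{u}.obj ⦋n + 1⦌).obj l) :
    rr k ((SimplexCategory.sd.{u}.obj ⦋n + 1⦌).map ψ y) = (rr k y).comp
      (chMap ψ.unop.toOrderHom) := by
  ext c : 2
  apply Subtype.ext
  apply ch_ext
  intro v
  change v ∈ (rrSet k _ c).finset ↔ v ∈ (rrSet k y (chMap _ c)).finset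
  rw [mem_rrSet, mem_rrSet]
  simp only [vt_map, mem_chMap]
  constructor
  · rintro ⟨i, hi, h⟩
    exact ⟨⟨ψ.unop.toOrderHom i.down⟩, ⟨i, hi, rfl⟩, h⟩
  · rintro ⟨j, ⟨i, hi, hj⟩, h⟩
    refine ⟨i, hi, ?_⟩
    rw [hj]
    exact h

/-- the filler -/
noncomputable def fillIn (f : nerve (HornF.{u} (n + 1) k) ⟶ X) :
    SimplexCategory.sd.{u}.obj ⦋n + 1⦌ ⟶ ex.obj X where
  app l := ↾fun y => exMk (m := l) (nm (rr k y) ≫ f)
  naturality l l' ψ := by
    ext y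
    apply ex_ext
    change nm (rr k ((SimplexCategory.sd.{u}.obj ⦋n + 1⦌).map ψ y)) ≫ f =
      nm (chMap ψ.unop.toOrderHom) ≫ nm (rr k y) ≫ f
    rw [rr_nat, ← Category.assoc, nm_comp]

lemma fillIn_app (f : nerve (HornF.{u} (n + 1) k) ⟶ X) {l : SimplexCategoryᵒᵖ}
    (y : (SimplexCategory.sd.{u}.obj ⦋n + 1⦌).obj l) :
    exDown ((fillIn k f).app l y) = nm (rr k y) ≫ f := rfl

variable {k}

lemma rr_horn {m : SimplexCategoryᵒᵖ} {σ : (Δ[n + 1] : SSet.{u}).obj m}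
    (hσ : σ ∈ (Λ[n + 1, k] : (Δ[n + 1] : SSet.{u}).Subcomplex).obj m) {l : SimplexCategoryᵒᵖ}
    (y : (SimplexCategory.sd.{u}.obj m.unop).obj l) :
    nm (rr k ((SimplexCategory.sd.{u}.map (SSet.stdSimplex.objEquiv σ)).app l y)) =
      SimplexCategory.sd.{u}.map (SSet.stdSimplex.objEquiv ((lvN m.unop).app l y)) ≫
        toN (faces_horn (n + 1) k) hσ := by
  have : rr k ((SimplexCategory.sd.{u}.map (SSet.stdSimplex.objEquiv σ)).app l y) =
      (toP (faces_horn (n + 1) k) hσ).comp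
        (chMap (SSet.stdSimplex.objEquiv ((lvN.{u} m.unop).app l y)).toOrderHom) := by
    ext c : 2
    apply Subtype.ext
    apply ch_ext
    intro v
    change v ∈ (rrSet k _ c).finset ↔ v ∈ (chMap (SSet.stdSimplex.objEquiv σ).toOrderHom
      (chMap (SSet.stdSimplex.objEquiv ((lvN.{u} m.unop).app l y)).toOrderHom c)).finset
    rw [mem_rrSet, mem_chMap]
    have hmem : ∀ i, vt ((SimplexCategory.sd.{u}.map (SSet.stdSimplex.objEquiv σ)).app l y) i ∈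
        HornF.{u} (n + 1) k := fun i => (faces_horn (n + 1) k).mem hσ (vt y i)
    constructor
    · rintro ⟨i, hi, ⟨-, h⟩ | ⟨h, -⟩⟩
      · refine ⟨⟨chMax (vt y i.down)⟩, ?_, ?_⟩
        · rw [mem_chMap]
          exact ⟨i, hi, rfl⟩
        · rw [h, vt_sd_map, chMax_chMap]
      · exact absurd (hmem _) h
    · rintro ⟨x, hx, h⟩
      rw [mem_chMap] at hx
      obtain ⟨i, hi, h'⟩ := hx
      refine ⟨i, hi, Or.inl ⟨hmem _, ?_⟩⟩
      rw [vt_sd_map, chMax_chMap, ← h, ← h']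
      rfl
  rw [this, ← nm_comp]
  rfl

/-- horns in `ex X` have fillers in `ex (ex X)` -/
lemma ex_horn_filling (g : (Λ[n + 1, k] : SSet.{u}) ⟶ ex.obj X) :
    ∃ h : Δ[n + 1] ⟶ ex.obj (ex.obj X), Λ[n + 1, k].ι ≫ h = g ≫ rho.app (ex.obj X) := by
  refine ⟨yonedaEquiv.symm (exMk (m := op ⦋n + 1⦌)
    (fillIn k (glueEx g (faces_horn (n + 1) k)))), ?_⟩
  apply ss_ext
  rintro m ⟨σ, hσ⟩
  apply ex_ext
  apply ss_ext
  intro l y
  apply ex_ext
  change nm (rr k ((SimplexCategory.sd.{u}.map (SSet.stdSimplex.objEquiv σ)).app l y)) ≫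
    glueEx g (faces_horn (n + 1) k) = SimplexCategory.sd.{u}.map
      (SSet.stdSimplex.objEquiv ((lvN m.unop).app l y)) ≫ exDown (g.app m ⟨σ, hσ⟩)
  rw [rr_horn hσ]
  exact (Category.assoc _ _ _).trans (congrArg (fun z => SimplexCategory.sd.{u}.map
      (SSet.stdSimplex.objEquiv ((lvN m.unop).app l y)) ≫ z) (toN_glueEx g _ hσ))

end fill

end Vale.Agent.P213.SS
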