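import Mathlib
import Vale.Agent.Lib.P213.SSHornEx
import Vale.Agent.Lib.P213.SSGlue

/-!
# `ex` preserves trivial fibrations; `sd` preserves monomorphisms
-/

open CategoryTheory MonoidalCategory CartesianMonoidalCategory Simplicial HomotopicalAlgebra Limits
open SSet SSet.modelCategoryQuillen Opposite MorphismProperty

universe u

namespace Vale.Agent.P213.SS

variable {E S : SSet.{u}}

/-- the inclusion of the faces of a subcomplex -/
def facesIncl {n : ℕ} (Fc : Set (Ch.{u} n)) : Fc →o Ch.{u} n := ⟨fun c => c.1, fun _ _ h => h⟩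

lemma toN_facesIncl {n : ℕ} {K : (Δ[n] : SSet.{u}).Subcomplex} {Fc : Set (Ch.{u} n)}
    (hK : Faces K Fc) {m : SimplexCategoryᵒᵖ}
    {σ : (Δ[n] : SSet.{u}).obj m} (hσ : σ ∈ K.obj m) :
    toN hK hσ ≫ nm (facesIncl Fc) =
      SimplexCategory.sd.{u}.map (SSet.stdSimplex.objEquiv σ) := rfl

/-- lifting problems against `ex.map p` -/
lemma ex_lifting {n : ℕ} {K : (Δ[n] : SSet.{u}).Subcomplex} {Fc : Set (Ch.{u} n)}
    (hK : Faces K Fc) (p : E ⟶ S) (hp : HasLiftingProperty (nm (facesIncl Fc)) p) :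
    HasLiftingProperty K.ι (ex.map p) := by
  constructor
  intro t b sq
  let bt : nerve (Ch.{u} n) ⟶ S := exDown (yonedaEquiv b)
  have hb : ∀ {m : SimplexCategoryᵒᵖ} (σ : (Δ[n] : SSet.{u}).obj m), exDown (b.app m σ) =
      SimplexCategory.sd.{u}.map (SSet.stdSimplex.objEquiv σ) ≫ bt := by
    intro m σ
    have h1 : b = yonedaEquiv.symm (yonedaEquiv b) := (Equiv.symm_apply_apply _ _).symm
    conv_lhs => rw [h1]
    rfl
  have sq' : CommSq (glueEx t hK) (nm (facesIncl Fc)) p bt := by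
    constructor
    apply ss_ext
    intro l x
    obtain ⟨q⟩ := exists_pres (K := K) hK x
    have h1 := glueEx_app t hK x q
    have h2 : (exDown (t.app q.m ⟨q.σ, q.hσ⟩)) ≫ p =
        SimplexCategory.sd.{u}.map (SSet.stdSimplex.objEquiv q.σ) ≫ bt := by
      rw [← hb]
      have h3 := congrArg (fun z => z.app q.m ⟨q.σ, q.hσ⟩) sq.w
      exact congrArg exDown h3
    have h4 : (nm (facesIncl Fc)).app l x =
        (SimplexCategory.sd.{u}.map (SSet.stdSimplex.objEquiv q.σ)).app l q.y := by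
      apply nerve_ext (P := Ch.{u} n)
      intro i
      exact (q.hy i).symm
    change p.app l ((glueEx t hK).app l x) = bt.app l ((nm (facesIncl Fc)).app l x)
    rw [h1, h4]
    exact congrArg (fun z => z.app l q.y) h2
  let L : Δ[n] ⟶ ex.obj E := yonedaEquiv.symm (exMk (m := op ⦋n⦌) sq'.lift)
  refine ⟨⟨{ l := L, fac_left := ?_, fac_right := ?_ }⟩⟩
  · apply ss_ext
    rintro m ⟨σ, hσ⟩
    apply ex_ext
    change SimplexCategory.sd.{u}.map (SSet.stdSimplex.objEquiv σ) ≫ sq'.lift =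
      exDown (t.app m ⟨σ, hσ⟩)
    rw [← toN_glueEx t hK hσ, ← toN_facesIncl hK hσ]
    exact (Category.assoc _ _ _).trans (congrArg (fun z => toN hK hσ ≫ z) sq'.fac_left)
  · change yonedaEquiv.symm _ ≫ _ = _
    rw [yonedaEquiv_symm_comp, Equiv.symm_apply_eq]
    apply ex_ext
    change sq'.lift ≫ p = _
    rw [sq'.fac_right]

/-- the faces of the boundary -/
def BdF (n : ℕ) : Set (Ch.{u} n) := {c | ∃ j, ULift.up j ∉ c.finset}

lemma faces_boundary (n : ℕ) : Faces (∂Δ[n] : (Δ[n] : SSet.{u}).Subcomplex) (BdF n) := by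
  refine ⟨?_, ?_⟩
  · rintro c c' h ⟨j, hj⟩
    exact ⟨j, fun h' => hj (h h')⟩
  · intro m σ
    have h0 : σ ∈ (∂Δ[n] : (Δ[n] : SSet.{u}).Subcomplex).obj m ↔
      ¬ Function.Surjective (SSet.stdSimplex.objEquiv σ).toOrderHom := Iff.rfl
    rw [h0, Function.Surjective, not_forall]
    refine exists_congr fun j => not_congr ?_
    rw [mem_chMap]
    constructor
    · rintro ⟨x, hx⟩
      exact ⟨⟨x⟩, mem_chTop _, hx⟩
    · rintro ⟨x, -, hx⟩
      exact ⟨x.down, hx⟩

lemma ex_trivFib (p : E ⟶ S) (hp : I.rlp p) : I.rlp (ex.map p) := by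
  intro A B i hi
  obtain ⟨n⟩ := hi
  refine ex_lifting (faces_boundary n) p ?_
  have : Mono (nm (facesIncl (BdF.{u} n))) := by
    have h : ∀ m, Mono ((nm (facesIncl (BdF.{u} n))).app m) := by
      intro m
      rw [CategoryTheory.mono_iff_injective]
      intro x y hxy
      apply nerve_ext (P := BdF.{u} n)
      intro i
      exact Subtype.ext (congrArg (fun z : (nerve (Ch.{u} n)).obj m => z.obj i) hxy)
    exact NatTrans.mono_of_mono_app _
  exact (llp_rlp_I.{u}.symm ▸ (this : monomorphisms _ _) : I.rlp.llp _) p hp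

lemma sd_mono {X Y : SSet.{u}} (f : X ⟶ Y) [Mono f] : Mono (sd.map f) := by
  have : I.{u}.rlp.llp (sd.map f) := by
    intro E S p hp
    rw [sdExAdjunction.hasLiftingProperty_iff]
    exact (llp_rlp_I.{u}.symm ▸ (inferInstance : Mono f) : I.rlp.llp _) _ (ex_trivFib p hp)
  rw [llp_rlp_I] at this
  exact this

end Vale.Agent.P213.SS
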