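import Mathlib
import Vale.Agent.Lib.P213.SSGlue

/-!
# Weak equivalences are stable under coproducts and sequential colimits
-/

open CategoryTheory MonoidalCategory CartesianMonoidalCategory Simplicial HomotopicalAlgebra Limits
open SSet SSet.modelCategoryQuillen MorphismProperty

universe u

namespace Vale.Agent.P213.SS

section

variable {A B C D E S X Y Z K L P : SSet.{u}}

/-- Evaluation at the start of a path. -/
noncomputable def ev₀ (Z : SSet.{u}) : (ihom Δ[1]).obj Z ⟶ Z :=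
  ι₀ ≫ (β_ _ _).hom ≫ (ihom.ev Δ[1]).app Z

/-- Evaluation at the end of a path. -/
noncomputable def ev₁ (Z : SSet.{u}) : (ihom Δ[1]).obj Z ⟶ Z :=
  ι₁ ≫ (β_ _ _).hom ≫ (ihom.ev Δ[1]).app Z

lemma comp_ev₀ (h : X ⟶ (ihom Δ[1]).obj Z) :
    h ≫ ev₀ Z = ι₀ ≫ (β_ _ _).hom ≫ MonoidalClosed.uncurry h := by
  rw [ev₀, ← ι₀_comp_assoc, MonoidalClosed.uncurry_eq]
  rfl

lemma comp_ev₁ (h : X ⟶ (ihom Δ[1]).obj Z) :
    h ≫ ev₁ Z = ι₁ ≫ (β_ _ _).hom ≫ MonoidalClosed.uncurry h := by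
  rw [ev₁, ← ι₁_comp_assoc, MonoidalClosed.uncurry_eq]
  rfl

lemma HR_iff_path {f g : X ⟶ Z} :
    HR f g ↔ ∃ h : X ⟶ (ihom Δ[1]).obj Z, h ≫ ev₀ Z = f ∧ h ≫ ev₁ Z = g := by
  constructor
  · rintro ⟨H, rfl, rfl⟩
    refine ⟨MonoidalClosed.curry ((β_ Δ[1] X).hom ≫ H), ?_, ?_⟩
    · rw [comp_ev₀, MonoidalClosed.uncurry_curry]
      rfl
    · rw [comp_ev₁, MonoidalClosed.uncurry_curry]
      rfl
  · rintro ⟨h, rfl, rfl⟩
    exact ⟨(β_ _ _).hom ≫ MonoidalClosed.uncurry h, (comp_ev₀ h).symm, (comp_ev₁ h).symm⟩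

lemma exists_path_object (Z : SSet.{u}) : ∃ (W : SSet.{u}) (e₀ e₁ : W ⟶ Z),
    ∀ (X : SSet.{u}) (f g : X ⟶ Z), HR f g ↔ ∃ h : X ⟶ W, h ≫ e₀ = f ∧ h ≫ e₁ = g :=
  ⟨_, ev₀ Z, ev₁ Z, fun _ _ _ => HR_iff_path⟩

lemma weq_of_coproducts {J : Type*} {X₁ X₂ : Discrete J ⥤ SSet.{u}} {c₁ : Cocone X₁}
    {c₂ : Cocone X₂} (h₁ : IsColimit c₁) (h₂ : IsColimit c₂) (f : ∀ j, X₁.obj j ⟶ X₂.obj j)
    (hf : ∀ j, weq (f j)) (φ : c₁.pt ⟶ c₂.pt) (hφ : ∀ j, c₁.ι.app j ≫ φ = f j ≫ c₂.ι.app j) :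
    weq φ := by
  rw [weq_iff]
  intro Z _
  have hf' := fun j => (weq_iff _).1 (hf j) Z
  obtain ⟨W, e₀, e₁, hW⟩ := exists_path_object Z
  constructor
  · intro g
    choose h hh using fun j => (hf' j).1 (c₁.ι.app j ≫ g)
    let h' : c₂.pt ⟶ Z := h₂.desc (Cocone.mk Z (Discrete.natTrans h))
    have hh' : ∀ j, c₂.ι.app j ≫ h' = h j := fun j => h₂.fac _ j
    refine ⟨h', ?_⟩
    simp only [hW] at hh
    choose k hk0 hk1 using hh
    rw [hW]
    refine ⟨h₁.desc (Cocone.mk _ (Discrete.natTrans k)), ?_, ?_⟩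
    · refine h₁.hom_ext fun j => ?_
      rw [h₁.fac_assoc, reassoc_of% hφ, hh']
      exact hk0 j
    · refine h₁.hom_ext fun j => ?_
      rw [h₁.fac_assoc]
      exact hk1 j
  · intro a b hab
    have : ∀ j, HR (c₂.ι.app j ≫ a) (c₂.ι.app j ≫ b) := by
      intro j
      apply (hf' j).2
      have := hab.precomp (c₁.ι.app j)
      rwa [reassoc_of% hφ, reassoc_of% hφ] at this
    simp only [hW] at this
    choose k hk0 hk1 using this
    rw [hW]
    refine ⟨h₂.desc (Cocone.mk _ (Discrete.natTrans k)), ?_, ?_⟩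
    · refine h₂.hom_ext fun j => ?_
      rw [h₂.fac_assoc]
      exact hk0 j
    · refine h₂.hom_ext fun j => ?_
      rw [h₂.fac_assoc]
      exact hk1 j

instance (J : Type*) : weq.{u}.IsStableUnderCoproductsOfShape J where
  condition _ _ _ _ h₁ h₂ f hf φ hφ :=
    weq_of_coproducts h₁ h₂ (fun j => f.app j) hf φ hφ

end

/-! ### Sequential colimits -/

section

variable {X₁ X₂ : ℕ ⥤ SSet.{0}} (f : X₁ ⟶ X₂)

/-- A stage in the Reedy factorization. -/
structure Stage (n : ℕ) where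
  H : SSet.{0}
  i : X₁.obj n ⟶ H
  p : H ⟶ X₂.obj n
  fac : i ≫ p = f.app n
  hi : Mono i
  hp : I.rlp p

lemma exists_stage_zero : Nonempty (Stage f 0) := by
  obtain ⟨H, i, p, hi, hp, fac⟩ := exists_factorization (f.app 0)
  exact ⟨⟨H, i, p, fac, hi, hp⟩⟩

/-- The shift map in `ℕ`. -/
abbrev sh (F : ℕ ⥤ SSet.{0}) (n : ℕ) : F.obj n ⟶ F.obj (n + 1) :=
  F.map (homOfLE (Nat.le_add_right n 1))

lemma exists_stage_succ {n : ℕ} (s : Stage f n) :
    ∃ (s' : Stage f (n + 1)) (t : s.H ⟶ s'.H), s.i ≫ t = sh X₁ n ≫ s'.i ∧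
      t ≫ s'.p = s.p ≫ sh X₂ n ∧ ∀ (h : s.i ≫ t = sh X₁ n ≫ s'.i),
        Mono (pushout.desc t s'.i h : pushout s.i (sh X₁ n) ⟶ s'.H) := by
  let q : pushout s.i (sh X₁ n) ⟶ X₂.obj (n + 1) :=
    pushout.desc (s.p ≫ sh X₂ n) (f.app (n + 1)) (by
      rw [← Category.assoc, s.fac, f.naturality])
  obtain ⟨H, i, p, hi, hp, fac⟩ := exists_factorization q
  have := s.hi
  have hinr : Mono (pushout.inr s.i (sh X₁ n)) :=
    (monomorphisms _).of_isPushout (IsPushout.of_hasPushout _ _).flip s.hi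
  have hfac : (pushout.inr s.i (sh X₁ n) ≫ i) ≫ p = f.app (n + 1) := by
    rw [Category.assoc, fac]
    exact pushout.inr_desc _ _ _
  refine ⟨⟨H, pushout.inr _ _ ≫ i, p, hfac, mono_comp _ _, hp⟩, pushout.inl _ _ ≫ i, ?_, ?_, ?_⟩
  · change s.i ≫ pushout.inl _ _ ≫ i = sh X₁ n ≫ pushout.inr _ _ ≫ i
    rw [← Category.assoc, pushout.condition, Category.assoc]
  · change (pushout.inl _ _ ≫ i) ≫ p = _
    rw [Category.assoc, fac]
    exact pushout.inl_desc _ _ _
  · intro h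
    have : pushout.desc (pushout.inl s.i (sh X₁ n) ≫ i) (pushout.inr s.i (sh X₁ n) ≫ i) h = i := by
      apply pushout.hom_ext
      · exact pushout.inl_desc _ _ _
      · exact pushout.inr_desc _ _ _
    change Mono (pushout.desc (pushout.inl s.i (sh X₁ n) ≫ i) (pushout.inr s.i (sh X₁ n) ≫ i) h)
    rw [this]
    exact hi

/-- The stages of the Reedy factorization. -/
noncomputable def stage (n : ℕ) : Stage f n :=
  Nat.rec (exists_stage_zero f).some (fun _ s => (exists_stage_succ f s).choose) n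

/-- The transition maps. -/
noncomputable def stageMap (n : ℕ) : (stage f n).H ⟶ (stage f (n + 1)).H :=
  (exists_stage_succ f (stage f n)).choose_spec.choose

lemma i_stageMap (n : ℕ) : (stage f n).i ≫ stageMap f n = sh X₁ n ≫ (stage f (n + 1)).i :=
  (exists_stage_succ f (stage f n)).choose_spec.choose_spec.1

lemma stageMap_p (n : ℕ) : stageMap f n ≫ (stage f (n + 1)).p = (stage f n).p ≫ sh X₂ n :=
  (exists_stage_succ f (stage f n)).choose_spec.choose_spec.2.1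

lemma mono_desc (n : ℕ) : Mono (pushout.desc (stageMap f n) (stage f (n + 1)).i (i_stageMap f n) :
    pushout (stage f n).i (sh X₁ n) ⟶ _) :=
  (exists_stage_succ f (stage f n)).choose_spec.choose_spec.2.2 _

/-- The middle object of the Reedy factorization. -/
noncomputable def mid : ℕ ⥤ SSet.{0} := Functor.ofSequence (stageMap f)

lemma sh_mid (n : ℕ) : sh (mid f) n = stageMap f n :=
  Functor.ofSequence_map_homOfLE_succ _ n

/-- The first map of the Reedy factorization. -/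
noncomputable def midI : X₁ ⟶ mid f := NatTrans.ofSequence (fun n => (stage f n).i) (fun n => by
  exact (i_stageMap f n).symm.trans
    (congrArg (fun t => (stage f n).i ≫ t) (sh_mid f n).symm))

/-- The second map of the Reedy factorization. -/
noncomputable def midP : mid f ⟶ X₂ := NatTrans.ofSequence (fun n => (stage f n).p) (fun n => by
  exact (congrArg (fun t => t ≫ (stage f (n + 1)).p) (sh_mid f n)).trans (stageMap_p f n))

lemma midI_midP : midI f ≫ midP f = f := by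
  ext n : 2
  exact (stage f n).fac

lemma weq_stage_i (hf : ∀ n, weq (f.app n)) (n : ℕ) : tcof (stage f n).i :=
  ⟨(stage f n).hi, weq.of_postcomp _ _ (weq_of_trivFib _ (stage f n).hp)
    (by rw [(stage f n).fac]; exact hf n)⟩

lemma tcof_desc (hf : ∀ n, weq (f.app n)) (n : ℕ) :
    tcof (pushout.desc (stageMap f n) (stage f (n + 1)).i (i_stageMap f n) :
      pushout (stage f n).i (sh X₁ n) ⟶ _) := by
  refine ⟨mono_desc f n, ?_⟩
  have h1 : tcof (pushout.inr (stage f n).i (sh X₁ n)) :=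
    tcof.of_isPushout (IsPushout.of_hasPushout _ _).flip (weq_stage_i f hf n)
  refine weq.of_precomp _ _ h1.weq ?_
  rw [pushout.inr_desc]
  exact (weq_stage_i f hf (n + 1)).weq

lemma hasLiftingProperty_TT {A B E S : SSet.{0}} {j : A ⟶ B} (hj : tcof j) {π : E ⟶ S}
    (hπ : TT π) : HasLiftingProperty j π := by
  rw [tcof_eq] at hj
  exact hj.2 _ hπ

/-- A lifting at stage `n`. -/
structure StLift {E S : SSet.{0}} (π : E ⟶ S) (a : ∀ n, X₁.obj n ⟶ E)
    (b : ∀ n, (stage f n).H ⟶ S) (n : ℕ) where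
  l : (stage f n).H ⟶ E
  hl : (stage f n).i ≫ l = a n
  hl' : l ≫ π = b n

section lift

variable {E S : SSet.{0}} (π : E ⟶ S) (a : ∀ n, X₁.obj n ⟶ E)
  (b : ∀ n, (stage f n).H ⟶ S) (ha : ∀ n, sh X₁ n ≫ a (n + 1) = a n)
  (hb : ∀ n, stageMap f n ≫ b (n + 1) = b n) (hab : ∀ n, a n ≫ π = (stage f n).i ≫ b n)
  (hf : ∀ n, weq (f.app n)) (hπ : TT π)

include hab hf hπ in
lemma exists_stLift_zero : Nonempty (StLift f π a b 0) := by
  have := hasLiftingProperty_TT (weq_stage_i f hf 0) hπ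
  have sq : CommSq (a 0) (stage f 0).i π (b 0) := ⟨hab 0⟩
  exact ⟨⟨sq.lift, sq.fac_left, sq.fac_right⟩⟩

include ha hb hab hf hπ in
lemma exists_stLift_succ {n : ℕ} (s : StLift f π a b n) :
    ∃ s' : StLift f π a b (n + 1), stageMap f n ≫ s'.l = s.l := by
  have := hasLiftingProperty_TT (tcof_desc f hf n) hπ
  have sq : CommSq (pushout.desc s.l (a (n + 1)) (by rw [s.hl, ha]))
      (pushout.desc (stageMap f n) (stage f (n + 1)).i (i_stageMap f n) :
      pushout (stage f n).i (sh X₁ n) ⟶ _) π (b (n + 1)) := ⟨by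
    apply pushout.hom_ext
    · rw [pushout.inl_desc_assoc, pushout.inl_desc_assoc, s.hl', hb]
    · rw [pushout.inr_desc_assoc, pushout.inr_desc_assoc, hab]⟩
  refine ⟨⟨sq.lift, ?_, sq.fac_right⟩, ?_⟩
  · have h1 := pushout.inr _ _ ≫= sq.fac_left
    rwa [pushout.inr_desc_assoc, pushout.inr_desc] at h1
  · have h1 := pushout.inl _ _ ≫= sq.fac_left
    rwa [pushout.inl_desc_assoc, pushout.inl_desc] at h1

/-- The sequence of liftings. -/
noncomputable def stLift (n : ℕ) : StLift f π a b n :=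
  Nat.rec (exists_stLift_zero f π a b hab hf hπ).some
    (fun _ s => (exists_stLift_succ f π a b ha hb hab hf hπ s).choose) n

lemma stLift_succ (n : ℕ) : stageMap f n ≫ (stLift f π a b ha hb hab hf hπ (n + 1)).l =
    (stLift f π a b ha hb hab hf hπ n).l :=
  (exists_stLift_succ f π a b ha hb hab hf hπ (stLift f π a b ha hb hab hf hπ n)).choose_spec

end lift

/-- The first map of the Reedy factorization has a colimit in the left class. -/
lemma llp_colim_midI (hf : ∀ n, weq (f.app n)) {c₁ : Cocone X₁} (h₁ : IsColimit c₁)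
    {c : Cocone (mid f)} (hc : IsColimit c) (cι : ∀ n, (stage f n).H ⟶ c.pt)
    (hcι : ∀ n, cι n = c.ι.app n) (φ : c₁.pt ⟶ c.pt)
    (hφ : ∀ n, c₁.ι.app n ≫ φ = (stage f n).i ≫ cι n) : TT.llp φ := by
  intro E S π hπ
  constructor
  intro e s sq
  have hc1 : ∀ n, sh X₁ n ≫ c₁.ι.app (n + 1) = c₁.ι.app n := fun n => c₁.w _
  have hc2 : ∀ n, stageMap f n ≫ cι (n + 1) = cι n := fun n => by
    rw [hcι, hcι]
    refine Eq.trans ?_ (c.w (homOfLE (Nat.le_add_right n 1)))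
    exact congrArg (fun t => t ≫ c.ι.app (n + 1)) (sh_mid f n).symm
  let L := stLift f π (fun n => c₁.ι.app n ≫ e) (fun n => cι n ≫ s)
    (fun n => by rw [← Category.assoc, hc1]) (fun n => by rw [← Category.assoc, hc2])
    (fun n => by rw [Category.assoc, sq.w, reassoc_of% hφ]) hf hπ
  have hL : ∀ n, stageMap f n ≫ (L (n + 1)).l = (L n).l := fun n => stLift_succ ..
  let cc : Cocone (mid f) := Cocone.mk E (NatTrans.ofSequence (fun n => (L n).l) (fun n => by
    refine Eq.trans ?_ (Eq.trans (hL n) (Category.comp_id _).symm)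
    exact congrArg (fun t => t ≫ (L (n + 1)).l) (sh_mid f n)))
  have hcc : ∀ n, cι n ≫ hc.desc cc = (L n).l := fun n => by
    rw [hcι]
    exact hc.fac cc n
  refine ⟨⟨{ l := hc.desc cc, fac_left := ?_, fac_right := ?_ }⟩⟩
  · refine h₁.hom_ext fun n => ?_
    rw [reassoc_of% hφ, hcc]
    exact (L n).hl
  · refine hc.hom_ext fun n => ?_
    have key : cι n ≫ hc.desc cc ≫ π = cι n ≫ s := by
      rw [← Category.assoc, hcc]
      exact (L n).hl'
    rw [hcι] at key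
    exact key

/-- A sequential colimit of trivial fibrations is a trivial fibration. -/
lemma trivFib_of_sequential {X₁ X₂ : ℕ ⥤ SSet.{0}} {c₁ : Cocone X₁} {c₂ : Cocone X₂}
    (h₁ : IsColimit c₁) (h₂ : IsColimit c₂) (f : X₁ ⟶ X₂) (hf : ∀ n, I.rlp (f.app n))
    (φ : c₁.pt ⟶ c₂.pt) (hφ : ∀ n, c₁.ι.app n ≫ φ = f.app n ≫ c₂.ι.app n) : I.rlp φ := by
  rintro _ _ _ ⟨m⟩
  constructor
  intro u v sq
  obtain ⟨i, u', hu'⟩ := IsFinitelyPresentable.exists_hom_of_isColimit h₁ u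
  obtain ⟨j, v', hv'⟩ := IsFinitelyPresentable.exists_hom_of_isColimit h₂ v
  obtain ⟨k, a, b, hk⟩ := IsFinitelyPresentable.exists_eq_of_isColimit h₂ (u' ≫ f.app i)
    (∂Δ[m].ι ≫ v') (by
      rw [Category.assoc, ← hφ, ← Category.assoc, hu', Category.assoc, hv', sq.w])
  have := hf k _ (boundary_ι_mem_I m)
  have sq' : CommSq (u' ≫ X₁.map a) ∂Δ[m].ι (f.app k) (v' ≫ X₂.map b) := ⟨by
    rw [Category.assoc, f.naturality, ← Category.assoc, hk, Category.assoc]⟩
  refine ⟨⟨{ l := sq'.lift ≫ c₁.ι.app k, fac_left := ?_, fac_right := ?_ }⟩⟩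
  · rw [← Category.assoc, sq'.fac_left, Category.assoc, c₁.w, hu']
  · rw [Category.assoc, hφ, ← Category.assoc, sq'.fac_right, Category.assoc, c₂.w, hv']

/-- Weak equivalences are stable under sequential colimits. -/
theorem weq_of_sequential {X₁ X₂ : ℕ ⥤ SSet.{0}} {c₁ : Cocone X₁} {c₂ : Cocone X₂}
    (h₁ : IsColimit c₁) (h₂ : IsColimit c₂) (f : X₁ ⟶ X₂) (hf : ∀ n, weq (f.app n))
    (φ : c₁.pt ⟶ c₂.pt) (hφ : ∀ n, c₁.ι.app n ≫ φ = f.app n ≫ c₂.ι.app n) : weq φ := by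
  let c := colimit.cocone (mid f)
  have hc : IsColimit c := colimit.isColimit _
  obtain ⟨cι, hcι⟩ : ∃ cι : ∀ n, (stage f n).H ⟶ c.pt, ∀ n, cι n = c.ι.app n :=
    ⟨fun n => c.ι.app n, fun _ => rfl⟩
  let α : c₁.pt ⟶ c.pt := h₁.desc ((Cocone.precompose (midI f)).obj c)
  have hα : ∀ n, c₁.ι.app n ≫ α = (stage f n).i ≫ cι n := fun n => by
    rw [hcι]
    exact h₁.fac _ n
  let β : c.pt ⟶ c₂.pt := hc.desc ((Cocone.precompose (midP f)).obj c₂)
  have hβ : ∀ n, cι n ≫ β = (stage f n).p ≫ c₂.ι.app n := fun n => by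
    rw [hcι]
    exact hc.fac _ n
  have h3 : φ = α ≫ β := by
    refine h₁.hom_ext fun n => ?_
    rw [hφ, reassoc_of% hα, hβ, ← Category.assoc, (stage f n).fac]
  rw [h3]
  refine weq.comp_mem _ _ (weq_of_llp (llp_colim_midI f hf h₁ hc cι hcι α hα))
    (weq_of_trivFib _ (trivFib_of_sequential hc h₂ (midP f) (fun n => (stage f n).hp) β ?_))
  intro n
  have := hβ n
  rw [hcι] at this
  exact this

end

end Vale.Agent.P213.SS
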