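import Mathlib
import Vale.Agent.Lib.P213.SSColim

/-!
# Skeletal induction
-/

open CategoryTheory MonoidalCategory CartesianMonoidalCategory Simplicial HomotopicalAlgebra Limits
open SSet SSet.modelCategoryQuillen MorphismProperty

universe u

namespace Vale.Agent.P213.SS

/-- Skeletal induction. -/
theorem skeletal_induction (P : SSet.{u} → Prop) (h_iso : ∀ X Y : SSet.{u}, (X ≅ Y) → P X → P Y)
    (h_empty : ∀ X : SSet.{u}, IsInitial X → P X)
    (h_cell : ∀ (n : ℕ) (J : Type u) (X Y : SSet.{u})
      (t : (∐ fun _ : J => (∂Δ[n] : SSet.{u})) ⟶ X) (r : X ⟶ Y)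
      (b : (∐ fun _ : J => (Δ[n] : SSet.{u})) ⟶ Y),
      IsPushout t (Limits.Sigma.map fun _ => ∂Δ[n].ι) r b → P ∂Δ[n] → P X → P Y)
    (h_colim : ∀ (F : ℕ ⥤ SSet.{u}) (c : Cocone F), IsColimit c →
      (∀ n : ℕ, Mono (F.map (homOfLE (Nat.le_add_right n 1)))) → (∀ n, P (F.obj n)) → P c.pt)
    (X : SSet.{u}) : P X := by
  have key : ∀ (d : ℕ) (X : SSet.{u}),
      P (skeletonOfMono (Subcomplex.ι (⊥ : X.Subcomplex)) d : SSet.{u}) := by
    intro d
    induction d with
    | zero =>
      intro X
      exact h_iso _ _ (Subcomplex.eqToIso (by simp)).symm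
        (h_empty _ (Subcomplex.isInitialBot (X := X)))
    | succ d ih =>
      intro X
      refine h_cell d _ _ _ _ _ _
        (relativeCellComplexOfMono.isPushout (Subcomplex.ι (⊥ : X.Subcomplex)) d) ?_ (ih X)
      refine h_iso _ _ ?_ (ih ∂Δ[d])
      refine Subcomplex.eqToIso ?_ ≪≫ Subcomplex.topIso _
      rw [← top_le_iff, Subcomplex.le_iff_contains_nonDegenerate]
      rintro n x -
      have : n < d := dim_lt_of_nonDegenerate (X := (∂Δ[d] : SSet.{u})) x d
      exact skeleton_le_skeletonOfMono _ _ _ (mem_skeleton _ _ this)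
  let R := relativeCellComplex X
  refine h_colim R.F (Cocone.mk _ R.incl) R.isColimit (fun n => ?_) (fun n => key n X)
  exact Subcomplex.mono_homOfLE (skeletonOfMono _ |>.monotone (Nat.le_add_right n 1))

/-- A natural transformation between functors which preserve colimits and monomorphisms is
a weak equivalence if it is so on standard simplices. -/
theorem weq_natTrans {F G : SSet.{0} ⥤ SSet.{0}} (α : F ⟶ G)
    (hF : ∀ {X Y : SSet.{0}} (f : X ⟶ Y) [Mono f], Mono (F.map f))
    (hG : ∀ {X Y : SSet.{0}} (f : X ⟶ Y) [Mono f], Mono (G.map f))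
    [PreservesColimitsOfSize.{0, 0} F] [PreservesColimitsOfSize.{0, 0} G]
    (h : ∀ n : ℕ, weq (α.app Δ[n])) (X : SSet.{0}) : weq (α.app X) := by
  refine skeletal_induction (fun X => weq (α.app X)) ?_ ?_ ?_ ?_ X
  · intro X Y e hX
    have h1 : α.app Y = (F.mapIso e).inv ≫ α.app X ≫ (G.mapIso e).hom := by simp
    rw [h1]
    exact weq.comp_mem _ _ (weq_of_isIso _) (weq.comp_mem _ _ hX (weq_of_isIso _))
  · intro X hX
    have : IsIso (α.app X) := isIso_of_isInitial (hX.isInitialObj F) (hX.isInitialObj G) _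
    exact weq_of_isIso _
  · intro n J X Y t r b sq hb hX
    have sqF := sq.map F
    have sqG := sq.map G
    have hcop : ∀ (A : SSet.{0}), weq (α.app A) → weq (α.app (∐ fun _ : J => A)) := by
      intro A hA
      refine weq_of_coproducts (isColimitOfPreserves F (coproductIsCoproduct (fun _ : J => A)))
        (isColimitOfPreserves G (coproductIsCoproduct (fun _ : J => A)))
        (fun j => α.app A) (fun _ => hA) _ ?_
      intro j
      exact α.naturality _
    have hm : Mono (Limits.Sigma.map fun _ : J => (∂Δ[n] : Δ[n].Subcomplex).ι) := inferInstance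
    have := hF (Limits.Sigma.map fun _ : J => (∂Δ[n] : Δ[n].Subcomplex).ι)
    have := hG (Limits.Sigma.map fun _ : J => (∂Δ[n] : Δ[n].Subcomplex).ι)
    exact gluing sqF.flip sqG.flip _ _ _ _ (α.naturality _) (α.naturality _) (α.naturality _)
      (α.naturality _) (hcop _ hb) (hcop _ (h n)) hX
  · intro K c hc _ hK
    exact weq_of_sequential (isColimitOfPreserves F hc) (isColimitOfPreserves G hc)
      (Functor.whiskerLeft K α) hK _ (fun n => α.naturality _)

end Vale.Agent.P213.SS
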