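import Mathlib
import Vale.Agent.Lib.P213.SSSdMono
import Vale.Agent.Lib.P213.SSSkel
import Vale.Agent.Lib.P213.SSContr

/-!
# `X ⟶ Ex X` is a weak equivalence
-/

open CategoryTheory MonoidalCategory CartesianMonoidalCategory Simplicial HomotopicalAlgebra Limits
open SSet SSet.modelCategoryQuillen MorphismProperty

namespace Vale.Agent.P213.SS

variable {X Y Z : SSet.{0}}

/-- The last vertex map is a weak equivalence. -/
theorem weq_lv (X : SSet.{0}) : weq (lv.app X) :=
  weq_natTrans lv (fun f _ => sd_mono f) (fun f _ => by simpa) weq_sd_stdSimplex X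

/-- `sd` preserves and reflects weak equivalences. -/
theorem weq_sd_map_iff (f : X ⟶ Y) : weq (sd.map f) ↔ weq f := by
  have h : sd.map f ≫ lv.app Y = lv.app X ≫ f := lv.naturality f
  rw [← weq.postcomp_iff _ _ (weq_lv Y), h, weq.precomp_iff _ _ (weq_lv X)]

instance kan_ex (Z : SSet.{0}) [KanComplex Z] : KanComplex (ex.obj Z) := by
  have h := ex_fibration (terminal.from Z)
  have : IsIso (terminal.from (ex.obj (⊤_ SSet.{0}))) :=
    isIso_of_isTerminal (IsTerminal.isTerminalObj _ _ terminalIsTerminal) terminalIsTerminal _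
  have : Fibration (ex.map (terminal.from Z) ≫ terminal.from _) := inferInstance
  refine (isFibrant_iff _).2 ?_
  convert this using 1
  exact Subsingleton.elim _ _

lemma weq_fst (Y : SSet.{0}) : weq (fst Y (Δ[1] : SSet.{0})) := by
  have : weq (ι₀ : Y ⟶ Y ⊗ Δ[1]) := by
    rw [← unitIso_inv_δ_one]
    exact weq.comp_mem _ _ (weq_of_isIso _) (weq_of_anodyne _ ((anodyne_δ 1).whiskerLeft Y))
  refine weq.of_precomp _ _ this ?_
  rw [ι₀_fst]
  exact weq_of_isIso _

/-- The adjunct map. -/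
noncomputable abbrev adj (w : sd.obj Y ⟶ Z) : Y ⟶ ex.obj Z := sdExAdjunction.homEquiv _ _ w

/-- The coadjunct map. -/
noncomputable abbrev coadj (w : Y ⟶ ex.obj Z) : sd.obj Y ⟶ Z := (sdExAdjunction.homEquiv _ _).symm w

lemma comp_rho (f : Y ⟶ Z) : f ≫ rho.app Z = adj (lv.app Y ≫ f) := by
  rw [rho_eq, ← Adjunction.homEquiv_naturality_left]
  congr 1
  exact lv.naturality f

/-- The comparison `sd (Y × Δ[1]) ⟶ sd Y × Δ[1]`. -/
noncomputable def cmp (Y : SSet.{0}) : sd.obj (Y ⊗ Δ[1]) ⟶ sd.obj Y ⊗ Δ[1] :=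
  lift (sd.map (fst _ _)) (sd.map (snd _ _) ≫ lv.app _)

lemma sd_ι₀_cmp (Y : SSet.{0}) : sd.map ι₀ ≫ cmp Y = ι₀ := by
  apply CartesianMonoidalCategory.hom_ext
  · simp [cmp, ← Functor.map_comp]
  · rw [cmp, Category.assoc, lift_snd, ← Category.assoc, ← Functor.map_comp, ι₀_snd, ι₀_snd]
    exact lv.naturality _

lemma sd_ι₁_cmp (Y : SSet.{0}) : sd.map ι₁ ≫ cmp Y = ι₁ := by
  apply CartesianMonoidalCategory.hom_ext
  · simp [cmp, ← Functor.map_comp]
  · rw [cmp, Category.assoc, lift_snd, ← Category.assoc, ← Functor.map_comp, ι₁_snd, ι₁_snd]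
    exact lv.naturality _

lemma HR.adj {u v : sd.obj Y ⟶ Z} (h : HR u v) : HR (adj u) (adj v) := by
  obtain ⟨H, rfl, rfl⟩ := h
  refine ⟨SS.adj (cmp Y ≫ H), ?_, ?_⟩
  · rw [← Adjunction.homEquiv_naturality_left, ← Category.assoc, sd_ι₀_cmp]
  · rw [← Adjunction.homEquiv_naturality_left, ← Category.assoc, sd_ι₁_cmp]

lemma HR.coadj {u v : Y ⟶ SSet.ex.obj Z} (h : HR u v) [KanComplex Z] : HR (coadj u) (coadj v) := by
  obtain ⟨H, rfl, rfl⟩ := h
  have h1 : weq (sd.map (fst Y (Δ[1] : SSet.{0}))) := (weq_sd_map_iff _).2 (weq_fst Y)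
  obtain ⟨K, hK⟩ := ((weq_iff _).1 h1 Z).1 (SS.coadj H)
  have e0 := hK.precomp (sd.map ι₀)
  have e1 := hK.precomp (sd.map ι₁)
  rw [← Category.assoc, ← Functor.map_comp, ι₀_fst, CategoryTheory.Functor.map_id, Category.id_comp,
    ← Adjunction.homEquiv_naturality_left_symm] at e0
  rw [← Category.assoc, ← Functor.map_comp, ι₁_fst, CategoryTheory.Functor.map_id, Category.id_comp,
    ← Adjunction.homEquiv_naturality_left_symm] at e1
  exact e0.euclid e1

lemma rho_surj [KanComplex Z] (w : Y ⟶ ex.obj Z) : ∃ u : Y ⟶ Z, HR (u ≫ rho.app Z) w := by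
  obtain ⟨u, hu⟩ := ((weq_iff _).1 (weq_lv Y) Z).1 (coadj w)
  refine ⟨u, ?_⟩
  rw [comp_rho]
  have h2 : adj (coadj w) = w := Equiv.apply_symm_apply _ _
  have := hu.adj
  rwa [h2] at this

lemma rho_inj [KanComplex Z] {u v : Y ⟶ Z} (h : HR (u ≫ rho.app Z) (v ≫ rho.app Z)) : HR u v := by
  rw [comp_rho, comp_rho] at h
  have h1 := h.coadj
  have h2 : ∀ w : sd.obj Y ⟶ Z, coadj (adj w) = w := fun w => Equiv.symm_apply_apply _ _
  rw [h2, h2] at h1
  exact ((weq_iff _).1 (weq_lv Y) Z).2 _ _ h1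

/-- `X ⟶ Ex X` is a weak equivalence. -/
theorem weq_rho (X : SSet.{0}) : weq (rho.app X) := by
  rw [weq_iff]
  intro Z _
  obtain ⟨s, hs⟩ := rho_surj (𝟙 (ex.obj Z))
  have hs' : HR (rho.app Z ≫ s) (𝟙 Z) := by
    apply rho_inj
    have := hs.precomp (rho.app Z)
    simpa using this
  constructor
  · intro g
    refine ⟨ex.map g ≫ s, ?_⟩
    have h1 : rho.app X ≫ ex.map g = g ≫ rho.app Z := (rho.naturality g).symm
    rw [reassoc_of% h1]
    have := hs'.precomp g
    convert this using 1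
    exact (Category.comp_id g).symm
  · intro u v h
    have h1 : ∀ w : ex.obj X ⟶ Z, HR (w ≫ rho.app Z) (ex.map (rho.app X ≫ w)) := by
      intro w
      have e1 : w ≫ rho.app Z = rho.app (ex.obj X) ≫ ex.map w := rho.naturality w
      rw [e1, Functor.map_comp]
      exact (ex_rho_HR X).postcomp (ex.map w)
    exact rho_inj (((h1 u).trans h.ex).trans (h1 v).symm)

/-- `ex` preserves and reflects weak equivalences. -/
theorem weq_ex_map_iff (f : X ⟶ Y) : weq (ex.map f) ↔ weq f := by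
  have h : f ≫ rho.app Y = rho.app X ≫ ex.map f := rho.naturality f
  rw [← weq.precomp_iff _ _ (weq_rho X), ← h, weq.postcomp_iff _ _ (weq_rho Y)]

/-- The unit `X ⟶ Ex Sd X` is a weak equivalence. -/
theorem weq_unit (X : SSet.{0}) : weq (sdExAdjunction.unit.app X) := by
  have h : sdExAdjunction.unit.app X ≫ ex.map (lv.app X) = rho.app X := by
    rw [rho_eq, Adjunction.homEquiv_unit]
  refine weq.of_postcomp _ _ ((weq_ex_map_iff _).2 (weq_lv X)) ?_
  rw [h]
  exact weq_rho X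

/-- The unit `X ⟶ Ex² Sd² X` is a weak equivalence. -/
theorem weq_unit_two (X : SSet.{0}) :
    weq ((sdExAdjunction.comp sdExAdjunction).unit.app X) := by
  rw [Adjunction.comp_unit_app]
  exact weq.comp_mem _ _ (weq_unit X) ((weq_ex_map_iff _).2 (weq_unit _))

end Vale.Agent.P213.SS
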