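import Mathlib
import Vale.Agent.Lib.P213.SSExWeq

/-!
# The functor `Ex^∞` and the Kan-Quillen model structure
-/

open CategoryTheory MonoidalCategory CartesianMonoidalCategory Simplicial HomotopicalAlgebra Limits
open SSet SSet.modelCategoryQuillen MorphismProperty

namespace Vale.Agent.P213.SS

variable {X Y Z E B S : SSet.{0}}

/-- Iterated `Ex`. -/
noncomputable def exIter (n : ℕ) : SSet.{0} ⥤ SSet.{0} :=
  Nat.rec (𝟭 _) (fun _ F => F ⋙ ex) n

/-- The transition maps. -/
noncomputable def exIterMap (n : ℕ) : exIter n ⟶ exIter (n + 1) :=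
  (Functor.rightUnitor _).inv ≫ Functor.whiskerLeft (exIter n) rho

lemma exIterMap_app (n : ℕ) (X : SSet.{0}) :
    (exIterMap n).app X = rho.app ((exIter n).obj X) := by
  simp [exIterMap]
  rfl

/-- The tower of iterates of `Ex`. -/
noncomputable def exTower : ℕ ⥤ (SSet.{0} ⥤ SSet.{0}) := Functor.ofSequence exIterMap

/-- `Ex^∞`. -/
noncomputable def exInf : SSet.{0} ⥤ SSet.{0} := exTower.flip ⋙ colim

lemma tower_map_succ (X : SSet.{0}) (n : ℕ) :
    (exTower.flip.obj X).map (homOfLE (Nat.le_add_right n 1)) = rho.app ((exIter n).obj X) := by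
  have := Functor.ofSequence_map_homOfLE_succ exIterMap n
  rw [← exIterMap_app]
  exact congrArg (fun t => t.app X) this

instance (n : ℕ) : PreservesLimitsOfSize.{0, 0} (exIter n) := by
  induction n with
  | zero => exact inferInstanceAs (PreservesLimitsOfSize.{0, 0} (𝟭 SSet.{0}))
  | succ n ih => exact inferInstanceAs (PreservesLimitsOfSize.{0, 0} (exIter n ⋙ ex))

instance : PreservesLimitsOfShape WalkingCospan exTower.flip := by
  apply preservesLimitsOfShape_of_evaluation
  intro n
  exact inferInstanceAs (PreservesLimitsOfShape WalkingCospan (exIter n))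

instance : PreservesLimitsOfShape WalkingCospan exInf := by
  unfold exInf
  infer_instance

/-- The map `X ⟶ Ex^∞ X`. -/
noncomputable def toExInf : 𝟭 SSet.{0} ⟶ exInf where
  app X := colimit.ι (exTower.flip.obj X) 0
  naturality _ _ f := (colimit.ι_map (exTower.flip.map f) 0).symm

lemma weq_tower_map (X : SSet.{0}) (n : ℕ) :
    weq ((exTower.flip.obj X).map (homOfLE (Nat.zero_le n))) := by
  induction n with
  | zero =>
    have : homOfLE (Nat.zero_le 0) = 𝟙 _ := rfl
    rw [this, CategoryTheory.Functor.map_id]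
    exact weq_of_isIso _
  | succ n ih =>
    have : homOfLE (Nat.zero_le (n + 1)) =
      homOfLE (Nat.zero_le n) ≫ homOfLE (Nat.le_add_right n 1) := rfl
    rw [this, Functor.map_comp, tower_map_succ]
    exact weq.comp_mem _ _ ih (weq_rho _)

lemma weq_toExInf (X : SSet.{0}) : weq (toExInf.app X) := by
  let F := exTower.flip.obj X
  let f : (Functor.const ℕ).obj (F.obj 0) ⟶ F :=
    { app := fun n => F.map (homOfLE (Nat.zero_le n))
      naturality := fun i j g => by
        rw [← F.map_comp]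
        exact Category.id_comp _ }
  refine weq_of_sequential (isColimitConstCocone ℕ (F.obj 0)) (colimit.isColimit F) f
    (weq_tower_map X) _ ?_
  intro n
  exact (Category.id_comp _).trans (colimit.w F (homOfLE (Nat.zero_le n))).symm

/-- A sequential colimit of fibrations is a fibration. -/
lemma fibration_of_sequential {X₁ X₂ : ℕ ⥤ SSet.{0}} {c₁ : Cocone X₁} {c₂ : Cocone X₂}
    (h₁ : IsColimit c₁) (h₂ : IsColimit c₂) (f : X₁ ⟶ X₂) (hf : ∀ n, Fibration (f.app n))
    (φ : c₁.pt ⟶ c₂.pt) (hφ : ∀ n, c₁.ι.app n ≫ φ = f.app n ≫ c₂.ι.app n) : Fibration φ := by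
  rw [fibration_iff]
  intro A B i₀ hi₀
  have hA : IsFinitelyPresentable.{0} A := by
    simp only [modelCategoryQuillen.J, iSup_iff] at hi₀
    obtain ⟨n, ⟨i⟩⟩ := hi₀
    infer_instance
  have hB : IsFinitelyPresentable.{0} B := by
    simp only [modelCategoryQuillen.J, iSup_iff] at hi₀
    obtain ⟨n, ⟨i⟩⟩ := hi₀
    infer_instance
  constructor
  intro u v sq
  obtain ⟨i, u', hu'⟩ := IsFinitelyPresentable.exists_hom_of_isColimit h₁ u
  obtain ⟨j, v', hv'⟩ := IsFinitelyPresentable.exists_hom_of_isColimit h₂ v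
  obtain ⟨k, a, b, hk⟩ := IsFinitelyPresentable.exists_eq_of_isColimit h₂ (u' ≫ f.app i)
    (i₀ ≫ v') (by
      rw [Category.assoc, ← hφ, ← Category.assoc, hu', Category.assoc, hv', sq.w])
  have := (fibration_iff _).1 (hf k) _ hi₀
  have sq' : CommSq (u' ≫ X₁.map a) i₀ (f.app k) (v' ≫ X₂.map b) := ⟨by
    rw [Category.assoc, f.naturality, ← Category.assoc, hk, Category.assoc]⟩
  refine ⟨⟨{ l := sq'.lift ≫ c₁.ι.app k, fac_left := ?_, fac_right := ?_ }⟩⟩
  · rw [← Category.assoc, sq'.fac_left, Category.assoc, c₁.w, hu']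
  · rw [Category.assoc, hφ, ← Category.assoc, sq'.fac_right, Category.assoc, c₂.w, hv']

lemma exIter_fibration (p : E ⟶ S) [Fibration p] (n : ℕ) : Fibration ((exIter n).map p) := by
  induction n with
  | zero => exact ‹Fibration p›
  | succ n ih => exact ex_fibration ((exIter n).map p)

lemma exInf_fibration (p : E ⟶ S) [Fibration p] : Fibration (exInf.map p) := by
  refine fibration_of_sequential (colimit.isColimit (exTower.flip.obj E))
    (colimit.isColimit (exTower.flip.obj S)) (exTower.flip.map p)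
    (fun n => exIter_fibration p n) _ ?_
  intro n
  exact colimit.ι_map (exTower.flip.map p) n

lemma exInf_horn {X : SSet.{0}} {m : ℕ} {k : Fin (m + 2)}
    (u : (Λ[m + 1, k] : SSet.{0}) ⟶ exInf.obj X) : ∃ h : Δ[m + 1] ⟶ exInf.obj X,
      Λ[m + 1, k].ι ≫ h = u := by
  let F := exTower.flip.obj X
  obtain ⟨n, u', hu'⟩ := IsFinitelyPresentable.exists_hom_of_isColimit (colimit.isColimit F) u
  obtain ⟨h, hh⟩ := ex_horn_filling (X := (exIter n).obj X)
    (u' ≫ rho.app ((exIter n).obj X))
  refine ⟨h ≫ colimit.ι F (n + 2), ?_⟩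
  have h1 := colimit.w F (homOfLE (Nat.le_add_right n 1))
  have h2 := colimit.w F (homOfLE (Nat.le_add_right (n + 1) 1))
  rw [tower_map_succ] at h1 h2
  refine (Category.assoc _ _ _).symm.trans ?_
  refine (congrArg (fun t => t ≫ colimit.ι F (n + 2)) hh).trans ?_
  refine (Category.assoc _ _ _).trans ((Category.assoc _ _ _).trans (Eq.trans ?_ hu'))
  refine congrArg (fun t => u' ≫ t) ?_
  refine Eq.trans ?_ h1
  exact congrArg (fun t => rho.app ((exIter n).obj X) ≫ t) h2

instance kan_exInf (X : SSet.{0}) : KanComplex (exInf.obj X) := by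
  refine (isFibrant_iff _).2 ((fibration_iff _).2 ?_)
  intro _ _ _ hf
  simp only [J, MorphismProperty.iSup_iff] at hf
  obtain ⟨n, ⟨i⟩⟩ := hf
  refine ⟨fun {t _} _ ↦ ?_⟩
  obtain ⟨φ, hφ⟩ := exInf_horn t
  exact ⟨⟨{
    l := φ
    fac_left := hφ
    fac_right := by subsingleton }⟩⟩

/-! ### Fibrations that are weak equivalences -/

lemma exInf_trivFib (p : E ⟶ S) [Fibration p] (hp : weq p) : I.rlp (exInf.map p) := by
  have := exInf_fibration p
  apply trivFib_of_fibration_weq
  have h : p ≫ toExInf.app S = toExInf.app E ≫ exInf.map p := toExInf.naturality p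
  refine weq.of_precomp _ _ (weq_toExInf E) ?_
  rw [← h]
  exact weq.comp_mem _ _ hp (weq_toExInf S)

lemma fibration_of_isPullback {F T : SSet.{0}} {i : F ⟶ E} {q : F ⟶ T} {p : E ⟶ S} {s : T ⟶ S}
    (sq : IsPullback i q p s) [Fibration p] : Fibration q := by
  rw [fibration_iff]
  exact MorphismProperty.of_isPullback (P := J.rlp) sq
    ((modelCategoryQuillen.fibration_iff p).1 inferInstance)

/-- The fibres of a fibration which is a weak equivalence are contractible. -/
lemma fibre_contractible (p : E ⟶ S) [Fibration p] (hp : weq p) {F : SSet.{0}} (i : F ⟶ E)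
    (q : F ⟶ Δ[0]) (s : Δ[0] ⟶ S) (sq : IsPullback i q p s) : I.rlp q := by
  have hq : Fibration q := fibration_of_isPullback sq
  have h0 : KanComplex (Δ[0] : SSet.{0}) := by
    have : IsIso (terminal.from (Δ[0] : SSet.{0})) :=
      isIso_of_isTerminal stdSimplex.isTerminalObj₀ terminalIsTerminal _
    exact (isFibrant_iff _).2 inferInstance
  have : KanComplex F := isFibrant_of_fibration q
  apply trivFib_of_fibration_weq
  have h1 : I.rlp (exInf.map q) :=
    MorphismProperty.of_isPullback (sq.map exInf) (exInf_trivFib p hp)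
  have h : q ≫ toExInf.app Δ[0] = toExInf.app F ≫ exInf.map q := toExInf.naturality q
  refine weq.of_postcomp _ _ (weq_toExInf Δ[0]) ?_
  rw [h]
  exact weq.comp_mem _ _ (weq_toExInf F) (weq_of_trivFib _ h1)

/-- A fibration with contractible fibres is a trivial fibration. -/
lemma trivFib_of_fibres (p : E ⟶ S) [Fibration p]
    (h : ∀ (F : SSet.{0}) (i : F ⟶ E) (q : F ⟶ Δ[0]) (s : Δ[0] ⟶ S), IsPullback i q p s →
      I.rlp q) : I.rlp p := by
  rintro _ _ _ ⟨n⟩
  constructor
  intro u v sq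
  obtain ⟨x, c, hc0, hc1⟩ := stdSimplex_contract.{0} n
  obtain ⟨L, hL0, hL⟩ := hlp₀ p (∂Δ[n].ι ▷ _ ≫ c ≫ v) u (by
    rw [ι₀_comp_assoc, reassoc_of% hc0, sq.w])
  let t : (Δ[n] : SSet.{0}) ⟶ Δ[0] := stdSimplex.isTerminalObj₀.from _
  let s : Δ[0] ⟶ S := SSet.const (v.app _ x)
  have hs : ι₁ ≫ c ≫ v = t ≫ s := by
    rw [reassoc_of% hc1, SSet.const_comp]
    rfl
  have hq := h _ (pullback.fst p s) (pullback.snd p s) s (IsPullback.of_hasPullback p s)
  have hLs : (ι₁ ≫ L) ≫ p = (∂Δ[n].ι ≫ t) ≫ s := by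
    rw [Category.assoc, hL, ι₁_comp_assoc, hs, Category.assoc]
  have := hq _ (boundary_ι_mem_I n)
  have sq' : CommSq (pullback.lift (ι₁ ≫ L) (∂Δ[n].ι ≫ t) hLs) ∂Δ[n].ι (pullback.snd p s) t :=
    ⟨pullback.lift_snd _ _ _⟩
  obtain ⟨M, hM1, hM2, hM3⟩ := rhlp₁ ∂Δ[n].ι p (c ≫ v) (sq'.lift ≫ pullback.fst p s) (by
    rw [Category.assoc, pullback.condition, ← Category.assoc, sq'.fac_right, hs]) L hL (by
    rw [← Category.assoc, sq'.fac_left]
    exact (pullback.lift_fst _ _ _).symm)
  refine ⟨⟨{ l := ι₀ ≫ M, fac_left := ?_, fac_right := ?_ }⟩⟩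
  · rw [← ι₀_comp_assoc, hM2, hL0]
  · rw [Category.assoc, hM3, reassoc_of% hc0]

/-- **A Kan fibration that is a weak equivalence is a trivial fibration.** -/
theorem trivFib_of_weq (p : E ⟶ S) [Fibration p] (hp : weq p) : I.rlp p :=
  trivFib_of_fibres p (fun _ i q s sq => fibre_contractible p hp i q s sq)

theorem trivFib_iff (p : E ⟶ S) : I.rlp p ↔ Fibration p ∧ weq p :=
  ⟨fun h => ⟨fibration_of_trivFib p h, weq_of_trivFib p h⟩, fun ⟨_, h⟩ => trivFib_of_weq p h⟩

/-- Trivial cofibrations are the anodyne extensions. -/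
theorem tcof_eq_anodyne : tcof.{0} = anodyneExtensions := by
  apply le_antisymm _ anodyne_le_tcof
  intro A B j hj
  obtain ⟨Z, i, q, hi, hq, fac⟩ := exists_factorization' j
  have hq' : I.rlp q := trivFib_of_weq q (weq.of_precomp _ _ (weq_of_anodyne i hi) (by
    rw [fac]
    exact hj.weq))
  rw [← rlp_monomorphisms] at hq'
  have := hq' j hj.mono
  have sq : CommSq i j q (𝟙 B) := ⟨by rw [fac, Category.comp_id]⟩
  refine anodyneExtensions.of_retract ?_ hi
  exact
    { i := Arrow.homMk (𝟙 A) sq.lift (by simp)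
      r := Arrow.homMk (𝟙 A) q (by simp [fac])
      retract := by
        ext
        · simp
        · simp }

end Vale.Agent.P213.SS
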