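import Mathlib
import Vale.Agent.Lib.P213.SSExInf

/-!
# The Kan-Quillen model structure
-/

open CategoryTheory Simplicial HomotopicalAlgebra Limits
open SSet SSet.modelCategoryQuillen MorphismProperty

namespace Vale.Agent.P213.SS

/-- The weak equivalences of the Kan-Quillen model structure. -/
@[reducible] def kqWeak : CategoryWithWeakEquivalences SSet.{0} where
  weakEquivalences := weq

section

attribute [local instance] kqWeak

lemma trivialFibrations_eq : trivialFibrations SSet.{0} = I.rlp := by
  ext E S p
  rw [trivFib_iff]
  exact ⟨fun h => ⟨(HomotopicalAlgebra.fibration_iff _).2 h.1, h.2⟩,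
    fun h => ⟨(HomotopicalAlgebra.fibration_iff _).1 h.1, h.2⟩⟩

lemma trivialCofibrations_eq : trivialCofibrations SSet.{0} = anodyneExtensions := by
  rw [← tcof_eq_anodyne]
  rfl

instance : (weakEquivalences SSet.{0}).HasTwoOutOfThreeProperty :=
  inferInstanceAs weq.{0}.HasTwoOutOfThreeProperty

instance : IsWeakFactorizationSystem (cofibrations SSet.{0}) (trivialFibrations SSet.{0}) := by
  rw [trivialFibrations_eq, cofibrations_eq, ← llp_rlp_I]
  exact
    { rlp := rlp_llp_rlp _
      llp := rfl
      hasFactorization := inferInstance }

instance : IsWeakFactorizationSystem (trivialCofibrations SSet.{0}) (fibrations SSet.{0}) := by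
  rw [trivialCofibrations_eq, anodyneExtensions_eq_llp_rlp, fibrations_eq]
  exact
    { rlp := rlp_llp_rlp _
      llp := rfl
      hasFactorization := inferInstance }

/-- The Kan-Quillen model structure. -/
@[reducible] noncomputable def kanQuillen : ModelCategory SSet.{0} := ModelCategory.mk' _

end

/-- The Kan-Quillen model structure on simplicial sets. -/
theorem exists_kanQuillen : ∃ M : ModelCategory SSet.{0},
    @weakEquivalences SSet.{0} _ M.categoryWithWeakEquivalences = weq ∧
    @fibrations SSet.{0} _ M.categoryWithFibrations = J.rlp ∧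
    @cofibrations SSet.{0} _ M.categoryWithCofibrations = monomorphisms _ :=
  ⟨kanQuillen, rfl, rfl, rfl⟩

end Vale.Agent.P213.SS
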