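import Vale.Agent.Lib.P213.Free0

/-!
# P213: filtered colimits of strict omega-categories
-/

open CategoryTheory Limits Opposite

namespace Vale.Agent.P213

namespace Filt

variable {J : Type} [SmallCategory J] [IsFiltered J] (G : J ⥤ OmegaCat)

omit [IsFiltered J] in
lemma map_id_app {j : J} (x : (G.obj j).Cell) : (G.map (𝟙 j)).toFun x = x := by
  rw [G.map_id]
  rfl

omit [IsFiltered J] in
lemma map_comp_app {i j k : J} (f : i ⟶ j) (g : j ⟶ k) (x : (G.obj i).Cell) :
    (G.map (f ≫ g)).toFun x = (G.map g).toFun ((G.map f).toFun x) := by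
  rw [G.map_comp]
  rfl

/-- Eventual equality. -/
def setoid : Setoid (Σ j, (G.obj j).Cell) where
  r x y := ∃ (k : J) (f : x.1 ⟶ k) (g : y.1 ⟶ k), (G.map f).toFun x.2 = (G.map g).toFun y.2
  iseqv :=
    { refl := fun x => ⟨x.1, 𝟙 _, 𝟙 _, rfl⟩
      symm := fun ⟨k, f, g, h⟩ => ⟨k, g, f, h.symm⟩
      trans := by
        rintro x y z ⟨k, f, g, h⟩ ⟨k', f', g', h'⟩
        obtain ⟨l, a, b, hab⟩ := IsFiltered.span g f'
        refine ⟨l, f ≫ a, g' ≫ b, ?_⟩
        rw [map_comp_app, map_comp_app, h, ← h', ← map_comp_app, ← map_comp_app, hab] }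

/-- The cells of the filtered colimit. -/
def Cells : Type := Quotient (setoid G)

variable {G}

/-- The cocone. -/
def ι (j : J) (x : (G.obj j).Cell) : Cells G := Quotient.mk (setoid G) ⟨j, x⟩

lemma ι_eq_iff {i j : J} {x : (G.obj i).Cell} {y : (G.obj j).Cell} :
    ι i x = ι j y ↔ ∃ (k : J) (f : i ⟶ k) (g : j ⟶ k), (G.map f).toFun x = (G.map g).toFun y :=
  Quotient.eq (r := setoid G)

lemma ι_map {i j : J} (u : i ⟶ j) (x : (G.obj i).Cell) : ι j ((G.map u).toFun x) = ι i x :=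
  ι_eq_iff.mpr ⟨j, 𝟙 j, u, map_id_app G _⟩

lemma exists_ι (x : Cells G) : ∃ (j : J) (y : (G.obj j).Cell), ι j y = x := by
  obtain ⟨⟨j, y⟩, h⟩ := Quotient.exists_rep x
  exact ⟨j, y, h⟩

lemma ι_eq_same {j : J} {x y : (G.obj j).Cell} (h : ι j x = ι j y) :
    ∃ (k : J) (f : j ⟶ k), (G.map f).toFun x = (G.map f).toFun y := by
  obtain ⟨k, f, g, h⟩ := ι_eq_iff.mp h
  obtain ⟨l, a, ha⟩ := IsFilteredOrEmpty.cocone_maps f g
  refine ⟨l, f ≫ a, ?_⟩
  rw [map_comp_app, h, ← map_comp_app, ha]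

/-- Finitely many cells of the colimit lift to a common stage. -/
lemma exists_lift {I : Type} [Finite I] (v : I → Cells G) :
    ∃ (j : J) (w : ∀ _ : I, (G.obj j).Cell), ∀ i, ι j (w i) = v i := by
  classical
  choose o y hy using fun i => exists_ι (v i)
  have := Fintype.ofFinite I
  obtain ⟨S, hS⟩ := IsFiltered.sup_objs_exists (Finset.univ.image o)
  have hf : ∀ i, Nonempty (o i ⟶ S) := fun i => hS (Finset.mem_image_of_mem o (Finset.mem_univ i))
  exact ⟨S, fun i => (G.map (hf i).some).toFun (y i), fun i => by rw [ι_map, hy]⟩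

/-- Finitely many equations between cells of the same stage which hold in the colimit hold at
a later stage. -/
lemma exists_stage {I : Type} [Finite I] {j : J} (a b : I → (G.obj j).Cell)
    (h : ∀ i, ι j (a i) = ι j (b i)) :
    ∃ (k : J) (f : j ⟶ k), ∀ i, (G.map f).toFun (a i) = (G.map f).toFun (b i) := by
  classical
  have := Fintype.ofFinite I
  have key : ∀ s : Finset I, ∃ (k : J) (f : j ⟶ k), ∀ i ∈ s,
      (G.map f).toFun (a i) = (G.map f).toFun (b i) := by
    intro s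
    induction s using Finset.induction_on with
    | empty => exact ⟨j, 𝟙 j, fun i hi => absurd hi (Finset.notMem_empty i)⟩
    | insert i s hi ih =>
      obtain ⟨k, f, hf⟩ := ih
      have h1 : ι k ((G.map f).toFun (a i)) = ι k ((G.map f).toFun (b i)) := by
        rw [ι_map, ι_map, h i]
      obtain ⟨l, g, hg⟩ := ι_eq_same h1
      refine ⟨l, f ≫ g, fun i' hi' => ?_⟩
      rw [map_comp_app, map_comp_app]
      rcases Finset.mem_insert.mp hi' with rfl | hi'
      · exact hg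
      · rw [hf i' hi']
  obtain ⟨k, f, hf⟩ := key Finset.univ
  exact ⟨k, f, fun i => hf i (Finset.mem_univ i)⟩

/-- The source and target operators. -/
def fbd (k : ℕ) (ε : Bool) (x : Cells G) : Cells G :=
  Quotient.map (sa := setoid G) (sb := setoid G) (fun a => ⟨a.1, (G.obj a.1).bd k ε a.2⟩)
    (by
      rintro x y ⟨l, f, g, h⟩
      refine ⟨l, f, g, ?_⟩
      change (G.map f).toFun _ = (G.map g).toFun _
      rw [(G.map f).map_bd, (G.map g).map_bd, h]) x

lemma fbd_ι (k : ℕ) (ε : Bool) {j : J} (x : (G.obj j).Cell) :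
    fbd k ε (ι j x) = ι j ((G.obj j).bd k ε x) := rfl

open Classical in
/-- The composition. -/
noncomputable def fcomp (k : ℕ) (x y : Cells G) : Cells G :=
  if h : ∃ (j : J) (p : (G.obj j).Cell × (G.obj j).Cell), ι j p.1 = x ∧ ι j p.2 = y ∧
      (G.obj j).bd k true p.1 = (G.obj j).bd k false p.2 then
    ι h.choose ((G.obj h.choose).comp k h.choose_spec.choose.1 h.choose_spec.choose.2)
  else x

lemma fcomp_ι (k : ℕ) {j : J} (x y : (G.obj j).Cell)
    (hxy : (G.obj j).bd k true x = (G.obj j).bd k false y) :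
    fcomp k (ι j x) (ι j y) = ι j ((G.obj j).comp k x y) := by
  have h : ∃ (i : J) (p : (G.obj i).Cell × (G.obj i).Cell), ι i p.1 = ι j x ∧ ι i p.2 = ι j y ∧
      (G.obj i).bd k true p.1 = (G.obj i).bd k false p.2 := ⟨j, (x, y), rfl, rfl, hxy⟩
  unfold fcomp
  rw [dif_pos h]
  obtain ⟨h1, h2, h3⟩ := h.choose_spec.choose_spec
  obtain ⟨l, f, g, hfg⟩ := ι_eq_iff.mp h1
  have h4 : ι l ((G.map f).toFun h.choose_spec.choose.2) = ι l ((G.map g).toFun y) := by
    rw [ι_map, ι_map, h2]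
  obtain ⟨l', a, ha⟩ := ι_eq_same h4
  rw [ι_eq_iff]
  refine ⟨l', f ≫ a, g ≫ a, ?_⟩
  have e1 := (G.map f).map_comp k _ _ h3
  have e2 := (G.map g).map_comp k _ _ hxy
  have h3' : (G.obj l).bd k true ((G.map f).toFun h.choose_spec.choose.1) =
      (G.obj l).bd k false ((G.map f).toFun h.choose_spec.choose.2) := by
    rw [← (G.map f).map_bd, ← (G.map f).map_bd, h3]
  have hxy' : (G.obj l).bd k true ((G.map g).toFun x) =
      (G.obj l).bd k false ((G.map g).toFun y) := by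
    rw [← (G.map g).map_bd, ← (G.map g).map_bd, hxy]
  rw [map_comp_app, map_comp_app, e1, e2, (G.map a).map_comp k _ _ h3',
    (G.map a).map_comp k _ _ hxy', hfg, ha]

/-- Composable pairs lift. -/
lemma exists_pair {k : ℕ} {x y : Cells G} (h : fbd k true x = fbd k false y) :
    ∃ (j : J) (x' y' : (G.obj j).Cell), ι j x' = x ∧ ι j y' = y ∧
      (G.obj j).bd k true x' = (G.obj j).bd k false y' := by
  obtain ⟨j, w, hw⟩ := exists_lift (G := G) (fun b : Bool => if b then x else y)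
  have h1 : ι j (w true) = x := hw true
  have h2 : ι j (w false) = y := hw false
  have h3 : ι j ((G.obj j).bd k true (w true)) = ι j ((G.obj j).bd k false (w false)) := by
    rw [← fbd_ι, ← fbd_ι, h1, h2, h]
  obtain ⟨l, f, hf⟩ := ι_eq_same h3
  refine ⟨l, (G.map f).toFun (w true), (G.map f).toFun (w false), ?_, ?_, ?_⟩
  · rw [ι_map, h1]
  · rw [ι_map, h2]
  · rw [← (G.map f).map_bd, ← (G.map f).map_bd, hf]

/-- Composable triples lift. -/
lemma exists_triple {k : ℕ} {x y z : Cells G} (h : fbd k true x = fbd k false y)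
    (h' : fbd k true y = fbd k false z) :
    ∃ (j : J) (x' y' z' : (G.obj j).Cell), ι j x' = x ∧ ι j y' = y ∧ ι j z' = z ∧
      (G.obj j).bd k true x' = (G.obj j).bd k false y' ∧
      (G.obj j).bd k true y' = (G.obj j).bd k false z' := by
  obtain ⟨j, w, hw⟩ := exists_lift (G := G) ![x, y, z]
  have h1 : ι j (w 0) = x := hw 0
  have h2 : ι j (w 1) = y := hw 1
  have h3 : ι j (w 2) = z := hw 2
  obtain ⟨l, f, hf⟩ := exists_stage (G := G) (j := j) ![(G.obj j).bd k true (w 0),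
    (G.obj j).bd k true (w 1)] ![(G.obj j).bd k false (w 1), (G.obj j).bd k false (w 2)] (by
      intro i
      fin_cases i
      · change ι j ((G.obj j).bd k true (w 0)) = ι j ((G.obj j).bd k false (w 1))
        rw [← fbd_ι, ← fbd_ι, h1, h2, h]
      · change ι j ((G.obj j).bd k true (w 1)) = ι j ((G.obj j).bd k false (w 2))
        rw [← fbd_ι, ← fbd_ι, h2, h3, h'])
  have e1 : (G.map f).toFun ((G.obj j).bd k true (w 0)) =
    (G.map f).toFun ((G.obj j).bd k false (w 1)) := hf 0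
  have e2 : (G.map f).toFun ((G.obj j).bd k true (w 1)) =
    (G.map f).toFun ((G.obj j).bd k false (w 2)) := hf 1
  refine ⟨l, (G.map f).toFun (w 0), (G.map f).toFun (w 1), (G.map f).toFun (w 2), ?_, ?_, ?_,
    ?_, ?_⟩
  · rw [ι_map, h1]
  · rw [ι_map, h2]
  · rw [ι_map, h3]
  · rw [← (G.map f).map_bd, ← (G.map f).map_bd, e1]
  · rw [← (G.map f).map_bd, ← (G.map f).map_bd, e2]

/-- Squares of composable cells lift. -/
lemma exists_quadruple {j k : ℕ} {x y x' y' : Cells G}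
    (h1 : fbd k true x = fbd k false y) (h2 : fbd k true x' = fbd k false y')
    (h3 : fbd j true x = fbd j false x') (h4 : fbd j true y = fbd j false y') :
    ∃ (i : J) (a b a' b' : (G.obj i).Cell), ι i a = x ∧ ι i b = y ∧ ι i a' = x' ∧ ι i b' = y' ∧
      (G.obj i).bd k true a = (G.obj i).bd k false b ∧
      (G.obj i).bd k true a' = (G.obj i).bd k false b' ∧
      (G.obj i).bd j true a = (G.obj i).bd j false a' ∧
      (G.obj i).bd j true b = (G.obj i).bd j false b' := by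
  obtain ⟨i, w, hw⟩ := exists_lift (G := G) ![x, y, x', y']
  have g1 : ι i (w 0) = x := hw 0
  have g2 : ι i (w 1) = y := hw 1
  have g3 : ι i (w 2) = x' := hw 2
  have g4 : ι i (w 3) = y' := hw 3
  obtain ⟨l, f, hf⟩ := exists_stage (G := G) (j := i)
    ![(G.obj i).bd k true (w 0), (G.obj i).bd k true (w 2), (G.obj i).bd j true (w 0),
      (G.obj i).bd j true (w 1)]
    ![(G.obj i).bd k false (w 1), (G.obj i).bd k false (w 3), (G.obj i).bd j false (w 2),
      (G.obj i).bd j false (w 3)] (by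
      intro r
      fin_cases r
      · change ι i ((G.obj i).bd k true (w 0)) = ι i ((G.obj i).bd k false (w 1))
        rw [← fbd_ι, ← fbd_ι, g1, g2, h1]
      · change ι i ((G.obj i).bd k true (w 2)) = ι i ((G.obj i).bd k false (w 3))
        rw [← fbd_ι, ← fbd_ι, g3, g4, h2]
      · change ι i ((G.obj i).bd j true (w 0)) = ι i ((G.obj i).bd j false (w 2))
        rw [← fbd_ι, ← fbd_ι, g1, g3, h3]
      · change ι i ((G.obj i).bd j true (w 1)) = ι i ((G.obj i).bd j false (w 3))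
        rw [← fbd_ι, ← fbd_ι, g2, g4, h4])
  have e1 : (G.map f).toFun ((G.obj i).bd k true (w 0)) =
    (G.map f).toFun ((G.obj i).bd k false (w 1)) := hf 0
  have e2 : (G.map f).toFun ((G.obj i).bd k true (w 2)) =
    (G.map f).toFun ((G.obj i).bd k false (w 3)) := hf 1
  have e3 : (G.map f).toFun ((G.obj i).bd j true (w 0)) =
    (G.map f).toFun ((G.obj i).bd j false (w 2)) := hf 2
  have e4 : (G.map f).toFun ((G.obj i).bd j true (w 1)) =
    (G.map f).toFun ((G.obj i).bd j false (w 3)) := hf 3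
  refine ⟨l, (G.map f).toFun (w 0), (G.map f).toFun (w 1), (G.map f).toFun (w 2),
    (G.map f).toFun (w 3), ?_, ?_, ?_, ?_, ?_, ?_, ?_, ?_⟩
  · rw [ι_map, g1]
  · rw [ι_map, g2]
  · rw [ι_map, g3]
  · rw [ι_map, g4]
  · rw [← (G.map f).map_bd, ← (G.map f).map_bd, e1]
  · rw [← (G.map f).map_bd, ← (G.map f).map_bd, e2]
  · rw [← (G.map f).map_bd, ← (G.map f).map_bd, e3]
  · rw [← (G.map f).map_bd, ← (G.map f).map_bd, e4]

variable (G)

/-- The filtered colimit. -/
noncomputable def colim : OmegaCat where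
  Cell := Cells G
  bd := fbd
  comp := fcomp
  bd_bd_lt η ε x h := by
    obtain ⟨i, x, rfl⟩ := exists_ι x
    rw [fbd_ι, fbd_ι, fbd_ι, (G.obj i).bd_bd_lt _ _ _ h]
  bd_bd_ge η ε x h := by
    obtain ⟨i, x, rfl⟩ := exists_ι x
    rw [fbd_ι, fbd_ι, (G.obj i).bd_bd_ge _ _ _ h]
  bd_source_comp h := by
    obtain ⟨i, x, y, rfl, rfl, hxy⟩ := exists_pair h
    rw [fcomp_ι _ _ _ hxy, fbd_ι, fbd_ι, (G.obj i).bd_source_comp hxy]
  bd_target_comp h := by
    obtain ⟨i, x, y, rfl, rfl, hxy⟩ := exists_pair h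
    rw [fcomp_ι _ _ _ hxy, fbd_ι, fbd_ι, (G.obj i).bd_target_comp hxy]
  bd_comp {j k} ε x y hk h := by
    obtain ⟨i, x, y, rfl, rfl, hxy⟩ := exists_pair h
    have h' : (G.obj i).bd k true ((G.obj i).bd j ε x) =
        (G.obj i).bd k false ((G.obj i).bd j ε y) := by
      rw [(G.obj i).bd_bd_lt _ _ _ hk, (G.obj i).bd_bd_lt _ _ _ hk, hxy]
    rw [fcomp_ι _ _ _ hxy, fbd_ι, fbd_ι, fbd_ι, (G.obj i).bd_comp _ hk hxy, fcomp_ι _ _ _ h']
  comp_target k x := by
    obtain ⟨i, x, rfl⟩ := exists_ι x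
    rw [fbd_ι, fcomp_ι, (G.obj i).comp_target]
    rw [(G.obj i).bd_bd_ge _ _ _ le_rfl]
  source_comp k x := by
    obtain ⟨i, x, rfl⟩ := exists_ι x
    rw [fbd_ι, fcomp_ι, (G.obj i).source_comp]
    rw [(G.obj i).bd_bd_ge _ _ _ le_rfl]
  comp_assoc {k x y z} h h' := by
    obtain ⟨i, x, y, z, rfl, rfl, rfl, hxy, hyz⟩ := exists_triple h h'
    have h1 : (G.obj i).bd k true ((G.obj i).comp k x y) = (G.obj i).bd k false z := by
      rw [(G.obj i).bd_target_comp hxy, hyz]
    have h2 : (G.obj i).bd k true x = (G.obj i).bd k false ((G.obj i).comp k y z) := by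
      rw [(G.obj i).bd_source_comp hyz, hxy]
    rw [fcomp_ι _ _ _ hxy, fcomp_ι _ _ _ hyz, fcomp_ι _ _ _ h1, fcomp_ι _ _ _ h2,
      (G.obj i).comp_assoc hxy hyz]
  interchange {j k x y x' y'} hjk h1 h2 h3 h4 := by
    obtain ⟨i, x, y, x', y', rfl, rfl, rfl, rfl, g1, g2, g3, g4⟩ := exists_quadruple h1 h2 h3 h4
    have h5 : (G.obj i).bd j true ((G.obj i).comp k x y) =
        (G.obj i).bd j false ((G.obj i).comp k x' y') := by
      have e1 := (G.obj i).bd_bd_lt true true ((G.obj i).comp k x y) hjk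
      have e2 := (G.obj i).bd_bd_lt false true ((G.obj i).comp k x' y') hjk
      rw [← e1, ← e2, (G.obj i).bd_target_comp g1, (G.obj i).bd_target_comp g2,
        (G.obj i).bd_bd_lt _ _ _ hjk, (G.obj i).bd_bd_lt _ _ _ hjk, g4]
    have h6 : (G.obj i).bd k true ((G.obj i).comp j x x') =
        (G.obj i).bd k false ((G.obj i).comp j y y') := by
      rw [(G.obj i).bd_comp _ hjk g3, (G.obj i).bd_comp _ hjk g4, g1, g2]
    rw [fcomp_ι _ _ _ g1, fcomp_ι _ _ _ g2, fcomp_ι _ _ _ g3, fcomp_ι _ _ _ g4,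
      fcomp_ι _ _ _ h5, fcomp_ι _ _ _ h6, (G.obj i).interchange hjk g1 g2 g3 g4]
  finite_dim x := by
    obtain ⟨i, x, rfl⟩ := exists_ι x
    obtain ⟨N, hN⟩ := (G.obj i).finite_dim x
    exact ⟨N, by rw [fbd_ι, hN]⟩

variable {G} in
lemma colim_isNCat {n : ℕ∞} (h : ∀ j, OmegaCat.IsNCat n (G.obj j)) :
    OmegaCat.IsNCat n (colim G) := by
  intro k hk x
  obtain ⟨i, x, rfl⟩ := exists_ι (G := G) x
  exact congrArg (ι i) (h i k hk x)

/-- The cocone maps. -/
noncomputable def inj (j : J) : G.obj j ⟶ colim G where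
  toFun x := ι j x
  map_bd k ε x := (fbd_ι k ε x).symm
  map_comp k x y h := (fcomp_ι k x y h).symm

lemma inj_w {i j : J} (u : i ⟶ j) : G.map u ≫ inj G j = inj G i := by
  apply OmegaCat.hom_ext
  intro x
  exact ι_map u x

variable {G}

omit [IsFiltered J] in
lemma desc_aux {X : OmegaCat} (f : ∀ j, G.obj j ⟶ X)
    (hf : ∀ (j j' : J) (u : j ⟶ j'), G.map u ≫ f j' = f j) {i j : J} (u : i ⟶ j)
    (x : (G.obj i).Cell) : (f j).toFun ((G.map u).toFun x) = (f i).toFun x := by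
  rw [← hf i j u]
  rfl

/-- The universal property, on cells. -/
def descFun {X : OmegaCat} (f : ∀ j, G.obj j ⟶ X)
    (hf : ∀ (j j' : J) (u : j ⟶ j'), G.map u ≫ f j' = f j) (x : Cells G) : X.Cell :=
  Quotient.lift (s := setoid G) (fun a => (f a.1).toFun a.2) (by
    rintro x y ⟨k, a, b, h⟩
    rw [← desc_aux f hf a, ← desc_aux f hf b, h]) x

/-- The universal property. -/
def desc {X : OmegaCat} (f : ∀ j, G.obj j ⟶ X)
    (hf : ∀ (j j' : J) (u : j ⟶ j'), G.map u ≫ f j' = f j) : colim G ⟶ X where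
  toFun := descFun f hf
  map_bd k ε x := by
    obtain ⟨i, x, rfl⟩ := exists_ι (G := G) x
    exact (f i).map_bd k ε x
  map_comp k x y h := by
    obtain ⟨i, x, y, rfl, rfl, hxy⟩ := exists_pair (G := G) h
    refine (congrArg (descFun f hf) (fcomp_ι k x y hxy)).trans ?_
    exact (f i).map_comp k x y hxy

lemma inj_desc {X : OmegaCat} (f : ∀ j, G.obj j ⟶ X)
    (hf : ∀ (j j' : J) (u : j ⟶ j'), G.map u ≫ f j' = f j) (j : J) :
    inj G j ≫ desc f hf = f j := rfl

lemma hom_ext {X : OmegaCat} {f g : colim G ⟶ X} (h : ∀ j, inj G j ≫ f = inj G j ≫ g) :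
    f = g := by
  apply OmegaCat.hom_ext
  intro x
  obtain ⟨i, x, rfl⟩ := exists_ι (G := G) x
  exact congrArg (fun f : G.obj i ⟶ X => f.toFun x) (h i)

/-- A finite strict ω-category is finitely presentable, injectivity. -/
lemma fp_inj {X : OmegaCat} [Finite X.Cell] {i j : J} (a : X ⟶ G.obj i) (b : X ⟶ G.obj j)
    (h : a ≫ inj G i = b ≫ inj G j) :
    ∃ (k : J) (f : i ⟶ k) (g : j ⟶ k), a ≫ G.map f = b ≫ G.map g := by
  let f := IsFiltered.leftToMax i j
  let g := IsFiltered.rightToMax i j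
  have h1 : ∀ x : X.Cell, ι (G := G) (IsFiltered.max i j) ((G.map f).toFun (a.toFun x)) =
      ι (IsFiltered.max i j) ((G.map g).toFun (b.toFun x)) := by
    intro x
    rw [ι_map, ι_map]
    exact congrArg (fun f : X ⟶ colim G => f.toFun x) h
  obtain ⟨k, u, hu⟩ := exists_stage _ _ h1
  refine ⟨k, f ≫ u, g ≫ u, ?_⟩
  apply OmegaCat.hom_ext
  intro x
  rw [OmegaCat.comp_toFun, OmegaCat.comp_toFun, map_comp_app, map_comp_app]
  exact hu x

/-- A finite strict ω-category is finitely presentable, surjectivity. -/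
lemma fp_surj {X : OmegaCat} [Finite X.Cell] (φ : X ⟶ colim G) :
    ∃ (j : J) (ψ : X ⟶ G.obj j), ψ ≫ inj G j = φ := by
  classical
  -- a bound for the dimensions
  obtain ⟨N, hN⟩ : ∃ N : ℕ, ∀ x : X.Cell, X.bd N false x = x := by
    have := Fintype.ofFinite X.Cell
    choose d hd using X.finite_dim
    refine ⟨Finset.univ.sup d, fun x => Colim.bd_of_dim (hd x) (Finset.le_sup (Finset.mem_univ x))
      false⟩
  obtain ⟨j, w, hw⟩ := exists_lift (G := G) (fun x : X.Cell => φ.toFun x)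
  -- compatibility with sources and targets
  obtain ⟨j1, f1, hf1⟩ := exists_stage (G := G) (I := Fin (N + 1) × Bool × X.Cell)
    (fun p => w (X.bd p.1 p.2.1 p.2.2)) (fun p => (G.obj j).bd p.1 p.2.1 (w p.2.2)) (by
      rintro ⟨k, ε, x⟩
      change ι j (w (X.bd k ε x)) = ι j ((G.obj j).bd k ε (w x))
      rw [hw, ← fbd_ι, hw]
      exact φ.map_bd k ε x)
  let w1 : X.Cell → (G.obj j1).Cell := fun x => (G.map f1).toFun (w x)
  have hw1 : ∀ x, ι j1 (w1 x) = φ.toFun x := fun x => by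
    change ι j1 ((G.map f1).toFun (w x)) = _
    rw [ι_map, hw]
  have hb1 : ∀ (k : ℕ) (ε : Bool) (x : X.Cell), w1 (X.bd k ε x) = (G.obj j1).bd k ε (w1 x) := by
    have h0 : ∀ (k : ℕ) (ε : Bool) (x : X.Cell), k ≤ N →
        w1 (X.bd k ε x) = (G.obj j1).bd k ε (w1 x) := fun k ε x hk => by
      refine (hf1 (⟨k, Nat.lt_succ_of_le hk⟩, ε, x)).trans ?_
      exact (G.map f1).map_bd k ε (w x)
    intro k ε x
    rcases le_or_gt k N with hk | hk
    · exact h0 k ε x hk
    · have h1 : (G.obj j1).bd N false (w1 x) = w1 x := by rw [← h0 N false x le_rfl, hN]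
      rw [Colim.bd_of_dim (hN x) hk.le, Colim.bd_of_dim h1 hk.le]
  -- compatibility with compositions
  obtain ⟨j2, f2, hf2⟩ := exists_stage (G := G)
    (I := Σ k : Fin (N + 1), {p : X.Cell × X.Cell // X.bd k true p.1 = X.bd k false p.2})
    (fun p => w1 (X.comp p.1 p.2.1.1 p.2.1.2))
    (fun p => (G.obj j1).comp p.1 (w1 p.2.1.1) (w1 p.2.1.2)) (by
      rintro ⟨k, ⟨⟨x, y⟩, hxy⟩⟩
      change ι j1 (w1 (X.comp k x y)) = ι j1 ((G.obj j1).comp k (w1 x) (w1 y))
      rw [hw1, ← fcomp_ι, hw1, hw1]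
      · exact φ.map_comp k x y hxy
      · rw [← hb1, ← hb1]
        exact congrArg w1 hxy)
  let w2 : X.Cell → (G.obj j2).Cell := fun x => (G.map f2).toFun (w1 x)
  have hw2 : ∀ x, ι j2 (w2 x) = φ.toFun x := fun x => by
    change ι j2 ((G.map f2).toFun (w1 x)) = _
    rw [ι_map, hw1]
  have hb2 : ∀ (k : ℕ) (ε : Bool) (x : X.Cell), w2 (X.bd k ε x) = (G.obj j2).bd k ε (w2 x) :=
    fun k ε x => (congrArg (G.map f2).toFun (hb1 k ε x)).trans ((G.map f2).map_bd k ε (w1 x))
  refine ⟨j2, ⟨w2, hb2, ?_⟩, OmegaCat.hom_ext fun x => hw2 x⟩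
  intro k x y hxy
  rcases le_or_gt k N with hk | hk
  · refine (hf2 ⟨⟨k, Nat.lt_succ_of_le hk⟩, ⟨(x, y), hxy⟩⟩).trans ?_
    refine (G.map f2).map_comp k (w1 x) (w1 y) ?_
    rw [← hb1, ← hb1, hxy]
  · have h1 : x = y := by
      rw [Colim.bd_of_dim (hN x) hk.le, Colim.bd_of_dim (hN y) hk.le] at hxy
      exact hxy
    subst h1
    have h2 : X.comp k x x = x := by
      have := X.comp_target k x
      rwa [Colim.bd_of_dim (hN x) hk.le] at this
    have h3 : (G.obj j2).bd k true (w2 x) = w2 x := by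
      rw [← hb2, Colim.bd_of_dim (hN x) hk.le]
    have h4 : (G.obj j2).comp k (w2 x) (w2 x) = w2 x := by
      have := (G.obj j2).comp_target k (w2 x)
      rwa [h3] at this
    rw [h2, h4]

end Filt

end Vale.Agent.P213
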