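import Vale.Agent.Lib.P213.Defs

/-!
# P213: the orientals are finite
-/

open CategoryTheory

namespace Vale.Agent.P213

namespace FinTable

/-- A complex with a functional which is positive on all boundaries of basis elements has
finitely many tables. -/
theorem finite_table (K : Cpx) (φ : K.B → ℕ)
    (hφ : ∀ b : K.B, 0 < K.dim b → 1 ≤ ∑ a : K.B, K.bd b a * (φ a : ℤ)) : Finite (Table K) := by
  classical
  let M : ℕ := ∑ a : K.B, φ a
  have hM : ∀ a, φ a ≤ M := fun a => Finset.single_le_sum (fun _ _ => Nat.zero_le _)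
    (Finset.mem_univ a)
  have key : ∀ q : ℕ, ∃ N : ℕ, ∀ (t : Table K) (ε : Bool),
      ∑ b : K.B, (if K.dim b = q then t.x ε b else 0) ≤ N := by
    intro q
    induction q with
    | zero => exact ⟨1, fun t ε => (t.aug ε).le⟩
    | succ q ih =>
      obtain ⟨N, hN⟩ := ih
      refine ⟨M * N, fun t ε => ?_⟩
      have h1 : ((∑ b : K.B, (if K.dim b = q + 1 then t.x ε b else 0) : ℕ) : ℤ) ≤
          ∑ b : K.B, (if K.dim b = q + 1 then (t.x ε b : ℤ) else 0) *
            (∑ a : K.B, K.bd b a * (φ a : ℤ)) := by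
        push_cast
        refine Finset.sum_le_sum fun b _ => ?_
        by_cases hb : K.dim b = q + 1
        · rw [if_pos hb]
          nlinarith [hφ b (by omega), Int.natCast_nonneg (t.x ε b)]
        · rw [if_neg hb, zero_mul]
      have h2 : ∑ b : K.B, (if K.dim b = q + 1 then (t.x ε b : ℤ) else 0) *
            (∑ a : K.B, K.bd b a * (φ a : ℤ)) =
          ∑ a : K.B, (if K.dim a = q then (K.bdry (t.x ε) a) * (φ a : ℤ) else 0) := by
        simp only [Finset.mul_sum]
        rw [Finset.sum_comm]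
        refine Finset.sum_congr rfl fun a _ => ?_
        by_cases ha : K.dim a = q
        · rw [if_pos ha, Cpx.bdry, Finset.sum_mul]
          refine Finset.sum_congr rfl fun b _ => ?_
          by_cases hb : K.bd b a = 0
          · rw [hb]
            ring
          · rw [if_pos (by rw [K.dim_of_bd b a hb, ha])]
            ring
        · rw [if_neg ha]
          refine Finset.sum_eq_zero fun b _ => ?_
          by_cases hb : K.bd b a = 0
          · rw [hb]
            ring
          · rw [if_neg (by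
              rw [K.dim_of_bd b a hb]
              omega)]
            ring
      have h3 : ∑ a : K.B, (if K.dim a = q then (K.bdry (t.x ε) a) * (φ a : ℤ) else 0) ≤
          ∑ a : K.B, (M : ℤ) * ((if K.dim a = q then t.x true a else 0 : ℕ) : ℤ) := by
        refine Finset.sum_le_sum fun a _ => ?_
        by_cases ha : K.dim a = q
        · rw [if_pos ha, if_pos ha, t.bd ε a]
          have e1 : (φ a : ℤ) ≤ M := by exact_mod_cast hM a
          have e2 : (0 : ℤ) ≤ φ a := Int.natCast_nonneg _
          have e3 : (0 : ℤ) ≤ t.x false a := Int.natCast_nonneg _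
          have e4 : (0 : ℤ) ≤ t.x true a := Int.natCast_nonneg _
          nlinarith [mul_nonneg e2 e3, mul_le_mul_of_nonneg_right e1 e4]
        · rw [if_neg ha, if_neg ha]
          simp
      have h4 : ∑ a : K.B, (M : ℤ) * ((if K.dim a = q then t.x true a else 0 : ℕ) : ℤ) =
          ((M * ∑ a : K.B, (if K.dim a = q then t.x true a else 0) : ℕ) : ℤ) := by
        push_cast
        rw [Finset.mul_sum]
      have h5 : M * ∑ a : K.B, (if K.dim a = q then t.x true a else 0) ≤ M * N :=
        Nat.mul_le_mul_left _ (hN t true)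
      have h6 : ((∑ b : K.B, (if K.dim b = q + 1 then t.x ε b else 0) : ℕ) : ℤ) ≤
          ((M * N : ℕ) : ℤ) := by
        refine h1.trans ?_
        rw [h2]
        refine h3.trans ?_
        rw [h4]
        exact_mod_cast h5
      exact_mod_cast h6
  choose N hN using key
  let B : ℕ := ∑ b : K.B, N (K.dim b)
  have hB : ∀ (t : Table K) (ε : Bool) (b : K.B), t.x ε b < B + 1 := by
    intro t ε b
    have h1 : t.x ε b ≤ ∑ c : K.B, (if K.dim c = K.dim b then t.x ε c else 0) := by
      have := Finset.single_le_sum (f := fun c : K.B => if K.dim c = K.dim b then t.x ε c else 0)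
        (fun _ _ => Nat.zero_le _) (Finset.mem_univ b)
      simpa using this
    have h2 : N (K.dim b) ≤ B := Finset.single_le_sum (f := fun c => N (K.dim c))
      (fun _ _ => Nat.zero_le _) (Finset.mem_univ b)
    have h3 := hN (K.dim b) t ε
    omega
  refine Finite.of_injective (β := Bool → K.B → Fin (B + 1))
    (fun t ε b => ⟨t.x ε b, hB t ε b⟩) ?_
  intro s t hst
  ext ε b
  have := congrArg (fun f : Bool → K.B → Fin (B + 1) => (f ε b : ℕ)) hst
  exact this

/-- The sum of a function over the faces of a simplex. -/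
lemma sum_simplexBd {m : ℕ} (φ : Finset (Fin (m + 1)) → ℤ) (σ : Finset (Fin (m + 1)))
    (hσ : 2 ≤ σ.card) :
    ∑ τ : SimplexBasis m, simplexBd σ τ.1 * φ τ.1 =
      ∑ j ∈ σ, (-1) ^ (σ.filter (· < j)).card * φ (σ.erase j) := by
  unfold simplexBd
  simp only [Finset.sum_mul]
  rw [Finset.sum_comm]
  refine Finset.sum_congr rfl fun j hj => ?_
  have hne : (σ.erase j).Nonempty := by
    rw [← Finset.card_pos, Finset.card_erase_of_mem hj]
    omega
  rw [Finset.sum_eq_single (⟨σ.erase j, hne⟩ : SimplexBasis m)]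
  · rw [if_pos rfl]
  · intro τ _ hτ
    rw [if_neg (fun h => hτ (Subtype.ext h.symm)), zero_mul]
  · intro h
    exact absurd (Finset.mem_univ _) h

lemma simplex_functional {m : ℕ} (σ : Finset (Fin (m + 1))) (hσ : 2 ≤ σ.card) :
    1 ≤ ∑ τ : SimplexBasis m, simplexBd σ τ.1 *
      (((m + 2) ^ ((τ.1.min' τ.2 : Fin (m + 1)) : ℕ) : ℕ) : ℤ) := by
  classical
  have hne : σ.Nonempty := by
    rw [← Finset.card_pos]
    omega
  let φ : Finset (Fin (m + 1)) → ℤ := fun τ =>
    if h : τ.Nonempty then ((m + 2) ^ ((τ.min' h : Fin (m + 1)) : ℕ) : ℕ) else 0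
  have h0 : ∑ τ : SimplexBasis m, simplexBd σ τ.1 *
      (((m + 2) ^ ((τ.1.min' τ.2 : Fin (m + 1)) : ℕ) : ℕ) : ℤ) =
      ∑ τ : SimplexBasis m, simplexBd σ τ.1 * φ τ.1 := by
    refine Finset.sum_congr rfl fun τ _ => ?_
    simp only [φ, dif_pos τ.2]
  rw [h0, sum_simplexBd φ σ hσ]
  obtain ⟨a, ha⟩ : ∃ a, a = σ.min' hne := ⟨_, rfl⟩
  have haσ : a ∈ σ := ha ▸ σ.min'_mem hne
  have hmin : ∀ i ∈ σ, a ≤ i := fun i hi => ha ▸ σ.min'_le i hi
  rw [← Finset.add_sum_erase _ _ haσ]
  have hne' : (σ.erase a).Nonempty := by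
    rw [← Finset.card_pos, Finset.card_erase_of_mem haσ]
    omega
  have h1 : (-1 : ℤ) ^ (σ.filter (· < a)).card * φ (σ.erase a) ≥ ((m : ℤ) + 2) ^ ((a : ℕ) + 1) := by
    have e1 : σ.filter (· < a) = ∅ := by
      rw [Finset.filter_eq_empty_iff]
      intro i hi
      exact not_lt.mpr (hmin i hi)
    rw [e1]
    simp only [Finset.card_empty, pow_zero, one_mul, φ, dif_pos hne', ge_iff_le]
    push_cast
    refine pow_le_pow_right₀ (by linarith [Int.natCast_nonneg m]) ?_
    have h2 := (σ.erase a).min'_mem hne'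
    have h3 : a < (σ.erase a).min' hne' :=
      lt_of_le_of_ne (hmin _ (Finset.mem_of_mem_erase h2)) (Finset.ne_of_mem_erase h2).symm
    exact h3
  have h2 : ∀ j ∈ σ.erase a, (-1 : ℤ) ^ (σ.filter (· < j)).card * φ (σ.erase j) ≥
      -((m : ℤ) + 2) ^ (a : ℕ) := by
    intro j hj
    have hja := Finset.ne_of_mem_erase hj
    have haj : a ∈ σ.erase j := Finset.mem_erase.mpr ⟨hja.symm, haσ⟩
    have hnej : (σ.erase j).Nonempty := ⟨a, haj⟩
    have e1 : (σ.erase j).min' hnej = a :=
      le_antisymm ((σ.erase j).min'_le a haj)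
        (hmin _ (Finset.mem_of_mem_erase ((σ.erase j).min'_mem hnej)))
    simp only [φ, dif_pos hnej, e1]
    push_cast
    have hp : (0 : ℤ) ≤ ((m : ℤ) + 2) ^ (a : ℕ) := by positivity
    rcases neg_one_pow_eq_or ℤ (σ.filter (· < j)).card with h | h
    · rw [h]
      linarith
    · rw [h]
      linarith
  have h3 : ∑ j ∈ σ.erase a, (-1 : ℤ) ^ (σ.filter (· < j)).card * φ (σ.erase j) ≥
      (σ.erase a).card * (-((m : ℤ) + 2) ^ (a : ℕ)) := by
    have := Finset.card_nsmul_le_sum (σ.erase a)
      (fun j => (-1 : ℤ) ^ (σ.filter (· < j)).card * φ (σ.erase j))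
      (-((m : ℤ) + 2) ^ (a : ℕ)) h2
    rw [nsmul_eq_mul] at this
    exact this
  have h4 : (σ.erase a).card ≤ m := by
    rw [Finset.card_erase_of_mem haσ]
    have := Finset.card_le_univ σ
    rw [Fintype.card_fin] at this
    omega
  have h5 : ((σ.erase a).card : ℤ) ≤ m := by exact_mod_cast h4
  have hp : (1 : ℤ) ≤ ((m : ℤ) + 2) ^ (a : ℕ) :=
    one_le_pow₀ (by linarith [Int.natCast_nonneg m])
  rw [pow_succ] at h1
  nlinarith

instance finite_table_simplex (m : ℕ) : Finite (Table (simplexCpx m)) :=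
  finite_table (simplexCpx m) (fun τ => (m + 2) ^ ((τ.1.min' τ.2 : Fin (m + 1)) : ℕ))
    (fun σ hσ => simplex_functional σ.1 (by
      have h : 0 < σ.1.card - 1 := hσ
      omega))

end FinTable

end Vale.Agent.P213
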