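import Vale.Agent.Lib.P213.Free0

/-!
# P213: small limits in `NCat n`
-/

open CategoryTheory Limits Opposite

namespace Vale.Agent.P213

namespace Lim

section

variable {J : Type} [SmallCategory J] (F : J ⥤ OmegaCat)

/-- Compatible families of cells of bounded dimension. -/
@[ext]
structure Fam where
  x : ∀ j, (F.obj j).Cell
  w : ∀ (j j' : J) (u : j ⟶ j'), (F.map u).toFun (x j) = x j'
  dim : ∃ N : ℕ, ∀ j, (F.obj j).bd N false (x j) = x j

variable {F}

/-- The source and target operators. -/
def fbd (k : ℕ) (ε : Bool) (x : Fam F) : Fam F where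
  x j := (F.obj j).bd k ε (x.x j)
  w j j' u := by rw [(F.map u).map_bd, x.w]
  dim := by
    refine ⟨k, fun j => ?_⟩
    rw [(F.obj j).bd_bd_ge _ _ _ le_rfl]

lemma fbd_x (k : ℕ) (ε : Bool) (x : Fam F) (j : J) :
    (fbd k ε x).x j = (F.obj j).bd k ε (x.x j) := rfl

lemma fam_composable {k : ℕ} {x y : Fam F} (h : fbd k true x = fbd k false y) (j : J) :
    (F.obj j).bd k true (x.x j) = (F.obj j).bd k false (y.x j) :=
  congrArg (fun z : Fam F => z.x j) h

open Classical in
/-- The composition. -/
noncomputable def fcomp (k : ℕ) (x y : Fam F) : Fam F :=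
  if h : fbd k true x = fbd k false y then
    { x := fun j => (F.obj j).comp k (x.x j) (y.x j)
      w := fun j j' u => by
        rw [(F.map u).map_comp _ _ _ (fam_composable h j), x.w, y.w]
      dim := by
        obtain ⟨N, hN⟩ := x.dim
        obtain ⟨M, hM⟩ := y.dim
        refine ⟨max (max N M) (k + 1), fun j => ?_⟩
        rw [(F.obj j).bd_comp _ (by omega) (fam_composable h j),
          Colim.bd_of_dim (hN j) (by omega), Colim.bd_of_dim (hM j) (by omega)] }
  else x

lemma fcomp_x {k : ℕ} {x y : Fam F} (h : fbd k true x = fbd k false y) (j : J) :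
    (fcomp k x y).x j = (F.obj j).comp k (x.x j) (y.x j) := by
  unfold fcomp
  rw [dif_pos h]

lemma fam_ext {x y : Fam F} (h : ∀ j, x.x j = y.x j) : x = y := Fam.ext (funext h)

variable (F)

/-- The limit. -/
noncomputable def lim : OmegaCat where
  Cell := Fam F
  bd := fbd
  comp := fcomp
  bd_bd_lt η ε x h := fam_ext fun j => by
    simp only [fbd_x, (F.obj j).bd_bd_lt _ _ _ h]
  bd_bd_ge η ε x h := fam_ext fun j => by
    simp only [fbd_x, (F.obj j).bd_bd_ge _ _ _ h]
  bd_source_comp h := fam_ext fun j => by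
    rw [fbd_x, fbd_x, fcomp_x h, (F.obj j).bd_source_comp (fam_composable h j)]
  bd_target_comp h := fam_ext fun j => by
    rw [fbd_x, fbd_x, fcomp_x h, (F.obj j).bd_target_comp (fam_composable h j)]
  bd_comp {j k} ε x y hk h := fam_ext fun i => by
    have h' : fbd k true (fbd j ε x) = fbd k false (fbd j ε y) := fam_ext fun i => by
      rw [fbd_x, fbd_x, fbd_x, fbd_x, (F.obj i).bd_bd_lt _ _ _ hk, (F.obj i).bd_bd_lt _ _ _ hk,
        fam_composable h i]
    rw [fbd_x, fcomp_x h, fcomp_x h', (F.obj i).bd_comp _ hk (fam_composable h i), fbd_x, fbd_x]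
  comp_target k x := fam_ext fun i => by
    have h : fbd k true x = fbd k false (fbd k true x) := fam_ext fun i => by
      rw [fbd_x, fbd_x, fbd_x, (F.obj i).bd_bd_ge _ _ _ le_rfl]
    rw [fcomp_x h, fbd_x, (F.obj i).comp_target]
  source_comp k x := fam_ext fun i => by
    have h : fbd k true (fbd k false x) = fbd k false x := fam_ext fun i => by
      rw [fbd_x, fbd_x, (F.obj i).bd_bd_ge _ _ _ le_rfl]
    rw [fcomp_x h, fbd_x, (F.obj i).source_comp]
  comp_assoc {k x y z} h h' := fam_ext fun i => by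
    have h1 : fbd k true (fcomp k x y) = fbd k false z := fam_ext fun i => by
      rw [fbd_x, fcomp_x h, (F.obj i).bd_target_comp (fam_composable h i), fam_composable h' i,
        fbd_x]
    have h2 : fbd k true x = fbd k false (fcomp k y z) := fam_ext fun i => by
      rw [fbd_x, fbd_x, fcomp_x h', (F.obj i).bd_source_comp (fam_composable h' i),
        fam_composable h i]
    rw [fcomp_x h1, fcomp_x h, fcomp_x h2, fcomp_x h',
      (F.obj i).comp_assoc (fam_composable h i) (fam_composable h' i)]
  interchange {j k x y x' y'} hjk h1 h2 h3 h4 := fam_ext fun i => by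
    have h5 : fbd j true (fcomp k x y) = fbd j false (fcomp k x' y') :=
      fam_ext fun i => by
        have e1 := (F.obj i).bd_bd_lt true true ((fcomp k x y).x i) hjk
        have e2 := (F.obj i).bd_bd_lt false true ((fcomp k x' y').x i) hjk
        rw [fbd_x, fbd_x, ← e1, ← e2, fcomp_x h1, fcomp_x h2,
          (F.obj i).bd_target_comp (fam_composable h1 i),
          (F.obj i).bd_target_comp (fam_composable h2 i),
          (F.obj i).bd_bd_lt _ _ _ hjk, (F.obj i).bd_bd_lt _ _ _ hjk, fam_composable h4 i]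
    have h6 : fbd k true (fcomp j x x') = fbd k false (fcomp j y y') :=
      fam_ext fun i => by
        rw [fbd_x, fbd_x, fcomp_x h3, fcomp_x h4, (F.obj i).bd_comp _ hjk (fam_composable h3 i),
          (F.obj i).bd_comp _ hjk (fam_composable h4 i), fam_composable h1 i, fam_composable h2 i]
    rw [fcomp_x h5, fcomp_x h1, fcomp_x h2, fcomp_x h6, fcomp_x h3,
      fcomp_x h4, (F.obj i).interchange hjk (fam_composable h1 i) (fam_composable h2 i)
      (fam_composable h3 i) (fam_composable h4 i)]
  finite_dim x := by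
    obtain ⟨N, hN⟩ := x.dim
    exact ⟨N, fam_ext fun j => by rw [fbd_x, hN]⟩

variable {F} in
lemma lim_isNCat {n : ℕ∞} (h : ∀ j, OmegaCat.IsNCat n (F.obj j)) : OmegaCat.IsNCat n (lim F) :=
  fun k hk x => fam_ext fun j => h j k hk (x.x j)

/-- The projections. -/
def π (j : J) : lim F ⟶ F.obj j where
  toFun x := x.x j
  map_bd _ _ _ := rfl
  map_comp _ _ _ h := fcomp_x h j

lemma π_w {j j' : J} (u : j ⟶ j') : π F j ≫ F.map u = π F j' := by
  apply OmegaCat.hom_ext
  intro x
  exact x.w j j' u

variable {F}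

/-- The universal property, on cells. -/
def liftFam {X : OmegaCat} (f : ∀ j, X ⟶ F.obj j)
    (hf : ∀ (j j' : J) (u : j ⟶ j'), f j ≫ F.map u = f j') (x : X.Cell) : Fam F where
  x := fun j => (f j).toFun x
  w := fun j j' u => by
    rw [← hf j j' u]
    rfl
  dim := by
    obtain ⟨N, hN⟩ := X.finite_dim x
    refine ⟨N, fun j => ?_⟩
    rw [← (f j).map_bd, hN]

lemma liftFam_bd {X : OmegaCat} (f : ∀ j, X ⟶ F.obj j)
    (hf : ∀ (j j' : J) (u : j ⟶ j'), f j ≫ F.map u = f j') (k : ℕ) (ε : Bool) (x : X.Cell) :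
    liftFam f hf (X.bd k ε x) = fbd k ε (liftFam f hf x) :=
  fam_ext fun j => (f j).map_bd k ε x

/-- The universal property. -/
def lift {X : OmegaCat} (f : ∀ j, X ⟶ F.obj j)
    (hf : ∀ (j j' : J) (u : j ⟶ j'), f j ≫ F.map u = f j') : X ⟶ lim F where
  toFun x := liftFam f hf x
  map_bd k ε x := liftFam_bd f hf k ε x
  map_comp k x y h := by
    have h' : fbd k true (liftFam f hf x) = fbd k false (liftFam f hf y) := by
      rw [← liftFam_bd, ← liftFam_bd, h]
    exact fam_ext fun j => ((f j).map_comp k x y h).trans (fcomp_x h' j).symm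

lemma lift_π {X : OmegaCat} (f : ∀ j, X ⟶ F.obj j)
    (hf : ∀ (j j' : J) (u : j ⟶ j'), f j ≫ F.map u = f j') (j : J) :
    lift f hf ≫ π F j = f j := rfl

lemma hom_ext {X : OmegaCat} {f g : X ⟶ lim F} (h : ∀ j, f ≫ π F j = g ≫ π F j) : f = g := by
  apply OmegaCat.hom_ext
  intro x
  exact fam_ext fun j => congrArg (fun f : X ⟶ F.obj j => f.toFun x) (h j)

/-- The limit cone in `OmegaCat`. -/
noncomputable def cone (F : J ⥤ OmegaCat) : Cone F where
  pt := lim F
  π :=
    { app := fun j => π F j
      naturality := fun _ _ u => (Category.id_comp _).trans (π_w F u).symm }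

/-- It is a limit cone. -/
noncomputable def coneIsLimit (F : J ⥤ OmegaCat) : IsLimit (cone F) where
  lift s := lift (fun j => s.π.app j) (fun _ _ u => s.w u)
  fac s j := lift_π (fun j => s.π.app j) (fun _ _ u => s.w u) j
  uniq _ _ hm := hom_ext fun j => (hm j).trans (lift_π _ _ j).symm

end

end Lim

instance hasLimits_omegaCat : HasLimitsOfSize.{0, 0} OmegaCat where
  has_limits_of_shape _ _ := ⟨fun F => ⟨⟨_, Lim.coneIsLimit F⟩⟩⟩

instance isNCat_closedUnderLimits (n : ℕ∞) (J : Type) [SmallCategory J] :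
    (OmegaCat.IsNCat n).IsClosedUnderLimitsOfShape J where
  limitsOfShape_le := by
    rintro X ⟨p⟩
    intro k hk x
    have e := IsLimit.conePointUniqueUpToIso p.isLimit (Lim.coneIsLimit p.diag)
    have h : OmegaCat.IsNCat n (Lim.lim p.diag) := Lim.lim_isNCat (fun j => p.prop_diag_obj j)
    have h1 : e.inv.toFun (e.hom.toFun x) = x :=
      congrArg (fun f : X ⟶ X => f.toFun x) e.hom_inv_id
    rw [← h1]
    refine (e.inv.map_bd _ _ _).symm.trans (congrArg e.inv.toFun ?_)
    exact h k hk (e.hom.toFun x)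

instance hasLimits_nCat (n : ℕ∞) : HasLimitsOfSize.{0, 0} (NCat n) where
  has_limits_of_shape _ _ := inferInstance

end Vale.Agent.P213
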