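import Vale.Agent.Lib.P213.ColimAdj
import Vale.Agent.Lib.P213.Lim
import Vale.Agent.Lib.P213.Filt
import Vale.Agent.Lib.P213.FinTable

/-!
# P213, module T1: small colimits and limits in `NCat n`, the Street nerve is a right adjoint
and preserves filtered colimits.

* `hasColimits_nCat`, `hasLimits_nCat`, `streetNerve_isRightAdjoint` (in the imported files)
* `streetNerve_preservesFilteredColimits` (here)
-/

open CategoryTheory Limits Opposite

namespace Vale.Agent.P213

namespace Filt

variable {n : ℕ∞} {J : Type} [SmallCategory J] [IsFiltered J] (F : J ⥤ NCat n)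

/-- The colimit cocone of a filtered diagram in `NCat n`. -/
noncomputable def cocone : Cocone F where
  pt := ⟨colim (F ⋙ (OmegaCat.IsNCat n).ι), colim_isNCat fun j => (F.obj j).property⟩
  ι :=
    { app := fun j => ObjectProperty.homMk (inj (F ⋙ (OmegaCat.IsNCat n).ι) j)
      naturality := fun j j' u => by
        apply ObjectProperty.hom_ext
        exact (inj_w (F ⋙ (OmegaCat.IsNCat n).ι) u).trans (Category.comp_id _).symm }

/-- It is a colimit cocone. -/
noncomputable def coconeIsColimit : IsColimit (cocone F) where
  desc s := ObjectProperty.homMk (desc (G := F ⋙ (OmegaCat.IsNCat n).ι) (X := s.pt.obj)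
    (fun j => (s.ι.app j).hom) (fun j j' u => congrArg (fun f => f.hom) (s.w u)))
  fac s j := by
    apply ObjectProperty.hom_ext
    exact inj_desc (G := F ⋙ (OmegaCat.IsNCat n).ι) (X := s.pt.obj) (fun j => (s.ι.app j).hom)
      (fun j j' u => congrArg (fun f => f.hom) (s.w u)) j
  uniq s m hm := by
    apply ObjectProperty.hom_ext
    apply hom_ext (G := F ⋙ (OmegaCat.IsNCat n).ι)
    intro j
    exact (congrArg (fun f => f.hom) (hm j)).trans
      (inj_desc (G := F ⋙ (OmegaCat.IsNCat n).ι) (X := s.pt.obj) (fun j => (s.ι.app j).hom)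
      (fun j j' u => congrArg (fun f => f.hom) (s.w u)) j).symm

instance finite_oriental (m : SimplexCategory) : Finite (orientalFunctor.obj m).Cell :=
  FinTable.finite_table_simplex m.len

instance preservesColimit_nerve : PreservesColimit F (streetNerve n) := by
  apply preservesColimit_of_preserves_colimit_cocone (coconeIsColimit F)
  apply evaluationJointlyReflectsColimits
  intro m
  apply Types.FilteredColimit.isColimitOf
  · intro φ
    obtain ⟨j, ψ, h⟩ := fp_surj (G := F ⋙ (OmegaCat.IsNCat n).ι)
      (show orientalFunctor.obj m.unop ⟶ colim (F ⋙ (OmegaCat.IsNCat n).ι) from φ)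
    exact ⟨j, ψ, h.symm⟩
  · intro i j a b hab
    obtain ⟨k, f, g, h⟩ := fp_inj (G := F ⋙ (OmegaCat.IsNCat n).ι)
      (X := orientalFunctor.obj m.unop) a b hab
    exact ⟨k, f, g, h⟩

end Filt

instance streetNerve_preservesFilteredColimits (n : ℕ∞) (J : Type) [SmallCategory J]
    [IsFiltered J] : PreservesColimitsOfShape J (streetNerve n) where
  preservesColimit := inferInstance

end Vale.Agent.P213
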