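import Vale.Agent.Lib.P213.Defs

/-! # P213: nerves of posets, and the gluing construction `C ⊔_{O(A)} O(B)` -/

open CategoryTheory Limits

namespace Vale.Agent.P213

/-- The nerve of a partially ordered type; an `m`-simplex is a monotone map `[m] → P`. -/
def pNerve (P : Type) [PartialOrder P] : SSet.{0} where
  obj m := Fin (m.unop.len + 1) →o P
  map φ := TypeCat.ofHom fun x => x.comp φ.unop.toOrderHom
  map_id m := by
    ext x
    rfl
  map_comp φ ψ := by
    ext x
    rfl

/-- Functoriality of `pNerve`. -/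
def pNerveMap {P Q : Type} [PartialOrder P] [PartialOrder Q] (f : P →o Q) :
    pNerve P ⟶ pNerve Q where
  app m := TypeCat.ofHom fun x => f.comp x
  naturality m n φ := by
    ext x
    rfl

lemma pNerveMap_comp {P Q R : Type} [PartialOrder P] [PartialOrder Q] [PartialOrder R]
    (f : P →o Q) (g : Q →o R) : pNerveMap f ≫ pNerveMap g = pNerveMap (g.comp f) := rfl

lemma pNerveMap_id (P : Type) [PartialOrder P] : pNerveMap (OrderHom.id : P →o P) = 𝟙 _ := rfl

/-- The inclusion of lower sets. -/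
def lowerIncl {B : Type} [PartialOrder B] {A A' : LowerSet B} (h : A ≤ A') : A →o A' where
  toFun x := ⟨x.1, h x.2⟩
  monotone' _ _ hxy := hxy

/-- The inclusion of a lower set in the whole poset. -/
def lowerVal {B : Type} [PartialOrder B] (A : LowerSet B) : A →o B where
  toFun x := x.1
  monotone' _ _ hxy := hxy

/-- The condition on a lower set `A` of `B` used in the key lemma: for every `b ∉ A`, the set of
elements of `A` below `b` is empty or has a greatest element. -/
def Dwyer {B : Type} [PartialOrder B] (A : LowerSet B) : Prop :=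
  ∀ b : B, b ∉ A → (∀ a ∈ A, ¬ a ≤ b) ∨ ∃ r ∈ A, r ≤ b ∧ ∀ a ∈ A, a ≤ b → a ≤ r

section Glue

variable {n : ℕ∞} {c : SSet.{0} ⥤ NCat n} (adj : c ⊣ streetNerve n)
variable {B : Type} [PartialOrder B]

/-- `C ⊔_{O(A)} O(B')`, for lower sets `A ≤ B'` of `B`. -/
noncomputable def glue [HasPushouts (NCat n)] {A : LowerSet B} {C : NCat n}
    (f : c.obj (pNerve A) ⟶ C) (B' : LowerSet B) (h : A ≤ B') : NCat n :=
  pushout f (c.map (pNerveMap (lowerIncl h)))

/-- The map `C ⟶ C ⊔_{O(A)} O(B')`. -/
noncomputable def glueInl [HasPushouts (NCat n)] {A : LowerSet B} {C : NCat n}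
    (f : c.obj (pNerve A) ⟶ C) (B' : LowerSet B) (h : A ≤ B') : C ⟶ glue f B' h :=
  pushout.inl _ _

/-- The map `O(B') ⟶ C ⊔_{O(A)} O(B')`. -/
noncomputable def glueInr [HasPushouts (NCat n)] {A : LowerSet B} {C : NCat n}
    (f : c.obj (pNerve A) ⟶ C) (B' : LowerSet B) (h : A ≤ B') :
    c.obj (pNerve B') ⟶ glue f B' h :=
  pushout.inr _ _

lemma glue_condition [HasPushouts (NCat n)] {A : LowerSet B} {C : NCat n}
    (f : c.obj (pNerve A) ⟶ C) (B' : LowerSet B) (h : A ≤ B') :
    f ≫ glueInl f B' h = c.map (pNerveMap (lowerIncl h)) ≫ glueInr f B' h :=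
  pushout.condition

/-- The map `C ⊔_{O(A)} O(B') ⟶ C ⊔_{O(A)} O(B'')` for `B' ≤ B''`. -/
noncomputable def glueMap [HasPushouts (NCat n)] {A : LowerSet B} {C : NCat n}
    (f : c.obj (pNerve A) ⟶ C) {B' B'' : LowerSet B} (h : A ≤ B') (h' : B' ≤ B'') :
    glue f B' h ⟶ glue f B'' (h.trans h') :=
  pushout.desc (glueInl f B'' (h.trans h'))
    (c.map (pNerveMap (lowerIncl h')) ≫ glueInr f B'' (h.trans h')) (by
      rw [glue_condition, ← Category.assoc, ← c.map_comp]
      rfl)

end Glue

end Vale.Agent.P213
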