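import Mathlib
import Vale.Agent.Lib.P213.SSExInf

/-!
# Weak equivalences are stable under filtered colimits
-/

open CategoryTheory MonoidalCategory CartesianMonoidalCategory Simplicial HomotopicalAlgebra Limits
open SSet SSet.modelCategoryQuillen MorphismProperty

universe u

namespace Vale.Agent.P213.SS

variable {X Y Z A B E S : SSet.{0}}

/-- A filtered colimit of trivial fibrations is a trivial fibration. -/
lemma trivFib_of_filtered {J : Type} [SmallCategory J] [IsFiltered J]
    {X₁ X₂ : J ⥤ SSet.{0}} {c₁ : Cocone X₁} {c₂ : Cocone X₂}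
    (h₁ : IsColimit c₁) (h₂ : IsColimit c₂) (f : X₁ ⟶ X₂) (hf : ∀ n, I.rlp (f.app n))
    (φ : c₁.pt ⟶ c₂.pt) (hφ : ∀ n, c₁.ι.app n ≫ φ = f.app n ≫ c₂.ι.app n) : I.rlp φ := by
  rintro _ _ _ ⟨m⟩
  constructor
  intro u v sq
  obtain ⟨i, u', hu'⟩ := IsFinitelyPresentable.exists_hom_of_isColimit h₁ u
  obtain ⟨j, v', hv'⟩ := IsFinitelyPresentable.exists_hom_of_isColimit h₂ v
  obtain ⟨k, a, b, hk⟩ := IsFinitelyPresentable.exists_eq_of_isColimit h₂ (u' ≫ f.app i)
    (∂Δ[m].ι ≫ v') (by
      rw [Category.assoc, ← hφ, ← Category.assoc, hu', Category.assoc, hv', sq.w])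
  have := hf k _ (boundary_ι_mem_I m)
  have sq' : CommSq (u' ≫ X₁.map a) ∂Δ[m].ι (f.app k) (v' ≫ X₂.map b) := ⟨by
    rw [Category.assoc, f.naturality, ← Category.assoc, hk, Category.assoc]⟩
  refine ⟨⟨{ l := sq'.lift ≫ c₁.ι.app k, fac_left := ?_, fac_right := ?_ }⟩⟩
  · rw [← Category.assoc, sq'.fac_left, Category.assoc, c₁.w, hu']
  · rw [Category.assoc, hφ, ← Category.assoc, sq'.fac_right, Category.assoc, c₂.w, hv']

/-! ### Nerves of finite posets -/

instance finite_nerve (P : Type u) [PartialOrder P] [Finite P] : (nerve P).Finite := by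
  have : Fintype P := Fintype.ofFinite P
  have : (nerve P).HasDimensionLT (Fintype.card P) := ⟨fun n hn => by
    ext x
    simp only [mem_degenerate_iff_notMem_nonDegenerate, Set.top_eq_univ,
      Set.mem_univ, iff_true]
    rw [PartialOrder.mem_nerve_nonDegenerate_iff_injective]
    intro h
    have := Fintype.card_le_of_injective _ h
    rw [Fintype.card_fin] at this
    change n + 1 ≤ _ at this
    omega⟩
  refine finite_of_hasDimensionLT _ (Fintype.card P) fun i _ => ?_
  refine Finite.of_injective (β := Fin (i + 1) → P) (fun x => x.1.obj) ?_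
  intro x y hxy
  apply Subtype.ext
  exact nerve_ext (fun i => congrFun hxy i)

instance (n : SimplexCategory) : IsFinitelyPresentable.{0} (SimplexCategory.sd.{0}.obj n) := by
  have h : Finite (Ch.{0} n.len) :=
    Finite.of_injective (fun c => c.finset) (fun c c' h => ch_ext fun x => by
      change c.finset = c'.finset at h
      rw [h])
  have : (SimplexCategory.sd.{0}.obj n).Finite :=
    inferInstanceAs ((nerve (Ch.{0} n.len)).Finite)
  infer_instance

/-! ### `Ex` preserves filtered colimits -/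

instance (J : Type) [SmallCategory J] [IsFiltered J] : PreservesColimitsOfShape J ex.{0} := by
  apply preservesColimitsOfShape_of_evaluation
  intro m
  have e : ex.{0} ⋙ (CategoryTheory.evaluation _ _).obj m ≅
      coyoneda.obj (.op (SimplexCategory.sd.{0}.obj m.unop)) :=
    NatIso.ofComponents (fun X => Equiv.toIso ⟨exDown, exMk, fun _ => rfl, fun _ => rfl⟩)
      (fun f => rfl)
  exact preservesColimitsOfShape_of_natIso e.symm

instance (J : Type) [SmallCategory J] [IsFiltered J] (n : ℕ) :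
    PreservesColimitsOfShape J (exIter n) := by
  induction n with
  | zero => exact inferInstanceAs (PreservesColimitsOfShape J (𝟭 SSet.{0}))
  | succ n ih => exact inferInstanceAs (PreservesColimitsOfShape J (exIter n ⋙ ex))

instance (J : Type) [SmallCategory J] [IsFiltered J] :
    PreservesColimitsOfShape J exTower.flip := by
  apply preservesColimitsOfShape_of_evaluation
  intro n
  exact inferInstanceAs (PreservesColimitsOfShape J (exIter n))

instance (J : Type) [SmallCategory J] [IsFiltered J] : PreservesColimitsOfShape J exInf := by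
  unfold exInf
  infer_instance

/-! ### The path fibration -/

/-- The path space functor. -/
noncomputable abbrev PS : SSet.{0} ⥤ SSet.{0} := ihom Δ[1]

lemma ev₀_natural (f : X ⟶ Y) : PS.map f ≫ ev₀ Y = ev₀ X ≫ f := by
  rw [comp_ev₀, ev₀, MonoidalClosed.uncurry_eq, Category.assoc, Category.assoc]
  congr 2

lemma ev₁_natural (f : X ⟶ Y) : PS.map f ≫ ev₁ Y = ev₁ X ≫ f := by
  rw [comp_ev₁, ev₁, MonoidalClosed.uncurry_eq, Category.assoc, Category.assoc]
  congr 2

/-- Evaluation at the start. -/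
noncomputable def ev₀T : PS ⟶ 𝟭 SSet.{0} where
  app X := ev₀ X
  naturality _ _ f := ev₀_natural f

/-- Evaluation at the end. -/
noncomputable def ev₁T : PS ⟶ 𝟭 SSet.{0} where
  app X := ev₁ X
  naturality _ _ f := ev₁_natural f

/-- Constant paths. -/
noncomputable def cst (X : SSet.{0}) : X ⟶ PS.obj X := MonoidalClosed.curry (snd _ _)

lemma cst_natural (f : X ⟶ Y) : f ≫ cst Y = cst X ≫ PS.map f := by
  rw [cst, cst, ← MonoidalClosed.curry_natural_left, ← MonoidalClosed.curry_natural_right]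
  congr 1

/-- Constant paths. -/
noncomputable def cstT : 𝟭 SSet.{0} ⟶ PS where
  app X := cst X
  naturality _ _ f := cst_natural f

lemma cst_ev₀ (X : SSet.{0}) : cst X ≫ ev₀ X = 𝟙 X := by
  rw [comp_ev₀, cst, MonoidalClosed.uncurry_curry]
  rfl

lemma cst_ev₁ (X : SSet.{0}) : cst X ≫ ev₁ X = 𝟙 X := by
  rw [comp_ev₁, cst, MonoidalClosed.uncurry_curry]
  rfl

/-- The path corresponding to a homotopy. -/
noncomputable def toPath (H : A ⊗ Δ[1] ⟶ Y) : A ⟶ PS.obj Y :=
  MonoidalClosed.curry ((β_ _ _).hom ≫ H)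

/-- The homotopy corresponding to a path. -/
noncomputable def ofPath (h : A ⟶ PS.obj Y) : A ⊗ Δ[1] ⟶ Y :=
  (β_ _ _).hom ≫ MonoidalClosed.uncurry h

lemma toPath_ofPath (h : A ⟶ PS.obj Y) : toPath (ofPath h) = h := by
  have : (β_ (Δ[1] : SSet.{0}) A).hom ≫ (β_ A (Δ[1] : SSet.{0})).hom ≫
      MonoidalClosed.uncurry h = MonoidalClosed.uncurry h := rfl
  rw [toPath, ofPath, this, MonoidalClosed.curry_uncurry]

lemma comp_toPath (f : A ⟶ B) (H : B ⊗ Δ[1] ⟶ Y) : f ≫ toPath H = toPath (f ▷ _ ≫ H) := by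
  rw [toPath, toPath, ← MonoidalClosed.curry_natural_left]
  congr 1

lemma toPath_ev₀ (H : A ⊗ Δ[1] ⟶ Y) : toPath H ≫ ev₀ Y = ι₀ ≫ H := by
  rw [comp_ev₀, toPath, MonoidalClosed.uncurry_curry]
  rfl

lemma toPath_ev₁ (H : A ⊗ Δ[1] ⟶ Y) : toPath H ≫ ev₁ Y = ι₁ ≫ H := by
  rw [comp_ev₁, toPath, MonoidalClosed.uncurry_curry]
  rfl

lemma trivFib_ev₀ (T : SSet.{0}) [KanComplex T] : I.rlp (ev₀ T) := by
  intro A B i hi
  have : Mono i := I_le_monomorphisms _ hi
  constructor
  intro u v sq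
  obtain ⟨L, hL0, hL1, -⟩ := rhlp₀ i (terminal.from T) (terminal.from _) v
    (Subsingleton.elim _ _) (ofPath u) (Subsingleton.elim _ _) (by
      rw [← toPath_ev₀, toPath_ofPath, sq.w])
  exact ⟨⟨{ l := toPath L
            fac_left := by rw [comp_toPath, hL1, toPath_ofPath]
            fac_right := by rw [toPath_ev₀, hL0] }⟩⟩

/-- Lifting of homotopies with both ends prescribed along an anodyne extension. -/
lemma anodyne_ends (j : A ⟶ B) (hj : anodyneExtensions j) [KanComplex Y] (H : A ⊗ Δ[1] ⟶ Y)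
    (u v : B ⟶ Y) (hu : ι₀ ≫ H = j ≫ u) (hv : ι₁ ≫ H = j ≫ v) :
    ∃ K : B ⊗ Δ[1] ⟶ Y, ι₀ ≫ K = u ∧ ι₁ ≫ K = v ∧ j ▷ _ ≫ K = H := by
  obtain ⟨L, hL0, hL1, hL⟩ := exists_lift_ends ((MonoidalClosed.pre j).app Y)
    (trivFib_pre_of_anodyne j hj Y) (snd Δ[0] Δ[1] ≫ MonoidalClosed.curry H)
    (MonoidalClosed.curry ((unitIso B).hom ≫ u)) (MonoidalClosed.curry ((unitIso B).hom ≫ v))
    (by
      rw [MonoidalClosed.curry_pre_app, ← Category.assoc, unitIso_nat, Category.assoc, ← hu,
        ← δ_one_curry, ι₀_snd_assoc, stdSimplex.δ_one_eq_const])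
    (by
      rw [MonoidalClosed.curry_pre_app, ← Category.assoc, unitIso_nat, Category.assoc, ← hv,
        ← δ_zero_curry, ι₁_snd_assoc, stdSimplex.δ_zero_eq_const])
  let e : (Δ[1] : SSet.{0}) ⟶ Δ[0] ⊗ Δ[1] := lift (stdSimplex.isTerminalObj₀.from _) (𝟙 _)
  have he0 : stdSimplex.δ 1 ≫ e = ι₀ := by
    rw [stdSimplex.δ_one_eq_const]
    apply CartesianMonoidalCategory.hom_ext
    · exact stdSimplex.isTerminalObj₀.hom_ext _ _
    · rfl
  have he1 : stdSimplex.δ 0 ≫ e = ι₁ := by
    rw [stdSimplex.δ_zero_eq_const]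
    apply CartesianMonoidalCategory.hom_ext
    · exact stdSimplex.isTerminalObj₀.hom_ext _ _
    · rfl
  refine ⟨MonoidalClosed.uncurry (e ≫ L), ?_, ?_, ?_⟩
  · rw [← unitIso_inv_δ_one, Category.assoc, ← MonoidalClosed.uncurry_natural_left,
      reassoc_of% he0, hL0, MonoidalClosed.uncurry_curry, Iso.inv_hom_id_assoc]
  · rw [← unitIso_inv_δ_zero, Category.assoc, ← MonoidalClosed.uncurry_natural_left,
      reassoc_of% he1, hL1, MonoidalClosed.uncurry_curry, Iso.inv_hom_id_assoc]
  · rw [← MonoidalClosed.uncurry_pre_app, Category.assoc, hL]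
    have : e ≫ snd Δ[0] Δ[1] ≫ MonoidalClosed.curry H = MonoidalClosed.curry H := by
      rw [← Category.assoc]
      exact Category.id_comp _
    rw [this, MonoidalClosed.uncurry_curry]

/-- The path fibration is a trivial fibration for weak equivalences between Kan complexes. -/
lemma trivFib_path {P : SSet.{0}} (f : X ⟶ Y) [KanComplex X] [KanComplex Y] (hf : weq f)
    {a : P ⟶ X} {b : P ⟶ PS.obj Y} (sq : IsPullback a b f (ev₀ Y)) : I.rlp (b ≫ ev₁ Y) := by
  have hfib : Fibration (b ≫ ev₁ Y) := by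
    rw [modelCategoryQuillen.fibration_iff]
    intro A B j hj
    have hj' : anodyneExtensions j := by
      rw [anodyneExtensions_eq_llp_rlp]
      exact le_llp_rlp _ _ hj
    constructor
    intro u v sq'
    have := hj' (terminal.from X) ((HomotopicalAlgebra.fibration_iff _).1 inferInstance)
    have sqX : CommSq (u ≫ a) j (terminal.from X) (terminal.from B) := ⟨Subsingleton.elim _ _⟩
    obtain ⟨K, hK0, hK1, hK⟩ := anodyne_ends j hj' (ofPath (u ≫ b)) (sqX.lift ≫ f) v (by
      rw [← toPath_ev₀, toPath_ofPath, Category.assoc, ← sq.w, ← Category.assoc,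
        ← Category.assoc, sqX.fac_left]) (by
      rw [← toPath_ev₁, toPath_ofPath, Category.assoc, sq'.w])
    refine ⟨⟨{ l := sq.lift sqX.lift (toPath K) (by rw [toPath_ev₀, hK0])
               fac_left := ?_
               fac_right := ?_ }⟩⟩
    · apply sq.hom_ext
      · rw [Category.assoc, sq.lift_fst, sqX.fac_left]
      · rw [Category.assoc, sq.lift_snd, comp_toPath, hK, toPath_ofPath]
    · rw [← Category.assoc, sq.lift_snd, toPath_ev₁, hK1]
  apply trivFib_of_weq
  let r : X ⟶ P := sq.lift (𝟙 X) (f ≫ cst Y) (by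
    rw [Category.assoc, cst_ev₀, Category.comp_id, Category.id_comp])
  have ha : I.rlp a := MorphismProperty.of_isPullback sq.flip (trivFib_ev₀ Y)
  have hr : weq r := weq.of_postcomp _ _ (weq_of_trivFib a ha) (by
    rw [sq.lift_fst]
    exact weq_of_isIso _)
  refine weq.of_precomp _ _ hr ?_
  rw [← Category.assoc, sq.lift_snd, Category.assoc, cst_ev₁, Category.comp_id]
  exact hf

/-! ### Filtered colimits -/

lemma weq_of_filtered_kan {J : Type} [SmallCategory J] [IsFiltered J] {F G : J ⥤ SSet.{0}}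
    {c₁ : Cocone F} {c₂ : Cocone G} (h₁ : IsColimit c₁) (h₂ : IsColimit c₂) (f : F ⟶ G)
    (hF : ∀ j, KanComplex (F.obj j)) (hG : ∀ j, KanComplex (G.obj j))
    (hf : ∀ j, weq (f.app j)) (φ : c₁.pt ⟶ c₂.pt)
    (hφ : ∀ n, c₁.ι.app n ≫ φ = f.app n ≫ c₂.ι.app n) : weq φ := by
  let P : J ⥤ SSet.{0} := pullback f (Functor.whiskerLeft G ev₀T)
  let a : P ⟶ F := pullback.fst f (Functor.whiskerLeft G ev₀T)
  let b : P ⟶ G ⋙ PS := pullback.snd f (Functor.whiskerLeft G ev₀T)
  have sq : ∀ j, IsPullback (a.app j) (b.app j) (f.app j) (ev₀ (G.obj j)) := fun j =>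
    (IsPullback.of_hasPullback f (Functor.whiskerLeft G ev₀T)).map
      ((CategoryTheory.evaluation _ _).obj j)
  let c := colimit.cocone P
  have hc : IsColimit c := colimit.isColimit _
  let q : P ⟶ G := b ≫ Functor.whiskerLeft G ev₁T
  let r : F ⟶ P := pullback.lift (𝟙 F) (f ≫ Functor.whiskerLeft G cstT) (by
    ext j : 2
    exact (Category.id_comp _).trans (((Category.assoc _ _ _).trans
      (congrArg (fun t => f.app j ≫ t) (cst_ev₀ (G.obj j)))).trans (Category.comp_id _)).symm)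
  have hra : r ≫ a = 𝟙 F := pullback.lift_fst _ _ _
  have hrb : r ≫ b = f ≫ Functor.whiskerLeft G cstT := pullback.lift_snd _ _ _
  have hrq : r ≫ q = f := by
    rw [← Category.assoc, hrb]
    ext j : 2
    exact ((Category.assoc _ _ _).trans
      (congrArg (fun t => f.app j ≫ t) (cst_ev₁ (G.obj j)))).trans (Category.comp_id _)
  let A : c.pt ⟶ c₁.pt := hc.desc ((Cocone.precompose a).obj c₁)
  have hA : ∀ j, c.ι.app j ≫ A = a.app j ≫ c₁.ι.app j := fun j => hc.fac _ j
  let Q : c.pt ⟶ c₂.pt := hc.desc ((Cocone.precompose q).obj c₂)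
  have hQ : ∀ j, c.ι.app j ≫ Q = q.app j ≫ c₂.ι.app j := fun j => hc.fac _ j
  let R : c₁.pt ⟶ c.pt := h₁.desc ((Cocone.precompose r).obj c)
  have hR : ∀ j, c₁.ι.app j ≫ R = r.app j ≫ c.ι.app j := fun j => h₁.fac _ j
  have hRA : R ≫ A = 𝟙 _ := by
    refine h₁.hom_ext fun j => ?_
    rw [reassoc_of% hR, hA, ← NatTrans.comp_app_assoc, hra, Category.comp_id]
    exact Category.id_comp _
  have hRQ : R ≫ Q = φ := by
    refine h₁.hom_ext fun j => ?_
    rw [reassoc_of% hR, hQ, ← NatTrans.comp_app_assoc, hrq, hφ]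
  have wA : weq A := weq_of_trivFib _ (trivFib_of_filtered hc h₁ a (fun j => by
    have := hG j
    exact MorphismProperty.of_isPullback (sq j).flip (trivFib_ev₀ (G.obj j))) A hA)
  have wQ : weq Q := weq_of_trivFib _ (trivFib_of_filtered hc h₂ q (fun j => by
    have := hG j
    have := hF j
    exact trivFib_path (f.app j) (hf j) (sq j)) Q hQ)
  have wR : weq R := weq.of_postcomp _ _ wA (by
    rw [hRA]
    exact weq_of_isIso _)
  rw [← hRQ]
  exact weq.comp_mem _ _ wR wQ

/-- **Weak equivalences are stable under filtered colimits.** -/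
theorem weq_of_filtered {J : Type} [SmallCategory J] [IsFiltered J] {F G : J ⥤ SSet.{0}}
    {c₁ : Cocone F} {c₂ : Cocone G} (h₁ : IsColimit c₁) (h₂ : IsColimit c₂) (f : F ⟶ G)
    (hf : ∀ j, weq (f.app j)) (φ : c₁.pt ⟶ c₂.pt)
    (hφ : ∀ n, c₁.ι.app n ≫ φ = f.app n ≫ c₂.ι.app n) : weq φ := by
  have key : ∀ {X Y : SSet.{0}} (f : X ⟶ Y), weq (exInf.map f) ↔ weq f := by
    intro X Y f
    have h : f ≫ toExInf.app Y = toExInf.app X ≫ exInf.map f := toExInf.naturality f
    rw [← weq.precomp_iff _ _ (weq_toExInf X), ← h, weq.postcomp_iff _ _ (weq_toExInf Y)]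
  rw [← key]
  refine weq_of_filtered_kan (isColimitOfPreserves exInf h₁) (isColimitOfPreserves exInf h₂)
    (Functor.whiskerRight f exInf) (fun j => kan_exInf _) (fun j => kan_exInf _)
    (fun j => (key _).2 (hf j)) _ ?_
  intro n
  have := congrArg (fun t => exInf.map t) (hφ n)
  simpa using this

end Vale.Agent.P213.SS
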