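import Vale.Agent.Lib.P213.TransferUnit
import Vale.Agent.Lib.P213.SSFilt
import Vale.Agent.Lib.P213.SSExWeq
import Vale.Agent.Lib.P213.Colim
import Vale.Agent.Lib.P213.Poset

/-!
# P213, module T7: the Thomason model structure on `NCat n` and the Quillen equivalence, from the
key lemma
-/

open CategoryTheory Limits MorphismProperty Simplicial HomotopicalAlgebra

namespace Vale.Agent.P213.Transfer

open SSet SSet.modelCategoryQuillen SS

instance : IsStableUnderFilteredColimits.{0, 0} weq.{0} where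
  isStableUnderColimitsOfShape _ _ _ :=
    { condition := fun _ _ _ _ h₁ h₂ f hf φ hφ => weq_of_filtered h₁ h₂ f hf φ hφ }

instance : PreservesFilteredColimitsOfSize.{0, 0} SSet.ex.{0} := ⟨fun _ _ _ => inferInstance⟩

lemma trivFib_eq : I.{0}.rlp = J.rlp ⊓ weq := by
  ext X Y p
  rw [trivFib_iff, HomotopicalAlgebra.fibration_iff]
  rfl

section Abstract

variable {C : Type 1} [Category.{0} C]
  {N : C ⥤ SSet.{0}} {c : SSet.{0} ⥤ C} (adj : c ⊣ N)

/-- The key lemma for `Sd²` of the subcomplexes of the standard simplices. -/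
def KeyHyp (N : C ⥤ SSet.{0}) (c : SSet.{0} ⥤ C) : Prop :=
  ∀ (m : ℕ) (K : (Δ[m] : SSet.{0}).Subcomplex) {X Y : C}
    (f : c.obj (Sd2.obj (K : SSet.{0})) ⟶ X)
    (g : c.obj (Sd2.obj (Δ[m] : SSet.{0})) ⟶ Y) (j : X ⟶ Y)
    (sq : IsPushout f (c.map (Sd2.map K.ι)) j g)
    {P : SSet.{0}} (a : N.obj X ⟶ P) (b : N.obj (c.obj (Sd2.obj (Δ[m] : SSet.{0}))) ⟶ P)
    (sq' : IsPushout (N.map f) (N.map (c.map (Sd2.map K.ι))) a b),
    Mono (N.map j) ∧ weq (sq'.desc (N.map j) (N.map g) (by simp only [← Functor.map_comp, sq.w]))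

/-- The unit hypothesis. -/
def UnitHyp : Prop :=
  ∀ (m : ℕ) (K : (Δ[m] : SSet.{0}).Subcomplex), UnitWeq adj (K : SSet.{0})

variable {adj} in
lemma mono_of_keyHyp (hkey : KeyHyp N c) (m : ℕ) (K : (Δ[m] : SSet.{0}).Subcomplex) :
    Mono (N.map (c.map (Sd2.map K.ι))) := by
  have sq2 : IsPushout (𝟙 _) (c.map (Sd2.map K.ι)) (c.map (Sd2.map K.ι)) (𝟙 _) :=
    IsPushout.of_horiz_isIso ⟨by simp⟩
  exact (hkey m K _ _ _ sq2 _ _ (IsPushout.of_hasPushout _ _)).1

/-- Every pushout of `c Sd²` of a subcomplex inclusion which is a weak equivalence is sent by the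
nerve to a trivial cofibration. -/
theorem good_of_keyHyp (hkey : KeyHyp N c) (hunit : UnitHyp adj) (m : ℕ)
    (K : (Δ[m] : SSet.{0}).Subcomplex) (hK : weq K.ι) :
    Good N tcof (c.map (Sd2.map K.ι)) := by
  intro X Y f g j sq
  have hmono := mono_of_keyHyp hkey m K
  have h1 : weq (Sd2.map K.ι) := (weq_sd_map_iff _).2 ((weq_sd_map_iff _).2 hK)
  have h2 : weq (adj.unit.app (Sd2.obj (K : SSet.{0}))) := hunit m K
  have h3 : weq (adj.unit.app (Sd2.obj (Δ[m] : SSet.{0}))) :=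
    (UnitWeq adj).prop_of_iso (SSet.Subcomplex.topIso _) (hunit m ⊤)
  have h4 : weq (N.map (c.map (Sd2.map K.ι))) := by
    refine weq.of_precomp _ _ h2 ?_
    have h5 : adj.unit.app (Sd2.obj (K : SSet.{0})) ≫ N.map (c.map (Sd2.map K.ι)) =
        Sd2.map K.ι ≫ adj.unit.app (Sd2.obj (Δ[m] : SSet.{0})) :=
      (adj.unit.naturality (Sd2.map K.ι)).symm
    rw [h5]
    exact weq.comp_mem _ _ h1 h3
  have sq' := IsPushout.of_hasPushout (N.map f) (N.map (c.map (Sd2.map K.ι)))
  obtain ⟨hm, hw⟩ := hkey m K f g j sq _ _ sq'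
  refine ⟨hm, ?_⟩
  have h6 : tcof (pushout.inl (N.map f) (N.map (c.map (Sd2.map K.ι)))) :=
    tcof.of_isPushout sq' ⟨hmono, h4⟩
  have h7 := weq.comp_mem _ _ h6.weq hw
  rwa [sq'.inl_desc] at h7

theorem J'_le_good (hkey : KeyHyp N c) (hunit : UnitHyp adj) : J' c ≤ Good N tcof := by
  rintro A B i ⟨n, k⟩
  exact good_of_keyHyp adj hkey hunit (n + 1) _
    (weq_of_anodyne _ (anodyneExtensions.horn_ι k))

variable [HasColimitsOfSize.{0, 0} C] [PreservesFilteredColimitsOfSize.{0, 0} N]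

include adj in
theorem exists_modelCategory_of_keyHyp [HasFiniteLimits C] (hkey : KeyHyp N c)
    (hunit : UnitHyp adj) :
    ∃ M : ModelCategory C, weakEquivalences C = W N ∧ fibrations C = Fib N ∧
      cofibrations C = Cof N :=
  exists_modelCategory N adj trivFib_eq (fun f => weq_ex_map_iff f) (J'_le_good adj hkey hunit)

omit [HasColimitsOfSize.{0, 0} C] in
theorem unitWeq_of_keyHyp (hkey : KeyHyp N c) (hunit : UnitHyp adj) (X : SSet.{0}) :
    UnitWeq adj X :=
  unitWeq_all adj (fun d => by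
    have := sd_mono (∂Δ[d] : (Δ[d] : SSet.{0}).Subcomplex).ι
    exact sd_mono _) hunit (fun d {X Y} f g j sq {P} a b sq' =>
    hkey d _ f g j sq a b sq') X

omit [HasColimitsOfSize.{0, 0} C] in
theorem quillen_equivalence_of_keyHyp (hkey : KeyHyp N c) (hunit : UnitHyp adj) (X : SSet.{0})
    (Y : C) (f : (F c).obj X ⟶ Y) : W N f ↔ weq ((adjU adj).homEquiv X Y f) :=
  weq_homEquiv_iff adj (fun f => weq_ex_map_iff f) weq_unit (unitWeq_of_keyHyp adj hkey hunit) X Y f

include adj in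
omit [HasColimitsOfSize.{0, 0} C] [PreservesFilteredColimitsOfSize.{0, 0} N] in
/-- `c Sd²` preserves cofibrations. -/
theorem cof_of_mono {X Y : SSet.{0}} (i : X ⟶ Y) (hi : Mono i) : Cof N ((F c).map i) := by
  intro A B p hp
  rw [fib_inf_W N trivFib_eq (fun f => weq_ex_map_iff f)] at hp
  rw [(adjU adj).hasLiftingProperty_iff]
  have h : (I.{0}.rlp) ((U N).map p) := hp
  rw [← rlp_monomorphisms] at h
  exact h i hi

/-- `c Sd²` preserves trivial cofibrations. -/
theorem weq_of_tcof (hkey : KeyHyp N c) (hunit : UnitHyp adj) {X Y : SSet.{0}} (i : X ⟶ Y)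
    (hi : tcof i) : W N ((F c).map i) := by
  apply llp_fib_le N adj (J'_le_good adj hkey hunit)
  intro A B p hp
  rw [(adjU adj).hasLiftingProperty_iff]
  rw [tcof_eq_anodyne] at hi
  exact hi _ hp

end Abstract

section NCat

variable {n : ℕ∞} {c : SSet.{0} ⥤ NCat n} (adj : c ⊣ streetNerve n)

instance : PreservesFilteredColimitsOfSize.{0, 0} (streetNerve n) := ⟨fun _ _ _ => inferInstance⟩

/-- The statement of `sdsd_dwyer`. -/
def SdDwyer : Prop := ∀ (m : ℕ) (K : (Δ[m] : SSet.{0}).Subcomplex),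
    ∃ (B : Type) (_ : PartialOrder B) (_ : Finite B) (A : LowerSet B), Dwyer A ∧
      Nonempty (CategoryTheory.Arrow.mk (SSet.sd.map (SSet.sd.map K.ι)) ≅
        CategoryTheory.Arrow.mk (pNerveMap (lowerVal A)))

/-- The statement of `key_lemma`. -/
def KeyLemma (n : ℕ∞) (c : SSet.{0} ⥤ NCat n) : Prop :=
  ∀ {B : Type} [PartialOrder B] [Finite B] (A : LowerSet B) (_ : Dwyer A)
    {C D : NCat n} (f : c.obj (pNerve A) ⟶ C) (g : c.obj (pNerve B) ⟶ D) (j : C ⟶ D)
    (sq : IsPushout f (c.map (pNerveMap (lowerVal A))) j g)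
    {P : SSet.{0}} (a : (streetNerve n).obj C ⟶ P) (b : (streetNerve n).obj (c.obj (pNerve B)) ⟶ P)
    (sq' : IsPushout ((streetNerve n).map f) ((streetNerve n).map (c.map (pNerveMap (lowerVal A))))
      a b),
    Mono ((streetNerve n).map j) ∧
    WeakEq (sq'.desc ((streetNerve n).map j) ((streetNerve n).map g)
      (by rw [← Functor.map_comp, ← Functor.map_comp, sq.w]))

theorem keyHyp_of (hsd : SdDwyer) (hkl : KeyLemma n c) : KeyHyp (streetNerve n) c := by
  intro m K X Y f g j sq P a b sq'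
  obtain ⟨B, _, _, A, hA, ⟨e⟩⟩ := hsd m K
  let e₁ : Sd2.obj (K : SSet.{0}) ≅ pNerve A := Arrow.leftFunc.mapIso e
  let e₂ : Sd2.obj (Δ[m] : SSet.{0}) ≅ pNerve B := Arrow.rightFunc.mapIso e
  have he : Sd2.map K.ι ≫ e₂.hom = e₁.hom ≫ pNerveMap (lowerVal A) := e.hom.w.symm
  have he' : e₁.inv ≫ Sd2.map K.ι = pNerveMap (lowerVal A) ≫ e₂.inv := by
    rw [Iso.inv_comp_eq, ← Category.assoc, ← he, Category.assoc, e₂.hom_inv_id, Category.comp_id]
  have sqe : IsPushout (c.map e₁.inv) (c.map (pNerveMap (lowerVal A)))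
      (c.map (Sd2.map K.ι)) (c.map e₂.inv) :=
    IsPushout.of_horiz_isIso ⟨by rw [← c.map_comp, ← c.map_comp, he']⟩
  have sqe' : IsPushout ((streetNerve n).map (c.map e₁.inv))
      ((streetNerve n).map (c.map (pNerveMap (lowerVal A))))
      ((streetNerve n).map (c.map (Sd2.map K.ι))) ((streetNerve n).map (c.map e₂.inv)) :=
    IsPushout.of_horiz_isIso ⟨by
      have := congrArg (fun t => (streetNerve n).map (c.map t)) he'
      simpa only [Functor.map_comp] using this⟩
  have sq1 : IsPushout (c.map e₁.inv ≫ f) (c.map (pNerveMap (lowerVal A))) j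
    (c.map e₂.inv ≫ g) := sqe.paste_horiz sq
  have sq2 : IsPushout ((streetNerve n).map (c.map e₁.inv ≫ f))
      ((streetNerve n).map (c.map (pNerveMap (lowerVal A)))) a
      ((streetNerve n).map (c.map e₂.inv) ≫ b) := by
    rw [Functor.map_comp]
    exact sqe'.paste_horiz sq'
  obtain ⟨h1, h2⟩ := hkl A hA _ _ _ sq1 _ _ sq2
  refine ⟨h1, ?_⟩
  have hd1 := sq2.inl_desc ((streetNerve n).map j) ((streetNerve n).map (c.map e₂.inv ≫ g))
        (by rw [← Functor.map_comp, ← Functor.map_comp, sq1.w])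
  have hd2 := sq2.inr_desc ((streetNerve n).map j) ((streetNerve n).map (c.map e₂.inv ≫ g))
        (by rw [← Functor.map_comp, ← Functor.map_comp, sq1.w])
  set d := sq2.desc ((streetNerve n).map j) ((streetNerve n).map (c.map e₂.inv ≫ g))
      (by rw [← Functor.map_comp, ← Functor.map_comp, sq1.w]) with hd
  have h3 : d = sq'.desc ((streetNerve n).map j) ((streetNerve n).map g)
        (by simp only [← Functor.map_comp, sq.w]) := by
    apply sq'.hom_ext
    · rw [hd1, sq'.inl_desc]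
    · rw [sq'.inr_desc]
      rw [Functor.map_comp, Category.assoc] at hd2
      rw [← cancel_epi ((streetNerve n).map (c.map e₂.inv))]
      exact hd2
  rw [← h3]
  exact h2

theorem unitHyp_of (hsd : SdDwyer)
    (hup : ∀ (B : Type) [PartialOrder B] [Finite B], WeakEq (adj.unit.app (pNerve B))) :
    UnitHyp adj := by
  intro m K
  obtain ⟨B, _, _, A, hA, ⟨e⟩⟩ := hsd m K
  let e₁ : Sd2.obj (K : SSet.{0}) ≅ pNerve A := Arrow.leftFunc.mapIso e
  have h : weq (adj.unit.app (pNerve A)) := hup A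
  refine (weq.arrow_mk_iso_iff (Arrow.isoMk e₁ ((c ⋙ streetNerve n).mapIso e₁) ?_)).2 h
  exact adj.unit.naturality e₁.hom

/-- The Ara-Maltsiniotis conjecture, from the key lemma. -/
theorem final_of (hsd : SdDwyer)
    (hkl : ∀ (c : SSet.{0} ⥤ NCat n) (_ : c ⊣ streetNerve n), KeyLemma n c)
    (hup : ∀ (c : SSet.{0} ⥤ NCat n) (adj : c ⊣ streetNerve n) (B : Type) [PartialOrder B]
      [Finite B], WeakEq (adj.unit.app (pNerve B))) :
    (∃ M : ModelCategory (NCat n), (weakEquivalences (NCat n)) = thomasonW n ∧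
      fibrations (NCat n) = thomasonF n ∧ cofibrations (NCat n) = thomasonC n) ∧
    ∃ (c : SSet.{0} ⥤ NCat n) (adj : c ⊣ streetNerve n),
      (∀ {X Y : SSet.{0}} (i : X ⟶ Y), Mono i →
        thomasonC n (c.map (SSet.sd.map (SSet.sd.map i)))) ∧
      (∀ {X Y : SSet.{0}} (i : X ⟶ Y), Mono i → WeakEq i →
        thomasonW n (c.map (SSet.sd.map (SSet.sd.map i)))) ∧
      (∀ (X : SSet.{0}) (Y T : NCat n) (_ : IsTerminal T) (p : Y ⟶ T), thomasonF n p →
        ∀ (f : c.obj (SSet.sd.obj (SSet.sd.obj X)) ⟶ Y), thomasonW n f ↔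
          WeakEq (((SSet.sdExAdjunction.comp (SSet.sdExAdjunction.comp adj)).homEquiv X Y) f)) := by
  have adj : (streetNerve n).leftAdjoint ⊣ streetNerve n :=
    Adjunction.ofIsRightAdjoint (streetNerve n)
  have hkey := keyHyp_of hsd (hkl _ adj)
  have hunit := unitHyp_of adj hsd (hup _ adj)
  refine ⟨exists_modelCategory_of_keyHyp adj hkey hunit, _, adj, ?_, ?_, ?_⟩
  · intro X Y i hi
    exact cof_of_mono adj i hi
  · intro X Y i hi hi'
    exact weq_of_tcof adj hkey hunit i ⟨hi, hi'⟩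
  · intro X Y T _ p _ f
    exact quillen_equivalence_of_keyHyp adj hkey hunit X Y f

end NCat

end Vale.Agent.P213.Transfer
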