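import Vale.Agent.Lib.P213.KeyUnit
import Vale.Agent.Lib.P213.TransferFinal
import Vale.Agent.Lib.P213.SSKQ

/-! # P213: the Thomason model structure, from `SdDwyer` -/

open CategoryTheory Limits Simplicial HomotopicalAlgebra

namespace Vale.Agent.P213

theorem thomason_of_sdDwyer (hsd : Transfer.SdDwyer) (n : ℕ∞) (hn : 1 ≤ n) :
    (∃ M : ModelCategory (NCat n), (weakEquivalences (NCat n)) = thomasonW n ∧
      fibrations (NCat n) = thomasonF n ∧ cofibrations (NCat n) = thomasonC n) ∧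
    ∀ (c : SSet.{0} ⥤ NCat n) (adj : c ⊣ streetNerve n),
      (∀ {X Y : SSet.{0}} (i : X ⟶ Y), Mono i →
        thomasonC n (c.map (SSet.sd.map (SSet.sd.map i)))) ∧
      (∀ {X Y : SSet.{0}} (i : X ⟶ Y), Mono i → WeakEq i →
        thomasonW n (c.map (SSet.sd.map (SSet.sd.map i)))) ∧
      (∀ (X : SSet.{0}) (Y : NCat n) (f : c.obj (SSet.sd.obj (SSet.sd.obj X)) ⟶ Y),
        thomasonW n f ↔
          WeakEq (((SSet.sdExAdjunction.comp (SSet.sdExAdjunction.comp adj)).homEquiv X Y) f)) := by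
  have hkl : ∀ (c : SSet.{0} ⥤ NCat n) (_ : c ⊣ streetNerve n), Transfer.KeyLemma n c :=
    fun c adj B _ _ A hA C D f g j sq P a b sq' => key_lemma hn adj A hA f g j sq a b sq'
  have hup : ∀ (c : SSet.{0} ⥤ NCat n) (adj : c ⊣ streetNerve n) (B : Type) [PartialOrder B]
      [Finite B], WeakEq (adj.unit.app (pNerve B)) := fun c adj B _ _ => unit_poset hn adj B
  refine ⟨(Transfer.final_of hsd hkl hup).1, ?_⟩
  intro c adj
  have hkey := Transfer.keyHyp_of hsd (hkl _ adj)
  have hunit := Transfer.unitHyp_of adj hsd (hup _ adj)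
  refine ⟨?_, ?_, ?_⟩
  · intro X Y i hi
    exact Transfer.cof_of_mono adj i hi
  · intro X Y i hi hi'
    exact Transfer.weq_of_tcof adj hkey hunit i ⟨hi, hi'⟩
  · intro X Y f
    exact Transfer.quillen_equivalence_of_keyHyp adj hkey hunit X Y f

end Vale.Agent.P213
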