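import Mathlib

/-! # P213: pasting lemmas for pushouts -/

open CategoryTheory Limits

namespace Vale.Agent.P213

section

variable {𝒞 : Type*} [Category 𝒞]

/-- Pushing out a pushout square along `u : A ⟶ C`. -/
lemma isPushout_pushout {A C S S₁ S₂ S₁₂ P P₁ P₂ P₁₂ : 𝒞} {u : A ⟶ C} {s : A ⟶ S}
    {i₁ : S ⟶ S₁} {i₂ : S ⟶ S₂} {j₁ : S₁ ⟶ S₁₂} {j₂ : S₂ ⟶ S₁₂} (sq : IsPushout i₁ i₂ j₁ j₂)
    {a : C ⟶ P} {b : S ⟶ P} (h : IsPushout u s a b)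
    {s₁ : A ⟶ S₁} {a₁ : C ⟶ P₁} {b₁ : S₁ ⟶ P₁} (h₁ : IsPushout u s₁ a₁ b₁)
    {s₂ : A ⟶ S₂} {a₂ : C ⟶ P₂} {b₂ : S₂ ⟶ P₂} (h₂ : IsPushout u s₂ a₂ b₂)
    {s₁₂ : A ⟶ S₁₂} (hs₁₂ : s₁ ≫ j₁ = s₁₂) {a₁₂ : C ⟶ P₁₂} {b₁₂ : S₁₂ ⟶ P₁₂}
    (h₁₂ : IsPushout u s₁₂ a₁₂ b₁₂)
    {p₁ : P ⟶ P₁} {p₂ : P ⟶ P₂} {q₁ : P₁ ⟶ P₁₂} {q₂ : P₂ ⟶ P₁₂}
    (hp₁ : a ≫ p₁ = a₁) (hp₁' : b ≫ p₁ = i₁ ≫ b₁) (hp₂ : a ≫ p₂ = a₂) (hp₂' : b ≫ p₂ = i₂ ≫ b₂)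
    (hq₁ : a₁ ≫ q₁ = a₁₂) (hq₁' : b₁ ≫ q₁ = j₁ ≫ b₁₂) (hq₂ : a₂ ≫ q₂ = a₁₂)
    (hq₂' : b₂ ≫ q₂ = j₂ ≫ b₁₂) : IsPushout p₁ p₂ q₁ q₂ := by
  have w : p₁ ≫ q₁ = p₂ ≫ q₂ := by
    apply h.hom_ext
    · rw [reassoc_of% hp₁, reassoc_of% hp₂, hq₁, hq₂]
    · rw [reassoc_of% hp₁', reassoc_of% hp₂', hq₁', hq₂', sq.w_assoc]
  refine ⟨⟨w⟩, ⟨PushoutCocone.IsColimit.mk _
    (fun c => h₁₂.desc (a₁ ≫ c.inl) (sq.desc (b₁ ≫ c.inl) (b₂ ≫ c.inr) ?_) ?_) ?_ ?_ ?_⟩⟩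
  · rw [← reassoc_of% hp₁', c.condition, reassoc_of% hp₂']
  · rw [← hs₁₂, Category.assoc, sq.inl_desc, h₁.w_assoc]
  · intro c
    apply h₁.hom_ext
    · rw [reassoc_of% hq₁, h₁₂.inl_desc]
    · rw [reassoc_of% hq₁', h₁₂.inr_desc, sq.inl_desc]
  · intro c
    apply h₂.hom_ext
    · rw [reassoc_of% hq₂, h₁₂.inl_desc, ← hp₁, ← hp₂, Category.assoc, Category.assoc, c.condition]
    · rw [reassoc_of% hq₂', h₁₂.inr_desc, sq.inr_desc]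
  · intro c m hm₁ hm₂
    apply h₁₂.hom_ext
    · rw [h₁₂.inl_desc, ← hq₁, Category.assoc, hm₁]
    · rw [h₁₂.inr_desc]
      apply sq.hom_ext
      · rw [sq.inl_desc, ← reassoc_of% hq₁', hm₁]
      · rw [sq.inr_desc, ← reassoc_of% hq₂', hm₂]

/-- The map of pushouts induced by `i₁ : S ⟶ S₁` is a pushout of `i₁`. -/
lemma isPushout_side {A C S S₁ P P₁ : 𝒞} {u : A ⟶ C} {s : A ⟶ S} {i₁ : S ⟶ S₁}
    {a : C ⟶ P} {b : S ⟶ P} (h : IsPushout u s a b)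
    {s₁ : A ⟶ S₁} (hs₁ : s ≫ i₁ = s₁) {a₁ : C ⟶ P₁} {b₁ : S₁ ⟶ P₁} (h₁ : IsPushout u s₁ a₁ b₁)
    {p₁ : P ⟶ P₁} (hp₁ : a ≫ p₁ = a₁) (hp₁' : b ≫ p₁ = i₁ ≫ b₁) : IsPushout i₁ b b₁ p₁ := by
  refine IsPushout.of_left ?_ hp₁'.symm h.flip
  rw [hs₁, hp₁]
  exact h₁.flip

/-- Comparison of two pushouts. -/
lemma isIso_of_isPushout {A C S S' P P' : 𝒞} {u : A ⟶ C} {s : A ⟶ S} {s' : A ⟶ S'}
    {a : C ⟶ P} {b : S ⟶ P} (h : IsPushout u s a b) {a' : C ⟶ P'} {b' : S' ⟶ P'}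
    (h' : IsPushout u s' a' b') (t : S ⟶ S') [IsIso t] (ht : s ≫ t = s') {e : P ⟶ P'}
    (ha : a ≫ e = a') (hb : b ≫ e = t ≫ b') : IsIso e := by
  refine ⟨h'.desc a (inv t ≫ b) (by rw [h.w, ← ht, Category.assoc, IsIso.hom_inv_id_assoc]),
    ?_, ?_⟩
  · apply h.hom_ext
    · rw [reassoc_of% ha, h'.inl_desc, Category.comp_id]
    · rw [reassoc_of% hb, h'.inr_desc, IsIso.hom_inv_id_assoc, Category.comp_id]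
  · apply h'.hom_ext
    · rw [h'.inl_desc_assoc, ha, Category.comp_id]
    · rw [h'.inr_desc_assoc, Category.assoc, hb, IsIso.inv_hom_id_assoc, Category.comp_id]

/-- The universal property of binary coproducts. -/
structure IsCoprod {X R Z : 𝒞} (x : X ⟶ Z) (r : R ⟶ Z) : Prop where
  ex : ∀ {T : 𝒞} (a : X ⟶ T) (b : R ⟶ T), ∃ c : Z ⟶ T, x ≫ c = a ∧ r ≫ c = b
  uniq : ∀ {T : 𝒞} (c c' : Z ⟶ T), x ≫ c = x ≫ c' → r ≫ c = r ≫ c' → c = c'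

lemma isCoprod_iff {X R Z : 𝒞} {x : X ⟶ Z} {r : R ⟶ Z} :
    IsCoprod x r ↔ Nonempty (IsColimit (BinaryCofan.mk x r)) := by
  constructor
  · intro h
    choose d hd using @h.ex
    exact ⟨BinaryCofan.isColimitMk (fun c => d c.inl c.inr) (fun c => (hd _ _).1)
      (fun c => (hd _ _).2) (fun c m hm₁ hm₂ => h.uniq _ _ (hm₁.trans (hd _ _).1.symm)
        (hm₂.trans (hd _ _).2.symm))⟩
  · rintro ⟨h⟩
    exact ⟨fun a b => ⟨h.desc (BinaryCofan.mk a b), h.fac (BinaryCofan.mk a b) ⟨WalkingPair.left⟩,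
      h.fac (BinaryCofan.mk a b) ⟨WalkingPair.right⟩⟩,
      fun c c' h1 h2 => BinaryCofan.IsColimit.hom_ext h h1 h2⟩

/-- Coproducts and pushouts. -/
lemma isPushout_of_coprod {X Y Z R W : 𝒞} {f : X ⟶ Y} {x : X ⟶ Z} {r : R ⟶ Z}
    (h : IsCoprod x r) {y : Y ⟶ W} {z : Z ⟶ W} (w : f ≫ y = x ≫ z)
    (h' : IsCoprod y (r ≫ z)) : IsPushout f x y z := by
  choose d hd using @h'.ex
  refine ⟨⟨w⟩, ⟨PushoutCocone.IsColimit.mk _ (fun c => d c.inl (r ≫ c.inr)) ?_ ?_ ?_⟩⟩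
  · intro c
    exact (hd _ _).1
  · intro c
    apply h.uniq
    · rw [← reassoc_of% w, (hd _ _).1, c.condition]
    · rw [← Category.assoc, (hd _ _).2]
  · intro c m hm₁ hm₂
    apply h'.uniq
    · rw [(hd _ _).1, hm₁]
    · rw [(hd _ _).2, Category.assoc, hm₂]

/-- Coproducts and pushouts. -/
lemma coprod_of_isPushout {X Y Z R W : 𝒞} {f : X ⟶ Y} {x : X ⟶ Z} {r : R ⟶ Z}
    (h : IsCoprod x r) {y : Y ⟶ W} {z : Z ⟶ W} (sq : IsPushout f x y z) :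
    IsCoprod y (r ≫ z) := by
  constructor
  · intro T a b
    obtain ⟨e, he1, he2⟩ := h.ex (f ≫ a) b
    refine ⟨sq.desc a e he1.symm, sq.inl_desc _ _ _, ?_⟩
    rw [Category.assoc, sq.inr_desc, he2]
  · intro T c c' h1 h2
    apply sq.hom_ext h1
    apply h.uniq
    · rw [← sq.w_assoc, ← sq.w_assoc, h1]
    · simpa using h2

/-- A pushout over an initial object is a coproduct. -/
lemma coprod_of_isPushout_initial {I X Y Z : 𝒞} (hI : ∀ {T : 𝒞} (a b : I ⟶ T), a = b)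
    {f : I ⟶ X} {g : I ⟶ Y} {x : X ⟶ Z} {y : Y ⟶ Z} (sq : IsPushout f g x y) :
    IsCoprod x y :=
  ⟨fun a b => ⟨sq.desc a b (hI _ _), sq.inl_desc _ _ _, sq.inr_desc _ _ _⟩,
    fun _ _ h1 h2 => sq.hom_ext h1 h2⟩

end

end Vale.Agent.P213
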