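import Vale.Agent.Lib.P213.CellTools

/-!
# Coproducts as transfinite compositions of pushouts
-/

open CategoryTheory Limits MorphismProperty

universe w v u

namespace Vale.Agent.P213.Cell

variable {C : Type u} [Category.{v} C]

section

variable {I : Type w}

lemma isPushout_sigma {X Y : I → C} [HasCoproduct X] [HasCoproduct Y] (g : ∀ i, X i ⟶ Y i)
    (i₀ : I) (h : ∀ i, i ≠ i₀ → IsIso (g i)) :
    IsPushout (Sigma.ι X i₀) (g i₀) (Limits.Sigma.map g) (Sigma.ι Y i₀) := by
  have key : ∀ (P : C) (a : ∐ X ⟶ P) (b : Y i₀ ⟶ P), Sigma.ι X i₀ ≫ a = g i₀ ≫ b →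
      ∃ d : ∀ i, Y i ⟶ P, d i₀ = b ∧ ∀ i, g i ≫ d i = Sigma.ι X i ≫ a := by
    intro P a b hab
    have : ∀ i, ∃ d : Y i ⟶ P, g i ≫ d = Sigma.ι X i ≫ a ∧
        ∀ (e : i = i₀), d = eqToHom (by rw [e]) ≫ b := by
      intro i
      by_cases hi : i = i₀
      · subst hi
        exact ⟨b, hab.symm, fun _ => by simp⟩
      · have := h i hi
        exact ⟨inv (g i) ≫ Sigma.ι X i ≫ a, by simp, fun e => absurd e hi⟩
    choose d hd1 hd2 using this
    exact ⟨d, by simpa using hd2 i₀ rfl, hd1⟩
  refine IsPushout.of_isColimit' ⟨by simp⟩ (PushoutCocone.IsColimit.mk _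
    (fun s => Sigma.desc (key s.pt s.inl s.inr s.condition).choose) ?_ ?_ ?_)
  · intro s
    apply Sigma.hom_ext
    intro i
    rw [← Category.assoc, Sigma.ι_map, Category.assoc, Sigma.ι_desc]
    exact (key s.pt s.inl s.inr s.condition).choose_spec.2 i
  · intro s
    rw [Sigma.ι_desc]
    exact (key s.pt s.inl s.inr s.condition).choose_spec.1
  · intro s m h1 h2
    apply Sigma.hom_ext
    intro i
    rw [Sigma.ι_desc]
    by_cases hi : i = i₀
    · subst hi
      rw [h2]
      exact (key s.pt s.inl s.inr s.condition).choose_spec.1.symm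
    · have := h i hi
      rw [← cancel_epi (g i), (key s.pt s.inl s.inr s.condition).choose_spec.2 i, ← h1,
        ← Category.assoc, ← Category.assoc, Sigma.ι_map]

/-- Coproducts of colimit cocones. -/
lemma isColimit_sigma {K : Type w} [Category.{w} K] {F : I → K ⥤ C} {F' : K ⥤ C}
    (inc : ∀ i k, (F i).obj k ⟶ F'.obj k)
    (hinc : ∀ i {k l : K} (φ : k ⟶ l), (F i).map φ ≫ inc i l = inc i k ≫ F'.map φ)
    (hext : ∀ (k : K) (P : C) (g g' : F'.obj k ⟶ P), (∀ i, inc i k ≫ g = inc i k ≫ g') → g = g')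
    (c : ∀ i, Cocone (F i)) (hc : ∀ i, IsColimit (c i)) (c' : Cocone F')
    (inc' : ∀ i, (c i).pt ⟶ c'.pt)
    (hinc' : ∀ i k, (c i).ι.app k ≫ inc' i = inc i k ≫ c'.ι.app k)
    (hext' : ∀ (P : C) (g g' : c'.pt ⟶ P), (∀ i, inc' i ≫ g = inc' i ≫ g') → g = g')
    (hdesc : ∀ (P : C) (d : ∀ i, (c i).pt ⟶ P), ∃ g : c'.pt ⟶ P, ∀ i, inc' i ≫ g = d i) :
    Nonempty (IsColimit c') := by
  let cc : ∀ (s : Cocone F') (i : I), Cocone (F i) := fun s i =>
    Cocone.mk s.pt
      { app := fun k => inc i k ≫ s.ι.app k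
        naturality := fun k l φ => by
          rw [← Category.assoc, hinc, Category.assoc, s.w φ]
          exact (Category.comp_id _).symm }
  refine ⟨{ desc := fun s => (hdesc s.pt fun i => (hc i).desc (cc s i)).choose,
            fac := ?_, uniq := ?_ }⟩
  · intro s k
    apply hext k
    intro i
    rw [← Category.assoc, ← hinc', Category.assoc,
      (hdesc s.pt fun i => (hc i).desc (cc s i)).choose_spec i, (hc i).fac]
  · intro s g hg
    apply hext'
    intro i
    rw [(hdesc s.pt fun i => (hc i).desc (cc s i)).choose_spec i]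
    apply (hc i).hom_ext
    intro k
    rw [(hc i).fac, ← Category.assoc, hinc', Category.assoc, hg]

variable {J : Type w} [LinearOrder J]

/-- The indicator of the elements above `a`. -/
def lvl (a j : J) : Fin 2 := if a < j then 1 else 0

lemma lvl_mono (a : J) : Monotone (lvl a) := by
  intro j k hjk
  unfold lvl
  by_cases h : a < j
  · rw [if_pos h, if_pos (h.trans_le hjk)]
  · rw [if_neg h]
    exact Fin.zero_le _

/-- The functor which is `X` up to `a` and `Y` after `a`. -/
def Psi (a : J) {X Y : C} (f : X ⟶ Y) : J ⥤ C := (lvl_mono a).functor ⋙ ComposableArrows.mk₁ f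

lemma isIso_Psi_map {a : J} {X Y : C} (f : X ⟶ Y) {j k : J} (φ : j ⟶ k)
    (h : lvl a j = lvl a k) : IsIso ((Psi a f).map φ) := by
  have : IsIso ((lvl_mono a).functor.map φ) := ⟨homOfLE h.ge, rfl, rfl⟩
  change IsIso ((ComposableArrows.mk₁ f).map ((lvl_mono a).functor.map φ))
  infer_instance

lemma mk₁_arrow {X Y : C} (f : X ⟶ Y) {p q : Fin 2} (hp : p = 0) (hq : q = 1) (φ : p ⟶ q) :
    Nonempty (CategoryTheory.Arrow.mk ((ComposableArrows.mk₁ f).map φ) ≅ CategoryTheory.Arrow.mk f) := by
  subst hp hq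
  exact ⟨Iso.refl _⟩

lemma Psi_arrow {a : J} {X Y : C} (f : X ⟶ Y) {j k : J} (φ : j ⟶ k) (hj : j ≤ a) (hk : a < k) :
    Nonempty (CategoryTheory.Arrow.mk ((Psi a f).map φ) ≅ CategoryTheory.Arrow.mk f) :=
  mk₁_arrow f (if_neg hj.not_gt) (if_pos hk) ((lvl_mono a).functor.map φ)

variable [SuccOrder J] [OrderBot J] [WellFoundedLT J]

omit [WellFoundedLT J] in
lemma lvl_limit (a m : J) (hm : Order.IsSuccLimit m) :
    ∃ k₀, k₀ < m ∧ ∀ k, k₀ ≤ k → k ≤ m → lvl a k = lvl a m := by
  by_cases h : a < m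
  · refine ⟨Order.succ a, hm.succ_lt h, fun k hk _ => ?_⟩
    have h1 : a < Order.succ a := Order.lt_succ_of_not_isMax (not_isMax_of_lt h)
    unfold lvl
    rw [if_pos (h1.trans_le hk), if_pos h]
  · refine ⟨⊥, Order.IsSuccLimit.bot_lt hm, fun k _ hk => ?_⟩
    unfold lvl
    rw [if_neg (fun h' => h (h'.trans_le hk)), if_neg h]

instance (a : J) {X Y : C} (f : X ⟶ Y) : (Psi a f).IsWellOrderContinuous where
  nonempty_isColimit m hm := by
    obtain ⟨k₀, hk₀, h⟩ := lvl_limit a m hm
    have : Nonempty (Set.Iio m) := ⟨⟨k₀, hk₀⟩⟩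
    have h1 : ((Set.principalSegIio m).monotone.functor ⋙
        Psi a f).IsEventuallyConstantFrom ⟨k₀, hk₀⟩ := by
      intro k φ
      have h3 : lvl a k₀ = lvl a k.1 :=
        (h k₀ le_rfl hk₀.le).trans (h k.1 (leOfHom φ) (le_of_lt k.2)).symm
      exact isIso_Psi_map f ((Set.principalSegIio m).monotone.functor.map φ) h3
    have h2 : IsIso (((Set.principalSegIio m).cocone (Psi a f)).ι.app ⟨k₀, hk₀⟩) :=
      isIso_Psi_map f (homOfLE hk₀.le) (h k₀ le_rfl hk₀.le)
    exact ⟨h1.isColimitOfIsIso _⟩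

variable [HasCoproducts.{w} C] {X Y : I → C} (a : I → J) (f : ∀ i, X i ⟶ Y i)

/-- The functor interpolating between `∐ X` and `∐ Y`. -/
noncomputable def Phi : J ⥤ C where
  obj j := ∐ fun i => (Psi (a i) (f i)).obj j
  map φ := Limits.Sigma.map fun i => (Psi (a i) (f i)).map φ
  map_id j := by
    apply Sigma.hom_ext
    intro i
    simp
  map_comp φ ψ := by
    apply Sigma.hom_ext
    intro i
    simp

omit [SuccOrder J] [OrderBot J] [WellFoundedLT J] in
lemma ι_Phi_map {j k : J} (φ : j ⟶ k) (i : I) :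
    Sigma.ι (fun i => (Psi (a i) (f i)).obj j) i ≫ (Phi a f).map φ =
      (Psi (a i) (f i)).map φ ≫ Sigma.ι (fun i => (Psi (a i) (f i)).obj k) i :=
  Sigma.ι_map (fun i => (Psi (a i) (f i)).map φ) i

instance : (Phi a f).IsWellOrderContinuous where
  nonempty_isColimit m hm := by
    refine isColimit_sigma (K := Set.Iio m)
      (F := fun i => (Set.principalSegIio m).monotone.functor ⋙ Psi (a i) (f i))
      (F' := (Set.principalSegIio m).monotone.functor ⋙ Phi a f)
      (fun i k => Sigma.ι (fun i => (Psi (a i) (f i)).obj k.1) i)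
      (fun i k l φ => (ι_Phi_map a f _ i).symm) ?_ _
      (fun i => (Psi (a i) (f i)).isColimitOfIsWellOrderContinuous m hm) _
      (fun i => Sigma.ι (fun i => (Psi (a i) (f i)).obj m) i)
      (fun i k => (ι_Phi_map a f _ i).symm) ?_ ?_
    · intro k P g g' h
      exact Sigma.hom_ext _ _ h
    · intro P g g' h
      exact Sigma.hom_ext _ _ h
    · intro P d
      exact ⟨Sigma.desc d, fun i => Sigma.ι_desc _ _⟩

omit [OrderBot J] [WellFoundedLT J] in
lemma Phi_map_mem (W : MorphismProperty C) [W.IsStableUnderCobaseChange] [W.IsMultiplicative]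
    [W.RespectsIso] (hf : ∀ i, W (f i)) (ha : Function.Injective a) (j : J) (hj : ¬ IsMax j) :
    W ((Phi a f).map (homOfLE (Order.le_succ j))) := by
  have hlt : ∀ i, a i < Order.succ j ↔ a i ≤ j := fun i => Order.lt_succ_iff_of_not_isMax hj
  by_cases h : ∃ i₀, a i₀ = j
  · obtain ⟨i₀, hi₀⟩ := h
    have h1 : ∀ i, i ≠ i₀ → IsIso ((Psi (a i) (f i)).map (homOfLE (Order.le_succ j))) := by
      intro i hi
      apply isIso_Psi_map
      unfold lvl
      have h2 : a i ≠ j := fun h => hi (ha (h.trans hi₀.symm))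
      by_cases h3 : a i < j
      · rw [if_pos h3, if_pos ((hlt i).mpr h3.le)]
      · rw [if_neg h3, if_neg (fun h4 => h3 (lt_of_le_of_ne ((hlt i).mp h4) h2))]
    have h2 := isPushout_sigma (fun i => (Psi (a i) (f i)).map (homOfLE (Order.le_succ j))) i₀ h1
    refine W.of_isPushout h2 ?_
    obtain ⟨e⟩ := Psi_arrow (f i₀) (homOfLE (Order.le_succ j)) hi₀.ge ((hlt i₀).mpr hi₀.le)
    exact (W.arrow_mk_iso_iff e).mpr (hf i₀)
  · have h1 : ∀ i, IsIso ((Psi (a i) (f i)).map (homOfLE (Order.le_succ j))) := by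
      intro i
      apply isIso_Psi_map
      unfold lvl
      have h2 : a i ≠ j := fun h' => h ⟨i, h'⟩
      by_cases h3 : a i < j
      · rw [if_pos h3, if_pos ((hlt i).mpr h3.le)]
      · rw [if_neg h3, if_neg (fun h4 => h3 (lt_of_le_of_ne ((hlt i).mp h4) h2))]
    have h2 : IsIso ((Phi a f).map (homOfLE (Order.le_succ j))) :=
      inferInstanceAs (IsIso (Limits.Sigma.map
        fun i => (Psi (a i) (f i)).map (homOfLE (Order.le_succ j))))
    exact MorphismProperty.of_isIso W _

end

/-- A class which is stable under cobase change and transfinite compositions is stable under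
coproducts. -/
lemma isStableUnderCoproducts_of_transfinite [HasCoproducts.{w} C] (W : MorphismProperty C)
    [W.IsStableUnderCobaseChange] [IsStableUnderTransfiniteComposition.{w} W] :
    IsStableUnderCoproducts.{w} W where
  isStableUnderCoproductsOfShape I := by
    apply IsStableUnderCoproductsOfShape.mk
    intro X Y _ _ f hf
    obtain ⟨_, _⟩ := exists_wellFoundedLT I
    let J := WithTop I
    let _ : LinearOrder J := inferInstance
    let _ : OrderBot J := WellFoundedLT.toOrderBot J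
    let _ : SuccOrder J := SuccOrder.ofLinearWellFoundedLT J
    let a : I → J := fun i => (i : WithTop I)
    have ha : Function.Injective a := fun i j h => WithTop.coe_injective h
    have h1 : W ((Phi a f).map (homOfLE (bot_le : (⊥ : J) ≤ ⊤))) := by
      refine W.transfiniteCompositionsOfShape_le J _ ⟨{
        F := Phi a f
        isoBot := Iso.refl _
        incl := (coconeOfDiagramTerminal isTerminalTop (Phi a f)).ι
        isColimit := colimitOfDiagramTerminal isTerminalTop _
        fac := ?_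
        map_mem := fun j hj => Phi_map_mem a f W hf ha j hj }⟩
      exact Category.id_comp _
    have h2 : ∀ i, Nonempty (CategoryTheory.Arrow.mk
        ((Psi (a i) (f i)).map (homOfLE (bot_le : (⊥ : J) ≤ ⊤))) ≅ CategoryTheory.Arrow.mk (f i)) :=
      fun i => Psi_arrow (f i) _ bot_le (WithTop.coe_lt_top i)
    let e := fun i => (h2 i).some
    refine (W.arrow_mk_iso_iff (Arrow.isoMk
      (Sigma.mapIso (fun i => Arrow.leftFunc.mapIso (e i)))
      (Sigma.mapIso (fun i => Arrow.rightFunc.mapIso (e i))) ?_)).mp h1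
    apply Sigma.hom_ext
    intro i
    have h3 : (e i).hom.left ≫ f i =
        (Psi (a i) (f i)).map (homOfLE (bot_le : (⊥ : J) ≤ ⊤)) ≫ (e i).hom.right := (e i).hom.w
    have h4 := Sigma.ι_map (fun i => (e i).hom.left) i
    have h5 := Sigma.ι_map (fun i => (e i).hom.right) i
    have h6 := Sigma.ι_map f i
    have h7 := ι_Phi_map a f (homOfLE (bot_le : (⊥ : J) ≤ ⊤)) i
    refine (Category.assoc _ _ _).symm.trans ?_
    refine Eq.trans ?_ (Category.assoc _ _ _)
    refine (congrArg (fun z => z ≫ Limits.Sigma.map f) h4).trans ?_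
    refine Eq.trans ?_ (congrArg (fun z => z ≫ Limits.Sigma.map (fun i => (e i).hom.right))
      h7).symm
    refine (Category.assoc _ _ _).trans ?_
    refine Eq.trans ?_ (Category.assoc _ _ _).symm
    refine (congrArg (fun z => (e i).hom.left ≫ z) h6).trans ?_
    refine Eq.trans ?_ (congrArg (fun z => (Psi (a i) (f i)).map
      (homOfLE (bot_le : (⊥ : J) ≤ ⊤)) ≫ z) h5).symm
    refine (Category.assoc _ _ _).symm.trans ?_
    refine Eq.trans ?_ (Category.assoc _ _ _)
    exact congrArg (fun z => z ≫ Sigma.ι Y i) h3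

end Vale.Agent.P213.Cell
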