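import Mathlib

/-!
# Induction on cells for properties of simplicial sets
-/

open CategoryTheory Limits Simplicial Opposite

universe u

namespace Vale.Agent.P213.Cells

variable {X : SSet.{u}} (A : X.Subcomplex) {d : ℕ} (x : X _⦋d⦌)

section

variable (hx : x ∉ A.obj _) (hlt : ∀ (e : ℕ) (y : X _⦋e⦌), e < d → y ∈ A.obj _)

include hx hlt in
lemma mem_nonDegenerate : x ∈ X.nonDegenerate d := by
  intro h
  rw [SSet.mem_degenerate_iff] at h
  obtain ⟨m, hm, f, _, y, rfl⟩ := h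
  exact hx (A.map f.op (hlt m y hm))

include hx hlt in
lemma preimage_eq : A.preimage (SSet.yonedaEquiv.symm x) = ∂Δ[d] := by
  rw [SSet.stdSimplex.eq_boundary_iff]
  refine ⟨?_, fun h ↦ hx ?_⟩
  · rw [SSet.Subcomplex.le_iff_contains_nonDegenerate]
    rintro n ⟨y, hy₁⟩ hy₂
    have : n < d := SSet.dim_lt_of_nonDegenerate (X := ∂Δ[d])
      ⟨⟨y, hy₂⟩, (SSet.Subcomplex.mem_nonDegenerate_iff _ _).2 hy₁⟩ d
    exact hlt n _ this
  · have := h.symm.le _ (show SSet.stdSimplex.objEquiv.symm (𝟙 ⦋d⦌) ∈ _ by simp)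
    simpa using this

lemma range_le : SSet.Subcomplex.range (SSet.yonedaEquiv.symm x) ≤
    A ⊔ SSet.Subcomplex.ofSimplex x := by
  rw [SSet.Subcomplex.range_eq_ofSimplex]
  simp

lemma range_le' (h : A.preimage (SSet.yonedaEquiv.symm x) = ∂Δ[d]) :
    SSet.Subcomplex.range (∂Δ[d].ι ≫ SSet.yonedaEquiv.symm x) ≤ A := by
  simp [SSet.Subcomplex.range_comp, SSet.Subcomplex.image_le_iff, h]

/-- the top morphism -/
noncomputable abbrev t (h : A.preimage (SSet.yonedaEquiv.symm x) = ∂Δ[d]) :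
    (∂Δ[d] : SSet.{u}) ⟶ A :=
  SSet.Subcomplex.lift (∂Δ[d].ι ≫ SSet.yonedaEquiv.symm x) (range_le' A x h)

/-- the right morphism -/
abbrev r : (A : SSet.{u}) ⟶ (A ⊔ SSet.Subcomplex.ofSimplex x : X.Subcomplex) :=
  SSet.Subcomplex.homOfLE le_sup_left

/-- the bottom morphism -/
noncomputable abbrev b : (Δ[d] : SSet.{u}) ⟶ (A ⊔ SSet.Subcomplex.ofSimplex x : X.Subcomplex) :=
  SSet.Subcomplex.lift (SSet.yonedaEquiv.symm x) (range_le A x)

lemma w (h : A.preimage (SSet.yonedaEquiv.symm x) = ∂Δ[d]) :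
    t A x h ≫ r A x = ∂Δ[d].ι ≫ b A x := by
  simp [← cancel_mono (SSet.Subcomplex.ι _)]

lemma b_app {n : SimplexCategory} (f : n ⟶ ⦋d⦌) :
    ((b A x).app _ (SSet.stdSimplex.objEquiv.symm f)).val = X.map f.op x := by
  exact SSet.yonedaEquiv_symm_app_objEquiv_symm x f

lemma isPullback (h : A.preimage (SSet.yonedaEquiv.symm x) = ∂Δ[d]) :
    IsPullback (t A x h) ∂Δ[d].ι (r A x) (b A x) where
  w := w A x h
  isLimit' := ⟨evaluationJointlyReflectsLimits _ (fun ⟨⟨n⟩⟩ ↦ by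
    refine (isLimitMapConePullbackConeEquiv _ _).2
      (IsPullback.isLimit ?_)
    dsimp
    rw [Types.isPullback_iff]
    refine ⟨NatTrans.congr_app (w A x h) _,
      fun x₁ x₂ ⟨_, h⟩ ↦ Subtype.ext h,
      fun ⟨y, hy⟩ z h' ↦ ?_⟩
    have h'' : y = (SSet.yonedaEquiv.symm x).app _ z := congrArg Subtype.val h'
    refine ⟨⟨z, ?_⟩, ?_, rfl⟩
    · rw [← h]
      change (SSet.yonedaEquiv.symm x).app _ z ∈ A.obj _
      rw [← h'']
      exact hy
    · exact Subtype.ext h''.symm)⟩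

lemma range_sup_range (n : SimplexCategoryᵒᵖ) :
    Set.range ((r A x).app n) ⊔ Set.range ((b A x).app n) = Set.univ := by
  obtain ⟨n⟩ := n
  rw [← Set.univ_subset_iff]
  rintro ⟨y, hy⟩ -
  obtain hy | ⟨f, hf⟩ := hy
  · exact Or.inl ⟨⟨y, hy⟩, rfl⟩
  · refine Or.inr ⟨SSet.stdSimplex.objEquiv.symm f.unop, ?_⟩
    apply Subtype.ext
    rw [b_app]
    exact hf

lemma isPushout (hx : x ∉ A.obj _) (hlt : ∀ (e : ℕ) (y : X _⦋e⦌), e < d → y ∈ A.obj _) :
    IsPushout (t A x (preimage_eq A x hx hlt)) ∂Δ[d].ι (r A x) (b A x) where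
  w := w A x _
  isColimit' := ⟨evaluationJointlyReflectsColimits _ (fun ⟨⟨n⟩⟩ ↦ by
    refine (isColimitMapCoconePushoutCoconeEquiv _ _).2
      (IsPushout.isColimit ?_)
    refine Types.isPushout_of_isPullback_of_mono' ?_ ?_ ?_
    · exact (isPullback A x _).map ((evaluation _ _).obj _)
    · exact range_sup_range A x _
    · intro x₁ x₂ hx₁ hx₂ h
      have key : ∀ y : Δ[d] _⦋n⦌, y ∉ Set.range ((∂Δ[d].ι).app (op ⦋n⦌)) →
          ∃ (f : ⦋n⦌ ⟶ ⦋d⦌) (_ : Epi f), SSet.stdSimplex.objEquiv.symm f = y := by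
        intro y hy
        have hs : y ∉ ∂Δ[d].obj _ := fun hs => hy ⟨⟨y, hs⟩, rfl⟩
        refine ⟨SSet.stdSimplex.objEquiv y, ?_, by simp⟩
        simpa [SimplexCategory.epi_iff_surjective, SSet.boundary] using! hs
      obtain ⟨f₁, _, rfl⟩ := key x₁ hx₁
      obtain ⟨f₂, _, rfl⟩ := key x₂ hx₂
      have h' : X.map f₁.op x = X.map f₂.op x := by
        rw [← b_app A x f₁, ← b_app A x f₂]
        exact congrArg Subtype.val h
      have := X.unique_nonDegenerate_map _ f₁ ⟨x, mem_nonDegenerate A x hx hlt⟩ rfl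
        f₂ ⟨x, mem_nonDegenerate A x hx hlt⟩ h'
      rw [this])⟩

end

/-- Induction on cells: a property of simplicial sets which holds for the empty simplicial set and
is stable under attaching a cell and under filtered colimits holds for all simplicial sets. -/
theorem cell_induction (P : ObjectProperty SSet.{u}) [P.IsClosedUnderIsomorphisms]
    (h0 : ∀ X : SSet.{u}, IsInitial X → P X)
    (hcell : ∀ (d : ℕ) {X Y : SSet.{u}} (f : (∂Δ[d] : SSet.{u}) ⟶ X) (g : Δ[d] ⟶ Y) (j : X ⟶ Y),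
      IsPushout f ∂Δ[d].ι j g → P X → P Y)
    (hcolim : ∀ (J : Type u) [SmallCategory J] [IsFiltered J] (F : J ⥤ SSet.{u}) (c : Cocone F),
      IsColimit c → (∀ j, P (F.obj j)) → P c.pt) (X : SSet.{u}) : P X := by
  classical
  obtain ⟨A, -, hA⟩ := zorn_le_nonempty₀ (Set.ofPred fun A : X.Subcomplex => P A.toSSet) (by
    intro S hS hchain B hB
    refine ⟨sSup S, ?_, fun A hA => le_sSup hA⟩
    have : Nonempty S := ⟨⟨B, hB⟩⟩
    have : IsDirectedOrder S := ⟨by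
      rintro ⟨A₁, h₁⟩ ⟨A₂, h₂⟩
      rcases hchain.total h₁ h₂ with h | h
      · exact ⟨⟨A₂, h₂⟩, h, le_rfl⟩
      · exact ⟨⟨A₁, h₁⟩, le_rfl, h⟩⟩
    let G : S ⥤ X.Subcomplex :=
      { obj := fun A => A.1
        map := fun f => homOfLE (leOfHom f) }
    have hc := isColimitOfPreserves (SSet.Subcomplex.toSSetFunctor (X := X))
      (CompleteLattice.colimitCocone G).isColimit
    have h1 := hcolim S (G ⋙ SSet.Subcomplex.toSSetFunctor) _ hc (fun j => hS j.2)
    have h2 : (CompleteLattice.colimitCocone G).cocone.pt = sSup S := by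
      rw [sSup_eq_iSup']
      rfl
    change P (sSup S).toSSet
    rw [← h2]
    exact h1) ⊥ (h0 _ SSet.Subcomplex.isInitialBot)
  by_cases hT : A = ⊤
  · subst hT
    exact P.prop_of_iso (SSet.Subcomplex.topIso X) hA.1
  exfalso
  have hex : ∃ d : ℕ, ∃ x : X _⦋d⦌, x ∉ A.obj _ := by
    by_contra hcon
    push Not at hcon
    apply hT
    rw [← top_le_iff]
    rintro ⟨⟨n⟩⟩ x -
    exact hcon n x
  obtain ⟨x, hx⟩ := Nat.find_spec hex
  have hlt : ∀ (e : ℕ) (y : X _⦋e⦌), e < Nat.find hex → y ∈ A.obj _ := by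
    intro e y he
    by_contra hy
    exact Nat.find_min hex he ⟨y, hy⟩
  have hP := hcell _ _ _ _ (isPushout A x hx hlt) hA.1
  have hle := hA.2 hP le_sup_left
  exact hx (hle _ (Or.inr (SSet.Subcomplex.mem_ofSimplex_obj x)))

end Vale.Agent.P213.Cells
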