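import Mathlib

/-!
# Transfinite compositions, pushouts and coproducts

* `pushoutCore P`: the morphisms all of whose pushouts are in `P`; it is stable under transfinite
  compositions if `P` is.
* a class which is stable under cobase change and transfinite compositions is stable under
  coproducts.
-/

open CategoryTheory Limits MorphismProperty

universe w v u

namespace Vale.Agent.P213.Cell

variable {C : Type u} [Category.{v} C]

/-- Pushouts of colimit cocones. -/
lemma isColimit_pushout {K : Type w} [Category.{w} K] (b : K) (hb : ∀ k : K, Nonempty (b ⟶ k))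
    {F F' : K ⥤ C} {X X' : C} (x : X ⟶ X') (u : ∀ k, X ⟶ F.obj k)
    (hu : ∀ {k l : K} (φ : k ⟶ l), u k ≫ F.map φ = u l)
    (inl : ∀ k, F.obj k ⟶ F'.obj k)
    (hinl : ∀ {k l : K} (φ : k ⟶ l), F.map φ ≫ inl l = inl k ≫ F'.map φ)
    (inr : ∀ k, X' ⟶ F'.obj k)
    (hinr : ∀ {k l : K} (φ : k ⟶ l), inr k ≫ F'.map φ = inr l)
    (hpush : ∀ k, IsPushout (u k) x (inl k) (inr k))
    (c : Cocone F) (hc : IsColimit c) (c' : Cocone F') (y : c.pt ⟶ c'.pt)
    (hy : ∀ k, c.ι.app k ≫ y = inl k ≫ c'.ι.app k)
    (hp : IsPushout (u b ≫ c.ι.app b) x y (inr b ≫ c'.ι.app b)) : Nonempty (IsColimit c') := by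
  have hconst : ∀ (s : Cocone F') (k : K), inr k ≫ s.ι.app k = inr b ≫ s.ι.app b := by
    intro s k
    obtain ⟨φ⟩ := hb k
    rw [← s.w φ, ← Category.assoc, hinr φ]
  have hs : ∀ s : Cocone F', (u b ≫ c.ι.app b) ≫ hc.desc (Cocone.mk s.pt
      { app := fun k => inl k ≫ s.ι.app k
        naturality := fun k l φ => by
          rw [← Category.assoc, hinl φ, Category.assoc, s.w φ]
          exact (Category.comp_id _).symm }) = x ≫ inr b ≫ s.ι.app b := by
    intro s
    rw [Category.assoc, hc.fac]
    change u b ≫ inl b ≫ s.ι.app b = _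
    rw [← Category.assoc, (hpush b).w, Category.assoc]
  refine ⟨{ desc := fun s => hp.desc _ _ (hs s), fac := ?_, uniq := ?_ }⟩
  · intro s k
    apply (hpush k).hom_ext
    · rw [← Category.assoc, ← hy k, Category.assoc, hp.inl_desc, hc.fac]
    · rw [← Category.assoc, hconst c' k, hp.inr_desc, hconst s k]
  · intro s m hm
    apply hp.hom_ext
    · rw [hp.inl_desc]
      apply hc.hom_ext
      intro k
      rw [hc.fac, ← Category.assoc, hy k, Category.assoc, hm k]
    · rw [hp.inr_desc, Category.assoc, hm b]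

/-- The morphisms all of whose pushouts are in `P`. -/
def pushoutCore (P : MorphismProperty C) : MorphismProperty C := fun X Y f =>
  ∀ (X' Y' : C) (x : X ⟶ X') (y : Y ⟶ Y') (f' : X' ⟶ Y'), IsPushout x f f' y → P f'

variable (P : MorphismProperty C)

lemma pushoutCore_le : pushoutCore P ≤ P := fun X Y f hf =>
  hf X Y (𝟙 X) (𝟙 Y) f (IsPushout.of_horiz_isIso ⟨by simp⟩)

instance : (pushoutCore P).IsStableUnderCobaseChange where
  of_isPushout := by
    intro A A' B B' f g f' g' sq hg X' Y' x y k hk
    exact hg _ _ _ _ _ (sq.paste_horiz hk)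

lemma le_pushoutCore {P Q : MorphismProperty C}
    [Q.IsStableUnderCobaseChange] (h : Q ≤ P) : Q ≤ pushoutCore P :=
  fun _ _ _ hf _ _ _ _ _ sq => h _ (MorphismProperty.of_isPushout sq hf)

section

variable [HasPushouts C] (J : Type w) [LinearOrder J] [SuccOrder J] [OrderBot J] [WellFoundedLT J]

variable {J} {X Y : C} {f : X ⟶ Y} (h : TransfiniteCompositionOfShape J f) {X' : C} (x : X ⟶ X')

/-- The map from the source to the stage `j`. -/
def tu (j : J) : X ⟶ h.F.obj j := h.isoBot.inv ≫ h.F.map (homOfLE bot_le)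

omit [HasPushouts C] in
lemma tu_map {j k : J} (φ : j ⟶ k) : tu h j ≫ h.F.map φ = tu h k := by
  unfold tu
  rw [Category.assoc, ← h.F.map_comp]
  rfl

omit [HasPushouts C] in
lemma tu_incl (j : J) : tu h j ≫ h.incl.app j = f := by
  unfold tu
  rw [Category.assoc, h.incl.naturality]
  simp

/-- The pushout of a stage. -/
noncomputable def tobj (j : J) : C := pushout x (tu h j)

/-- The left inclusion. -/
noncomputable def tinl (j : J) : X' ⟶ tobj h x j := pushout.inl _ _

/-- The right inclusion. -/
noncomputable def tinr (j : J) : h.F.obj j ⟶ tobj h x j := pushout.inr _ _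

lemma t_isPushout (j : J) : IsPushout x (tu h j) (tinl h x j) (tinr h x j) :=
  IsPushout.of_hasPushout _ _

/-- The transition maps. -/
noncomputable def tmap {j k : J} (φ : j ⟶ k) : tobj h x j ⟶ tobj h x k :=
  (t_isPushout h x j).desc (tinl h x k) (h.F.map φ ≫ tinr h x k) (by
    rw [← Category.assoc, tu_map, (t_isPushout h x k).w])

lemma tinl_map {j k : J} (φ : j ⟶ k) : tinl h x j ≫ tmap h x φ = tinl h x k :=
  (t_isPushout h x j).inl_desc _ _ _

lemma tinr_map {j k : J} (φ : j ⟶ k) : tinr h x j ≫ tmap h x φ = h.F.map φ ≫ tinr h x k :=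
  (t_isPushout h x j).inr_desc _ _ _

/-- The functor of the pushouts of the stages. -/
noncomputable def tF : J ⥤ C where
  obj j := tobj h x j
  map φ := tmap h x φ
  map_id j := by
    apply (t_isPushout h x j).hom_ext
    · rw [tinl_map, Category.comp_id]
    · rw [tinr_map, h.F.map_id, Category.comp_id, Category.id_comp]
  map_comp φ ψ := by
    apply (t_isPushout h x _).hom_ext
    · rw [tinl_map, ← Category.assoc, tinl_map, tinl_map]
    · rw [tinr_map, ← Category.assoc, tinr_map, Category.assoc, tinr_map, h.F.map_comp,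
        Category.assoc]

lemma tmap_isPushout {j k : J} (φ : j ⟶ k) :
    IsPushout (tinr h x j) (h.F.map φ) (tmap h x φ) (tinr h x k) := by
  refine IsPushout.of_top (h₁₁ := x) (v₁₁ := tu h j) (v₁₂ := tinl h x j) ?_ (tinr_map h x φ)
    (t_isPushout h x j)
  rw [tinl_map, tu_map]
  exact t_isPushout h x k

instance : IsIso (tu h ⊥) := by
  unfold tu
  have : (homOfLE bot_le : (⊥ : J) ⟶ ⊥) = 𝟙 _ := rfl
  rw [this, h.F.map_id, Category.comp_id]
  infer_instance

instance : IsIso (tinl h x ⊥) :=
  MorphismProperty.of_isPushout (P := isomorphisms C) (t_isPushout h x ⊥)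
    (inferInstanceAs (IsIso (tu h ⊥)))

/-- The maps from the pushouts of the stages. -/
noncomputable def tincl {Y' : C} {y : Y ⟶ Y'} {f' : X' ⟶ Y'} (sq : IsPushout x f f' y) (j : J) :
    tobj h x j ⟶ Y' :=
  (t_isPushout h x j).desc f' (h.incl.app j ≫ y) (by
    rw [← Category.assoc, tu_incl, sq.w])

lemma tinl_incl {Y' : C} {y : Y ⟶ Y'} {f' : X' ⟶ Y'} (sq : IsPushout x f f' y) (j : J) :
    tinl h x j ≫ tincl h x sq j = f' := (t_isPushout h x j).inl_desc _ _ _

lemma tinr_incl {Y' : C} {y : Y ⟶ Y'} {f' : X' ⟶ Y'} (sq : IsPushout x f f' y) (j : J) :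
    tinr h x j ≫ tincl h x sq j = h.incl.app j ≫ y := (t_isPushout h x j).inr_desc _ _ _

lemma tmap_incl {Y' : C} {y : Y ⟶ Y'} {f' : X' ⟶ Y'} (sq : IsPushout x f f' y) {j k : J}
    (φ : j ⟶ k) : tmap h x φ ≫ tincl h x sq k = tincl h x sq j := by
  apply (t_isPushout h x j).hom_ext
  · rw [← Category.assoc, tinl_map, tinl_incl, tinl_incl]
  · rw [← Category.assoc, tinr_map, Category.assoc, tinr_incl, tinr_incl, ← Category.assoc,
      h.incl.naturality]
    simp

/-- The pushout of a transfinite composition. -/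
noncomputable def pushTrans {Y' : C} {y : Y ⟶ Y'} {f' : X' ⟶ Y'} (sq : IsPushout x f f' y) :
    TransfiniteCompositionOfShape J f' where
  F := tF h x
  isoBot := (asIso (tinl h x ⊥)).symm
  isWellOrderContinuous :=
    { nonempty_isColimit := fun m hm => by
        have hbm : (⊥ : J) < m := Order.IsSuccLimit.bot_lt hm
        refine isColimit_pushout (K := Set.Iio m) ⟨⊥, hbm⟩ (fun k => ⟨homOfLE bot_le⟩)
          (F := (Set.principalSegIio m).monotone.functor ⋙ h.F)
          (F' := (Set.principalSegIio m).monotone.functor ⋙ tF h x) x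
          (fun k => tu h k.1) (fun φ => tu_map h _) (fun k => tinr h x k.1)
          (fun φ => (tinr_map h x _).symm) (fun k => tinl h x k.1)
          (fun φ => tinl_map h x _) (fun k => (t_isPushout h x k.1).flip)
          _ (h.F.isColimitOfIsWellOrderContinuous m hm) _ (tinr h x m)
          (fun k => (tinr_map h x _).symm) ?_
        have h1 := (t_isPushout h x m).flip
        have h2 : tu h m = tu h ⊥ ≫ h.F.map (homOfLE hbm.le) := (tu_map h _).symm
        have h3 : tinl h x m = tinl h x ⊥ ≫ tmap h x (homOfLE hbm.le) := (tinl_map h x _).symm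
        rw [h2, h3] at h1
        exact h1 }
  incl :=
    { app := fun j => tincl h x sq j
      naturality := fun j k φ => (tmap_incl h x sq φ).trans (Category.comp_id _).symm }
  isColimit := Nonempty.some (by
    refine isColimit_pushout (K := J) ⊥ (fun k => ⟨homOfLE bot_le⟩)
          (F := h.F) (F' := tF h x) x
          (fun k => tu h k) (fun φ => tu_map h _) (fun k => tinr h x k)
          (fun φ => (tinr_map h x _).symm) (fun k => tinl h x k)
          (fun φ => tinl_map h x _) (fun k => (t_isPushout h x k).flip)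
          _ h.isColimit _ y (fun k => (tinr_incl h x sq k).symm) ?_
    have h1 := sq.flip
    have h2 : f = tu h ⊥ ≫ h.incl.app ⊥ := (tu_incl h _).symm
    have h3 : f' = tinl h x ⊥ ≫ tincl h x sq ⊥ := (tinl_incl h x sq _).symm
    rw [h2] at h1
    rw [h3] at h1
    exact h1)
  fac := tinl_incl h x sq ⊥

end

/-- `pushoutCore P` is stable under transfinite compositions if `P` is. -/
lemma pushoutCore_transfinite [HasPushouts C] (J : Type w) [LinearOrder J] [SuccOrder J]
    [OrderBot J] [WellFoundedLT J] [P.IsStableUnderTransfiniteCompositionOfShape J] :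
    (pushoutCore P).IsStableUnderTransfiniteCompositionOfShape J where
  le X Y f := by
    rintro ⟨h⟩ X' Y' x y f' sq
    refine P.transfiniteCompositionsOfShape_le J f' ⟨⟨pushTrans h.toTransfiniteCompositionOfShape x
      sq, ?_⟩⟩
    intro j hj
    exact h.map_mem j hj _ _ _ _ _ (tmap_isPushout h.toTransfiniteCompositionOfShape x _)

instance [HasPushouts C] [IsStableUnderTransfiniteComposition.{w} P] :
    IsStableUnderTransfiniteComposition.{w} (pushoutCore P) where
  isStableUnderTransfiniteCompositionOfShape J _ _ _ _ := pushoutCore_transfinite P J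

end Vale.Agent.P213.Cell
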