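import Vale.Agent.Lib.P213.Free0

/-!
# P213: small colimits and limits in `NCat n`, and the left adjoint of the Street nerve
-/

open CategoryTheory Limits Opposite

namespace Vale.Agent.P213

namespace Colim

section

variable (n : ℕ∞) {J : Type} [SmallCategory J] (G : J ⥤ OmegaCat)

/-- The class of cocones on `G` with values in strict `n`-categories. -/
def CoconeClass (X : OmegaCat) (φ : (Σ j, (G.obj j).Cell) → X.Cell) : Prop :=
  OmegaCat.IsNCat n X ∧
  (∀ (j j' : J) (u : j ⟶ j') (x : (G.obj j).Cell), φ ⟨j', (G.map u).toFun x⟩ = φ ⟨j, x⟩) ∧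
  (∀ (j : J) (k : ℕ) (ε : Bool) (x : (G.obj j).Cell),
    φ ⟨j, (G.obj j).bd k ε x⟩ = X.bd k ε (φ ⟨j, x⟩)) ∧
  (∀ (j : J) (k : ℕ) (x y : (G.obj j).Cell), (G.obj j).bd k true x = (G.obj j).bd k false y →
    φ ⟨j, (G.obj j).comp k x y⟩ = X.comp k (φ ⟨j, x⟩) (φ ⟨j, y⟩))

lemma coconeClass_bound (a : Σ j, (G.obj j).Cell) : ∃ N : ℕ, ∀ (X : OmegaCat)
    (φ : (Σ j, (G.obj j).Cell) → X.Cell), CoconeClass n G X φ → X.bd N false (φ a) = φ a := by
  obtain ⟨j, x⟩ := a
  obtain ⟨N, hN⟩ := (G.obj j).finite_dim x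
  exact ⟨N, fun X φ h => by rw [← h.2.2.1, hN]⟩

/-- The colimit of `G` in strict `n`-categories. -/
noncomputable def nColim : OmegaCat := free (CoconeClass n G) (coconeClass_bound n G)

lemma nColim_isNCat : OmegaCat.IsNCat n (nColim n G) := by
  intro k hk x
  exact cells_ext (C := CoconeClass n G) fun X φ hφ => (ev_bd hφ k false x).trans (hφ.1 k hk _)

variable {G}

/-- The colimit cocone. -/
noncomputable def nι (j : J) : G.obj j ⟶ nColim n G where
  toFun x := (gen ⟨j, x⟩ : Cells (CoconeClass n G))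
  map_bd k ε x := cells_ext (C := CoconeClass n G) fun X φ hφ => by
    change _ = ev hφ (cbd k ε _)
    rw [ev_bd, ev_gen, ev_gen]
    exact hφ.2.2.1 j k ε x
  map_comp k x y hxy := cells_ext (C := CoconeClass n G) fun X φ hφ => by
    change _ = ev hφ (ccomp k _ _)
    rw [ev_comp, ev_gen, ev_gen, ev_gen]
    · exact hφ.2.2.2 j k x y hxy
    · exact cells_ext (C := CoconeClass n G) fun X φ hφ => by
        rw [ev_bd, ev_bd, ev_gen, ev_gen, ← hφ.2.2.1 j, ← hφ.2.2.1 j, hxy]

lemma nι_w {j j' : J} (u : j ⟶ j') : G.map u ≫ nι n j' = nι n j := by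
  apply OmegaCat.hom_ext
  intro x
  exact cells_ext (C := CoconeClass n G) fun X φ hφ => by
    rw [OmegaCat.comp_toFun]
    change ev hφ (gen ⟨j', (G.map u).toFun x⟩) = ev hφ (gen ⟨j, x⟩)
    rw [ev_gen, ev_gen]
    exact hφ.2.1 j j' u x

variable {n}

/-- The universal property. -/
noncomputable def nDesc {X : OmegaCat} (hX : OmegaCat.IsNCat n X) (f : ∀ j, G.obj j ⟶ X)
    (hf : ∀ (j j' : J) (u : j ⟶ j'), G.map u ≫ f j' = f j) : nColim n G ⟶ X :=
  freeLift (C := CoconeClass n G) (coconeClass_bound n G)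
    (φ := fun a => (f a.1).toFun a.2)
    ⟨hX, fun j j' u x => by
      dsimp only
      rw [← hf j j' u]
      rfl, fun j k ε x => (f j).map_bd k ε x, fun j k x y h => (f j).map_comp k x y h⟩

lemma nι_desc {X : OmegaCat} (hX : OmegaCat.IsNCat n X) (f : ∀ j, G.obj j ⟶ X)
    (hf : ∀ (j j' : J) (u : j ⟶ j'), G.map u ≫ f j' = f j) (j : J) :
    nι n j ≫ nDesc hX f hf = f j := rfl

lemma nColim_hom_ext {X : OmegaCat} {F H : nColim n G ⟶ X}
    (h : ∀ j, nι n j ≫ F = nι n j ≫ H) : F = H := by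
  apply free_hom_ext (coconeClass_bound n G)
  rintro ⟨j, x⟩
  exact congrArg (fun f : G.obj j ⟶ X => f.toFun x) (h j)

end

section

variable {n : ℕ∞}

/-- The colimit cocone in `NCat n`. -/
noncomputable def nCocone {J : Type} [SmallCategory J] (F : J ⥤ NCat n) : Cocone F where
  pt := ⟨nColim n (F ⋙ (OmegaCat.IsNCat n).ι), nColim_isNCat n _⟩
  ι :=
    { app := fun j => ObjectProperty.homMk (nι (G := F ⋙ (OmegaCat.IsNCat n).ι) n j)
      naturality := fun j j' u => by
        apply ObjectProperty.hom_ext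
        exact (nι_w (G := F ⋙ (OmegaCat.IsNCat n).ι) n u).trans (Category.comp_id _).symm }

/-- It is a colimit cocone. -/
noncomputable def nCoconeIsColimit {J : Type} [SmallCategory J] (F : J ⥤ NCat n) :
    IsColimit (nCocone F) where
  desc s := ObjectProperty.homMk (nDesc (G := F ⋙ (OmegaCat.IsNCat n).ι) s.pt.property
    (fun j => (s.ι.app j).hom) (fun j j' u => congrArg (fun f => f.hom) (s.w u)))
  fac s j := by
    apply ObjectProperty.hom_ext
    exact nι_desc (G := F ⋙ (OmegaCat.IsNCat n).ι) s.pt.property (fun j => (s.ι.app j).hom)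
      (fun j j' u => congrArg (fun f => f.hom) (s.w u)) j
  uniq s m hm := by
    apply ObjectProperty.hom_ext
    apply nColim_hom_ext (G := F ⋙ (OmegaCat.IsNCat n).ι)
    intro j
    exact (congrArg (fun f => f.hom) (hm j)).trans
      (nι_desc (G := F ⋙ (OmegaCat.IsNCat n).ι) s.pt.property (fun j => (s.ι.app j).hom)
      (fun j j' u => congrArg (fun f => f.hom) (s.w u)) j).symm

end

end Colim

instance hasColimits_nCat (n : ℕ∞) : HasColimitsOfSize.{0, 0} (NCat n) where
  has_colimits_of_shape _ _ := ⟨fun F => ⟨⟨_, Colim.nCoconeIsColimit F⟩⟩⟩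

end Vale.Agent.P213
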