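import Vale.Agent.Lib.P213.Colim0

/-!
# P213: the left adjoint of the Street nerve
-/

open CategoryTheory Limits Opposite

namespace Vale.Agent.P213

namespace Colim

variable (n : ℕ∞) (S : SSet.{0})

/-- The diagram of orientals indexed by the simplices of `S`. -/
noncomputable def simplexDiagram : S.Elementsᵒᵖ ⥤ OmegaCat :=
  (CategoryOfElements.π S).leftOp ⋙ orientalFunctor

/-- The left adjoint of the Street nerve, on objects. -/
noncomputable def cObj : NCat n := ⟨nColim n (simplexDiagram S), nColim_isNCat n _⟩

/-- The `n`-functor from an oriental associated to a simplex of `S`. -/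
noncomputable def cUnitApp (m : SimplexCategoryᵒᵖ) (s : S.obj m) :
    orientalFunctor.obj m.unop ⟶ (cObj n S).obj :=
  nι (G := simplexDiagram S) n (op (S.elementsMk m s))

lemma cUnitApp_nat {m m' : SimplexCategoryᵒᵖ} (φ : m ⟶ m') (s : S.obj m) :
    orientalFunctor.map φ.unop ≫ cUnitApp n S m s = cUnitApp n S m' (S.map φ s) :=
  nι_w (G := simplexDiagram S) n
    (Quiver.Hom.op (CategoryOfElements.homMk (S.elementsMk m s) (S.elementsMk m' (S.map φ s)) φ rfl))

/-- The unit. -/
noncomputable def cUnit : S ⟶ (streetNerve n).obj (cObj n S) where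
  app m := TypeCat.ofHom fun s => cUnitApp n S m s
  naturality m m' φ := by
    ext s
    exact (cUnitApp_nat n S φ s).symm

variable {n S}

lemma nerve_hom_nat {X : NCat n} (f : S ⟶ (streetNerve n).obj X) {m m' : SimplexCategoryᵒᵖ}
    (φ : m ⟶ m') (s : S.obj m) :
    orientalFunctor.map φ.unop ≫ (show orientalFunctor.obj m.unop ⟶ X.obj from f.app m s) =
      (show orientalFunctor.obj m'.unop ⟶ X.obj from f.app m' (S.map φ s)) :=
  (NatTrans.naturality_apply f φ s).symm

/-- The universal property of `cObj`. -/
noncomputable def cDesc {X : NCat n} (f : S ⟶ (streetNerve n).obj X) : cObj n S ⟶ X :=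
  ObjectProperty.homMk (nDesc (G := simplexDiagram S) X.property
    (fun j => (show orientalFunctor.obj j.unop.1.unop ⟶ X.obj from f.app j.unop.1 j.unop.2))
    (fun j j' u => by
      have := nerve_hom_nat f u.unop.1 j'.unop.2
      refine this.trans ?_
      rw [u.unop.2]))

lemma cUnit_desc {X : NCat n} (f : S ⟶ (streetNerve n).obj X) :
    cUnit n S ≫ (streetNerve n).map (cDesc f) = f := by
  ext m s
  rfl

lemma cDesc_uniq {X : NCat n} (g h : cObj n S ⟶ X)
    (w : cUnit n S ≫ (streetNerve n).map g = cUnit n S ≫ (streetNerve n).map h) : g = h := by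
  apply ObjectProperty.hom_ext
  apply nColim_hom_ext (G := simplexDiagram S)
  rintro ⟨m, s⟩
  exact congrArg (fun f : S ⟶ (streetNerve n).obj X => f.app m s) w

end Colim

instance streetNerve_isRightAdjoint (n : ℕ∞) : (streetNerve n).IsRightAdjoint := by
  rw [isRightAdjoint_iff_hasInitial_structuredArrow]
  intro S
  refine (IsInitial.ofUniqueHom (X := StructuredArrow.mk (Colim.cUnit n S))
    (fun Y => StructuredArrow.homMk (Colim.cDesc Y.hom) (Colim.cUnit_desc _)) ?_).hasInitial
  intro Y m
  apply StructuredArrow.ext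
  apply Colim.cDesc_uniq
  exact (StructuredArrow.w m).trans (Colim.cUnit_desc _).symm

end Vale.Agent.P213
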