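import Vale.Agent.Lib.P213.Defs

/-! # P213: the path object `Γ(Y)` (Gray cylinders in `Y`) -/

open CategoryTheory

namespace Vale.Agent.P213

namespace OmegaCat

variable {Y : OmegaCat}

lemma bd_lt_comp {j k : ℕ} (ε : Bool) {x y : Y.Cell} (hjk : j < k)
    (h : Y.bd k true x = Y.bd k false y) : Y.bd j ε (Y.comp k x y) = Y.bd j ε x := by
  rw [← Y.bd_bd_lt ε false (Y.comp k x y) hjk, Y.bd_source_comp h, Y.bd_bd_lt ε false x hjk]

lemma bd_lt_comp' {j k : ℕ} (ε : Bool) {x y : Y.Cell} (hjk : j < k)
    (h : Y.bd k true x = Y.bd k false y) : Y.bd j ε (Y.comp k x y) = Y.bd j ε y := by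
  rw [← Y.bd_bd_lt ε true (Y.comp k x y) hjk, Y.bd_target_comp h, Y.bd_bd_lt ε true y hjk]

lemma bd_of_dim {n m : ℕ} {x : Y.Cell} (h : Y.bd n false x = x) (hnm : n ≤ m) (ε : Bool) :
    Y.bd m ε x = x := by
  rw [← h, Y.bd_bd_ge ε false x hnm]

lemma comp_self_of_dim {n m : ℕ} {x : Y.Cell} (h : Y.bd n false x = x) (hnm : n ≤ m) :
    Y.comp m x x = x := by
  have := Y.comp_target m x
  rwa [bd_of_dim h hnm] at this

end OmegaCat

open OmegaCat

/-- Streams of cells. -/
abbrev CStream (Y : OmegaCat) : Type := ℕ → Bool → Y.Cell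

namespace CStream

variable {Y : OmegaCat}

def shift (u : CStream Y) : CStream Y := fun i => u (i + 1)

def cst (c : Y.Cell) : CStream Y := fun _ _ => c

def deg (m : ℕ) (c : Y.Cell) : CStream Y := fun i δ => Y.bd (m + i) δ c

def cw (j : ℕ) (u v : CStream Y) : CStream Y := fun i δ => Y.comp j (u i δ) (v i δ)

lemma shift_deg (m : ℕ) (c : Y.Cell) : shift (deg m c) = deg (m + 1) c := by
  funext i δ
  simp only [shift, deg]
  rw [show m + (i + 1) = m + 1 + i by omega]

lemma shift_cw (j : ℕ) (u v : CStream Y) : shift (cw j u v) = cw j (shift u) (shift v) := rfl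

lemma shift_cst (c : Y.Cell) : shift (cst c) = cst c := rfl

lemma cst_eq_deg {m : ℕ} {c : Y.Cell} (h : Y.bd m false c = c) : cst c = deg m c := by
  funext i δ
  simp only [cst, deg]
  rw [bd_of_dim h (by omega)]

/-- `u` is a level-`m` cylinder from `A` to `B`, up to depth `N`. -/
def IsCylN : ℕ → ℕ → Y.Cell → Y.Cell → CStream Y → Prop
  | 0, _, _, _, _ => True
  | N + 1, m, A, B, u =>
    (∀ j < m, ∀ ε, Y.bd j ε A = Y.bd j ε B) ∧
    (∀ ε, Y.bd m false (u 0 ε) = Y.bd m ε A ∧ Y.bd m true (u 0 ε) = Y.bd m ε B ∧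
      Y.bd (m + 1) false (u 0 ε) = u 0 ε) ∧
    IsCylN N (m + 1) (Y.comp m (u 0 false) B) (Y.comp m A (u 0 true)) (shift u)

/-- `u` is a level-`m` cylinder from `A` to `B`. -/
def IsCyl (m : ℕ) (A B : Y.Cell) (u : CStream Y) : Prop := ∀ N, IsCylN N m A B u

/-- Condition on the first stage. -/
structure Head (m : ℕ) (A B : Y.Cell) (u : CStream Y) : Prop where
  par : ∀ j < m, ∀ ε, Y.bd j ε A = Y.bd j ε B
  src : ∀ ε, Y.bd m false (u 0 ε) = Y.bd m ε A
  tgt : ∀ ε, Y.bd m true (u 0 ε) = Y.bd m ε B
  dim : ∀ ε, Y.bd (m + 1) false (u 0 ε) = u 0 ε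

lemma isCyl_iff {m : ℕ} {A B : Y.Cell} {u : CStream Y} :
    IsCyl m A B u ↔ Head m A B u ∧
      IsCyl (m + 1) (Y.comp m (u 0 false) B) (Y.comp m A (u 0 true)) (shift u) := by
  constructor
  · intro h
    have h1 := h 1
    refine ⟨⟨h1.1, fun ε => (h1.2.1 ε).1, fun ε => (h1.2.1 ε).2.1, fun ε => (h1.2.1 ε).2.2⟩, ?_⟩
    intro N
    exact (h (N + 1)).2.2
  · rintro ⟨h1, h2⟩ N
    cases N with
    | zero => trivial
    | succ N => exact ⟨h1.par, fun ε => ⟨h1.src ε, h1.tgt ε, h1.dim ε⟩, h2 N⟩

lemma IsCyl.head {m : ℕ} {A B : Y.Cell} {u : CStream Y} (h : IsCyl m A B u) : Head m A B u :=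
  (isCyl_iff.mp h).1

lemma IsCyl.tail {m : ℕ} {A B : Y.Cell} {u : CStream Y} (h : IsCyl m A B u) :
    IsCyl (m + 1) (Y.comp m (u 0 false) B) (Y.comp m A (u 0 true)) (shift u) :=
  (isCyl_iff.mp h).2

/-- Coinduction. -/
lemma IsCyl.coind (R : ℕ → Y.Cell → Y.Cell → CStream Y → Prop)
    (hR : ∀ m A B u, R m A B u → Head m A B u ∧
      R (m + 1) (Y.comp m (u 0 false) B) (Y.comp m A (u 0 true)) (shift u))
    {m : ℕ} {A B : Y.Cell} {u : CStream Y} (h : R m A B u) : IsCyl m A B u := by
  intro N
  induction N generalizing m A B u with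
  | zero => trivial
  | succ N ih =>
    obtain ⟨h1, h2⟩ := hR m A B u h
    exact ⟨h1.par, fun ε => ⟨h1.src ε, h1.tgt ε, h1.dim ε⟩, ih h2⟩

lemma Head.bd_src {m : ℕ} {A B : Y.Cell} {u : CStream Y} (h : Head m A B u) {j : ℕ} (hj : j < m)
    (ε δ : Bool) : Y.bd j ε (u 0 δ) = Y.bd j ε A := by
  rw [← Y.bd_bd_lt ε false _ hj, h.src δ, Y.bd_bd_lt _ _ _ hj]

lemma IsCyl.bd_lt {m : ℕ} {A B : Y.Cell} {u : CStream Y} (h : IsCyl m A B u) {j : ℕ} (hj : j < m)
    (ε : Bool) (i : ℕ) (δ : Bool) : Y.bd j ε (u i δ) = Y.bd j ε A := by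
  induction i generalizing m A B u with
  | zero => exact h.head.bd_src hj ε δ
  | succ i ih =>
    rw [show u (i + 1) δ = shift u i δ from rfl, ih h.tail (by omega),
      bd_lt_comp ε hj (h.head.tgt false), h.head.bd_src hj]

/-- the composability conditions at the level of a cylinder -/
lemma Head.comp_src {m : ℕ} {A B : Y.Cell} {u : CStream Y} (h : Head m A B u) :
    Y.bd m true (u 0 false) = Y.bd m false B := h.tgt false

lemma Head.comp_tgt {m : ℕ} {A B : Y.Cell} {u : CStream Y} (h : Head m A B u) :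
    Y.bd m true A = Y.bd m false (u 0 true) := (h.src true).symm

lemma isCyl_deg (m : ℕ) (c : Y.Cell) : IsCyl m c c (deg m c) := by
  refine IsCyl.coind (fun m A B u => A = B ∧ u = deg m A) ?_ ⟨rfl, rfl⟩
  rintro m A B u ⟨rfl, rfl⟩
  refine ⟨⟨fun _ _ _ => rfl, ?_, ?_, ?_⟩, ?_⟩
  · intro ε
    simp only [deg, add_zero]
    exact Y.bd_bd_ge _ _ _ le_rfl
  · intro ε
    simp only [deg, add_zero]
    exact Y.bd_bd_ge _ _ _ le_rfl
  · intro ε
    simp only [deg, add_zero]
    exact Y.bd_bd_ge _ _ _ (by omega)
  · have h1 : Y.comp m (deg m A 0 false) A = A := Y.source_comp m A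
    have h2 : Y.comp m A (deg m A 0 true) = A := Y.comp_target m A
    rw [h1, h2]
    exact ⟨rfl, shift_deg m A⟩

lemma isCyl_cst {m : ℕ} {c : Y.Cell} (h : Y.bd m false c = c) : IsCyl m c c (cst c) := by
  rw [cst_eq_deg h]
  exact isCyl_deg m c

lemma isCyl_cw {m j : ℕ} (hj : j < m) {A B C D : Y.Cell} {u v : CStream Y}
    (hu : IsCyl m A B u) (hv : IsCyl m C D v) (h : Y.bd j true A = Y.bd j false C) :
    IsCyl m (Y.comp j A C) (Y.comp j B D) (cw j u v) := by
  refine IsCyl.coind (fun m E F w => j < m ∧ ∃ A B C D u v, IsCyl m A B u ∧ IsCyl m C D v ∧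
    Y.bd j true A = Y.bd j false C ∧ E = Y.comp j A C ∧ F = Y.comp j B D ∧ w = cw j u v) ?_
    ⟨hj, A, B, C, D, u, v, hu, hv, h, rfl, rfl, rfl⟩
  rintro m E F w ⟨hj, A, B, C, D, u, v, hu, hv, h, rfl, rfl, rfl⟩
  have hBD : Y.bd j true B = Y.bd j false D := by
    rw [← hu.head.par j hj, ← hv.head.par j hj, h]
  have h0 : ∀ i δ δ', Y.bd j true (u i δ) = Y.bd j false (v i δ') := fun i δ δ' => by
    rw [hu.bd_lt hj, hv.bd_lt hj, h]
  refine ⟨⟨?_, ?_, ?_, ?_⟩, ?_⟩
  · intro i hi ε
    rcases lt_trichotomy i j with hij | hij | hij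
    · rw [bd_lt_comp ε hij h, bd_lt_comp ε hij hBD, hu.head.par i hi]
    · subst hij
      cases ε
      · rw [Y.bd_source_comp h, Y.bd_source_comp hBD, hu.head.par i hi]
      · rw [Y.bd_target_comp h, Y.bd_target_comp hBD, hv.head.par i hi]
    · rw [Y.bd_comp ε hij h, Y.bd_comp ε hij hBD, hu.head.par i hi, hv.head.par i hi]
  · intro ε
    simp only [cw]
    rw [Y.bd_comp _ hj (h0 0 ε ε), Y.bd_comp _ hj h, hu.head.src, hv.head.src]
  · intro ε
    simp only [cw]
    rw [Y.bd_comp _ hj (h0 0 ε ε), Y.bd_comp _ hj hBD, hu.head.tgt, hv.head.tgt]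
  · intro ε
    simp only [cw]
    rw [Y.bd_comp _ (by omega) (h0 0 ε ε), hu.head.dim, hv.head.dim]
  · refine ⟨by omega, _, _, _, _, _, _, hu.tail, hv.tail, ?_, ?_, ?_, rfl⟩
    · rw [bd_lt_comp _ hj hu.head.comp_src, bd_lt_comp _ hj hv.head.comp_src]
      exact h0 0 _ _
    · simp only [cw]
      exact (Y.interchange hj hu.head.comp_src hv.head.comp_src (h0 0 _ _) hBD).symm
    · simp only [cw]
      exact (Y.interchange hj hu.head.comp_tgt hv.head.comp_tgt h (h0 0 _ _)).symm

/-- Concatenation of level-`m` cylinders. -/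
def concatAux : ℕ → ℕ → CStream Y → CStream Y → Bool → Y.Cell
  | 0, m, u, v => fun δ => Y.comp m (u 0 δ) (v 0 δ)
  | i + 1, m, u, v => concatAux i (m + 1) (cw m (cst (u 0 false)) (shift v))
        (cw m (shift u) (cst (v 0 true)))

/-- Concatenation of level-`m` cylinders. -/
def concat (m : ℕ) (u v : CStream Y) : CStream Y := fun i => concatAux i m u v

lemma concat_zero (m : ℕ) (u v : CStream Y) (δ : Bool) :
    concat m u v 0 δ = Y.comp m (u 0 δ) (v 0 δ) := rfl

lemma shift_concat (m : ℕ) (u v : CStream Y) : shift (concat m u v) =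
    concat (m + 1) (cw m (cst (u 0 false)) (shift v)) (cw m (shift u) (cst (v 0 true))) := rfl

lemma concat_succ (m : ℕ) (u v : CStream Y) (i : ℕ) : concat m u v (i + 1) =
    concat (m + 1) (cw m (cst (u 0 false)) (shift v)) (cw m (shift u) (cst (v 0 true))) i := rfl

/-- Composability at the heads of two concatenable cylinders. -/
lemma Head.cc {m : ℕ} {A B C : Y.Cell} {u v : CStream Y} (hu : Head m A B u) (hv : Head m B C v)
    (δ : Bool) : Y.bd m true (u 0 δ) = Y.bd m false (v 0 δ) := by
  rw [hu.tgt, hv.src]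

/-- The left whiskered tail in a concatenation. -/
lemma isCyl_whL {m : ℕ} {A B C : Y.Cell} {u v : CStream Y} (hu : IsCyl m A B u)
    (hv : IsCyl m B C v) :
    IsCyl (m + 1) (Y.comp m (Y.comp m (u 0 false) (v 0 false)) C)
      (Y.comp m (u 0 false) (Y.comp m B (v 0 true))) (cw m (cst (u 0 false)) (shift v)) := by
  rw [Y.comp_assoc (hu.head.cc hv.head false) hv.head.comp_src]
  refine isCyl_cw (by omega) (isCyl_cst (hu.head.dim false)) hv.tail ?_
  rw [Y.bd_source_comp hv.head.comp_src]
  exact hu.head.cc hv.head false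

/-- The right whiskered tail in a concatenation. -/
lemma isCyl_whR {m : ℕ} {A B C : Y.Cell} {u v : CStream Y} (hu : IsCyl m A B u)
    (hv : IsCyl m B C v) :
    IsCyl (m + 1) (Y.comp m (u 0 false) (Y.comp m B (v 0 true)))
      (Y.comp m A (Y.comp m (u 0 true) (v 0 true))) (cw m (shift u) (cst (v 0 true))) := by
  rw [← Y.comp_assoc hu.head.comp_tgt (hu.head.cc hv.head true),
    ← Y.comp_assoc hu.head.comp_src hv.head.comp_tgt]
  refine isCyl_cw (by omega) hu.tail (isCyl_cst (hv.head.dim true)) ?_
  rw [Y.bd_target_comp hu.head.comp_src]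
  exact hv.head.comp_tgt

lemma isCyl_concat {m : ℕ} {A B C : Y.Cell} {u v : CStream Y} (hu : IsCyl m A B u)
    (hv : IsCyl m B C v) : IsCyl m A C (concat m u v) := by
  refine IsCyl.coind (fun m A C w => ∃ B u v, IsCyl m A B u ∧ IsCyl m B C v ∧
    w = concat m u v) ?_ ⟨B, u, v, hu, hv, rfl⟩
  rintro m A C w ⟨B, u, v, hu, hv, rfl⟩
  refine ⟨⟨?_, ?_, ?_, ?_⟩, ?_⟩
  · intro j hj ε
    rw [hu.head.par j hj, hv.head.par j hj]
  · intro ε
    rw [concat_zero, Y.bd_source_comp (hu.head.cc hv.head ε), hu.head.src]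
  · intro ε
    rw [concat_zero, Y.bd_target_comp (hu.head.cc hv.head ε), hv.head.tgt]
  · intro ε
    rw [concat_zero, Y.bd_comp _ (by omega) (hu.head.cc hv.head ε), hu.head.dim, hv.head.dim]
  · exact ⟨_, _, _, isCyl_whL hu hv, isCyl_whR hu hv, rfl⟩

/-- (L2) the componentwise operations distribute over concatenation. -/
lemma cw_concat {m j : ℕ} (hj : j < m) {A B C A' B' C' : Y.Cell} {u v u' v' : CStream Y}
    (hu : IsCyl m A B u) (hv : IsCyl m B C v) (hu' : IsCyl m A' B' u') (hv' : IsCyl m B' C' v')
    (h : Y.bd j true A = Y.bd j false A') :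
    cw j (concat m u v) (concat m u' v') = concat m (cw j u u') (cw j v v') := by
  funext i
  induction i generalizing m A B C A' B' C' u v u' v' with
  | zero =>
    funext δ
    have hB : Y.bd j true B = Y.bd j false B' := by
      rw [← hu.head.par j hj, ← hu'.head.par j hj, h]
    simp only [cw, concat_zero]
    refine Y.interchange hj (hu.head.cc hv.head δ) (hu'.head.cc hv'.head δ) ?_ ?_
    · rw [hu.bd_lt hj, hu'.bd_lt hj, h]
    · rw [hv.bd_lt hj, hv'.bd_lt hj, hB]
  | succ i ih =>
    have hB : Y.bd j true B = Y.bd j false B' := by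
      rw [← hu.head.par j hj, ← hu'.head.par j hj, h]
    have e1 : cw j (concat m u v) (concat m u' v') (i + 1) =
        cw j (concat (m + 1) (cw m (cst (u 0 false)) (shift v)) (cw m (shift u) (cst (v 0 true))))
        (concat (m + 1) (cw m (cst (u' 0 false)) (shift v'))
          (cw m (shift u') (cst (v' 0 true)))) i := rfl
    have hb : ∀ {A B C : Y.Cell} {u v : CStream Y}, IsCyl m A B u → IsCyl m B C v → ∀ ε,
        Y.bd j ε (Y.comp m (Y.comp m (u 0 false) (v 0 false)) C) = Y.bd j ε A := by
      intro A B C u v hu hv ε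
      rw [bd_lt_comp _ hj (by
          rw [Y.bd_target_comp (hu.head.cc hv.head false)]; exact hv.head.comp_src),
          bd_lt_comp _ hj (hu.head.cc hv.head false), hu.bd_lt hj]
    rw [e1, ih (by omega) (isCyl_whL hu hv) (isCyl_whR hu hv) (isCyl_whL hu' hv')
      (isCyl_whR hu' hv') (by rw [hb hu hv, hb hu' hv', h]), concat_succ]
    have eP : cw j (cw m (cst (u 0 false)) (shift v)) (cw m (cst (u' 0 false)) (shift v')) =
        cw m (cst (cw j u u' 0 false)) (shift (cw j v v')) := by
      funext i δ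
      simp only [cw, cst, shift]
      refine (Y.interchange hj ?_ ?_ ?_ ?_)
      · have := hv.tail.bd_lt (j := m) (by omega) false i δ
        rw [show v (i + 1) δ = shift v i δ from rfl, this, Y.bd_source_comp hv.head.comp_src]
        exact hu.head.cc hv.head false
      · have := hv'.tail.bd_lt (j := m) (by omega) false i δ
        rw [show v' (i + 1) δ = shift v' i δ from rfl, this, Y.bd_source_comp hv'.head.comp_src]
        exact hu'.head.cc hv'.head false
      · rw [hu.bd_lt hj, hu'.bd_lt hj, h]
      · rw [hv.bd_lt hj, hv'.bd_lt hj, hB]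
    have eQ : cw j (cw m (shift u) (cst (v 0 true))) (cw m (shift u') (cst (v' 0 true))) =
        cw m (shift (cw j u u')) (cst (cw j v v' 0 true)) := by
      funext i δ
      simp only [cw, cst, shift]
      refine (Y.interchange hj ?_ ?_ ?_ ?_)
      · have := hu.tail.bd_lt (j := m) (by omega) true i δ
        rw [show u (i + 1) δ = shift u i δ from rfl, this, Y.bd_target_comp hu.head.comp_src]
        exact hv.head.comp_tgt
      · have := hu'.tail.bd_lt (j := m) (by omega) true i δ
        rw [show u' (i + 1) δ = shift u' i δ from rfl, this, Y.bd_target_comp hu'.head.comp_src]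
        exact hv'.head.comp_tgt
      · rw [hu.bd_lt hj, hu'.bd_lt hj, h]
      · rw [hv.bd_lt hj, hv'.bd_lt hj, hB]
    rw [eP, eQ]

lemma concat_deg (m : ℕ) (c : Y.Cell) : concat m (deg m c) (deg m c) = deg m c := by
  funext i
  induction i generalizing m with
  | zero =>
    funext δ
    simp only [concat_zero, deg, add_zero]
    exact comp_self_of_dim (n := m) (Y.bd_bd_ge _ _ _ le_rfl) le_rfl
  | succ i ih =>
    have e1 : cw m (cst (deg m c 0 false)) (shift (deg m c)) = deg (m + 1) c := by
      funext i δ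
      simp only [cw, cst, shift, deg]
      rw [show m + (i + 1) = m + 1 + i by omega, add_zero]
      have := Y.source_comp m (Y.bd (m + 1 + i) δ c)
      rwa [Y.bd_bd_lt _ _ _ (by omega)] at this
    have e2 : cw m (shift (deg m c)) (cst (deg m c 0 true)) = deg (m + 1) c := by
      funext i δ
      simp only [cw, cst, shift, deg]
      rw [show m + (i + 1) = m + 1 + i by omega, add_zero]
      have := Y.comp_target m (Y.bd (m + 1 + i) δ c)
      rwa [Y.bd_bd_lt _ _ _ (by omega)] at this
    rw [concat_succ, e1, e2, ih, ← shift_deg]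
    rfl

lemma concat_cst {m : ℕ} {c : Y.Cell} (h : Y.bd m false c = c) :
    concat m (cst c) (cst c) = cst c := by
  rw [cst_eq_deg h, concat_deg]

/-- Componentwise associativity. -/
lemma cw_assoc {m j : ℕ} (hj : j < m) {A B C D E F : Y.Cell} {u v w : CStream Y}
    (hu : IsCyl m A B u) (hv : IsCyl m C D v) (hw : IsCyl m E F w)
    (h : Y.bd j true A = Y.bd j false C) (h' : Y.bd j true C = Y.bd j false E) :
    cw j (cw j u v) w = cw j u (cw j v w) := by
  funext i δ
  simp only [cw]
  refine Y.comp_assoc ?_ ?_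
  · rw [hu.bd_lt hj, hv.bd_lt hj, h]
  · rw [hv.bd_lt hj, hw.bd_lt hj, h']

/-- (L1) associativity of concatenation. -/
lemma concat_assoc {m : ℕ} {A B C D : Y.Cell} {u v w : CStream Y}
    (hu : IsCyl m A B u) (hv : IsCyl m B C v) (hw : IsCyl m C D w) :
    concat m (concat m u v) w = concat m u (concat m v w) := by
  funext i
  induction i generalizing m A B C D u v w with
  | zero =>
    funext δ
    simp only [concat_zero]
    exact Y.comp_assoc (hu.head.cc hv.head δ) (hv.head.cc hw.head δ)
  | succ i ih =>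
    have huv := hu.head.cc hv.head
    have hvw := hv.head.cc hw.head
    have du := isCyl_cst (hu.head.dim false)
    have dw := isCyl_cst (hw.head.dim true)
    rw [concat_succ, concat_succ, shift_concat, shift_concat]
    -- whiskering distributes
    have e1 : cw m (concat (m + 1) (cw m (cst (u 0 false)) (shift v))
        (cw m (shift u) (cst (v 0 true)))) (cst (w 0 true)) =
        concat (m + 1) (cw m (cw m (cst (u 0 false)) (shift v)) (cst (w 0 true)))
        (cw m (cw m (shift u) (cst (v 0 true))) (cst (w 0 true))) := by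
      have := cw_concat (j := m) (by omega) (isCyl_whL hu hv) (isCyl_whR hu hv) dw dw (by
        rw [Y.bd_target_comp (by
          rw [Y.bd_target_comp (huv false)]; exact hv.head.comp_src)]
        exact hw.head.comp_tgt)
      rwa [concat_cst (hw.head.dim true)] at this
    have e2 : cw m (cst (u 0 false)) (concat (m + 1) (cw m (cst (v 0 false)) (shift w))
        (cw m (shift v) (cst (w 0 true)))) =
        concat (m + 1) (cw m (cst (u 0 false)) (cw m (cst (v 0 false)) (shift w)))
        (cw m (cst (u 0 false)) (cw m (shift v) (cst (w 0 true)))) := by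
      have := cw_concat (j := m) (by omega) du du (isCyl_whL hv hw) (isCyl_whR hv hw) (by
        rw [Y.bd_source_comp (by
          rw [Y.bd_target_comp (hvw false)]; exact hw.head.comp_src),
          Y.bd_source_comp (hvw false)]
        exact huv false)
      rwa [concat_cst (hu.head.dim false)] at this
    have du1 : Y.bd m true (u 0 false) = Y.bd m false
        (Y.comp m (Y.comp m (v 0 false) (w 0 false)) D) := by
      rw [Y.bd_source_comp (by rw [Y.bd_target_comp (hvw false)]; exact hw.head.comp_src),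
          Y.bd_source_comp (hvw false)]
      exact huv false
    have du2 : Y.bd m true (u 0 false) = Y.bd m false
        (Y.comp m (v 0 false) (Y.comp m C (w 0 true))) := by
      rw [Y.bd_source_comp (by rw [Y.bd_source_comp hw.head.comp_tgt]; exact hv.head.comp_src)]
      exact huv false
    have r1 : cw m (cst (concat m u v 0 false)) (shift w) =
        cw m (cst (u 0 false)) (cw m (cst (v 0 false)) (shift w)) := by
      refine cw_assoc (m := m + 1) (by omega) du (isCyl_cst (hv.head.dim false)) hw.tail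
        (huv false) ?_
      rw [Y.bd_source_comp hw.head.comp_src]
      exact hvw false
    have r2 : cw m (cw m (cst (u 0 false)) (shift v)) (cst (w 0 true)) =
        cw m (cst (u 0 false)) (cw m (shift v) (cst (w 0 true))) := by
      refine cw_assoc (m := m + 1) (by omega) du hv.tail dw ?_ ?_
      · rw [Y.bd_source_comp hv.head.comp_src]
        exact huv false
      · rw [Y.bd_target_comp hv.head.comp_src]
        exact hw.head.comp_tgt
    have r3 : cw m (cw m (shift u) (cst (v 0 true))) (cst (w 0 true)) =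
        cw m (shift u) (cst (concat m v w 0 true)) := by
      refine cw_assoc (m := m + 1) (by omega) hu.tail (isCyl_cst (hv.head.dim true)) dw ?_
        (hvw true)
      rw [Y.bd_target_comp hu.head.comp_src]
      exact hv.head.comp_tgt
    rw [e1, e2, r1, r2, r3]
    exact (ih (isCyl_cw (by omega) du (isCyl_whL hv hw) du1)
      (isCyl_cw (by omega) du (isCyl_whR hv hw) du2) (isCyl_whR hu (isCyl_concat hv hw))).symm

/-- (L1') units for concatenation. -/
lemma concat_unit {m : ℕ} {A B : Y.Cell} {u : CStream Y} (hu : IsCyl m A B u) :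
    concat m (deg m A) u = u ∧ concat m u (deg m B) = u := by
  suffices h : ∀ i, ∀ {m : ℕ} {A B : Y.Cell} {u : CStream Y}, IsCyl m A B u →
      concat m (deg m A) u i = u i ∧ concat m u (deg m B) i = u i from
    ⟨funext fun i => (h i hu).1, funext fun i => (h i hu).2⟩
  intro i
  induction i with
  | zero =>
    intro m A B u hu
    constructor
    · funext δ
      simp only [concat_zero, deg, add_zero]
      have := Y.source_comp m (u 0 δ)
      rwa [hu.head.src] at this
    · funext δ
      simp only [concat_zero, deg, add_zero]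
      have := Y.comp_target m (u 0 δ)
      rwa [hu.head.tgt] at this
  | succ i ih =>
    intro m A B u hu
    constructor
    · rw [concat_succ]
      have e1 : cw m (cst (deg m A 0 false)) (shift u) = shift u := by
        funext i δ
        simp only [cw, cst, deg, add_zero]
        have := Y.source_comp m (shift u i δ)
        rwa [hu.tail.bd_lt (by omega), Y.bd_source_comp hu.head.comp_src, hu.head.src] at this
      have e2 : cw m (shift (deg m A)) (cst (u 0 true)) = deg (m + 1) (Y.comp m A (u 0 true)) := by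
        rw [shift_deg]
        funext i δ
        simp only [cw, cst, deg]
        rw [Y.bd_comp δ (by omega) hu.head.comp_tgt,
          bd_of_dim (hu.head.dim true) (by omega) (m := m + 1 + i)]
      rw [e1, e2, (ih hu.tail).2]
      rfl
    · rw [concat_succ]
      have e1 : cw m (cst (u 0 false)) (shift (deg m B)) = deg (m + 1) (Y.comp m (u 0 false) B) := by
        rw [shift_deg]
        funext i δ
        simp only [cw, cst, deg]
        rw [Y.bd_comp δ (by omega) hu.head.comp_src,
          bd_of_dim (hu.head.dim false) (by omega) (m := m + 1 + i)]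
      have e2 : cw m (shift u) (cst (deg m B 0 true)) = shift u := by
        funext i δ
        simp only [cw, cst, deg, add_zero]
        have := Y.comp_target m (shift u i δ)
        rwa [hu.tail.bd_lt (by omega), Y.bd_target_comp hu.head.comp_src] at this
      rw [e1, e2, (ih hu.tail).1]
      rfl

/-- The composition `*_n`, `n = m + d`, of two level-`m` cylinders `u : A → B`, `v : C → D`. -/
def hc : ℕ → ℕ → Y.Cell → Y.Cell → Y.Cell → Y.Cell → CStream Y → CStream Y → CStream Y
  | 0, m, A, _, _, D, u, v => fun i => match i with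
    | 0 => fun δ => if δ then v 0 true else u 0 false
    | i + 1 => concat (m + 1) (cw m (shift u) (deg (m + 1) D)) (cw m (deg (m + 1) A) (shift v)) i
  | d + 1, m, A, B, C, D, u, v => fun i => match i with
    | 0 => fun δ => u 0 δ
    | i + 1 => hc d (m + 1) (Y.comp m (u 0 false) B) (Y.comp m A (u 0 true))
        (Y.comp m (v 0 false) D) (Y.comp m C (v 0 true)) (shift u) (shift v) i

/-- Composability of two level-`m` cylinders in dimension `n = m + d`. -/
structure Composable (d n : ℕ) (A B C D : Y.Cell) (u v : CStream Y) : Prop where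
  src : Y.bd n true A = Y.bd n false C
  tgt : Y.bd n true B = Y.bd n false D
  lt : ∀ i < d, ∀ δ, u i δ = v i δ
  eq : u d true = v d false

lemma stream_ext {u v : CStream Y} (h0 : ∀ δ, u 0 δ = v 0 δ) (h : shift u = shift v) : u = v := by
  funext i δ
  cases i with
  | zero => exact h0 δ
  | succ i => exact congrFun (congrFun h i) δ

lemma shift_hc_zero (m : ℕ) (A B C D : Y.Cell) (u v : CStream Y) : shift (hc 0 m A B C D u v) =
    concat (m + 1) (cw m (shift u) (deg (m + 1) D)) (cw m (deg (m + 1) A) (shift v)) := rfl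

lemma shift_hc_succ (d m : ℕ) (A B C D : Y.Cell) (u v : CStream Y) :
    shift (hc (d + 1) m A B C D u v) =
    hc d (m + 1) (Y.comp m (u 0 false) B) (Y.comp m A (u 0 true))
        (Y.comp m (v 0 false) D) (Y.comp m C (v 0 true)) (shift u) (shift v) := rfl

lemma hc_zero_false (m : ℕ) (A B C D : Y.Cell) (u v : CStream Y) :
    hc 0 m A B C D u v 0 false = u 0 false := rfl

lemma hc_zero_true (m : ℕ) (A B C D : Y.Cell) (u v : CStream Y) :
    hc 0 m A B C D u v 0 true = v 0 true := rfl

lemma hc_succ_zero (d m : ℕ) (A B C D : Y.Cell) (u v : CStream Y) (δ : Bool) :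
    hc (d + 1) m A B C D u v 0 δ = u 0 δ := rfl

lemma Composable.bd_lt {d n : ℕ} {A B C D : Y.Cell} {u v : CStream Y}
    (h : Composable d n A B C D u v) {j : ℕ} (hj : j < n) (ε : Bool) :
    Y.bd j ε A = Y.bd j ε C := by
  rw [← Y.bd_bd_lt ε true A hj, h.src, Y.bd_bd_lt _ _ _ hj]

lemma Composable.bd_lt' {d n : ℕ} {A B C D : Y.Cell} {u v : CStream Y}
    (h : Composable d n A B C D u v) {j : ℕ} (hj : j < n) (ε : Bool) :
    Y.bd j ε B = Y.bd j ε D := by
  rw [← Y.bd_bd_lt ε true B hj, h.tgt, Y.bd_bd_lt _ _ _ hj]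

lemma Composable.tail {d m n : ℕ} (hn : m + (d + 1) = n) {A B C D : Y.Cell} {u v : CStream Y}
    (hu : IsCyl m A B u) (hv : IsCyl m C D v) (h : Composable (d + 1) n A B C D u v) :
    Composable d n (Y.comp m (u 0 false) B) (Y.comp m A (u 0 true))
        (Y.comp m (v 0 false) D) (Y.comp m C (v 0 true)) (shift u) (shift v) where
  src := by
    rw [Y.bd_comp _ (by omega) hu.head.comp_src, Y.bd_comp _ (by omega) hv.head.comp_src,
      bd_of_dim (hu.head.dim false) (by omega), bd_of_dim (hv.head.dim false) (by omega),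
      h.lt 0 (by omega), h.tgt]
  tgt := by
    rw [Y.bd_comp _ (by omega) hu.head.comp_tgt, Y.bd_comp _ (by omega) hv.head.comp_tgt,
      bd_of_dim (hu.head.dim true) (by omega), bd_of_dim (hv.head.dim true) (by omega),
      h.lt 0 (by omega), h.src]
  lt := fun i hi δ => h.lt (i + 1) (by omega) δ
  eq := h.eq

/-- the left half of the tail of `hc` at its own level -/
lemma isCyl_hcL {m : ℕ} {A B C D : Y.Cell} {u v : CStream Y} (hu : IsCyl m A B u)
    (h : Composable 0 m A B C D u v) :
    IsCyl (m + 1) (Y.comp m (u 0 false) (Y.comp m B D)) (Y.comp m (Y.comp m A (u 0 true)) D)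
      (cw m (shift u) (deg (m + 1) D)) := by
  rw [← Y.comp_assoc hu.head.comp_src h.tgt]
  refine isCyl_cw (by omega) hu.tail (isCyl_deg _ _) ?_
  rw [Y.bd_target_comp hu.head.comp_src]
  exact h.tgt

lemma isCyl_hcR {m : ℕ} {A B C D : Y.Cell} {u v : CStream Y} (hu : IsCyl m A B u)
    (hv : IsCyl m C D v) (h : Composable 0 m A B C D u v) :
    IsCyl (m + 1) (Y.comp m (Y.comp m A (u 0 true)) D) (Y.comp m (Y.comp m A C) (v 0 true))
      (cw m (deg (m + 1) A) (shift v)) := by
  have e : u 0 true = v 0 false := h.eq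
  have h1 : Y.bd m true (u 0 true) = Y.bd m false D := by rw [hu.head.tgt, h.tgt]
  rw [Y.comp_assoc hu.head.comp_tgt h1, Y.comp_assoc h.src hv.head.comp_tgt, e]
  refine isCyl_cw (by omega) (isCyl_deg _ _) hv.tail ?_
  rw [Y.bd_source_comp hv.head.comp_src, hv.head.src]
  exact h.src

lemma isCyl_hc {d m n : ℕ} (hn : m + d = n) {A B C D : Y.Cell} {u v : CStream Y}
    (hu : IsCyl m A B u) (hv : IsCyl m C D v) (h : Composable d n A B C D u v) :
    IsCyl m (Y.comp n A C) (Y.comp n B D) (hc d m A B C D u v) := by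
  induction d generalizing m A B C D u v with
  | zero =>
    obtain rfl : m = n := by omega
    refine isCyl_iff.mpr ⟨⟨?_, ?_, ?_, ?_⟩, ?_⟩
    · intro j hj ε
      rw [bd_lt_comp _ hj h.src, bd_lt_comp _ hj h.tgt, hu.head.par j hj]
    · intro ε
      cases ε
      · rw [hc_zero_false, Y.bd_source_comp h.src, hu.head.src]
      · rw [hc_zero_true, Y.bd_target_comp h.src, hv.head.src]
    · intro ε
      cases ε
      · rw [hc_zero_false, Y.bd_source_comp h.tgt, hu.head.tgt]
      · rw [hc_zero_true, Y.bd_target_comp h.tgt, hv.head.tgt]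
    · intro ε
      cases ε
      · rw [hc_zero_false, hu.head.dim]
      · rw [hc_zero_true, hv.head.dim]
    · rw [shift_hc_zero, hc_zero_false, hc_zero_true]
      exact isCyl_concat (isCyl_hcL hu h) (isCyl_hcR hu hv h)
  | succ d ih =>
    have hmn : m < n := by omega
    refine isCyl_iff.mpr ⟨⟨?_, ?_, ?_, ?_⟩, ?_⟩
    · intro j hj ε
      rw [bd_lt_comp _ (by omega) h.src, bd_lt_comp _ (by omega) h.tgt, hu.head.par j hj]
    · intro ε
      rw [hc_succ_zero, bd_lt_comp _ (by omega) h.src, hu.head.src]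
    · intro ε
      rw [hc_succ_zero, bd_lt_comp _ (by omega) h.tgt, hu.head.tgt]
    · intro ε
      rw [hc_succ_zero, hu.head.dim]
    · rw [shift_hc_succ, hc_succ_zero, hc_succ_zero]
      have := ih (m := m + 1) (by omega) hu.tail hv.tail (h.tail hn hu hv)
      have e1 : Y.comp n (Y.comp m (u 0 false) B) (Y.comp m (v 0 false) D) =
          Y.comp m (u 0 false) (Y.comp n B D) := by
        rw [← h.lt 0 (by omega)]
        have := Y.interchange (j := m) (k := n) (x := u 0 false) (y := u 0 false) (x' := B)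
          (y' := D) hmn ?_ h.tgt hu.head.comp_src ?_
        · rw [← this, comp_self_of_dim (hu.head.dim false) (by omega)]
        · rw [bd_of_dim (hu.head.dim false) (by omega), bd_of_dim (hu.head.dim false) (by omega)]
        · rw [h.lt 0 (by omega)]
          exact hv.head.comp_src
      have e2 : Y.comp n (Y.comp m A (u 0 true)) (Y.comp m C (v 0 true)) =
          Y.comp m (Y.comp n A C) (u 0 true) := by
        rw [← h.lt 0 (by omega)]
        have := Y.interchange (j := m) (k := n) (x := A) (y := C) (x' := u 0 true)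
          (y' := u 0 true) hmn h.src ?_ hu.head.comp_tgt ?_
        · rw [← this, comp_self_of_dim (hu.head.dim true) (by omega)]
        · rw [bd_of_dim (hu.head.dim true) (by omega), bd_of_dim (hu.head.dim true) (by omega)]
        · rw [h.lt 0 (by omega)]
          exact hv.head.comp_tgt
      rwa [e1, e2] at this

/-! ### Distributivity of the componentwise operations over `hc` -/

lemma cw_deg {m j : ℕ} (hj : j < m) {x y : Y.Cell} (h : Y.bd j true x = Y.bd j false y) :
    cw j (deg m x) (deg m y) = deg m (Y.comp j x y) := by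
  funext i δ
  simp only [cw, deg]
  rw [Y.bd_comp _ (by omega) h]

lemma cw_interchange {m j k : ℕ} (hjk : j < k) (hk : k < m)
    {A B C D A' B' C' D' : Y.Cell} {u v u' v' : CStream Y}
    (hu : IsCyl m A B u) (hv : IsCyl m C D v) (hu' : IsCyl m A' B' u') (hv' : IsCyl m C' D' v')
    (h : Y.bd k true A = Y.bd k false C) (h' : Y.bd k true A' = Y.bd k false C')
    (g : Y.bd j true A = Y.bd j false A') (g' : Y.bd j true C = Y.bd j false C') :
    cw j (cw k u v) (cw k u' v') = cw k (cw j u u') (cw j v v') := by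
  funext i δ
  simp only [cw]
  refine Y.interchange hjk ?_ ?_ ?_ ?_
  · rw [hu.bd_lt hk, hv.bd_lt hk, h]
  · rw [hu'.bd_lt hk, hv'.bd_lt hk, h']
  · rw [hu.bd_lt (by omega), hu'.bd_lt (by omega), g]
  · rw [hv.bd_lt (by omega), hv'.bd_lt (by omega), g']

lemma hc_deg {d m n : ℕ} (hn : m + d = n) {x y : Y.Cell} (h : Y.bd n true x = Y.bd n false y) :
    hc d m x x y y (deg m x) (deg m y) = deg m (Y.comp n x y) := by
  induction d generalizing m with
  | zero =>
    obtain rfl : m = n := by omega
    refine stream_ext ?_ ?_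
    · intro δ
      cases δ
      · rw [hc_zero_false]
        simp only [deg, add_zero]
        rw [Y.bd_source_comp h]
      · rw [hc_zero_true]
        simp only [deg, add_zero]
        rw [Y.bd_target_comp h]
    · rw [shift_hc_zero, shift_deg, shift_deg, shift_deg, cw_deg (by omega) h, concat_deg]
  | succ d ih =>
    refine stream_ext ?_ ?_
    · intro δ
      rw [hc_succ_zero]
      simp only [deg, add_zero]
      rw [bd_lt_comp _ (by omega) h]
    · rw [shift_hc_succ, shift_deg, shift_deg, shift_deg]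
      simp only [deg, add_zero]
      rw [Y.source_comp, Y.comp_target, Y.source_comp, Y.comp_target]
      exact ih (by omega)

lemma hc_cst {d m n : ℕ} (hn : m + d = n) {x : Y.Cell} (h : Y.bd m false x = x) :
    hc d m x x x x (cst x) (cst x) = cst x := by
  rw [cst_eq_deg h, hc_deg hn (by rw [bd_of_dim h (by omega), bd_of_dim h (by omega)]),
    comp_self_of_dim h (by omega)]

lemma composable_deg {d m n : ℕ} (hn : m + d = n) {x y : Y.Cell}
    (h : Y.bd n true x = Y.bd n false y) :
    Composable d n x x y y (deg m x) (deg m y) where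
  src := h
  tgt := h
  lt := fun i hi δ => by
    simp only [deg]
    rw [← Y.bd_bd_lt δ true x (by omega : m + i < n), h, Y.bd_bd_lt _ _ _ (by omega)]
  eq := by
    simp only [deg]
    rw [hn, h]

lemma composable_cst {d m n : ℕ} (hn : m + d = n) {x : Y.Cell} (h : Y.bd m false x = x) :
    Composable d n x x x x (cst x) (cst x) where
  src := by rw [bd_of_dim h (by omega), bd_of_dim h (by omega)]
  tgt := by rw [bd_of_dim h (by omega), bd_of_dim h (by omega)]
  lt := fun i hi δ => rfl
  eq := rfl

lemma Composable.cw {d m n j : ℕ} (hn : m + d = n) (hj : j < m)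
    {A B C D A' B' C' D' : Y.Cell} {u v u' v' : CStream Y}
    (hu : IsCyl m A B u) (hu' : IsCyl m A' B' u')
    (h : Composable d n A B C D u v) (h' : Composable d n A' B' C' D' u' v')
    (g : Y.bd j true A = Y.bd j false A') :
    Composable d n (Y.comp j A A') (Y.comp j B B') (Y.comp j C C') (Y.comp j D D')
      (cw j u u') (cw j v v') where
  src := by
    rw [Y.bd_comp _ (by omega) g, Y.bd_comp _ (by omega)
      (by rw [← h.bd_lt (by omega), ← h'.bd_lt (by omega), g]), h.src, h'.src]
  tgt := by
    have g2 : Y.bd j true B = Y.bd j false B' := by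
      rw [← hu.head.par j hj, ← hu'.head.par j hj, g]
    rw [Y.bd_comp _ (by omega) g2, Y.bd_comp _ (by omega)
      (by rw [← h.bd_lt' (by omega), ← h'.bd_lt' (by omega), g2]), h.tgt, h'.tgt]
  lt := fun i hi δ => by
    simp only [CStream.cw]
    rw [h.lt i hi, h'.lt i hi]
  eq := by
    simp only [CStream.cw]
    rw [h.eq, h'.eq]

/-- (L3) -/
lemma cw_hc {d m n j : ℕ} (hn : m + d = n) (hj : j < m)
    {A B C D A' B' C' D' : Y.Cell} {u v u' v' : CStream Y}
    (hu : IsCyl m A B u) (hv : IsCyl m C D v) (hu' : IsCyl m A' B' u') (hv' : IsCyl m C' D' v')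
    (h : Composable d n A B C D u v) (h' : Composable d n A' B' C' D' u' v')
    (g : Y.bd j true A = Y.bd j false A') :
    cw j (hc d m A B C D u v) (hc d m A' B' C' D' u' v') =
      hc d m (Y.comp j A A') (Y.comp j B B') (Y.comp j C C') (Y.comp j D D')
        (cw j u u') (cw j v v') := by
  induction d generalizing m A B C D A' B' C' D' u v u' v' with
  | zero =>
    obtain rfl : m = n := by omega
    refine stream_ext ?_ ?_
    · intro δ
      cases δ <;> rfl
    · have gC : Y.bd j true C = Y.bd j false C' := by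
        rw [← h.bd_lt (by omega), ← h'.bd_lt (by omega), g]
      have gB : Y.bd j true B = Y.bd j false B' := by
        rw [← hu.head.par j hj, ← hu'.head.par j hj, g]
      have gD : Y.bd j true D = Y.bd j false D' := by
        rw [← hv.head.par j hj, ← hv'.head.par j hj, gC]
      rw [shift_cw, shift_hc_zero, shift_hc_zero, shift_hc_zero]
      have e1 : Y.bd j true (Y.comp m (u 0 false) (Y.comp m B D)) =
          Y.bd j false (Y.comp m (u' 0 false) (Y.comp m B' D')) := by
        rw [bd_lt_comp _ (by omega) (by rw [Y.bd_source_comp h.tgt]; exact hu.head.comp_src),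
          bd_lt_comp _ (by omega) (by rw [Y.bd_source_comp h'.tgt]; exact hu'.head.comp_src),
          hu.bd_lt hj, hu'.bd_lt hj, g]
      rw [cw_concat (by omega) (isCyl_hcL hu h) (isCyl_hcR hu hv h) (isCyl_hcL hu' h')
        (isCyl_hcR hu' hv' h') e1,
        cw_interchange hj (by omega) hu.tail (isCyl_deg _ D) hu'.tail (isCyl_deg _ D')
          (by rw [Y.bd_target_comp hu.head.comp_src]; exact h.tgt)
          (by rw [Y.bd_target_comp hu'.head.comp_src]; exact h'.tgt)
          (by rw [bd_lt_comp _ (by omega) hu.head.comp_src, bd_lt_comp _ (by omega)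
                hu'.head.comp_src, hu.bd_lt hj, hu'.bd_lt hj, g]) gD,
        cw_interchange hj (by omega) (isCyl_deg _ A) hv.tail (isCyl_deg _ A') hv'.tail
          (by rw [Y.bd_source_comp hv.head.comp_src, hv.head.src]; exact h.src)
          (by rw [Y.bd_source_comp hv'.head.comp_src, hv'.head.src]; exact h'.src) g
          (by rw [bd_lt_comp _ (by omega) hv.head.comp_src, bd_lt_comp _ (by omega)
                hv'.head.comp_src, hv.bd_lt hj, hv'.bd_lt hj, gC]),
        cw_deg (by omega) gD, cw_deg (by omega) g]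
      rfl
  | succ d ih =>
    have gC : Y.bd j true C = Y.bd j false C' := by
      rw [← h.bd_lt (by omega), ← h'.bd_lt (by omega), g]
    have gB : Y.bd j true B = Y.bd j false B' := by
      rw [← hu.head.par j hj, ← hu'.head.par j hj, g]
    have gD : Y.bd j true D = Y.bd j false D' := by
      rw [← hv.head.par j hj, ← hv'.head.par j hj, gC]
    have gu : ∀ i δ, Y.bd j true (u i δ) = Y.bd j false (u' i δ) := fun i δ => by
      rw [hu.bd_lt hj, hu'.bd_lt hj, g]
    have gv : ∀ i δ, Y.bd j true (v i δ) = Y.bd j false (v' i δ) := fun i δ => by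
      rw [hv.bd_lt hj, hv'.bd_lt hj, gC]
    refine stream_ext ?_ ?_
    · intro δ
      rfl
    · rw [shift_cw, shift_hc_succ, shift_hc_succ, shift_hc_succ]
      rw [ih (by omega) (by omega) hu.tail hv.tail hu'.tail hv'.tail (h.tail hn hu hv)
        (h'.tail hn hu' hv')
        (by rw [bd_lt_comp _ (by omega) hu.head.comp_src, bd_lt_comp _ (by omega)
                hu'.head.comp_src]; exact gu 0 false)]
      rw [Y.interchange hj hu.head.comp_src hu'.head.comp_src (gu 0 false) gB,
        Y.interchange hj hv.head.comp_src hv'.head.comp_src (gv 0 false) gD,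
        Y.interchange hj hu.head.comp_tgt hu'.head.comp_tgt g (gu 0 true),
        Y.interchange hj hv.head.comp_tgt hv'.head.comp_tgt gC (gv 0 true)]
      rfl

/-! ### Exchange of concatenation and `hc` -/

lemma concat_congr {m d : ℕ} {u v u' v' : CStream Y} {ε η : Bool}
    (h : ∀ i < d, ∀ δ, u i δ = v i δ) (h' : ∀ i < d, ∀ δ, u' i δ = v' i δ)
    (hd : u d ε = v d η) (hd' : u' d ε = v' d η) :
    concat m u u' d ε = concat m v v' d η := by
  induction d generalizing m u v u' v' with
  | zero =>
    rw [concat_zero, concat_zero, hd, hd']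
  | succ d ih =>
    rw [concat_succ, concat_succ]
    have h0 := h 0 (by omega)
    have h0' := h' 0 (by omega)
    refine ih ?_ ?_ ?_ ?_
    · intro i hi δ
      simp only [cw, cst, shift]
      rw [h0, h' (i + 1) (by omega)]
    · intro i hi δ
      simp only [cw, cst, shift]
      rw [h0', h (i + 1) (by omega)]
    · simp only [cw, cst, shift]
      rw [h0, hd']
    · simp only [cw, cst, shift]
      rw [h0', hd]

lemma Composable.concat {d m n : ℕ} {A B C D E F : Y.Cell} {u v u' v' : CStream Y}
    (h : Composable d n A B C D u v) (h' : Composable d n B E D F u' v') :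
    Composable d n A E C F (concat m u u') (concat m v v') where
  src := h.src
  tgt := h'.tgt
  lt := fun i hi δ => concat_congr (fun j hj => h.lt j (by omega)) (fun j hj => h'.lt j (by omega))
    (h.lt i hi δ) (h'.lt i hi δ)
  eq := concat_congr h.lt h'.lt h.eq h'.eq

/-- The horizontal composite of two tails, computed in two ways. -/
lemma cw_two_ways {m : ℕ} {P Q R S : Y.Cell} {U V : CStream Y} {j : ℕ} (hj : j < m)
    (hU : IsCyl m P Q U) (hV : IsCyl m R S V) (h : Y.bd j true P = Y.bd j false R) :
    concat m (cw j (deg m P) V) (cw j U (deg m S)) =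
      concat m (cw j U (deg m R)) (cw j (deg m Q) V) := by
  have e1 := cw_concat hj (isCyl_deg m P) hU hV (isCyl_deg m S) h
  have e2 := cw_concat hj hU (isCyl_deg m Q) (isCyl_deg m R) hV h
  rw [(concat_unit hU).1, (concat_unit hV).2] at e1
  rw [(concat_unit hU).2, (concat_unit hV).1] at e2
  rw [← e1, ← e2]

/-- (L4) at the own level -/
lemma concat_hc_zero {m : ℕ} {A B C D E F : Y.Cell} {u v u' v' : CStream Y}
    (hu : IsCyl m A B u) (hv : IsCyl m C D v) (hu' : IsCyl m B E u') (hv' : IsCyl m D F v')
    (h : Composable 0 m A B C D u v) (h' : Composable 0 m B E D F u' v') :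
    concat m (hc 0 m A B C D u v) (hc 0 m B E D F u' v') =
      hc 0 m A E C F (concat m u u') (concat m v v') := by
  have huv : u 0 true = v 0 false := h.eq
  have huv' : u' 0 true = v' 0 false := h'.eq
  have da := isCyl_cst (hu.head.dim false)
  have db := isCyl_cst (hv'.head.dim true)
  have dc := isCyl_cst (hu'.head.dim true)
  have dd := isCyl_cst (hu.head.dim true)
  -- composability facts
  have cab := hu.head.comp_src   -- a | B
  have cAd := hu.head.comp_tgt   -- A | d
  have cau' := hu.head.cc hu'.head false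
  have cvb := hv.head.cc hv'.head true
  have cuc := hu.head.cc hu'.head true -- d | c
  have cdv' : Y.bd m true (u 0 true) = Y.bd m false (v' 0 false) := by
    rw [huv]; exact hv.head.cc hv'.head false
  refine stream_ext ?_ ?_
  · intro δ
    cases δ <;> rfl
  · rw [shift_concat, shift_hc_zero, shift_hc_zero, shift_hc_zero, shift_concat, shift_concat,
      hc_zero_false, hc_zero_true]
    -- the left side
    have eL1 : cw m (cst (u 0 false)) (concat (m + 1) (cw m (shift u') (deg (m + 1) F))
        (cw m (deg (m + 1) B) (shift v'))) =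
        concat (m + 1) (cw m (cst (u 0 false)) (cw m (shift u') (deg (m + 1) F)))
        (cw m (cst (u 0 false)) (cw m (deg (m + 1) B) (shift v'))) := by
      have := cw_concat (j := m) (by omega) da da (isCyl_hcL hu' h') (isCyl_hcR hu' hv' h') (by
        rw [Y.bd_source_comp (by rw [Y.bd_source_comp h'.tgt]; exact hu'.head.comp_src)]
        exact cau')
      rwa [concat_cst (hu.head.dim false)] at this
    have eL2 : cw m (concat (m + 1) (cw m (shift u) (deg (m + 1) D))
        (cw m (deg (m + 1) A) (shift v))) (cst (v' 0 true)) =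
        concat (m + 1) (cw m (cw m (shift u) (deg (m + 1) D)) (cst (v' 0 true)))
        (cw m (cw m (deg (m + 1) A) (shift v)) (cst (v' 0 true))) := by
      have := cw_concat (j := m) (by omega) (isCyl_hcL hu h) (isCyl_hcR hu hv h) db db (by
        rw [Y.bd_target_comp (by rw [Y.bd_source_comp h.tgt]; exact hu.head.comp_src),
          Y.bd_target_comp h.tgt]
        exact hv'.head.comp_tgt)
      rwa [concat_cst (hv'.head.dim true)] at this
    -- the right side
    have eR1 : cw m (concat (m + 1) (cw m (cst (u 0 false)) (shift u'))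
        (cw m (shift u) (cst (u' 0 true)))) (deg (m + 1) F) =
        concat (m + 1) (cw m (cw m (cst (u 0 false)) (shift u')) (deg (m + 1) F))
        (cw m (cw m (shift u) (cst (u' 0 true))) (deg (m + 1) F)) := by
      have := cw_concat (j := m) (by omega) (isCyl_whL hu hu') (isCyl_whR hu hu')
        (isCyl_deg (m + 1) F) (isCyl_deg (m + 1) F) (by
        rw [Y.bd_target_comp (by rw [Y.bd_target_comp cau']; exact hu'.head.comp_src)]
        exact h'.tgt)
      rwa [concat_deg] at this
    have eR2 : cw m (deg (m + 1) A) (concat (m + 1) (cw m (cst (v 0 false)) (shift v'))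
        (cw m (shift v) (cst (v' 0 true)))) =
        concat (m + 1) (cw m (deg (m + 1) A) (cw m (cst (v 0 false)) (shift v')))
        (cw m (deg (m + 1) A) (cw m (shift v) (cst (v' 0 true)))) := by
      have := cw_concat (j := m) (by omega) (isCyl_deg (m + 1) A) (isCyl_deg (m + 1) A)
        (isCyl_whL hv hv') (isCyl_whR hv hv') (by
        rw [Y.bd_source_comp (by rw [Y.bd_target_comp (hv.head.cc hv'.head false)]
                                 exact hv'.head.comp_src),
          Y.bd_source_comp (hv.head.cc hv'.head false), hv.head.src]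
        exact h.src)
      rwa [concat_deg] at this
    -- the common middle part
    have mid := cw_two_ways (j := m) (by omega) hu.tail hv'.tail (by
      rw [Y.bd_target_comp hu.head.comp_src, Y.bd_source_comp hv'.head.comp_src, ← huv',
        hu'.head.src])
    have m1 : cw m (cst (u 0 false)) (cw m (deg (m + 1) B) (shift v')) =
        cw m (deg (m + 1) (Y.comp m (u 0 false) B)) (shift v') := by
      rw [← cw_deg (by omega) cab, ← cst_eq_deg (hu.head.dim false)]
      refine (cw_assoc (m := m + 1) (by omega) da (isCyl_deg _ B) hv'.tail cab ?_).symm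
      rw [Y.bd_source_comp hv'.head.comp_src, ← huv', hu'.head.src]
    have m2 : cw m (cw m (shift u) (deg (m + 1) D)) (cst (v' 0 true)) =
        cw m (shift u) (deg (m + 1) (Y.comp m D (v' 0 true))) := by
      rw [← cw_deg (by omega) hv'.head.comp_tgt, ← cst_eq_deg (hv'.head.dim true)]
      refine cw_assoc (m := m + 1) (by omega) hu.tail (isCyl_deg _ D) db ?_ hv'.head.comp_tgt
      rw [Y.bd_target_comp hu.head.comp_src]
      exact h.tgt
    have m3 : cw m (cw m (shift u) (cst (u' 0 true))) (deg (m + 1) F) =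
        cw m (shift u) (deg (m + 1) (Y.comp m (v' 0 false) F)) := by
      rw [← cw_deg (by omega) hv'.head.comp_src, ← cst_eq_deg (hv'.head.dim false), huv']
      refine cw_assoc (m := m + 1) (by omega) hu.tail (isCyl_cst (hv'.head.dim false))
        (isCyl_deg _ F) ?_ hv'.head.comp_src
      rw [Y.bd_target_comp hu.head.comp_src, ← huv', hu'.head.src]
    have m4 : cw m (deg (m + 1) A) (cw m (cst (v 0 false)) (shift v')) =
        cw m (deg (m + 1) (Y.comp m A (u 0 true))) (shift v') := by
      rw [← cw_deg (by omega) cAd, ← cst_eq_deg (hu.head.dim true), huv]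
      refine (cw_assoc (m := m + 1) (by omega) (isCyl_deg _ A) (isCyl_cst (hv.head.dim false))
        hv'.tail (by rw [← huv]; exact cAd) ?_).symm
      rw [Y.bd_source_comp hv'.head.comp_src]
      exact hv.head.cc hv'.head false
    -- outer parts
    have o1 : cw m (cst (u 0 false)) (cw m (shift u') (deg (m + 1) F)) =
        cw m (cw m (cst (u 0 false)) (shift u')) (deg (m + 1) F) := by
      refine (cw_assoc (m := m + 1) (by omega) da hu'.tail (isCyl_deg _ F) ?_ ?_).symm
      · rw [Y.bd_source_comp hu'.head.comp_src]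
        exact cau'
      · rw [Y.bd_target_comp hu'.head.comp_src]
        exact h'.tgt
    have o2 : cw m (cw m (deg (m + 1) A) (shift v)) (cst (v' 0 true)) =
        cw m (deg (m + 1) A) (cw m (shift v) (cst (v' 0 true))) := by
      refine cw_assoc (m := m + 1) (by omega) (isCyl_deg _ A) hv.tail db ?_ ?_
      · rw [Y.bd_source_comp hv.head.comp_src, hv.head.src]
        exact h.src
      · rw [Y.bd_target_comp hv.head.comp_src]
        exact hv'.head.comp_tgt
    rw [eL1, eL2, eR1, eR2, m1, m2, m3, m4, o1, o2]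
    -- endpoints of the pieces
    have i1 : IsCyl (m + 1)
        (Y.comp m (Y.comp m (u 0 false) (Y.comp m (u' 0 false) E)) F)
        (Y.comp m (Y.comp m (u 0 false) B) (Y.comp m (v' 0 false) F))
        (cw m (cw m (cst (u 0 false)) (shift u')) (deg (m + 1) F)) := by
      have := isCyl_cw (j := m) (by omega) (isCyl_cw (j := m) (by omega) da hu'.tail (by
        rw [Y.bd_source_comp hu'.head.comp_src]; exact cau')) (isCyl_deg (m + 1) F) (by
        rw [Y.bd_target_comp (by rw [Y.bd_source_comp hu'.head.comp_src]; exact cau'),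
          Y.bd_target_comp hu'.head.comp_src]; exact h'.tgt)
      rwa [← Y.comp_assoc (x := u 0 false) (y := B) (z := u' 0 true) cab hu'.head.comp_tgt, huv',
        Y.comp_assoc (x := Y.comp m (u 0 false) B) (y := v' 0 false) (z := F)
          (by rw [Y.bd_target_comp cab, ← huv']; exact hu'.head.comp_tgt)
          hv'.head.comp_src] at this
    have i4 : IsCyl (m + 1)
        (Y.comp m (Y.comp m A (u 0 true)) (Y.comp m D (v' 0 true)))
        (Y.comp m A (Y.comp m (Y.comp m C (v 0 true)) (v' 0 true)))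
        (cw m (deg (m + 1) A) (cw m (shift v) (cst (v' 0 true)))) := by
      have := isCyl_cw (j := m) (by omega) (isCyl_deg (m + 1) A)
        (isCyl_cw (j := m) (by omega) hv.tail db (by
        rw [Y.bd_target_comp hv.head.comp_src]; exact hv'.head.comp_tgt)) (by
        rw [Y.bd_source_comp (by rw [Y.bd_target_comp hv.head.comp_src]; exact hv'.head.comp_tgt),
          Y.bd_source_comp hv.head.comp_src, hv.head.src]; exact h.src)
      rwa [Y.comp_assoc (x := v 0 false) (y := D) (z := v' 0 true) hv.head.comp_src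
        hv'.head.comp_tgt, ← huv,
        ← Y.comp_assoc (x := A) (y := u 0 true) (z := Y.comp m D (v' 0 true)) cAd
          (by rw [Y.bd_source_comp hv'.head.comp_tgt, huv]; exact hv.head.comp_src)] at this
    have iU : Y.bd m true (Y.comp m (u 0 false) B) =
        Y.bd m false (Y.comp m (v' 0 false) F) := by
      rw [Y.bd_target_comp cab, Y.bd_source_comp hv'.head.comp_src, ← huv', hu'.head.src]
    have i2 : IsCyl (m + 1) (Y.comp m (Y.comp m (u 0 false) B) (Y.comp m (v' 0 false) F))
        (Y.comp m (Y.comp m (u 0 false) B) (Y.comp m D (v' 0 true)))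
        (cw m (deg (m + 1) (Y.comp m (u 0 false) B)) (shift v')) :=
      isCyl_cw (by omega) (isCyl_deg _ _) hv'.tail iU
    have iU' : Y.bd m true (Y.comp m (u 0 false) B) =
        Y.bd m false (Y.comp m D (v' 0 true)) := by
      rw [Y.bd_target_comp cab, Y.bd_source_comp hv'.head.comp_tgt, h.tgt]
    have i3 : IsCyl (m + 1) (Y.comp m (Y.comp m (u 0 false) B) (Y.comp m D (v' 0 true)))
        (Y.comp m (Y.comp m A (u 0 true)) (Y.comp m D (v' 0 true)))
        (cw m (shift u) (deg (m + 1) (Y.comp m D (v' 0 true)))) :=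
      isCyl_cw (by omega) hu.tail (isCyl_deg _ _) iU'
    have j2 : IsCyl (m + 1) (Y.comp m (Y.comp m (u 0 false) B) (Y.comp m (v' 0 false) F))
        (Y.comp m (Y.comp m A (u 0 true)) (Y.comp m (v' 0 false) F))
        (cw m (shift u) (deg (m + 1) (Y.comp m (v' 0 false) F))) :=
      isCyl_cw (by omega) hu.tail (isCyl_deg _ _) iU
    have j3 : IsCyl (m + 1) (Y.comp m (Y.comp m A (u 0 true)) (Y.comp m (v' 0 false) F))
        (Y.comp m (Y.comp m A (u 0 true)) (Y.comp m D (v' 0 true)))
        (cw m (deg (m + 1) (Y.comp m A (u 0 true))) (shift v')) :=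
      isCyl_cw (by omega) (isCyl_deg _ _) hv'.tail (by
        rw [Y.bd_target_comp cAd, Y.bd_source_comp hv'.head.comp_src]
        exact cdv')
    rw [concat_assoc i1 i2 (isCyl_concat i3 i4), ← concat_assoc i2 i3 i4, mid,
      concat_assoc i1 j2 (isCyl_concat j3 i4), ← concat_assoc j2 j3 i4]

/-- (L4) -/
lemma concat_hc {d m n : ℕ} (hn : m + d = n) {A B C D E F : Y.Cell} {u v u' v' : CStream Y}
    (hu : IsCyl m A B u) (hv : IsCyl m C D v) (hu' : IsCyl m B E u') (hv' : IsCyl m D F v')
    (h : Composable d n A B C D u v) (h' : Composable d n B E D F u' v') :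
    concat m (hc d m A B C D u v) (hc d m B E D F u' v') =
      hc d m A E C F (concat m u u') (concat m v v') := by
  induction d generalizing m A B C D E F u v u' v' with
  | zero =>
    obtain rfl : m = n := by omega
    exact concat_hc_zero hu hv hu' hv' h h'
  | succ d ih =>
    refine stream_ext ?_ ?_
    · intro δ
      rfl
    · have hmn : m < n := by omega
      rw [shift_concat, shift_hc_succ, shift_hc_succ, shift_hc_succ, shift_concat, shift_concat,
        hc_succ_zero, hc_succ_zero]
      have du := hu.head.dim false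
      have dv := hv'.head.dim true
      have e0 : ∀ δ, u 0 δ = v 0 δ := h.lt 0 (by omega)
      have e0' : ∀ δ, u' 0 δ = v' 0 δ := h'.lt 0 (by omega)
      have cau' : Y.bd m true (u 0 false) =
          Y.bd m false (Y.comp m (u' 0 false) E) := by
        rw [Y.bd_source_comp hu'.head.comp_src]
        exact hu.head.cc hu'.head false
      have cub' : Y.bd m true (Y.comp m (u 0 false) B) = Y.bd m false (u' 0 true) := by
        rw [Y.bd_target_comp hu.head.comp_src]
        exact hu'.head.comp_tgt
      have s1 : cw m (cst (u 0 false)) (hc d (m + 1) (Y.comp m (u' 0 false) E)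
          (Y.comp m B (u' 0 true)) (Y.comp m (v' 0 false) F) (Y.comp m D (v' 0 true))
          (shift u') (shift v')) =
          hc d (m + 1) (Y.comp m (u 0 false) (Y.comp m (u' 0 false) E))
            (Y.comp m (u 0 false) (Y.comp m B (u' 0 true)))
            (Y.comp m (v 0 false) (Y.comp m (v' 0 false) F))
            (Y.comp m (v 0 false) (Y.comp m D (v' 0 true)))
            (cw m (cst (u 0 false)) (shift u')) (cw m (cst (v 0 false)) (shift v')) := by
        have := cw_hc (m := m + 1) (d := d) (n := n) (j := m) (by omega) (by omega)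
          (isCyl_cst du) (isCyl_cst du) hu'.tail hv'.tail (composable_cst (by omega) du)
          (h'.tail hn hu' hv') cau'
        rw [hc_cst (n := n) (by omega) du] at this
        simpa only [e0] using this
      have s2 : cw m (hc d (m + 1) (Y.comp m (u 0 false) B)
          (Y.comp m A (u 0 true)) (Y.comp m (v 0 false) D) (Y.comp m C (v 0 true))
          (shift u) (shift v)) (cst (u' 0 true)) =
          hc d (m + 1) (Y.comp m (Y.comp m (u 0 false) B) (u' 0 true))
            (Y.comp m (Y.comp m A (u 0 true)) (u' 0 true))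
            (Y.comp m (Y.comp m (v 0 false) D) (v' 0 true))
            (Y.comp m (Y.comp m C (v 0 true)) (v' 0 true))
            (cw m (shift u) (cst (u' 0 true))) (cw m (shift v) (cst (v' 0 true))) := by
        have du' := hu'.head.dim true
        have := cw_hc (m := m + 1) (d := d) (n := n) (j := m) (by omega) (by omega)
          hu.tail hv.tail (isCyl_cst du') (isCyl_cst du')
          (h.tail hn hu hv) (composable_cst (by omega) du') cub'
        rw [hc_cst (n := n) (by omega) du'] at this
        simpa only [e0'] using this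
      rw [s1, s2]
      have a1 := Y.comp_assoc hu.head.comp_src hu'.head.comp_tgt
      have a2 := Y.comp_assoc hv.head.comp_src hv'.head.comp_tgt
      have a3 := Y.comp_assoc (hu.head.cc hu'.head false) hu'.head.comp_src
      have a4 := Y.comp_assoc (hv.head.cc hv'.head false) hv'.head.comp_src
      have a5 := Y.comp_assoc hu.head.comp_tgt (hu.head.cc hu'.head true)
      have a6 := Y.comp_assoc hv.head.comp_tgt (hv.head.cc hv'.head true)
      rw [a1, a2, a5, a6, concat_zero, concat_zero, concat_zero, concat_zero, a3, a4]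
      have w1 := isCyl_whL hu hu'
      have w2 := isCyl_whL hv hv'
      have w3 := isCyl_whR hu hu'
      have w4 := isCyl_whR hv hv'
      rw [a3] at w1
      rw [a4] at w2
      refine ih (by omega) w1 w2 w3 w4 ?_ ?_
      · have := (composable_cst (m := m + 1) (d := d) (n := n) (by omega) du).cw (m := m + 1)
          (by omega) (by omega) (isCyl_cst du) hu'.tail (h'.tail hn hu' hv') cau'
        simpa only [e0] using this
      · have du' := hu'.head.dim true
        have := (h.tail hn hu hv).cw (m := m + 1) (by omega) (by omega) hu.tail (isCyl_cst du')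
          (composable_cst (m := m + 1) (d := d) (n := n) (by omega) du') cub'
        rw [← a1, ← a2, ← a5, ← a6]
        simpa only [e0'] using this

/-! ### Faces -/

/-- The face stream, in relative dimension `d`. -/
def fs (d : ℕ) (ε : Bool) (u : CStream Y) : CStream Y := fun i δ => if i < d then u i δ else u d ε

lemma fs_zero (ε : Bool) (u : CStream Y) : fs 0 ε u = cst (u 0 ε) := rfl

lemma shift_fs (d : ℕ) (ε : Bool) (u : CStream Y) : shift (fs (d + 1) ε u) = fs d ε (shift u) := by
  funext i δ
  simp only [shift, fs, Nat.add_lt_add_iff_right]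

lemma fs_succ_zero (d : ℕ) (ε : Bool) (u : CStream Y) (δ : Bool) : fs (d + 1) ε u 0 δ = u 0 δ := by
  simp [fs]

lemma fs_lt {d i : ℕ} (h : i < d) (ε : Bool) (u : CStream Y) (δ : Bool) : fs d ε u i δ = u i δ := by
  simp [fs, h]

lemma fs_self (d : ℕ) (ε : Bool) (u : CStream Y) (δ : Bool) : fs d ε u d δ = u d ε := by
  simp [fs]

lemma fs_cw (d j : ℕ) (ε : Bool) (u v : CStream Y) : fs d ε (cw j u v) =
    cw j (fs d ε u) (fs d ε v) := by
  funext i δ
  simp only [fs, cw]
  split_ifs <;> rfl

lemma fs_cst (d : ℕ) (ε : Bool) (c : Y.Cell) : fs d ε (cst c) = cst c := by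
  funext i δ
  simp [fs, cst]

lemma fs_deg (d m : ℕ) (ε : Bool) (c : Y.Cell) : fs d ε (deg m c) = deg m (Y.bd (m + d) ε c) := by
  funext i δ
  simp only [fs, deg]
  split_ifs with h
  · rw [Y.bd_bd_lt _ _ _ (by omega)]
  · rw [Y.bd_bd_ge _ _ _ (by omega)]

lemma isCyl_fs {d m n : ℕ} (hn : m + d = n) (ε : Bool) {A B : Y.Cell} {u : CStream Y}
    (hu : IsCyl m A B u) : IsCyl m (Y.bd n ε A) (Y.bd n ε B) (fs d ε u) := by
  induction d generalizing m A B u with
  | zero =>
    obtain rfl : m = n := by omega
    rw [fs_zero]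
    refine isCyl_iff.mpr ⟨⟨?_, ?_, ?_, ?_⟩, ?_⟩
    · intro j hj η
      rw [Y.bd_bd_lt _ _ _ hj, Y.bd_bd_lt _ _ _ hj, hu.head.par j hj]
    · intro η
      rw [Y.bd_bd_ge _ _ _ le_rfl]
      exact hu.head.src ε
    · intro η
      rw [Y.bd_bd_ge _ _ _ le_rfl]
      exact hu.head.tgt ε
    · intro η
      exact hu.head.dim ε
    · have e1 : Y.comp m (u 0 ε) (Y.bd m ε B) = u 0 ε := by
        have := Y.comp_target m (u 0 ε)
        rwa [hu.head.tgt] at this
      have e2 : Y.comp m (Y.bd m ε A) (u 0 ε) = u 0 ε := by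
        have := Y.source_comp m (u 0 ε)
        rwa [hu.head.src] at this
      simp only [cst, shift_cst]
      rw [e1, e2]
      exact isCyl_cst (hu.head.dim ε)
  | succ d ih =>
    have hB : Y.bd m false (Y.bd n ε B) = Y.bd m false B := Y.bd_bd_lt _ _ _ (by omega)
    have hA : Y.bd m true (Y.bd n ε A) = Y.bd m true A := Y.bd_bd_lt _ _ _ (by omega)
    refine isCyl_iff.mpr ⟨⟨?_, ?_, ?_, ?_⟩, ?_⟩
    · intro j hj η
      rw [Y.bd_bd_lt _ _ _ (by omega), Y.bd_bd_lt _ _ _ (by omega), hu.head.par j hj]
    · intro η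
      rw [Y.bd_bd_lt _ _ _ (by omega), fs_succ_zero]
      exact hu.head.src η
    · intro η
      rw [Y.bd_bd_lt _ _ _ (by omega), fs_succ_zero]
      exact hu.head.tgt η
    · intro η
      rw [fs_succ_zero]
      exact hu.head.dim η
    · have := ih (m := m + 1) (by omega) hu.tail
      rw [fs_succ_zero, fs_succ_zero, shift_fs]
      rwa [Y.bd_comp _ (by omega) hu.head.comp_src, Y.bd_comp _ (by omega) hu.head.comp_tgt,
        bd_of_dim (hu.head.dim false) (by omega), bd_of_dim (hu.head.dim true) (by omega)] at this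

lemma concat_cst2 {m : ℕ} {x y : Y.Cell} (hx : Y.bd (m + 1) false x = x)
    (hy : Y.bd (m + 1) false y = y) (h : Y.bd m true x = Y.bd m false y) :
    concat m (cst x) (cst y) = cst (Y.comp m x y) := by
  refine stream_ext (fun δ => rfl) ?_
  rw [shift_concat]
  have e : cw m (cst x) (cst y) = cst (Y.comp m x y) := rfl
  simp only [shift_cst, cst]
  exact concat_cst (m := m + 1) (c := Y.comp m x y) (by
    rw [Y.bd_comp _ (by omega) h, hx, hy])

lemma fs_concat {d m : ℕ} (ε : Bool) {A B C : Y.Cell} {u v : CStream Y}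
    (hu : IsCyl m A B u) (hv : IsCyl m B C v) :
    fs d ε (concat m u v) = concat m (fs d ε u) (fs d ε v) := by
  induction d generalizing m A B C u v with
  | zero =>
    rw [fs_zero, fs_zero, fs_zero, concat_zero,
      concat_cst2 (hu.head.dim ε) (hv.head.dim ε) (hu.head.cc hv.head ε)]
  | succ d ih =>
    refine stream_ext ?_ ?_
    · intro δ
      rw [fs_succ_zero, concat_zero, concat_zero, fs_succ_zero, fs_succ_zero]
    · rw [shift_fs, shift_concat, shift_concat, ih (isCyl_whL hu hv) (isCyl_whR hu hv),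
        fs_cw, fs_cw, fs_cst, fs_cst, shift_fs, shift_fs, fs_succ_zero, fs_succ_zero]

/-- Faces of high dimension of a composite. -/
lemma fs_hc {d e m n k : ℕ} (hn : m + d = n) (hk : m + e = k) (hde : d < e) (ε : Bool)
    {A B C D : Y.Cell} {u v : CStream Y}
    (hu : IsCyl m A B u) (hv : IsCyl m C D v) (h : Composable d n A B C D u v) :
    fs e ε (hc d m A B C D u v) = hc d m (Y.bd k ε A) (Y.bd k ε B) (Y.bd k ε C) (Y.bd k ε D)
      (fs e ε u) (fs e ε v) := by
  induction d generalizing m e A B C D u v with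
  | zero =>
    obtain rfl : m = n := by omega
    obtain ⟨e, rfl⟩ : ∃ e', e = e' + 1 := ⟨e - 1, by omega⟩
    refine stream_ext ?_ ?_
    · intro δ
      rw [fs_succ_zero]
      cases δ
      · rw [hc_zero_false, hc_zero_false, fs_succ_zero]
      · rw [hc_zero_true, hc_zero_true, fs_succ_zero]
    · rw [shift_fs, shift_hc_zero, shift_hc_zero, fs_concat ε (isCyl_hcL hu h) (isCyl_hcR hu hv h),
        fs_cw, fs_cw, fs_deg, fs_deg, shift_fs, shift_fs, show m + 1 + e = k by omega]
  | succ d ih =>
    obtain ⟨e, rfl⟩ : ∃ e', e = e' + 1 := ⟨e - 1, by omega⟩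
    refine stream_ext ?_ ?_
    · intro δ
      rw [fs_succ_zero, hc_succ_zero, hc_succ_zero, fs_succ_zero]
    · rw [shift_fs, shift_hc_succ, shift_hc_succ, ih (by omega) (by omega) (by omega) hu.tail
        hv.tail (h.tail hn hu hv), shift_fs, shift_fs, fs_succ_zero, fs_succ_zero, fs_succ_zero,
        fs_succ_zero, Y.bd_comp _ (by omega) hu.head.comp_src,
        Y.bd_comp _ (by omega) hu.head.comp_tgt, Y.bd_comp _ (by omega) hv.head.comp_src,
        Y.bd_comp _ (by omega) hv.head.comp_tgt,
        bd_of_dim (hu.head.dim false) (by omega), bd_of_dim (hu.head.dim true) (by omega),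
        bd_of_dim (hv.head.dim false) (by omega), bd_of_dim (hv.head.dim true) (by omega)]

/-! ### Components of a composite up to its own dimension -/

lemma hc_lt {d m i : ℕ} (hi : i < d) (A B C D : Y.Cell) (u v : CStream Y) (δ : Bool) :
    hc d m A B C D u v i δ = u i δ := by
  induction d generalizing m i A B C D u v with
  | zero => omega
  | succ d ih =>
    cases i with
    | zero => rfl
    | succ i => exact ih (by omega) _ _ _ _ _ _

lemma hc_eq {d m : ℕ} (A B C D : Y.Cell) (u v : CStream Y) (δ : Bool) :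
    hc d m A B C D u v d δ = if δ then v d true else u d false := by
  induction d generalizing m A B C D u v with
  | zero => rfl
  | succ d ih => exact ih _ _ _ _ _ _

lemma fs_hc_source {d m : ℕ} (A B C D : Y.Cell) (u v : CStream Y) :
    fs d false (hc d m A B C D u v) = fs d false u := by
  funext i δ
  simp only [fs]
  split_ifs with h
  · exact hc_lt h _ _ _ _ _ _ _
  · rw [hc_eq]
    rfl

lemma fs_hc_target {d m n : ℕ} {A B C D : Y.Cell} {u v : CStream Y}
    (h : Composable d n A B C D u v) :
    fs d true (hc d m A B C D u v) = fs d true v := by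
  funext i δ
  simp only [fs]
  split_ifs with hi
  · rw [hc_lt hi, h.lt i hi]
  · rw [hc_eq]
    rfl

lemma fs_fs_lt {d e : ℕ} (h : d < e) (ε η : Bool) (u : CStream Y) :
    fs d ε (fs e η u) = fs d ε u := by
  funext i δ
  simp only [fs]
  split_ifs <;> first | rfl | omega

lemma fs_fs_ge {d e : ℕ} (h : e ≤ d) (ε η : Bool) (u : CStream Y) :
    fs d ε (fs e η u) = fs e η u := by
  funext i δ
  simp only [fs]
  split_ifs <;> first | rfl | omega

/-! ### Units -/

lemma composable_target (d n : ℕ) (A B : Y.Cell) (u : CStream Y) :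
    Composable d n A B (Y.bd n true A) (Y.bd n true B) u (fs d true u) where
  src := (Y.bd_bd_ge _ _ _ le_rfl).symm
  tgt := (Y.bd_bd_ge _ _ _ le_rfl).symm
  lt := fun i hi δ => by simp [fs, hi]
  eq := by simp [fs]

lemma composable_source (d n : ℕ) (A B : Y.Cell) (u : CStream Y) :
    Composable d n (Y.bd n false A) (Y.bd n false B) A B (fs d false u) u where
  src := Y.bd_bd_ge _ _ _ le_rfl
  tgt := Y.bd_bd_ge _ _ _ le_rfl
  lt := fun i hi δ => by simp [fs, hi]
  eq := by simp [fs]

lemma hc_target {d m n : ℕ} (hn : m + d = n) {A B : Y.Cell} {u : CStream Y}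
    (hu : IsCyl m A B u) :
    hc d m A B (Y.bd n true A) (Y.bd n true B) u (fs d true u) = u := by
  induction d generalizing m A B u with
  | zero =>
    obtain rfl : m = n := by omega
    refine stream_ext ?_ ?_
    · intro δ
      cases δ <;> rfl
    · rw [shift_hc_zero]
      have e1 : cw m (shift u) (deg (m + 1) (Y.bd m true B)) = shift u := by
        funext i δ
        simp only [cw, deg]
        rw [Y.bd_bd_ge _ _ _ (by omega)]
        have := Y.comp_target m (shift u i δ)
        rwa [hu.tail.bd_lt (by omega), Y.bd_target_comp hu.head.comp_src] at this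
      have e2 : cw m (deg (m + 1) A) (shift (fs 0 true u)) =
          deg (m + 1) (Y.comp m A (u 0 true)) := by
        funext i δ
        simp only [cw, deg]
        rw [Y.bd_comp δ (by omega) hu.head.comp_tgt,
          bd_of_dim (hu.head.dim true) (by omega) (m := m + 1 + i)]
        rfl
      rw [e1, e2, (concat_unit hu.tail).2]
  | succ d ih =>
    refine stream_ext ?_ ?_
    · intro δ
      rfl
    · rw [shift_hc_succ, fs_succ_zero, fs_succ_zero, shift_fs]
      have e1 : Y.comp m (u 0 false) (Y.bd n true B) = Y.bd n true (Y.comp m (u 0 false) B) := by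
        rw [Y.bd_comp _ (by omega) hu.head.comp_src, bd_of_dim (hu.head.dim false) (by omega)]
      have e2 : Y.comp m (Y.bd n true A) (u 0 true) = Y.bd n true (Y.comp m A (u 0 true)) := by
        rw [Y.bd_comp _ (by omega) hu.head.comp_tgt, bd_of_dim (hu.head.dim true) (by omega)]
      rw [e1, e2]
      exact ih (by omega) hu.tail

lemma hc_source {d m n : ℕ} (hn : m + d = n) {A B : Y.Cell} {u : CStream Y}
    (hu : IsCyl m A B u) :
    hc d m (Y.bd n false A) (Y.bd n false B) A B (fs d false u) u = u := by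
  induction d generalizing m A B u with
  | zero =>
    obtain rfl : m = n := by omega
    refine stream_ext ?_ ?_
    · intro δ
      cases δ <;> rfl
    · rw [shift_hc_zero]
      have e1 : cw m (deg (m + 1) (Y.bd m false A)) (shift u) = shift u := by
        funext i δ
        simp only [cw, deg]
        rw [Y.bd_bd_ge _ _ _ (by omega)]
        have := Y.source_comp m (shift u i δ)
        rwa [hu.tail.bd_lt (by omega), Y.bd_source_comp hu.head.comp_src, hu.head.src] at this
      have e2 : cw m (shift (fs 0 false u)) (deg (m + 1) B) =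
          deg (m + 1) (Y.comp m (u 0 false) B) := by
        funext i δ
        simp only [cw, deg]
        rw [Y.bd_comp δ (by omega) hu.head.comp_src,
          bd_of_dim (hu.head.dim false) (by omega) (m := m + 1 + i)]
        rfl
      rw [e1, e2, (concat_unit hu.tail).1]
  | succ d ih =>
    refine stream_ext ?_ ?_
    · intro δ
      rw [hc_succ_zero, fs_succ_zero]
    · rw [shift_hc_succ, fs_succ_zero, fs_succ_zero, shift_fs]
      have e1 : Y.comp m (u 0 false) (Y.bd n false B) = Y.bd n false (Y.comp m (u 0 false) B) := by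
        rw [Y.bd_comp _ (by omega) hu.head.comp_src, bd_of_dim (hu.head.dim false) (by omega)]
      have e2 : Y.comp m (Y.bd n false A) (u 0 true) = Y.bd n false (Y.comp m A (u 0 true)) := by
        rw [Y.bd_comp _ (by omega) hu.head.comp_tgt, bd_of_dim (hu.head.dim true) (by omega)]
      rw [e1, e2]
      exact ih (by omega) hu.tail

/-! ### Endpoints of the tail of a composite -/

lemma Composable.end1 {d m n : ℕ} (hn : m + (d + 1) = n) {A B C D : Y.Cell} {u v : CStream Y}
    (hu : IsCyl m A B u) (hv : IsCyl m C D v) (h : Composable (d + 1) n A B C D u v) :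
    Y.comp n (Y.comp m (u 0 false) B) (Y.comp m (v 0 false) D) =
      Y.comp m (u 0 false) (Y.comp n B D) := by
  rw [← h.lt 0 (by omega)]
  have := Y.interchange (j := m) (k := n) (x := u 0 false) (y := u 0 false) (x' := B)
    (y' := D) (by omega) ?_ h.tgt hu.head.comp_src ?_
  · rw [← this, comp_self_of_dim (hu.head.dim false) (by omega)]
  · rw [bd_of_dim (hu.head.dim false) (by omega), bd_of_dim (hu.head.dim false) (by omega)]
  · rw [h.lt 0 (by omega)]
    exact hv.head.comp_src

lemma Composable.end2 {d m n : ℕ} (hn : m + (d + 1) = n) {A B C D : Y.Cell} {u v : CStream Y}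
    (hu : IsCyl m A B u) (hv : IsCyl m C D v) (h : Composable (d + 1) n A B C D u v) :
    Y.comp n (Y.comp m A (u 0 true)) (Y.comp m C (v 0 true)) =
      Y.comp m (Y.comp n A C) (u 0 true) := by
  rw [← h.lt 0 (by omega)]
  have := Y.interchange (j := m) (k := n) (x := A) (y := C) (x' := u 0 true)
    (y' := u 0 true) (by omega) h.src ?_ hu.head.comp_tgt ?_
  · rw [← this, comp_self_of_dim (hu.head.dim true) (by omega)]
  · rw [bd_of_dim (hu.head.dim true) (by omega), bd_of_dim (hu.head.dim true) (by omega)]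
  · rw [h.lt 0 (by omega)]
    exact hv.head.comp_tgt

/-! ### Associativity -/

lemma hc_assoc {d m n : ℕ} (hn : m + d = n) {A B C D E F : Y.Cell} {u v w : CStream Y}
    (hu : IsCyl m A B u) (hv : IsCyl m C D v) (hw : IsCyl m E F w)
    (h : Composable d n A B C D u v) (h' : Composable d n C D E F v w) :
    hc d m (Y.comp n A C) (Y.comp n B D) E F (hc d m A B C D u v) w =
      hc d m A B (Y.comp n C E) (Y.comp n D F) u (hc d m C D E F v w) := by
  induction d generalizing m A B C D E F u v w with
  | zero =>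
    obtain rfl : m = n := by omega
    refine stream_ext ?_ ?_
    · intro δ
      cases δ <;> rfl
    · rw [shift_hc_zero, shift_hc_zero, shift_hc_zero, shift_hc_zero]
      have e1 : cw m (concat (m + 1) (cw m (shift u) (deg (m + 1) D))
          (cw m (deg (m + 1) A) (shift v))) (deg (m + 1) F) =
          concat (m + 1) (cw m (cw m (shift u) (deg (m + 1) D)) (deg (m + 1) F))
          (cw m (cw m (deg (m + 1) A) (shift v)) (deg (m + 1) F)) := by
        have := cw_concat (j := m) (by omega) (isCyl_hcL hu h) (isCyl_hcR hu hv h)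
          (isCyl_deg (m + 1) F) (isCyl_deg (m + 1) F) (by
          rw [Y.bd_target_comp (by rw [Y.bd_source_comp h.tgt]; exact hu.head.comp_src),
            Y.bd_target_comp h.tgt, h'.tgt])
        rwa [concat_deg] at this
      have e2 : cw m (deg (m + 1) A) (concat (m + 1) (cw m (shift v) (deg (m + 1) F))
          (cw m (deg (m + 1) C) (shift w))) =
          concat (m + 1) (cw m (deg (m + 1) A) (cw m (shift v) (deg (m + 1) F)))
          (cw m (deg (m + 1) A) (cw m (deg (m + 1) C) (shift w))) := by
        have := cw_concat (j := m) (by omega) (isCyl_deg (m + 1) A) (isCyl_deg (m + 1) A)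
          (isCyl_hcL hv h') (isCyl_hcR hv hw h') (by
          rw [Y.bd_source_comp (by rw [Y.bd_source_comp h'.tgt]; exact hv.head.comp_src),
            hv.head.src, h.src])
        rwa [concat_deg] at this
      have uD : Y.bd m true (Y.comp m (u 0 false) B) = Y.bd m false D := by
        rw [Y.bd_target_comp hu.head.comp_src]
        exact h.tgt
      have vF : Y.bd m true (Y.comp m (v 0 false) D) = Y.bd m false F := by
        rw [Y.bd_target_comp hv.head.comp_src]
        exact h'.tgt
      have Av : Y.bd m true A = Y.bd m false (Y.comp m (v 0 false) D) := by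
        rw [Y.bd_source_comp hv.head.comp_src, hv.head.src]
        exact h.src
      have Cw : Y.bd m true C = Y.bd m false (Y.comp m (w 0 false) F) := by
        rw [Y.bd_source_comp hw.head.comp_src, hw.head.src]
        exact h'.src
      have f1 : cw m (cw m (shift u) (deg (m + 1) D)) (deg (m + 1) F) =
          cw m (shift u) (deg (m + 1) (Y.comp m D F)) := by
        rw [← cw_deg (by omega) h'.tgt]
        exact cw_assoc (m := m + 1) (by omega) hu.tail (isCyl_deg _ D) (isCyl_deg _ F) uD h'.tgt
      have f2 : cw m (cw m (deg (m + 1) A) (shift v)) (deg (m + 1) F) =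
          cw m (deg (m + 1) A) (cw m (shift v) (deg (m + 1) F)) :=
        cw_assoc (m := m + 1) (by omega) (isCyl_deg _ A) hv.tail (isCyl_deg _ F) Av vF
      have f3 : cw m (deg (m + 1) A) (cw m (deg (m + 1) C) (shift w)) =
          cw m (deg (m + 1) (Y.comp m A C)) (shift w) := by
        rw [← cw_deg (by omega) h.src]
        exact (cw_assoc (m := m + 1) (by omega) (isCyl_deg _ A) (isCyl_deg _ C) hw.tail
          h.src Cw).symm
      rw [e1, e2, f1, f2, f3]
      have DF : Y.bd m true D = Y.bd m false F := h'.tgt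
      have AC : Y.bd m true A = Y.bd m false C := h.src
      -- the three pieces
      have huv : u 0 true = v 0 false := h.eq
      have hvw : v 0 true = w 0 false := h'.eq
      have i1 : IsCyl (m + 1) (Y.comp m (Y.comp m (u 0 false) B) (Y.comp m D F))
          (Y.comp m (Y.comp m A (u 0 true)) (Y.comp m D F))
          (cw m (shift u) (deg (m + 1) (Y.comp m D F))) :=
        isCyl_cw (by omega) hu.tail (isCyl_deg _ _) (by rw [Y.bd_source_comp DF]; exact uD)
      have i2 : IsCyl (m + 1) (Y.comp m A (Y.comp m (Y.comp m (v 0 false) D) F))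
          (Y.comp m A (Y.comp m (Y.comp m C (v 0 true)) F))
          (cw m (deg (m + 1) A) (cw m (shift v) (deg (m + 1) F))) :=
        isCyl_cw (by omega) (isCyl_deg _ _) (isCyl_cw (by omega) hv.tail (isCyl_deg _ _) vF)
          (by rw [Y.bd_source_comp vF]; exact Av)
      have i3 : IsCyl (m + 1) (Y.comp m (Y.comp m A C) (Y.comp m (w 0 false) F))
          (Y.comp m (Y.comp m A C) (Y.comp m E (w 0 true)))
          (cw m (deg (m + 1) (Y.comp m A C)) (shift w)) :=
        isCyl_cw (by omega) (isCyl_deg _ _) hw.tail (by rw [Y.bd_target_comp AC]; exact Cw)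
      have a1 : Y.comp m (Y.comp m A (u 0 true)) (Y.comp m D F) =
          Y.comp m A (Y.comp m (Y.comp m (v 0 false) D) F) := by
        rw [huv, Y.comp_assoc (by rw [← huv]; exact hu.head.comp_tgt)
          (by rw [Y.bd_source_comp DF]; exact hv.head.comp_src),
          Y.comp_assoc hv.head.comp_src DF]
      have a2 : Y.comp m A (Y.comp m (Y.comp m C (v 0 true)) F) =
          Y.comp m (Y.comp m A C) (Y.comp m (w 0 false) F) := by
        have vF' : Y.bd m true (v 0 true) = Y.bd m false F := by
          rw [hvw]; exact hw.head.comp_src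
        rw [Y.comp_assoc hv.head.comp_tgt vF', hvw,
          Y.comp_assoc AC (by rw [Y.bd_source_comp hw.head.comp_src, ← hvw]
                              exact hv.head.comp_tgt)]
      rw [← a1] at i2
      rw [← a2] at i3
      exact concat_assoc i1 i2 i3
  | succ d ih =>
    refine stream_ext ?_ ?_
    · intro δ
      rfl
    · rw [shift_hc_succ, shift_hc_succ, shift_hc_succ, shift_hc_succ, hc_succ_zero, hc_succ_zero,
        hc_succ_zero, hc_succ_zero, ← h.end1 hn hu hv, ← h.end2 hn hu hv,
        ← h'.end1 hn hv hw, ← h'.end2 hn hv hw]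
      exact ih (by omega) hu.tail hv.tail hw.tail (h.tail hn hu hv) (h'.tail hn hv hw)

lemma Composable.hc_left {d m n : ℕ} {A B C D E F : Y.Cell} {u v w : CStream Y}
    (h : Composable d n A B C D u v) (h' : Composable d n C D E F v w) :
    Composable d n (Y.comp n A C) (Y.comp n B D) E F (hc d m A B C D u v) w where
  src := by rw [Y.bd_target_comp h.src, h'.src]
  tgt := by rw [Y.bd_target_comp h.tgt, h'.tgt]
  lt := fun i hi δ => by rw [hc_lt hi, h.lt i hi, h'.lt i hi]
  eq := by rw [hc_eq, if_pos rfl, h'.eq]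

lemma Composable.hc_right {d m n : ℕ} {A B C D E F : Y.Cell} {u v w : CStream Y}
    (h : Composable d n A B C D u v) (h' : Composable d n C D E F v w) :
    Composable d n A B (Y.comp n C E) (Y.comp n D F) u (hc d m C D E F v w) where
  src := by rw [Y.bd_source_comp h'.src, h.src]
  tgt := by rw [Y.bd_source_comp h'.tgt, h.tgt]
  lt := fun i hi δ => by rw [hc_lt hi, h.lt i hi]
  eq := by
    rw [hc_eq, h.eq]
    rfl

/-! ### Interchange -/

lemma Composable.of_lt {d e n k : ℕ} {A B C D : Y.Cell} {u v : CStream Y} (hde : d < e)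
    (hnk : n < k) (h : Composable e k A B C D u v) : ∀ ε,
    Y.bd n ε A = Y.bd n ε C ∧ Y.bd n ε B = Y.bd n ε D ∧ u d ε = v d ε :=
  fun ε => ⟨h.bd_lt hnk ε, h.bd_lt' hnk ε, h.lt d hde ε⟩

/-- Two composites in dimension `n` of pairs of cylinders composable in dimension `k > n`. -/
lemma Composable.hc {d e m n k : ℕ} (hn : m + d = n) (hk : m + e = k) (hde : d < e)
    {A₁ B₁ A₂ B₂ A₃ B₃ A₄ B₄ : Y.Cell} {u₁ u₂ u₃ u₄ : CStream Y}
    (h₁ : IsCyl m A₁ B₁ u₁) (h₂ : IsCyl m A₂ B₂ u₂) (h₃ : IsCyl m A₃ B₃ u₃)
    (h₄ : IsCyl m A₄ B₄ u₄)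
    (h12 : Composable e k A₁ B₁ A₂ B₂ u₁ u₂) (h34 : Composable e k A₃ B₃ A₄ B₄ u₃ u₄)
    (h13 : Composable d n A₁ B₁ A₃ B₃ u₁ u₃) (h24 : Composable d n A₂ B₂ A₄ B₄ u₂ u₄) :
    Composable e k (Y.comp n A₁ A₃) (Y.comp n B₁ B₃) (Y.comp n A₂ A₄) (Y.comp n B₂ B₄)
      (hc d m A₁ B₁ A₃ B₃ u₁ u₃) (hc d m A₂ B₂ A₄ B₄ u₂ u₄) := by
  have key : ∀ {A B C D : Y.Cell} {u v : CStream Y} (hu : IsCyl m A B u) (hv : IsCyl m C D v)
      (h : Composable d n A B C D u v) (ε : Bool), fs e ε (CStream.hc d m A B C D u v) =
      CStream.hc d m (Y.bd k ε A) (Y.bd k ε B) (Y.bd k ε C) (Y.bd k ε D)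
      (fs e ε u) (fs e ε v) := fun hu hv h ε => fs_hc hn hk hde ε hu hv h
  have f12 : fs e true u₁ = fs e false u₂ := by
    funext i δ
    simp only [fs]
    split_ifs with hi
    · exact h12.lt i hi δ
    · exact h12.eq
  have f34 : fs e true u₃ = fs e false u₄ := by
    funext i δ
    simp only [fs]
    split_ifs with hi
    · exact h34.lt i hi δ
    · exact h34.eq
  have main : fs e true (CStream.hc d m A₁ B₁ A₃ B₃ u₁ u₃) =
      fs e false (CStream.hc d m A₂ B₂ A₄ B₄ u₂ u₄) := by
    rw [key h₁ h₃ h13, key h₂ h₄ h24, f12, f34, h12.src, h12.tgt, h34.src, h34.tgt]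
  refine ⟨?_, ?_, ?_, ?_⟩
  · rw [Y.bd_comp _ (by omega) h13.src, Y.bd_comp _ (by omega) h24.src, h12.src, h34.src]
  · rw [Y.bd_comp _ (by omega) h13.tgt, Y.bd_comp _ (by omega) h24.tgt, h12.tgt, h34.tgt]
  · intro i hi δ
    have := congrFun (congrFun main i) δ
    rwa [fs_lt hi, fs_lt hi] at this
  · have := congrFun (congrFun main e) true
    rwa [fs_self, fs_self] at this

/-- Interchange for cylinders. -/
lemma hc_interchange {d e m n k : ℕ} (hn : m + d = n) (hk : m + e = k) (hde : d < e)
    {A₁ B₁ A₂ B₂ A₃ B₃ A₄ B₄ : Y.Cell} {u₁ u₂ u₃ u₄ : CStream Y}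
    (h₁ : IsCyl m A₁ B₁ u₁) (h₂ : IsCyl m A₂ B₂ u₂) (h₃ : IsCyl m A₃ B₃ u₃)
    (h₄ : IsCyl m A₄ B₄ u₄)
    (h12 : Composable e k A₁ B₁ A₂ B₂ u₁ u₂) (h34 : Composable e k A₃ B₃ A₄ B₄ u₃ u₄)
    (h13 : Composable d n A₁ B₁ A₃ B₃ u₁ u₃) (h24 : Composable d n A₂ B₂ A₄ B₄ u₂ u₄) :
    hc d m (Y.comp k A₁ A₂) (Y.comp k B₁ B₂) (Y.comp k A₃ A₄) (Y.comp k B₃ B₄)
      (hc e m A₁ B₁ A₂ B₂ u₁ u₂) (hc e m A₃ B₃ A₄ B₄ u₃ u₄) =
    hc e m (Y.comp n A₁ A₃) (Y.comp n B₁ B₃) (Y.comp n A₂ A₄) (Y.comp n B₂ B₄)
      (hc d m A₁ B₁ A₃ B₃ u₁ u₃) (hc d m A₂ B₂ A₄ B₄ u₂ u₄) := by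
  induction d generalizing e m A₁ B₁ A₂ B₂ A₃ B₃ A₄ B₄ u₁ u₂ u₃ u₄ with
  | zero =>
    obtain rfl : m = n := by omega
    obtain ⟨e, rfl⟩ : ∃ e', e = e' + 1 := ⟨e - 1, by omega⟩
    refine stream_ext ?_ ?_
    · intro δ
      cases δ <;> rfl
    · rw [shift_hc_zero, shift_hc_succ, shift_hc_succ, shift_hc_succ, shift_hc_zero, shift_hc_zero,
        hc_zero_false, hc_zero_true, hc_zero_false, hc_zero_true]
      have hk' : m + 1 + e = k := by omega
      have t12 := h12.tail hk h₁ h₂
      have t34 := h34.tail hk h₃ h₄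
      have eL : cw m (hc e (m + 1) (Y.comp m (u₁ 0 false) B₁) (Y.comp m A₁ (u₁ 0 true))
          (Y.comp m (u₂ 0 false) B₂) (Y.comp m A₂ (u₂ 0 true)) (shift u₁) (shift u₂))
          (deg (m + 1) (Y.comp k B₃ B₄)) =
          hc e (m + 1) (Y.comp m (Y.comp m (u₁ 0 false) B₁) B₃)
            (Y.comp m (Y.comp m A₁ (u₁ 0 true)) B₃)
            (Y.comp m (Y.comp m (u₂ 0 false) B₂) B₄)
            (Y.comp m (Y.comp m A₂ (u₂ 0 true)) B₄)
            (cw m (shift u₁) (deg (m + 1) B₃)) (cw m (shift u₂) (deg (m + 1) B₄)) := by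
        rw [← hc_deg hk' h34.tgt]
        exact cw_hc hk' (by omega) h₁.tail h₂.tail (isCyl_deg _ _) (isCyl_deg _ _) t12
          (composable_deg hk' h34.tgt)
          (by rw [Y.bd_target_comp h₁.head.comp_src]; exact h13.tgt)
      have eR : cw m (deg (m + 1) (Y.comp k A₁ A₂)) (hc e (m + 1) (Y.comp m (u₃ 0 false) B₃)
          (Y.comp m A₃ (u₃ 0 true)) (Y.comp m (u₄ 0 false) B₄) (Y.comp m A₄ (u₄ 0 true))
          (shift u₃) (shift u₄)) =
          hc e (m + 1) (Y.comp m A₁ (Y.comp m (u₃ 0 false) B₃))
            (Y.comp m A₁ (Y.comp m A₃ (u₃ 0 true)))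
            (Y.comp m A₂ (Y.comp m (u₄ 0 false) B₄))
            (Y.comp m A₂ (Y.comp m A₄ (u₄ 0 true)))
            (cw m (deg (m + 1) A₁) (shift u₃)) (cw m (deg (m + 1) A₂) (shift u₄)) := by
        rw [← hc_deg hk' h12.src]
        exact cw_hc hk' (by omega) (isCyl_deg _ _) (isCyl_deg _ _) h₃.tail h₄.tail
          (composable_deg hk' h12.src) t34
          (by rw [Y.bd_source_comp h₃.head.comp_src, h₃.head.src]; exact h13.src)
      rw [eL, eR]
      have l1 := isCyl_hcL h₁ h13
      have l2 := isCyl_hcR h₁ h₃ h13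
      have l3 := isCyl_hcL h₂ h24
      have l4 := isCyl_hcR h₂ h₄ h24
      have e13 : u₁ 0 true = u₃ 0 false := h13.eq
      have e24 : u₂ 0 true = u₄ 0 false := h24.eq
      have a1 : Y.comp m A₁ (Y.comp m (u₃ 0 false) B₃) =
          Y.comp m (Y.comp m A₁ (u₁ 0 true)) B₃ := by
        rw [Y.comp_assoc h₁.head.comp_tgt (by rw [e13]; exact h₃.head.comp_src), e13]
      have a2 : Y.comp m A₂ (Y.comp m (u₄ 0 false) B₄) =
          Y.comp m (Y.comp m A₂ (u₂ 0 true)) B₄ := by
        rw [Y.comp_assoc h₂.head.comp_tgt (by rw [e24]; exact h₄.head.comp_src), e24]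
      have a3 : Y.comp m (Y.comp m (u₁ 0 false) B₁) B₃ =
          Y.comp m (u₁ 0 false) (Y.comp m B₁ B₃) := Y.comp_assoc h₁.head.comp_src h13.tgt
      have a4 : Y.comp m (Y.comp m (u₂ 0 false) B₂) B₄ =
          Y.comp m (u₂ 0 false) (Y.comp m B₂ B₄) := Y.comp_assoc h₂.head.comp_src h24.tgt
      have a5 : Y.comp m A₁ (Y.comp m A₃ (u₃ 0 true)) =
          Y.comp m (Y.comp m A₁ A₃) (u₃ 0 true) := (Y.comp_assoc h13.src h₃.head.comp_tgt).symm
      have a6 : Y.comp m A₂ (Y.comp m A₄ (u₄ 0 true)) =
          Y.comp m (Y.comp m A₂ A₄) (u₄ 0 true) := (Y.comp_assoc h24.src h₄.head.comp_tgt).symm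
      rw [a1, a2, a3, a4, a5, a6]
      have c1 := t12.cw (m := m + 1) (j := m) hk' (by omega) h₁.tail (isCyl_deg _ B₃)
        (composable_deg hk' h34.tgt)
        (by rw [Y.bd_target_comp h₁.head.comp_src]; exact h13.tgt)
      have c2 := (composable_deg (m := m + 1) hk' h12.src).cw (m := m + 1) (j := m) hk' (by omega)
        (isCyl_deg _ A₁) h₃.tail t34
        (by rw [Y.bd_source_comp h₃.head.comp_src, h₃.head.src]; exact h13.src)
      rw [a3, a4] at c1
      rw [a1, a2, a5, a6] at c2
      exact concat_hc hk' l1 l3 l2 l4 c1 c2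
  | succ d ih =>
    obtain ⟨e, rfl⟩ : ∃ e', e = e' + 1 := ⟨e - 1, by omega⟩
    refine stream_ext ?_ ?_
    · intro δ
      rfl
    · rw [shift_hc_succ, shift_hc_succ, shift_hc_succ, shift_hc_succ, shift_hc_succ, shift_hc_succ,
        hc_succ_zero, hc_succ_zero, hc_succ_zero, hc_succ_zero, hc_succ_zero, hc_succ_zero,
        hc_succ_zero, hc_succ_zero, ← h12.end1 hk h₁ h₂, ← h12.end2 hk h₁ h₂,
        ← h34.end1 hk h₃ h₄, ← h34.end2 hk h₃ h₄, ← h13.end1 hn h₁ h₃, ← h13.end2 hn h₁ h₃,
        ← h24.end1 hn h₂ h₄, ← h24.end2 hn h₂ h₄]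
      exact ih (by omega) (by omega) (by omega) h₁.tail h₂.tail h₃.tail h₄.tail
        (h12.tail hk h₁ h₂) (h34.tail hk h₃ h₄) (h13.tail hn h₁ h₃) (h24.tail hn h₂ h₄)

/-! ### Functoriality -/

section map

variable {Z : OmegaCat} (f : Y ⟶ Z)

/-- Image of a stream. -/
def map (u : CStream Y) : CStream Z := fun i δ => f.toFun (u i δ)

lemma shift_map (u : CStream Y) : shift (map f u) = map f (shift u) := rfl

lemma isCyl_map {m : ℕ} {A B : Y.Cell} {u : CStream Y} (hu : IsCyl m A B u) :
    IsCyl m (f.toFun A) (f.toFun B) (map f u) := by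
  refine IsCyl.coind (fun m C D v => ∃ A B u, IsCyl m A B u ∧ C = f.toFun A ∧ D = f.toFun B ∧
    v = map f u) ?_ ⟨A, B, u, hu, rfl, rfl, rfl⟩
  rintro m C D v ⟨A, B, u, hu, rfl, rfl, rfl⟩
  refine ⟨⟨?_, ?_, ?_, ?_⟩, ?_⟩
  · intro j hj ε
    rw [← f.map_bd, ← f.map_bd, hu.head.par j hj]
  · intro ε
    simp only [map]
    rw [← f.map_bd, ← f.map_bd, hu.head.src]
  · intro ε
    simp only [map]
    rw [← f.map_bd, ← f.map_bd, hu.head.tgt]
  · intro ε
    simp only [map]
    rw [← f.map_bd, hu.head.dim]
  · refine ⟨_, _, _, hu.tail, ?_, ?_, rfl⟩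
    · exact (f.map_comp m _ _ hu.head.comp_src).symm
    · exact (f.map_comp m _ _ hu.head.comp_tgt).symm

lemma map_deg (m : ℕ) (c : Y.Cell) : map f (deg m c) = deg m (f.toFun c) := by
  funext i δ
  simp only [map, deg, f.map_bd]

lemma map_cst (c : Y.Cell) : map f (cst c) = cst (f.toFun c) := rfl

lemma map_fs (d : ℕ) (ε : Bool) (u : CStream Y) : map f (fs d ε u) = fs d ε (map f u) := by
  funext i δ
  simp only [map, fs]
  split_ifs <;> rfl

lemma map_cw {m j : ℕ} (hj : j < m) {A B C D : Y.Cell} {u v : CStream Y}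
    (hu : IsCyl m A B u) (hv : IsCyl m C D v) (h : Y.bd j true A = Y.bd j false C) :
    map f (cw j u v) = cw j (map f u) (map f v) := by
  funext i δ
  simp only [map, cw]
  refine f.map_comp _ _ _ ?_
  rw [hu.bd_lt hj, hv.bd_lt hj, h]

lemma map_concat {m : ℕ} {A B C : Y.Cell} {u v : CStream Y}
    (hu : IsCyl m A B u) (hv : IsCyl m B C v) :
    map f (concat m u v) = concat m (map f u) (map f v) := by
  funext i
  induction i generalizing m A B C u v with
  | zero =>
    funext δ
    exact f.map_comp _ _ _ (hu.head.cc hv.head δ)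
  | succ i ih =>
    have := ih (isCyl_whL hu hv) (isCyl_whR hu hv)
    rw [map_cw f (by omega) (isCyl_cst (hu.head.dim false)) hv.tail (by
        rw [Y.bd_source_comp hv.head.comp_src]; exact hu.head.cc hv.head false),
      map_cw f (by omega) hu.tail (isCyl_cst (hv.head.dim true)) (by
        rw [Y.bd_target_comp hu.head.comp_src]; exact hv.head.comp_tgt)] at this
    exact this

lemma map_hc {d m n : ℕ} (hn : m + d = n) {A B C D : Y.Cell} {u v : CStream Y}
    (hu : IsCyl m A B u) (hv : IsCyl m C D v) (h : Composable d n A B C D u v) :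
    map f (hc d m A B C D u v) = hc d m (f.toFun A) (f.toFun B) (f.toFun C) (f.toFun D)
      (map f u) (map f v) := by
  induction d generalizing m A B C D u v with
  | zero =>
    obtain rfl : m = n := by omega
    refine stream_ext ?_ ?_
    · intro δ
      cases δ <;> rfl
    · rw [shift_map, shift_hc_zero, shift_hc_zero,
        map_concat f (isCyl_hcL hu h) (isCyl_hcR hu hv h),
        map_cw f (by omega) hu.tail (isCyl_deg _ _) (by
          rw [Y.bd_target_comp hu.head.comp_src]; exact h.tgt),
        map_cw f (by omega) (isCyl_deg _ _) hv.tail (by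
          rw [Y.bd_source_comp hv.head.comp_src, hv.head.src]; exact h.src),
        map_deg, map_deg]
      rfl
  | succ d ih =>
    refine stream_ext ?_ ?_
    · intro δ
      rfl
    · rw [shift_map, shift_hc_succ, shift_hc_succ, ih (by omega) hu.tail hv.tail
        (h.tail hn hu hv), f.map_comp m _ _ hu.head.comp_src, f.map_comp m _ _ hu.head.comp_tgt,
        f.map_comp m _ _ hv.head.comp_src, f.map_comp m _ _ hv.head.comp_tgt]
      rfl

lemma Composable.map {d n : ℕ} {A B C D : Y.Cell} {u v : CStream Y}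
    (h : Composable d n A B C D u v) :
    Composable d n (f.toFun A) (f.toFun B) (f.toFun C) (f.toFun D) (map f u) (map f v) where
  src := by rw [← f.map_bd, ← f.map_bd, h.src]
  tgt := by rw [← f.map_bd, ← f.map_bd, h.tgt]
  lt := fun i hi δ => by simp only [CStream.map, h.lt i hi]
  eq := by simp only [CStream.map, h.eq]

end map

end CStream

open CStream

/-- A cylinder in `Y` (a cell of the path object). -/
structure CylCell (Y : OmegaCat) where
  X : Y.Cell
  Z : Y.Cell
  u : CStream Y
  isCyl : IsCyl 0 X Z u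
  fin : ∃ n, Y.bd n false X = X ∧ Y.bd n false Z = Z ∧ fs n false u = u

namespace CylCell

variable {Y : OmegaCat}

@[ext]
lemma ext {x y : CylCell Y} (hX : x.X = y.X) (hZ : x.Z = y.Z) (hu : x.u = y.u) : x = y := by
  cases x
  cases y
  simp only at hX hZ hu
  subst hX hZ hu
  rfl

/-- Faces of cylinders. -/
def face (n : ℕ) (ε : Bool) (x : CylCell Y) : CylCell Y where
  X := Y.bd n ε x.X
  Z := Y.bd n ε x.Z
  u := fs n ε x.u
  isCyl := isCyl_fs (by omega) ε x.isCyl
  fin := ⟨n, Y.bd_bd_ge _ _ _ le_rfl, Y.bd_bd_ge _ _ _ le_rfl, fs_fs_ge le_rfl _ _ _⟩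

/-- Composable pairs of cylinders. -/
def Comp (n : ℕ) (x y : CylCell Y) : Prop := Composable n n x.X x.Z y.X y.Z x.u y.u

lemma comp_iff {n : ℕ} {x y : CylCell Y} : Comp n x y ↔ face n true x = face n false y := by
  constructor
  · intro h
    refine CylCell.ext h.src h.tgt ?_
    funext i δ
    simp only [face, fs]
    split_ifs with hi
    · exact h.lt i hi δ
    · exact h.eq
  · intro h
    have hX : Y.bd n true x.X = Y.bd n false y.X := congrArg CylCell.X h
    have hZ : Y.bd n true x.Z = Y.bd n false y.Z := congrArg CylCell.Z h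
    have hu : fs n true x.u = fs n false y.u := congrArg CylCell.u h
    refine ⟨hX, hZ, ?_, ?_⟩
    · intro i hi δ
      have := congrFun (congrFun hu i) δ
      rwa [fs_lt hi, fs_lt hi] at this
    · have := congrFun (congrFun hu n) true
      rwa [fs_self, fs_self] at this

/-- The composite of two composable cylinders. -/
def comp' (n : ℕ) (x y : CylCell Y) (h : Comp n x y) : CylCell Y where
  X := Y.comp n x.X y.X
  Z := Y.comp n x.Z y.Z
  u := hc n 0 x.X x.Z y.X y.Z x.u y.u
  isCyl := isCyl_hc (by omega) x.isCyl y.isCyl h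
  fin := by
    obtain ⟨a, ha, ha', ha''⟩ := x.fin
    obtain ⟨b, hb, hb', hb''⟩ := y.fin
    refine ⟨a + b + n + 1, ?_, ?_, ?_⟩
    · rw [Y.bd_comp _ (by omega) h.src, bd_of_dim ha (by omega), bd_of_dim hb (by omega)]
    · rw [Y.bd_comp _ (by omega) h.tgt, bd_of_dim ha' (by omega), bd_of_dim hb' (by omega)]
    · have e1 : fs (a + b + n + 1) false x.u = x.u := by
        rw [← ha'', fs_fs_ge (by omega)]
      have e2 : fs (a + b + n + 1) false y.u = y.u := by
        rw [← hb'', fs_fs_ge (by omega)]
      rw [fs_hc (k := a + b + n + 1) (n := n) (by omega) (by omega) (by omega) false x.isCyl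
        y.isCyl h, e1, e2, bd_of_dim ha (by omega), bd_of_dim hb (by omega),
        bd_of_dim ha' (by omega), bd_of_dim hb' (by omega)]

open Classical in
/-- Composition of cylinders (with a junk value if they are not composable). -/
noncomputable def comp (n : ℕ) (x y : CylCell Y) : CylCell Y :=
  if h : Comp n x y then comp' n x y h else x

lemma comp_eq {n : ℕ} {x y : CylCell Y} (h : Comp n x y) : comp n x y = comp' n x y h := by
  rw [comp, dif_pos h]

end CylCell

/-- The path object of an `ω`-category. -/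
noncomputable def gammaObj (Y : OmegaCat) : OmegaCat where
  Cell := CylCell Y
  bd := CylCell.face
  comp := CylCell.comp
  bd_bd_lt η ε x hjk := CylCell.ext (Y.bd_bd_lt _ _ _ hjk) (Y.bd_bd_lt _ _ _ hjk)
    (fs_fs_lt hjk _ _ _)
  bd_bd_ge η ε x hjk := CylCell.ext (Y.bd_bd_ge _ _ _ hjk) (Y.bd_bd_ge _ _ _ hjk)
    (fs_fs_ge hjk _ _ _)
  bd_source_comp {k x y} h := by
    have h' := CylCell.comp_iff.mpr h
    rw [CylCell.comp_eq h']
    exact CylCell.ext (Y.bd_source_comp h'.src) (Y.bd_source_comp h'.tgt) (fs_hc_source _ _ _ _ _ _)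
  bd_target_comp {k x y} h := by
    have h' := CylCell.comp_iff.mpr h
    rw [CylCell.comp_eq h']
    exact CylCell.ext (Y.bd_target_comp h'.src) (Y.bd_target_comp h'.tgt) (fs_hc_target h')
  bd_comp {j k} ε {x y} hjk h := by
    have h' := CylCell.comp_iff.mpr h
    have h'' : CylCell.Comp k (CylCell.face j ε x) (CylCell.face j ε y) := by
      refine ⟨?_, ?_, ?_, ?_⟩
      · exact (Y.bd_bd_lt _ _ _ hjk).trans (h'.src.trans (Y.bd_bd_lt _ _ _ hjk).symm)
      · exact (Y.bd_bd_lt _ _ _ hjk).trans (h'.tgt.trans (Y.bd_bd_lt _ _ _ hjk).symm)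
      · intro i hi δ
        simp only [CylCell.face]
        rw [fs_lt (by omega), fs_lt (by omega), h'.lt i hi]
      · simp only [CylCell.face]
        rw [fs_lt hjk, fs_lt hjk, h'.eq]
    rw [CylCell.comp_eq h', CylCell.comp_eq h'']
    exact CylCell.ext (Y.bd_comp _ hjk h'.src) (Y.bd_comp _ hjk h'.tgt)
      (fs_hc (by omega) (by omega) hjk ε x.isCyl y.isCyl h')
  comp_target k x := by
    have h : CylCell.Comp k x (CylCell.face k true x) := composable_target k k _ _ _
    rw [CylCell.comp_eq h]
    exact CylCell.ext (Y.comp_target _ _) (Y.comp_target _ _) (hc_target (by omega) x.isCyl)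
  source_comp k x := by
    have h : CylCell.Comp k (CylCell.face k false x) x := composable_source k k _ _ _
    rw [CylCell.comp_eq h]
    exact CylCell.ext (Y.source_comp _ _) (Y.source_comp _ _) (hc_source (by omega) x.isCyl)
  comp_assoc {k x y z} h h' := by
    have g := CylCell.comp_iff.mpr h
    have g' := CylCell.comp_iff.mpr h'
    have g1 : CylCell.Comp k (CylCell.comp' k x y g) z := g.hc_left g'
    have g2 : CylCell.Comp k x (CylCell.comp' k y z g') := g.hc_right g'
    rw [CylCell.comp_eq g, CylCell.comp_eq g', CylCell.comp_eq g1, CylCell.comp_eq g2]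
    exact CylCell.ext (Y.comp_assoc g.src g'.src) (Y.comp_assoc g.tgt g'.tgt)
      (hc_assoc (by omega) x.isCyl y.isCyl z.isCyl g g')
  interchange {j k x y x' y'} hjk h h' g g' := by
    have h12 := CylCell.comp_iff.mpr h
    have h34 := CylCell.comp_iff.mpr h'
    have h13 := CylCell.comp_iff.mpr g
    have h24 := CylCell.comp_iff.mpr g'
    have c1 : CylCell.Comp k (CylCell.comp' j x x' h13) (CylCell.comp' j y y' h24) :=
      Composable.hc (m := 0) (d := j) (e := k) (n := j) (k := k) (by omega) (by omega) hjk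
        x.isCyl y.isCyl x'.isCyl y'.isCyl h12 h34 h13 h24
    have c2 : CylCell.Comp j (CylCell.comp' k x y h12) (CylCell.comp' k x' y' h34) := by
      refine ⟨?_, ?_, ?_, ?_⟩
      · simp only [CylCell.comp']
        rw [bd_lt_comp _ hjk h12.src, bd_lt_comp _ hjk h34.src, h13.src]
      · simp only [CylCell.comp']
        rw [bd_lt_comp _ hjk h12.tgt, bd_lt_comp _ hjk h34.tgt, h13.tgt]
      · intro i hi δ
        simp only [CylCell.comp']
        rw [hc_lt (by omega), hc_lt (by omega), h13.lt i hi]
      · simp only [CylCell.comp']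
        rw [hc_lt hjk, hc_lt hjk, h13.eq]
    rw [CylCell.comp_eq h12, CylCell.comp_eq h34, CylCell.comp_eq h13, CylCell.comp_eq h24,
      CylCell.comp_eq c1, CylCell.comp_eq c2]
    exact CylCell.ext (Y.interchange hjk h12.src h34.src h13.src h24.src)
      (Y.interchange hjk h12.tgt h34.tgt h13.tgt h24.tgt)
      (hc_interchange (by omega) (by omega) hjk x.isCyl y.isCyl x'.isCyl y'.isCyl
        h12 h34 h13 h24)
  finite_dim x := by
    obtain ⟨n, h1, h2, h3⟩ := x.fin
    exact ⟨n, CylCell.ext h1 h2 h3⟩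

/-- Image of a cylinder. -/
def CylCell.map {Y Z : OmegaCat} (f : Y ⟶ Z) (x : CylCell Y) : CylCell Z where
  X := f.toFun x.X
  Z := f.toFun x.Z
  u := CStream.map f x.u
  isCyl := isCyl_map f x.isCyl
  fin := by
    obtain ⟨n, h1, h2, h3⟩ := x.fin
    refine ⟨n, ?_, ?_, ?_⟩
    · rw [← f.map_bd, h1]
    · rw [← f.map_bd, h2]
    · rw [← map_fs, h3]

/-- The path object functor. -/
noncomputable def Gamma : OmegaCat ⥤ OmegaCat where
  obj := gammaObj
  map {Y Z} f :=
    { toFun := CylCell.map f
      map_bd := fun k ε x => CylCell.ext (f.map_bd _ _ _) (f.map_bd _ _ _) (map_fs f _ _ _)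
      map_comp := fun k x y h => by
        have h1 : CylCell.Comp k x y := CylCell.comp_iff.mpr h
        have h2 : CylCell.Comp k (CylCell.map f x) (CylCell.map f y) := h1.map f
        change CylCell.map f (CylCell.comp k x y) =
          CylCell.comp k (CylCell.map f x) (CylCell.map f y)
        rw [CylCell.comp_eq h1, CylCell.comp_eq h2]
        exact CylCell.ext (f.map_comp _ _ _ h1.src) (f.map_comp _ _ _ h1.tgt)
          (map_hc f (by omega) x.isCyl y.isCyl h1) }
  map_id Y := by
    ext x
    rfl
  map_comp f g := by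
    ext x
    rfl

/-- The bottom of a cylinder. -/
noncomputable def Gamma.e0 : Gamma ⟶ 𝟭 OmegaCat where
  app Y :=
    { toFun := fun x => CylCell.X x
      map_bd := fun _ _ _ => rfl
      map_comp := fun k x y h => by
        have h1 : CylCell.Comp k x y := CylCell.comp_iff.mpr h
        change CylCell.X (CylCell.comp k x y) = _
        rw [CylCell.comp_eq h1]
        rfl }
  naturality Y Z f := rfl

/-- The top of a cylinder. -/
noncomputable def Gamma.e1 : Gamma ⟶ 𝟭 OmegaCat where
  app Y :=
    { toFun := fun x => CylCell.Z x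
      map_bd := fun _ _ _ => rfl
      map_comp := fun k x y h => by
        have h1 : CylCell.Comp k x y := CylCell.comp_iff.mpr h
        change CylCell.Z (CylCell.comp k x y) = _
        rw [CylCell.comp_eq h1]
        rfl }
  naturality Y Z f := rfl

/-- Degenerate cylinders. -/
def CylCell.deg {Y : OmegaCat} (c : Y.Cell) : CylCell Y where
  X := c
  Z := c
  u := CStream.deg 0 c
  isCyl := isCyl_deg 0 c
  fin := by
    obtain ⟨n, hn⟩ := Y.finite_dim c
    refine ⟨n, hn, hn, ?_⟩
    rw [fs_deg, Nat.zero_add, hn]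

/-- Degenerate cylinders. -/
noncomputable def Gamma.deg : 𝟭 OmegaCat ⟶ Gamma where
  app Y :=
    { toFun := fun c => CylCell.deg c
      map_bd := fun k ε c => CylCell.ext rfl rfl (by
        change CStream.deg 0 (Y.bd k ε c) = fs k ε (CStream.deg 0 c)
        rw [fs_deg, Nat.zero_add]
        rfl)
      map_comp := fun k x y h => by
        have h' : Y.bd k true x = Y.bd k false y := h
        have h1 : CylCell.Comp k (CylCell.deg x) (CylCell.deg y) :=
          composable_deg (m := 0) (d := k) (by omega) h'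
        change CylCell.deg (Y.comp k x y) = CylCell.comp k (CylCell.deg x) (CylCell.deg y)
        rw [CylCell.comp_eq h1]
        exact CylCell.ext rfl rfl (hc_deg (m := 0) (d := k) (by omega) h').symm }
  naturality Y Z f := by
    ext c
    exact CylCell.ext rfl rfl (map_deg f 0 c).symm

theorem Gamma.deg_e0 : Gamma.deg ≫ Gamma.e0 = 𝟙 _ := rfl
theorem Gamma.deg_e1 : Gamma.deg ≫ Gamma.e1 = 𝟙 _ := rfl

lemma CStream.eq_cst {Y : OmegaCat} {m : ℕ} (h : ∀ x : Y.Cell, Y.bd m false x = x) {A B : Y.Cell}
    {u : CStream Y} (hu : IsCyl m A B u) : A = B ∧ u = cst A := by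
  suffices H : ∀ i δ, u i δ = A ∧ A = B from ⟨(H 0 false).2, funext fun i => funext fun δ =>
    (H i δ).1⟩
  intro i
  induction i generalizing m A B u with
  | zero =>
    intro δ
    have h1 := hu.head.src δ
    have h2 := hu.head.tgt δ
    rw [bd_of_dim (h _) le_rfl, bd_of_dim (h _) le_rfl] at h1 h2
    exact ⟨h1, h1.symm.trans h2⟩
  | succ i ih =>
    intro δ
    have h1 := hu.head.src
    have h2 := hu.head.tgt
    have h1' : ∀ δ, u 0 δ = A := fun δ => by
      have := h1 δ
      rwa [bd_of_dim (h _) le_rfl, bd_of_dim (h _) le_rfl] at this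
    have h2' : ∀ δ, u 0 δ = B := fun δ => by
      have := h2 δ
      rwa [bd_of_dim (h _) le_rfl, bd_of_dim (h _) le_rfl] at this
    have hAB : A = B := (h1' true).symm.trans (h2' true)
    have := ih (m := m + 1) (fun x => bd_of_dim (h x) (by omega) false) hu.tail δ
    rw [h1', h1', ← hAB, comp_self_of_dim (h _) le_rfl] at this
    exact ⟨this.1, hAB⟩

lemma CStream.fs_of_isNCat {Y : OmegaCat} {d m n : ℕ} (hn : m + d = n)
    (h : ∀ x : Y.Cell, Y.bd n false x = x) {A B : Y.Cell}
    {u : CStream Y} (hu : IsCyl m A B u) (ε : Bool) : fs d ε u = u := by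
  induction d generalizing m A B u with
  | zero =>
    obtain rfl : m = n := by omega
    rw [(eq_cst h hu).2, fs_cst]
  | succ d ih =>
    refine stream_ext (fun δ => fs_succ_zero _ _ _ _) ?_
    rw [shift_fs, ih (by omega) hu.tail]

theorem Gamma.isNCat (n : ℕ∞) (X : OmegaCat) (h : OmegaCat.IsNCat n X) :
    OmegaCat.IsNCat n (Gamma.obj X) := fun k hk x =>
  CylCell.ext (h k hk _) (h k hk _) (fs_of_isNCat (by omega) (h k hk) (CylCell.isCyl x) false)

end Vale.Agent.P213
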