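import Vale.Agent.Lib.P213.Cyl

/-! # Cylinders in `nu L`: rigidity and top chains -/

open CategoryTheory

namespace Vale.Agent.P213

open CStream

namespace Table

variable {L : Cpx}

lemma comp_x_gt {k : ℕ} {s t : Table L} (h : face k true s = face k false t) {y : L.B}
    (hy : k < L.dim y) (δ : Bool) : (comp k s t).x δ y = s.x δ y + t.x δ y := by
  rw [comp_x h, if_neg (by omega), if_neg (by omega)]

lemma x_eq_zero_of_face {k : ℕ} {ε : Bool} {t : Table L} (h : face k ε t = t) {y : L.B}
    (hy : k < L.dim y) (δ : Bool) : t.x δ y = 0 := by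
  rw [← h, face_x, if_neg (by omega), if_neg (by omega)]

lemma face_x_gt {k : ℕ} {ε : Bool} {t : Table L} {y : L.B}
    (hy : k < L.dim y) (δ : Bool) : (face k ε t).x δ y = 0 := by
  rw [face_x, if_neg (by omega), if_neg (by omega)]

lemma face_x_lt {k : ℕ} {ε : Bool} {t : Table L} {y : L.B}
    (hy : L.dim y < k) (δ : Bool) : (face k ε t).x δ y = t.x δ y := by
  rw [face_x, if_pos hy]

lemma face_x_eq {k : ℕ} {ε : Bool} {t : Table L} {y : L.B}
    (hy : L.dim y = k) (δ : Bool) : (face k ε t).x δ y = t.x ε y := by
  rw [face_x, if_neg (by omega), if_pos hy]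

lemma x_of_faces {m : ℕ} {δ : Bool} {w A B : Table L} (hs : face m false w = face m δ A)
    (ht : face m true w = face m δ B) (hd : face (m + 1) false w = w) (ε : Bool) (y : L.B) :
    w.x ε y = if L.dim y < m then A.x ε y else if L.dim y = m then
      (if ε then B else A).x δ y else if L.dim y = m + 1 then w.x ε y else 0 := by
  split_ifs with h1 h2 h3 h4
  · have := congrArg (fun w : Table L => w.x ε y) hs
    simpa only [face_x_lt h1] using this
  · have := congrArg (fun w : Table L => w.x true y) ht
    rw [h3]
    simpa only [face_x_eq h2] using this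
  · have := congrArg (fun w : Table L => w.x false y) hs
    rw [Bool.eq_false_iff.mpr h3]
    simpa only [face_x_eq h2] using this
  · rfl
  · exact x_eq_zero_of_face hd (by omega) ε

end Table

namespace CStream

variable {L : Cpx}

lemma head_x {m : ℕ} {A B : (nu L).Cell} {u : CStream (nu L)} (h : Head m A B u) (δ : Bool)
    (ε : Bool) (y : L.B) :
    Table.x (u 0 δ) ε y = if L.dim y < m then Table.x A ε y else if L.dim y = m then
      Table.x (if ε then B else A) δ y else if L.dim y = m + 1 then Table.x (u 0 δ) ε y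
      else 0 :=
  Table.x_of_faces (h.src δ) (h.tgt δ) (h.dim δ) ε y

/-- Rigidity: a cylinder in `nu L` is determined by its endpoints and the top chains of its
principal cells. -/
lemma isCyl_rigid {m : ℕ} {A B : (nu L).Cell} {u v : CStream (nu L)} (hu : IsCyl m A B u)
    (hv : IsCyl m A B v)
    (h : ∀ i δ ε y, L.dim y = m + i + 1 → Table.x (u i δ) ε y = Table.x (v i δ) ε y) :
    u = v := by
  funext i
  induction i generalizing m A B u v with
  | zero =>
    funext δ
    apply Table.ext
    funext ε y
    rw [head_x hu.head, head_x hv.head]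
    split_ifs with h1 h2 h3 h4
    · rfl
    · rfl
    · rfl
    · exact h 0 δ ε y h4
    · rfl
  | succ i ih =>
    have h0 : ∀ δ, u 0 δ = v 0 δ := by
      intro δ
      apply Table.ext
      funext ε y
      rw [head_x hu.head, head_x hv.head]
      split_ifs with h1 h2 h3 h4
      · rfl
      · rfl
      · rfl
      · exact h 0 δ ε y h4
      · rfl
    have hv' := hv.tail
    rw [← h0, ← h0] at hv'
    exact ih hu.tail hv' (fun i δ ε y hy => h (i + 1) δ ε y (by omega))

lemma concat_top {m : ℕ} {A B C : (nu L).Cell} {u v : CStream (nu L)} (hu : IsCyl m A B u)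
    (hv : IsCyl m B C v) (i : ℕ) (δ ε : Bool) (y : L.B) (hy : L.dim y = m + i + 1) :
    Table.x (concat m u v i δ) ε y = Table.x (u i δ) ε y + Table.x (v i δ) ε y := by
  induction i generalizing m A B C u v with
  | zero =>
    rw [concat_zero]
    exact Table.comp_x_gt (hu.head.cc hv.head δ) (by omega) ε
  | succ i ih =>
    rw [concat_succ, ih (isCyl_whL hu hv) (isCyl_whR hu hv) (by omega)]
    have h1 : (nu L).bd m true (u 0 false) = (nu L).bd m false (v (i + 1) δ) := by
      have := hv.tail.bd_lt (j := m) (by omega) false i δ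
      rw [show v (i + 1) δ = shift v i δ from rfl, this, (nu L).bd_source_comp hv.head.comp_src]
      exact hu.head.cc hv.head false
    have h2 : (nu L).bd m true (u (i + 1) δ) = (nu L).bd m false (v 0 true) := by
      have := hu.tail.bd_lt (j := m) (by omega) true i δ
      rw [show u (i + 1) δ = shift u i δ from rfl, this, (nu L).bd_target_comp hu.head.comp_src]
      exact hv.head.comp_tgt
    have h3 : Table.x (cw m (cst (u 0 false)) (shift v) i δ) ε y =
        Table.x (u 0 false) ε y + Table.x (v (i + 1) δ) ε y :=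
      Table.comp_x_gt h1 (by omega) ε
    have h4 : Table.x (cw m (shift u) (cst (v 0 true)) i δ) ε y =
        Table.x (u (i + 1) δ) ε y + Table.x (v 0 true) ε y :=
      Table.comp_x_gt h2 (by omega) ε
    have h5 : Table.x (u 0 false) ε y = 0 :=
      Table.x_eq_zero_of_face (k := m + 1) (ε := false) (hu.head.dim false) (by omega) ε
    have h6 : Table.x (v 0 true) ε y = 0 :=
      Table.x_eq_zero_of_face (k := m + 1) (ε := false) (hv.head.dim true) (by omega) ε
    rw [h3, h4, h5, h6, zero_add, add_zero, add_comm]

lemma hc_top {d m n : ℕ} (hn : m + d = n) {A B C D : (nu L).Cell} {u v : CStream (nu L)}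
    (hu : IsCyl m A B u) (hv : IsCyl m C D v) (h : Composable d n A B C D u v) (i : ℕ)
    (hi : d < i) (δ ε : Bool) (y : L.B) (hy : L.dim y = m + i + 1) :
    Table.x (hc d m A B C D u v i δ) ε y = Table.x (u i δ) ε y + Table.x (v i δ) ε y := by
  induction d generalizing m i A B C D u v with
  | zero =>
    obtain rfl : m = n := by omega
    obtain ⟨i, rfl⟩ : ∃ i', i = i' + 1 := ⟨i - 1, by omega⟩
    have e : hc 0 m A B C D u v (i + 1) δ =
      concat (m + 1) (cw m (shift u) (deg (m + 1) D)) (cw m (deg (m + 1) A) (shift v)) i δ := rfl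
    rw [e, concat_top (isCyl_hcL hu h) (isCyl_hcR hu hv h) i δ ε y (by omega)]
    have h1 : (nu L).bd m true (u (i + 1) δ) = (nu L).bd m false ((nu L).bd (m + 1 + i) δ D) := by
      have := hu.tail.bd_lt (j := m) (by omega) true i δ
      rw [show u (i + 1) δ = shift u i δ from rfl, this, (nu L).bd_target_comp hu.head.comp_src,
        h.tgt, (nu L).bd_bd_lt _ _ _ (by omega)]
    have h2 : (nu L).bd m true ((nu L).bd (m + 1 + i) δ A) = (nu L).bd m false (v (i + 1) δ) := by
      have := hv.tail.bd_lt (j := m) (by omega) false i δ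
      rw [show v (i + 1) δ = shift v i δ from rfl, this, (nu L).bd_source_comp hv.head.comp_src,
        (nu L).bd_bd_lt _ _ _ (by omega), hv.head.src, h.src]
    have h3 : Table.x (cw m (shift u) (deg (m + 1) D) i δ) ε y =
        Table.x (u (i + 1) δ) ε y + Table.x ((nu L).bd (m + 1 + i) δ D) ε y :=
      Table.comp_x_gt h1 (by omega) ε
    have h4 : Table.x (cw m (deg (m + 1) A) (shift v) i δ) ε y =
        Table.x ((nu L).bd (m + 1 + i) δ A) ε y + Table.x (v (i + 1) δ) ε y :=
      Table.comp_x_gt h2 (by omega) ε
    have h5 : Table.x ((nu L).bd (m + 1 + i) δ D) ε y = 0 :=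
      Table.face_x_gt (by omega) ε
    have h6 : Table.x ((nu L).bd (m + 1 + i) δ A) ε y = 0 :=
      Table.face_x_gt (by omega) ε
    rw [h3, h4, h5, h6, zero_add, add_zero]
  | succ d ih =>
    obtain ⟨i, rfl⟩ : ∃ i', i = i' + 1 := ⟨i - 1, by omega⟩
    exact ih (by omega) hu.tail hv.tail (h.tail hn hu hv) i (by omega) (by omega)

end CStream

end Vale.Agent.P213
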