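import Vale.Agent.Lib.P213.Defs

/-!
# Freeness of `nu K` for finite Steiner complexes (strongly loop-free, unital basis)
-/

open CategoryTheory

namespace Vale.Agent.P213

/-- Steiner complexes: atoms (unital basis), disjointness of sources and targets of atoms, and a
rank function witnessing strong loop-freeness. -/
structure Steiner (K : Cpx) where
  atom : K.B → Table K
  atom_self : ∀ (b : K.B) (ε : Bool), (atom b).x ε b = 1
  atom_top : ∀ (b a : K.B) (ε : Bool), K.dim b ≤ K.dim a → a ≠ b → (atom b).x ε a = 0
  atom_disj : ∀ b a : K.B, K.dim a < K.dim b → (atom b).x false a = 0 ∨ (atom b).x true a = 0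
  rank : K.B → ℕ
  rank_src : ∀ b a : K.B, K.dim a < K.dim b → (atom b).x false a ≠ 0 → rank a < rank b
  rank_tgt : ∀ b a : K.B, K.dim a < K.dim b → (atom b).x true a ≠ 0 → rank b < rank a

namespace Steiner

variable {K : Cpx} (S : Steiner K)

lemma top (a b : K.B) (e : Bool) (h : K.dim b ≤ K.dim a) :
    (S.atom b).x e a = if a = b then 1 else 0 := by
  by_cases hab : a = b
  · subst hab
    rw [if_pos rfl, S.atom_self]
  · rw [if_neg hab, S.atom_top b a e h hab]

lemma disj (a b : K.B) (h : K.dim a < K.dim b) :
    (S.atom b).x false a = 0 ∨ (S.atom b).x true a = 0 := S.atom_disj b a h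

lemma rsrc (a b : K.B) (h : K.dim a < K.dim b) (h' : (S.atom b).x false a ≠ 0) :
    S.rank a < S.rank b := S.rank_src b a h h'

lemma rtgt (a b : K.B) (h : K.dim a < K.dim b) (h' : (S.atom b).x true a ≠ 0) :
    S.rank b < S.rank a := S.rank_tgt b a h h'

end Steiner

/-- `Φ` is compatible with all operations on cells of dimension at most `n`. -/
def FunctorialOn {K : Cpx} {Y : OmegaCat} (n : ℕ) (Φ : Table K → Y.Cell) : Prop :=
  (∀ (k : ℕ) (ε : Bool) (t : Table K), Table.face n false t = t →
    Φ (Table.face k ε t) = Y.bd k ε (Φ t)) ∧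
  (∀ (k : ℕ) (s t : Table K), Table.face n false s = s → Table.face n false t = t →
    Table.face k true s = Table.face k false t →
    Φ (Table.comp k s t) = Y.comp k (Φ s) (Φ t))

namespace Free

open Finset

variable {K : Cpx}

/-- boundary of an integral chain -/
def bdZ (K : Cpx) (c : K.B → ℤ) (a : K.B) : ℤ := ∑ b : K.B, c b * K.bd b a

lemma bdry_eq_bdZ (c : K.B → ℕ) (a : K.B) : K.bdry c a = bdZ K (fun b => (c b : ℤ)) a := rfl

lemma bdZ_congr {c c' : K.B → ℤ} {a : K.B} (h : ∀ b, K.dim b = K.dim a + 1 → c b = c' b) :
    bdZ K c a = bdZ K c' a := by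
  refine Finset.sum_congr rfl fun b _ => ?_
  by_cases hb : K.bd b a = 0
  · simp [hb]
  · rw [h b (K.dim_of_bd b a hb)]

lemma bdZ_add (c c' : K.B → ℤ) (a : K.B) :
    bdZ K (fun b => c b + c' b) a = bdZ K c a + bdZ K c' a := by
  simp only [bdZ, add_mul, Finset.sum_add_distrib]

lemma bdZ_sub (c c' : K.B → ℤ) (a : K.B) :
    bdZ K (fun b => c b - c' b) a = bdZ K c a - bdZ K c' a := by
  simp only [bdZ, sub_mul, Finset.sum_sub_distrib]

lemma bdZ_sum {ι : Type} (s : Finset ι) (c : ι → K.B → ℤ) (a : K.B) :
    bdZ K (fun b => ∑ i ∈ s, c i b) a = ∑ i ∈ s, bdZ K (c i) a := by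
  simp only [bdZ, Finset.sum_mul]
  rw [Finset.sum_comm]

lemma bdZ_smul (m : ℤ) (c : K.B → ℤ) (a : K.B) :
    bdZ K (fun b => m * c b) a = m * bdZ K c a := by
  simp only [bdZ, Finset.mul_sum, mul_assoc]

/-- augmentation of an integral chain -/
def augZ (K : Cpx) (c : K.B → ℤ) : ℤ := ∑ b : K.B, if K.dim b = 0 then c b else 0

lemma aug_eq_augZ (c : K.B → ℕ) : (K.aug c : ℤ) = augZ K (fun b => (c b : ℤ)) := by
  simp only [Cpx.aug, augZ]
  push_cast
  rfl

lemma augZ_congr {c c' : K.B → ℤ} (h : ∀ b, K.dim b = 0 → c b = c' b) :
    augZ K c = augZ K c' := by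
  refine Finset.sum_congr rfl fun b _ => ?_
  by_cases hb : K.dim b = 0
  · simp [hb, h b hb]
  · simp [hb]

lemma augZ_add (c c' : K.B → ℤ) :
    augZ K (fun b => c b + c' b) = augZ K c + augZ K c' := by
  simp only [augZ, ← Finset.sum_add_distrib]
  refine Finset.sum_congr rfl fun b _ => ?_
  split_ifs <;> simp

lemma augZ_sub (c c' : K.B → ℤ) :
    augZ K (fun b => c b - c' b) = augZ K c - augZ K c' := by
  simp only [augZ, ← Finset.sum_sub_distrib]
  refine Finset.sum_congr rfl fun b _ => ?_
  split_ifs <;> simp

lemma augZ_sum {ι : Type} (s : Finset ι) (c : ι → K.B → ℤ) :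
    augZ K (fun b => ∑ i ∈ s, c i b) = ∑ i ∈ s, augZ K (c i) := by
  simp only [augZ]
  rw [Finset.sum_comm]
  refine Finset.sum_congr rfl fun b _ => ?_
  split_ifs <;> simp

lemma augZ_smul (m : ℤ) (c : K.B → ℤ) :
    augZ K (fun b => m * c b) = m * augZ K c := by
  simp only [augZ, Finset.mul_sum]
  refine Finset.sum_congr rfl fun b _ => ?_
  split_ifs <;> simp

lemma table_bdZ (t : Table K) (ε : Bool) (a : K.B) :
    bdZ K (fun b => (t.x ε b : ℤ)) a = t.x true a - t.x false a := t.bd ε a

lemma table_augZ (t : Table K) (ε : Bool) : augZ K (fun b => (t.x ε b : ℤ)) = 1 := by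
  rw [← aug_eq_augZ, t.aug]; rfl

/-- the arithmetic positivity lemma -/
lemma pos_arith {ι : Type} [Fintype ι] (u v : ℕ) (f t W w : ι → ℕ) (hw : ∀ e, w e ≤ W e)
    (hv : (v : ℤ) = u + ∑ e, (W e : ℤ) * ((t e : ℤ) - f e))
    (hd : ∀ e e', w e < W e → 0 < w e' → ¬ (t e ≠ 0 ∧ f e' ≠ 0)) :
    0 ≤ (u : ℤ) + ∑ e, (w e : ℤ) * ((t e : ℤ) - f e) := by
  by_cases h : ∃ e', 0 < w e' ∧ f e' ≠ 0
  · obtain ⟨e', h1, h2⟩ := h
    have key : (u : ℤ) + ∑ e, (w e : ℤ) * ((t e : ℤ) - f e) =
        v + ∑ e, ((W e : ℤ) - w e) * ((f e : ℤ) - t e) := by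
      rw [hv, add_assoc, ← Finset.sum_add_distrib]
      congr 1
      refine Finset.sum_congr rfl fun e _ => ?_
      ring
    rw [key]
    have : 0 ≤ ∑ e, ((W e : ℤ) - w e) * ((f e : ℤ) - t e) := by
      refine Finset.sum_nonneg fun e _ => ?_
      rcases (hw e).lt_or_eq with hlt | heq
      · have ht : t e = 0 := by
          by_contra ht
          exact hd e e' hlt h1 ⟨ht, h2⟩
        rw [ht]
        have : (0 : ℤ) ≤ (W e : ℤ) - w e := by omega
        have h3 : (0 : ℤ) ≤ (f e : ℤ) - (0 : ℕ) := by simp
        exact mul_nonneg this h3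
      · rw [heq]; simp
    have hv0 : (0 : ℤ) ≤ v := by positivity
    linarith
  · push Not at h
    have : 0 ≤ ∑ e, (w e : ℤ) * ((t e : ℤ) - f e) := by
      refine Finset.sum_nonneg fun e _ => ?_
      rcases Nat.eq_zero_or_pos (w e) with h0 | h0
      · simp [h0]
      · rw [h e h0]
        exact mul_nonneg (by positivity) (by simp)
    have hu0 : (0 : ℤ) ≤ u := by positivity
    linarith

/-- The general constructor of cells: given a table `x`, keep the degrees `< k`, put `u`, `v` in
degree `k` and a weighted sum of atoms in degrees `> k`. -/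
def piece (S : Steiner K) (x : Table K) (k : ℕ) (w u v : K.B → ℕ)
    (hu0 : k = 0 → K.aug u = 1)
    (hu1 : ∀ a, K.dim a + 1 = k → K.bdry u a = x.x true a - x.x false a)
    (huv : ∀ a, K.dim a = k → (v a : ℤ) =
      u a + ∑ e, (w e : ℤ) * (((S.atom e).x true a : ℤ) - (S.atom e).x false a)) : Table K where
  x δ b := if K.dim b < k then x.x δ b else if K.dim b = k then (if δ then v b else u b)
    else ∑ e, w e * (S.atom e).x δ b
  aug δ := by
    rcases Nat.eq_zero_or_pos k with hk | hk
    · cases δ
      · rw [← hu0 hk]
        refine K.aug_congr fun b h => ?_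
        rw [if_neg (by omega), if_pos (by omega)]
        rfl
      · have h1 : (K.aug (fun b => if K.dim b < k then x.x true b else if K.dim b = k then
            (if true then v b else u b) else ∑ e, w e * (S.atom e).x true b) : ℤ) = 1 := by
          rw [aug_eq_augZ]
          have : augZ K (fun b => (((if K.dim b < k then x.x true b else if K.dim b = k then
            (if true then v b else u b) else ∑ e, w e * (S.atom e).x true b) : ℕ) : ℤ)) =
            augZ K (fun b => (u b : ℤ) + ∑ e, (w e : ℤ) * (((S.atom e).x true b : ℤ) -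
              (S.atom e).x false b)) := by
            refine augZ_congr fun b h => ?_
            rw [if_neg (by omega), if_pos (by omega), if_pos rfl, huv b (by omega)]
          rw [this, augZ_add, ← aug_eq_augZ, hu0 hk, augZ_sum]
          have h2 : ∀ e ∈ (Finset.univ : Finset K.B), augZ K (fun b => (w e : ℤ) *
              (((S.atom e).x true b : ℤ) - (S.atom e).x false b)) = 0 := by
            intro e _
            rw [augZ_smul, augZ_sub, table_augZ, table_augZ]
            simp
          rw [Finset.sum_eq_zero h2]
          simp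
        exact_mod_cast h1
    · rw [← x.aug δ]
      refine K.aug_congr fun b h => ?_
      rw [if_pos (by omega)]
  bd δ a := by
    rcases lt_trichotomy (K.dim a + 1) k with h | h | h
    · rw [if_pos (by omega), if_pos (by omega), ← x.bd δ a]
      refine K.bdry_congr fun b hb => ?_
      rw [if_pos (by omega)]
    · rw [if_pos (by omega), if_pos (by omega), ← hu1 a h]
      cases δ
      · refine K.bdry_congr fun b hb => ?_
        rw [if_neg (by omega), if_pos (by omega)]
        rfl
      · rw [bdry_eq_bdZ, bdry_eq_bdZ]
        have : bdZ K (fun b => (((if K.dim b < k then x.x true b else if K.dim b = k then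
            (if true then v b else u b) else ∑ e, w e * (S.atom e).x true b) : ℕ) : ℤ)) a =
            bdZ K (fun b => (u b : ℤ) + ∑ e, (w e : ℤ) * (((S.atom e).x true b : ℤ) -
              (S.atom e).x false b)) a := by
          refine bdZ_congr fun b hb => ?_
          rw [if_neg (by omega), if_pos (by omega), if_pos rfl, huv b (by omega)]
        rw [this, bdZ_add, bdZ_sum]
        have h2 : ∀ e ∈ (Finset.univ : Finset K.B), bdZ K (fun b => (w e : ℤ) *
            (((S.atom e).x true b : ℤ) - (S.atom e).x false b)) a = 0 := by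
          intro e _
          rw [bdZ_smul, bdZ_sub, table_bdZ, table_bdZ]
          simp
        rw [Finset.sum_eq_zero h2]
        simp
    · have e1 : K.bdry (fun b => if K.dim b < k then x.x δ b else if K.dim b = k then
          (if δ then v b else u b) else ∑ e, w e * (S.atom e).x δ b) a =
          ∑ e, (w e : ℤ) * (((S.atom e).x true a : ℤ) - (S.atom e).x false a) := by
        rw [bdry_eq_bdZ]
        have : bdZ K (fun b => (((if K.dim b < k then x.x δ b else if K.dim b = k then
            (if δ then v b else u b) else ∑ e, w e * (S.atom e).x δ b) : ℕ) : ℤ)) a =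
            bdZ K (fun b => ∑ e, (w e : ℤ) * ((S.atom e).x δ b : ℤ)) a := by
          refine bdZ_congr fun b hb => ?_
          rw [if_neg (by omega), if_neg (by omega)]
          push_cast
          rfl
        rw [this, bdZ_sum]
        refine Finset.sum_congr rfl fun e _ => ?_
        rw [bdZ_smul, table_bdZ]
      rw [e1]
      by_cases hk : K.dim a = k
      · rw [if_neg (by omega), if_pos hk, if_pos rfl, if_neg (by omega), if_pos hk,
          if_neg (by simp), huv a hk]
        ring
      · rw [if_neg (by omega), if_neg hk, if_neg (by omega), if_neg hk]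
        push_cast
        rw [← Finset.sum_sub_distrib]
        refine Finset.sum_congr rfl fun e _ => ?_
        ring

variable (S : Steiner K)
include S

/-- the degree `dim b - 1` boundary coefficients of a basis element -/
lemma bd_atom {b c : K.B} (h : K.dim b = K.dim c + 1) :
    K.bd b c = (S.atom b).x true c - (S.atom b).x false c := by
  rw [← (S.atom b).bd false c, Cpx.bdry]
  rw [Finset.sum_eq_single b]
  · rw [S.top b b false le_rfl, if_pos rfl]
    simp
  · intro b' _ hb'
    by_cases h2 : K.bd b' c = 0
    · simp [h2]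
    · have h3 := K.dim_of_bd b' c h2
      rw [S.top b' b false (by omega), if_neg hb']
      simp
  · intro hb
    exact absurd (Finset.mem_univ b) hb

lemma atom_level_ne_zero (b : K.B) : ∀ j, j ≤ K.dim b → ∀ ε, ∃ c, K.dim c = j ∧
    (S.atom b).x ε c ≠ 0 := by
  intro j
  induction j with
  | zero =>
    intro _ ε
    by_contra hcon
    push Not at hcon
    have h := (S.atom b).aug ε
    rw [Cpx.aug, Finset.sum_eq_zero] at h
    · simp at h
    · intro c _
      by_cases hc : K.dim c = 0
      · simp [hc, hcon c hc]
      · simp [hc]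
  | succ j ih =>
    intro hj ε
    obtain ⟨c', hc', hne⟩ := ih (by omega) false
    have htr : (S.atom b).x true c' = 0 := by
      rcases S.disj c' b (by omega) with h | h
      · exact absurd h hne
      · exact h
    have h := (S.atom b).bd ε c'
    have hnz : K.bdry ((S.atom b).x ε) c' ≠ 0 := by
      rw [h, htr]
      simp only [Nat.cast_zero, zero_sub, ne_eq, neg_eq_zero]
      exact_mod_cast hne
    obtain ⟨b', _, hb'⟩ := Finset.exists_ne_zero_of_sum_ne_zero hnz
    refine ⟨b', ?_, ?_⟩
    · have := K.dim_of_bd b' c' (right_ne_zero_of_mul hb')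
      omega
    · have := left_ne_zero_of_mul hb'
      exact_mod_cast this

/-- cells are multiplicity free -/
theorem mult_free (x : Table K) (ε : Bool) (a : K.B) : x.x ε a ≤ 1 := by
  induction hd : K.dim a generalizing x ε a with
  | zero =>
    have h := x.aug ε
    rw [Cpx.aug] at h
    have := Finset.single_le_sum (f := fun b => if K.dim b = 0 then x.x ε b else 0)
      (fun _ _ => Nat.zero_le _) (Finset.mem_univ a)
    simp only [hd, if_true] at this
    omega
  | succ i ih =>
    by_contra hcon
    push Not at hcon
    classical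
    let W : K.B → ℕ := fun b => if K.dim b = i + 1 then x.x ε b else 0
    let w : K.B → ℕ := fun b => if K.dim b = i + 1 ∧ S.rank b < S.rank a then x.x ε b else 0
    have hwW : ∀ e, w e ≤ W e := by
      intro e
      simp only [w, W]
      split_ifs <;> first | omega | simp_all
    have htot : ∀ c, K.dim c = i → (x.x true c : ℤ) = x.x false c +
        ∑ e, (W e : ℤ) * (((S.atom e).x true c : ℤ) - (S.atom e).x false c) := by
      intro c hc
      have h := x.bd ε c
      rw [Cpx.bdry] at h
      have h2 : ∑ b : K.B, (x.x ε b : ℤ) * K.bd b c =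
          ∑ e, (W e : ℤ) * (((S.atom e).x true c : ℤ) - (S.atom e).x false c) := by
        refine Finset.sum_congr rfl fun e _ => ?_
        simp only [W]
        by_cases he : K.dim e = i + 1
        · rw [if_pos he, bd_atom S (by omega)]
        · rw [if_neg he]
          have : K.bd e c = 0 := by
            by_contra h3
            have := K.dim_of_bd e c h3
            omega
          rw [this]; simp
      rw [h2] at h
      linarith
    have hpos : ∀ c, K.dim c = i → 0 ≤ (x.x false c : ℤ) +
        ∑ e, (w e : ℤ) * (((S.atom e).x true c : ℤ) - (S.atom e).x false c) := by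
      intro c hc
      refine pos_arith (x.x false c) (x.x true c) (fun e => (S.atom e).x false c)
        (fun e => (S.atom e).x true c) W w hwW (htot c hc) ?_
      rintro e e' h1 h2 ⟨h3, h4⟩
      have he' : K.dim e' = i + 1 ∧ S.rank e' < S.rank a := by
        by_contra hne
        simp only [w, hne, if_false] at h2
        omega
      have he : K.dim e = i + 1 := by
        by_contra hne
        simp only [W, hne, if_false] at h1
        omega
      have he2 : ¬ S.rank e < S.rank a := by
        intro hlt
        simp only [w, W, he, hlt, and_self, if_true, lt_irrefl] at h1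
      have r1 := S.rtgt c e (by omega) h3
      have r2 := S.rsrc c e' (by omega) h4
      omega
    let v : K.B → ℕ := fun c => ((x.x false c : ℤ) +
        ∑ e, (w e : ℤ) * (((S.atom e).x true c : ℤ) - (S.atom e).x false c)).toNat
    have hv : ∀ c, K.dim c = i → (v c : ℤ) = x.x false c +
        ∑ e, (w e : ℤ) * (((S.atom e).x true c : ℤ) - (S.atom e).x false c) := by
      intro c hc
      exact Int.toNat_of_nonneg (hpos c hc)
    let t : Table K := piece S x i w (x.x false) v (fun _ => x.aug false)
      (fun c _ => x.bd false c) hv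
    obtain ⟨c, hc, hne⟩ := atom_level_ne_zero S a i (by omega) false
    have hle := ih t true c hc
    have htc : t.x true c = v c := by
      simp only [t, piece]
      rw [if_neg (by omega), if_pos hc, if_pos trivial]
    rw [htc] at hle
    have hvc := hv c hc
    have key : (v c : ℤ) = x.x true c +
        ∑ e, ((W e : ℤ) - w e) * (((S.atom e).x false c : ℤ) - (S.atom e).x true c) := by
      rw [hvc, htot c hc, add_assoc, ← Finset.sum_add_distrib]
      congr 1
      refine Finset.sum_congr rfl fun e _ => ?_
      ring
    have hnn : ∀ e ∈ (Finset.univ : Finset K.B),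
        0 ≤ ((W e : ℤ) - w e) * (((S.atom e).x false c : ℤ) - (S.atom e).x true c) := by
      intro e _
      have h1 : (0 : ℤ) ≤ (W e : ℤ) - w e := by
        have := hwW e
        omega
      rcases h1.lt_or_eq with h1' | h1'
      · have ht0 : (S.atom e).x true c = 0 := by
          by_contra ht
          have he : K.dim e = i + 1 := by
            by_contra hne
            simp only [W, w, hne, false_and, if_false] at h1'
            omega
          have he2 : ¬ S.rank e < S.rank a := by
            intro hlt
            simp only [w, W, he, hlt, and_self, if_true, sub_self, lt_irrefl] at h1'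
          have r1 := S.rtgt c e (by omega) ht
          have r2 := S.rsrc c a (by omega) hne
          omega
        rw [ht0]
        exact mul_nonneg h1 (by simp)
      · rw [← h1']; simp
    have hsingle := Finset.single_le_sum hnn (Finset.mem_univ a)
    have hWa : W a = x.x ε a := by simp only [W, hd, if_true]
    have hwa : w a = 0 := by simp only [w, hd, lt_irrefl, and_false, if_false]
    have hta : (S.atom a).x true c = 0 := by
      rcases S.disj c a (by omega) with h | h
      · exact absurd h hne
      · exact h
    rw [hWa, hwa, hta] at hsingle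
    simp only [Nat.cast_zero, sub_zero] at hsingle
    have hf1 : (1 : ℤ) ≤ (S.atom a).x false c := by
      have : 1 ≤ (S.atom a).x false c := Nat.one_le_iff_ne_zero.2 hne
      exact_mod_cast this
    have hx2 : (2 : ℤ) ≤ x.x ε a := by exact_mod_cast hcon
    have h0 : (0 : ℤ) ≤ x.x true c := by positivity
    have hle' : (v c : ℤ) ≤ 1 := by exact_mod_cast hle
    rw [key] at hle'
    have hprod : (2 : ℤ) ≤ (x.x ε a : ℤ) * (S.atom a).x false c := by nlinarith
    linarith

end Free

end Vale.Agent.P213
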