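import Vale.Agent.Lib.P213.Prism
import Vale.Agent.Lib.P213.FreeA

/-! # Naturality of prisms, and the Steiner structure of `K ⊗ I` -/

open CategoryTheory

namespace Vale.Agent.P213

/-- Push-forward along `b ↦ b ⊗ i`. -/
@[simp] lemma Table.map_incl_x_inl {K : Cpx} (i j : Bool) (t : Table K) (ε : Bool) (b : K.B) :
    (Table.map ((tensorIncl i).app K) t).x ε (Sum.inl (b, j)) =
      if i = j then t.x ε b else 0 := by
  change ∑ a : K.B, t.x ε a * tensorInclMat K i a (Sum.inl (b, j)) = _
  by_cases h : i = j
  · simp [h]
  · simp [h]

@[simp] lemma Table.map_incl_x_inr {K : Cpx} (i : Bool) (t : Table K) (ε : Bool) (b : K.B) :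
    (Table.map ((tensorIncl i).app K) t).x ε (Sum.inr b) = 0 := by
  change ∑ a : K.B, t.x ε a * tensorInclMat K i a (Sum.inr b) = _
  simp

/-- Naturality of the prism. -/
lemma Table.map_prism {K L : Cpx} (f : K ⟶ L) (t : Table K) :
    Table.map (tensorFunctor.map f) t.prism = (Table.map f t).prism := by
  apply Table.ext
  funext ε y
  change ∑ z : (tensorI K).B, t.prism.x ε z * tensorMat f z y = _
  rw [sum_tensorI]
  rcases y with ⟨c, j⟩ | c
  · have h : ∀ i : Bool, (∑ b : K.B, t.prism.x ε (Sum.inl (b, i)) *
        tensorMat f (Sum.inl (b, i)) (Sum.inl (c, j))) =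
        if i = j ∧ i = (ε ^^ decide (L.dim c % 2 = 1)) then (Table.map f t).x ε c else 0 := by
      intro i
      by_cases hij : i = j
      · subst hij
        simp only [tensorMat_inl_inl, if_true, prism_x_inl, true_and]
        rw [Table.map_x]
        by_cases hi : i = (ε ^^ decide (L.dim c % 2 = 1))
        · rw [if_pos hi]
          refine Finset.sum_congr rfl fun b _ => ?_
          by_cases hm : f.mat b c = 0
          · simp [hm]
          · rw [if_pos]
            rw [f.dim_of_mat b c hm]
            exact hi
        · rw [if_neg hi]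
          refine Finset.sum_eq_zero fun b _ => ?_
          by_cases hm : f.mat b c = 0
          · simp [hm]
          · rw [if_neg, zero_mul]
            rw [f.dim_of_mat b c hm]
            exact hi
      · simp [hij]
    rw [h, h]
    simp only [tensorMat_inr_inl, mul_zero, Finset.sum_const_zero, add_zero, prism_x_inl]
    cases j <;> simp
  · simp [Table.map_x]

/-- The projection of a prism is the original table. -/
lemma Table.map_proj_prism {K : Cpx} (t : Table K) :
    Table.map (tensorProj.app K) t.prism = t := by
  apply Table.ext
  funext ε c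
  change ∑ z : (tensorI K).B, t.prism.x ε z * tensorProjMat K z c = _
  rw [sum_tensorI]
  by_cases hc : ε = decide (K.dim c % 2 = 1) <;> simp [hc]

/-- The Steiner structure of `K ⊗ I`. -/
def tensorSteiner (K : Cpx) (hK : Steiner K) : Steiner (tensorFunctor.obj K) where
  atom
    | Sum.inl (b, i) => Table.map ((tensorIncl i).app K) (hK.atom b)
    | Sum.inr b => (hK.atom b).prism
  atom_self := by
    rintro (⟨b, i⟩ | b) ε
    · change (Table.map ((tensorIncl i).app K) (hK.atom b)).x ε (Sum.inl (b, i)) = 1
      rw [Table.map_incl_x_inl, if_pos rfl, hK.atom_self]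
    · exact hK.atom_self b ε
  atom_top := by
    rintro (⟨b, i⟩ | b) (⟨a, j⟩ | a) ε hd hne
    · change (Table.map ((tensorIncl i).app K) (hK.atom b)).x ε (Sum.inl (a, j)) = 0
      rw [Table.map_incl_x_inl]
      split_ifs with h
      · refine hK.atom_top b a ε hd fun hab => hne ?_
        rw [hab, h]
      · rfl
    · exact Table.map_incl_x_inr i (hK.atom b) ε a
    · change (hK.atom b).prism.x ε (Sum.inl (a, j)) = 0
      rw [Table.prism_x_inl]
      have hd' : K.dim b + 1 ≤ K.dim a := hd
      split_ifs with h
      · exact hK.atom_top b a ε (by omega) fun hab => by rw [hab] at hd'; omega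
      · rfl
    · change (hK.atom b).x ε a = 0
      have hd' : K.dim b + 1 ≤ K.dim a + 1 := hd
      exact hK.atom_top b a ε (by omega) fun hab => hne (by rw [hab])
  atom_disj := by
    rintro (⟨b, i⟩ | b) (⟨a, j⟩ | a) hd
    · change (Table.map ((tensorIncl i).app K) (hK.atom b)).x false (Sum.inl (a, j)) = 0 ∨
        (Table.map ((tensorIncl i).app K) (hK.atom b)).x true (Sum.inl (a, j)) = 0
      rw [Table.map_incl_x_inl, Table.map_incl_x_inl]
      by_cases h : i = j
      · rw [if_pos h, if_pos h]
        exact hK.atom_disj b a hd
      · rw [if_neg h]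
        exact Or.inl rfl
    · exact Or.inl (Table.map_incl_x_inr i (hK.atom b) false a)
    · change (hK.atom b).prism.x false (Sum.inl (a, j)) = 0 ∨
        (hK.atom b).prism.x true (Sum.inl (a, j)) = 0
      rw [Table.prism_x_inl, Table.prism_x_inl]
      by_cases h : j = (false ^^ decide (K.dim a % 2 = 1))
      · right
        rw [if_neg]
        rw [h]
        cases decide (K.dim a % 2 = 1) <;> simp
      · left
        rw [if_neg h]
    · have hd' : K.dim a + 1 < K.dim b + 1 := hd
      exact hK.atom_disj b a (by omega)
  rank
    | Sum.inl (b, i) => 3 * hK.rank b + if i = decide (K.dim b % 2 = 1) then 0 else 2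
    | Sum.inr b => 3 * hK.rank b + 1
  rank_src := by
    rintro (⟨b, i⟩ | b) (⟨a, j⟩ | a) hd h
    · change (Table.map ((tensorIncl i).app K) (hK.atom b)).x false (Sum.inl (a, j)) ≠ 0 at h
      rw [Table.map_incl_x_inl] at h
      have hij : i = j := by
        by_contra hc
        rw [if_neg hc] at h
        exact h rfl
      rw [if_pos hij] at h
      have := hK.rank_src b a hd h
      change 3 * hK.rank a + (if j = decide (K.dim a % 2 = 1) then 0 else 2) <
        3 * hK.rank b + (if i = decide (K.dim b % 2 = 1) then 0 else 2)
      split_ifs <;> omega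
    · exact absurd (Table.map_incl_x_inr i (hK.atom b) false a) h
    · change (hK.atom b).prism.x false (Sum.inl (a, j)) ≠ 0 at h
      rw [Table.prism_x_inl] at h
      have hj : j = (false ^^ decide (K.dim a % 2 = 1)) := by
        by_contra hc
        rw [if_neg hc] at h
        exact h rfl
      rw [if_pos hj] at h
      change 3 * hK.rank a + (if j = decide (K.dim a % 2 = 1) then 0 else 2) <
        3 * hK.rank b + 1
      rw [if_pos (by rw [hj]; simp)]
      have hd' : K.dim a < K.dim b + 1 := hd
      by_cases hab : a = b
      · rw [hab]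
        omega
      · have hlt : K.dim a < K.dim b := by
          by_contra hc
          exact h (hK.atom_top b a false (by omega) hab)
        have := hK.rank_src b a hlt h
        omega
    · have hd' : K.dim a + 1 < K.dim b + 1 := hd
      have := hK.rank_src b a (by omega) h
      change 3 * hK.rank a + 1 < 3 * hK.rank b + 1
      omega
  rank_tgt := by
    rintro (⟨b, i⟩ | b) (⟨a, j⟩ | a) hd h
    · change (Table.map ((tensorIncl i).app K) (hK.atom b)).x true (Sum.inl (a, j)) ≠ 0 at h
      rw [Table.map_incl_x_inl] at h
      have hij : i = j := by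
        by_contra hc
        rw [if_neg hc] at h
        exact h rfl
      rw [if_pos hij] at h
      have := hK.rank_tgt b a hd h
      change 3 * hK.rank b + (if i = decide (K.dim b % 2 = 1) then 0 else 2) <
        3 * hK.rank a + (if j = decide (K.dim a % 2 = 1) then 0 else 2)
      split_ifs <;> omega
    · exact absurd (Table.map_incl_x_inr i (hK.atom b) true a) h
    · change (hK.atom b).prism.x true (Sum.inl (a, j)) ≠ 0 at h
      rw [Table.prism_x_inl] at h
      have hj : j = (true ^^ decide (K.dim a % 2 = 1)) := by
        by_contra hc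
        rw [if_neg hc] at h
        exact h rfl
      rw [if_pos hj] at h
      change 3 * hK.rank b + 1 <
        3 * hK.rank a + (if j = decide (K.dim a % 2 = 1) then 0 else 2)
      rw [if_neg (by rw [hj]; cases decide (K.dim a % 2 = 1) <;> simp)]
      have hd' : K.dim a < K.dim b + 1 := hd
      by_cases hab : a = b
      · rw [hab]
        omega
      · have hlt : K.dim a < K.dim b := by
          by_contra hc
          exact h (hK.atom_top b a true (by omega) hab)
        have := hK.rank_tgt b a hlt h
        omega
    · have hd' : K.dim a + 1 < K.dim b + 1 := hd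
      have := hK.rank_tgt b a (by omega) h
      change 3 * hK.rank b + 1 < 3 * hK.rank a + 1
      omega

@[simp] lemma tensorSteiner_atom_inl {K : Cpx} (hK : Steiner K) (b : K.B) (i : Bool) :
    (tensorSteiner K hK).atom (Sum.inl (b, i)) =
      Table.map ((tensorIncl i).app K) (hK.atom b) := rfl

@[simp] lemma tensorSteiner_atom_inr {K : Cpx} (hK : Steiner K) (b : K.B) :
    (tensorSteiner K hK).atom (Sum.inr b) = (hK.atom b).prism := rfl

end Vale.Agent.P213
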