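import Vale.Agent.Lib.P213.CylTop
import Vale.Agent.Lib.P213.TensorSteiner

/-! # The unit `nu K ⟶ Γ (nu (K ⊗ I))` -/

open CategoryTheory

namespace Vale.Agent.P213

open CStream

variable {K : Cpx}

lemma Table.face_inl (k : ℕ) (ε : Bool) (t : Table (tensorI K)) (δ : Bool) (b : K.B) (i : Bool) :
    (Table.face k ε t).x δ (Sum.inl (b, i)) = if K.dim b < k then t.x δ (Sum.inl (b, i))
      else if K.dim b = k then t.x ε (Sum.inl (b, i)) else 0 := rfl

lemma Table.face_inr (k : ℕ) (ε : Bool) (t : Table (tensorI K)) (δ : Bool) (b : K.B) :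
    (Table.face k ε t).x δ (Sum.inr b) = if K.dim b + 1 < k then t.x δ (Sum.inr b)
      else if K.dim b + 1 = k then t.x ε (Sum.inr b) else 0 := rfl

lemma Table.comp_inl {k : ℕ} {s t : Table (tensorI K)}
    (h : Table.face k true s = Table.face k false t) (δ : Bool) (b : K.B) (i : Bool) :
    (Table.comp k s t).x δ (Sum.inl (b, i)) = if K.dim b < k then s.x δ (Sum.inl (b, i))
        else if K.dim b = k then
          (if δ then t.x true (Sum.inl (b, i)) else s.x false (Sum.inl (b, i)))
        else s.x δ (Sum.inl (b, i)) + t.x δ (Sum.inl (b, i)) :=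
  Table.comp_x h δ (Sum.inl (b, i))

lemma Table.comp_inr {k : ℕ} {s t : Table (tensorI K)}
    (h : Table.face k true s = Table.face k false t) (δ : Bool) (b : K.B) :
    (Table.comp k s t).x δ (Sum.inr b) = if K.dim b + 1 < k then s.x δ (Sum.inr b)
        else if K.dim b + 1 = k then
          (if δ then t.x true (Sum.inr b) else s.x false (Sum.inr b))
        else s.x δ (Sum.inr b) + t.x δ (Sum.inr b) :=
  Table.comp_x h δ (Sum.inr b)

/-- `A` is the iterated source of the universal cylinder on `t`, at level `k`. -/
structure IsCX (k : ℕ) (t : Table K) (A : Table (tensorI K)) : Prop where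
  inl : ∀ ε b i, A.x ε (Sum.inl (b, i)) = if K.dim b < k then
      (if i = (ε ^^ decide (K.dim b % 2 = 1)) then t.x ε b else 0)
      else (if i = decide (k % 2 = 1) then t.x ε b else 0)
  inr : ∀ ε b, A.x ε (Sum.inr b) = if K.dim b + 1 < k then t.x ε b else
    if K.dim b + 1 = k then t.x false b else 0

/-- `A` is the iterated target of the universal cylinder on `t`, at level `k`. -/
structure IsCZ (k : ℕ) (t : Table K) (A : Table (tensorI K)) : Prop where
  inl : ∀ ε b i, A.x ε (Sum.inl (b, i)) = if K.dim b < k then
      (if i = (ε ^^ decide (K.dim b % 2 = 1)) then t.x ε b else 0)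
      else (if i = !decide (k % 2 = 1) then t.x ε b else 0)
  inr : ∀ ε b, A.x ε (Sum.inr b) = if K.dim b + 1 < k then t.x ε b else
    if K.dim b + 1 = k then t.x true b else 0

/-- The stream of principal cells of the universal cylinder, from level `m` on. -/
def cylU (m : ℕ) (t : Table K) : ℕ → Bool → Table (tensorI K) :=
  fun i δ => (Table.face (m + i) δ t).prism

lemma cylU_src {m : ℕ} {t : Table K} {A : Table (tensorI K)} (hA : IsCX m t A)
    (δ : Bool) : Table.face m false (cylU m t 0 δ) = Table.face m δ A := by
  apply Table.ext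
  funext ε y
  rcases y with ⟨b, i⟩ | b
  · simp only [Table.face_inl, hA.inl, cylU, Table.prism_x_inl, Table.face_x, add_zero]
    split_ifs <;> simp_all
  · simp only [Table.face_inr, hA.inr, cylU, Table.prism_x_inr, Table.face_x, add_zero]
    split_ifs <;> first | rfl | omega

lemma cylU_tgt {m : ℕ} {t : Table K} {B : Table (tensorI K)} (hB : IsCZ m t B)
    (δ : Bool) : Table.face m true (cylU m t 0 δ) = Table.face m δ B := by
  apply Table.ext
  funext ε y
  rcases y with ⟨b, i⟩ | b
  · simp only [Table.face_inl, hB.inl, cylU, Table.prism_x_inl, Table.face_x, add_zero]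
    split_ifs <;> simp_all
  · simp only [Table.face_inr, hB.inr, cylU, Table.prism_x_inr, Table.face_x, add_zero]
    split_ifs <;> first | rfl | omega

lemma cylU_dim (m : ℕ) (t : Table K) (δ : Bool) :
    Table.face (m + 1) false (cylU m t 0 δ) = cylU m t 0 δ := by
  apply Table.ext
  funext ε y
  rcases y with ⟨b, i⟩ | b
  · simp only [Table.face_inl, cylU, Table.prism_x_inl, Table.face_x, add_zero]
    split_ifs <;> first | rfl | omega
  · simp only [Table.face_inr, cylU, Table.prism_x_inr, Table.face_x, add_zero]
    split_ifs <;> first | rfl | omega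

lemma cyl_par {m : ℕ} {t : Table K} {A B : Table (tensorI K)}
    (hA : IsCX m t A) (hB : IsCZ m t B)
    (j : ℕ) (hj : j < m) (δ : Bool) : Table.face j δ A = Table.face j δ B := by
  apply Table.ext
  funext ε y
  rcases y with ⟨b, i⟩ | b
  · simp only [Table.face_inl, hA.inl, hB.inl]
    split_ifs <;> first | rfl | omega
  · simp only [Table.face_inr, hA.inr, hB.inr]
    split_ifs <;> first | rfl | omega

lemma decide_succ (m : ℕ) : decide ((m + 1) % 2 = 1) = !decide (m % 2 = 1) := by
  rcases Nat.mod_two_eq_zero_or_one m with h' | h'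
  · have : (m + 1) % 2 = 1 := by omega
    simp [this, h']
  · have : (m + 1) % 2 = 0 := by omega
    simp [this, h']

lemma cyl_nextX {m : ℕ} {t : Table K} {B : Table (tensorI K)} (hB : IsCZ m t B) :
    IsCX (m + 1) t (Table.comp m (cylU m t 0 false) B) where
  inl ε b i := by
    rw [Table.comp_inl (cylU_tgt hB false)]
    simp only [hB.inl, cylU, Table.prism_x_inl, add_zero, Table.face_x]
    rcases lt_trichotomy (K.dim b) m with h | h | h
    · have h3 : K.dim b < m + 1 := by omega
      simp only [h, h3, if_true]
    · subst h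
      cases ε <;> simp
    · have h1 : ¬ K.dim b < m := by omega
      have h2 : ¬ K.dim b = m := by omega
      have h3 : ¬ K.dim b < m + 1 := by omega
      simp only [h1, h2, h3, if_false, decide_succ]
      simp
  inr ε b := by
    rw [Table.comp_inr (cylU_tgt hB false)]
    simp only [hB.inr, cylU, Table.prism_x_inr, add_zero, Table.face_x]
    cases ε <;> simp only [Bool.false_eq_true, if_false, if_true] <;> split_ifs <;>
      first | rfl | omega

lemma cyl_nextZ {m : ℕ} {t : Table K} {A : Table (tensorI K)} (hA : IsCX m t A) :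
    IsCZ (m + 1) t (Table.comp m A (cylU m t 0 true)) where
  inl ε b i := by
    rw [Table.comp_inl (cylU_src hA true).symm]
    simp only [hA.inl, cylU, Table.prism_x_inl, add_zero, Table.face_x]
    rcases lt_trichotomy (K.dim b) m with h | h | h
    · have h3 : K.dim b < m + 1 := by omega
      simp only [h, h3, if_true]
    · subst h
      cases ε <;> simp
    · have h1 : ¬ K.dim b < m := by omega
      have h2 : ¬ K.dim b = m := by omega
      have h3 : ¬ K.dim b < m + 1 := by omega
      simp only [h1, h2, h3, if_false, decide_succ]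
      simp
  inr ε b := by
    rw [Table.comp_inr (cylU_src hA true).symm]
    simp only [hA.inr, cylU, Table.prism_x_inr, add_zero, Table.face_x]
    cases ε <;> simp only [Bool.false_eq_true, if_false, if_true] <;> split_ifs <;>
      first | rfl | omega

lemma isCyl_cylU (m : ℕ) (t : Table K) {A B : Table (tensorI K)} (hA : IsCX m t A)
    (hB : IsCZ m t B) : IsCyl (Y := nu (tensorI K)) m A B (cylU m t) := by
  refine IsCyl.coind (Y := nu (tensorI K)) (fun m A B u => IsCX m t A ∧ IsCZ m t B ∧
    u = cylU m t) ?_ ⟨hA, hB, rfl⟩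
  rintro m A B u ⟨hA, hB, rfl⟩
  refine ⟨⟨?_, ?_, ?_, ?_⟩, ?_, ?_, ?_⟩
  · intro j hj ε
    exact cyl_par hA hB j hj ε
  · intro ε
    exact cylU_src hA ε
  · intro ε
    exact cylU_tgt hB ε
  · intro ε
    exact cylU_dim m t ε
  · exact cyl_nextX hB
  · exact cyl_nextZ hA
  · funext i δ
    simp only [shift, cylU]
    rw [show m + (i + 1) = m + 1 + i by omega]

lemma isCX_zero (t : Table K) : IsCX 0 t (Table.map ((tensorIncl false).app K) t) where
  inl ε b i := by
    refine (Table.map_incl_x_inl _ i t ε b).trans ?_
    cases i <;> simp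
  inr ε b := by
    refine (Table.map_incl_x_inr _ t ε b).trans ?_
    simp

lemma isCZ_zero (t : Table K) : IsCZ 0 t (Table.map ((tensorIncl true).app K) t) where
  inl ε b i := by
    refine (Table.map_incl_x_inl _ i t ε b).trans ?_
    cases i <;> simp
  inr ε b := by
    refine (Table.map_incl_x_inr _ t ε b).trans ?_
    simp

/-- The universal cylinder on a table. -/
def Table.cyl (t : Table K) : CylCell (nu (tensorI K)) where
  X := Table.map ((tensorIncl false).app K) t
  Z := Table.map ((tensorIncl true).app K) t
  u := cylU 0 t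
  isCyl := isCyl_cylU 0 t (isCX_zero t) (isCZ_zero t)
  fin := by
    obtain ⟨n, hn⟩ := (nu K).finite_dim t
    have hn' : Table.face n false t = t := hn
    refine ⟨n, ?_, ?_, ?_⟩
    · refine (Table.map_face ((tensorIncl false).app K) n false t).symm.trans ?_
      exact congrArg _ hn'
    · refine (Table.map_face ((tensorIncl true).app K) n false t).symm.trans ?_
      exact congrArg _ hn'
    · funext i δ
      by_cases h : i < n
      · exact if_pos h
      · refine (if_neg h).trans ?_
        have h1 : Table.face (0 + i) δ t = t := by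
          rw [← hn']
          exact (nu K).bd_bd_ge δ false t (by omega)
        have h2 : Table.face (0 + n) false t = t := by
          rw [Nat.zero_add]
          exact hn'
        simp only [cylU]
        rw [h1, h2]

lemma Table.cyl_face (k : ℕ) (ε : Bool) (t : Table K) :
    (Table.face k ε t).cyl = CylCell.face k ε t.cyl := by
  refine CylCell.ext (Table.map_face _ _ _ _) (Table.map_face _ _ _ _) ?_
  funext i δ
  change cylU 0 (Table.face k ε t) i δ = if i < k then cylU 0 t i δ else cylU 0 t k ε
  simp only [cylU, Nat.zero_add]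
  by_cases h : i < k
  · rw [if_pos h]
    exact congrArg Table.prism ((nu K).bd_bd_lt δ ε t h)
  · rw [if_neg h]
    exact congrArg Table.prism ((nu K).bd_bd_ge δ ε t (by omega))

lemma cylU_zero_inl (t : Table K) (i : ℕ) (δ ε : Bool) (b : K.B) (j : Bool) :
    (cylU 0 t i δ).x ε (Sum.inl (b, j)) = if j = (ε ^^ decide (K.dim b % 2 = 1)) then
      (if K.dim b < i then t.x ε b else if K.dim b = i then t.x δ b else 0) else 0 := by
  simp only [cylU, Nat.zero_add]
  rfl

lemma cylU_zero_inr (t : Table K) (i : ℕ) (δ ε : Bool) (b : K.B) :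
    (cylU 0 t i δ).x ε (Sum.inr b) =
      if K.dim b < i then t.x ε b else if K.dim b = i then t.x δ b else 0 := by
  simp only [cylU, Nat.zero_add]
  rfl

lemma Table.cyl_comp (k : ℕ) (s t : Table K) (h : Table.face k true s = Table.face k false t) :
    (Table.comp k s t).cyl = CylCell.comp k s.cyl t.cyl := by
  have hc : CylCell.Comp k s.cyl t.cyl := by
    rw [CylCell.comp_iff, ← Table.cyl_face, ← Table.cyl_face, h]
  rw [CylCell.comp_eq hc]
  refine CylCell.ext (Table.map_comp _ _ _ _ h) (Table.map_comp _ _ _ _ h) ?_
  have h1 : IsCyl (Y := nu (tensorI K)) 0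
      ((nu (tensorI K)).comp k s.cyl.X t.cyl.X) ((nu (tensorI K)).comp k s.cyl.Z t.cyl.Z)
      (Table.comp k s t).cyl.u := by
    have := (Table.comp k s t).cyl.isCyl
    have e1 : (Table.comp k s t).cyl.X = (nu (tensorI K)).comp k s.cyl.X t.cyl.X :=
      Table.map_comp _ _ _ _ h
    have e2 : (Table.comp k s t).cyl.Z = (nu (tensorI K)).comp k s.cyl.Z t.cyl.Z :=
      Table.map_comp _ _ _ _ h
    rwa [e1, e2] at this
  have h2 := isCyl_hc (n := k) (d := k) (by omega) s.cyl.isCyl t.cyl.isCyl hc
  refine isCyl_rigid h1 h2 ?_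
  intro i δ ε y hy
  have hL : ∀ w : Table K, ∀ b : K.B, K.dim b = i → (w.cyl.u i δ).x ε (Sum.inr b) = w.x δ b := by
    intro w b hb
    refine (cylU_zero_inr w i δ ε b).trans ?_
    rw [if_neg (by omega), if_pos hb]
  have hL0 : ∀ (w : Table K) (b : K.B) (j : Bool), K.dim b = i + 1 →
      (w.cyl.u i δ).x ε (Sum.inl (b, j)) = 0 := by
    intro w b j hb
    refine (cylU_zero_inl w i δ ε b j).trans ?_
    rw [if_neg (c := K.dim b < i) (by omega), if_neg (c := K.dim b = i) (by omega)]
    simp
  rcases lt_trichotomy i k with hi | hi | hi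
  · have e := hc_lt (m := 0) hi s.cyl.X s.cyl.Z t.cyl.X t.cyl.Z s.cyl.u t.cyl.u δ
    rcases y with ⟨b, j⟩ | b
    · have hb : K.dim b = i + 1 := by
        have : K.dim b = 0 + i + 1 := hy
        omega
      refine (hL0 _ b j hb).trans ?_
      refine Eq.trans ?_ (congrArg (fun w : Table (tensorI K) => w.x ε (Sum.inl (b, j))) e).symm
      exact (hL0 _ b j hb).symm
    · have hb : K.dim b = i := by
        have : K.dim b + 1 = 0 + i + 1 := hy
        omega
      refine (hL _ b hb).trans ?_
      refine Eq.trans ?_ (congrArg (fun w : Table (tensorI K) => w.x ε (Sum.inr b)) e).symm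
      refine Eq.trans ?_ (hL _ b hb).symm
      rw [Table.comp_x h, if_pos (by omega)]
  · subst hi
    have e := hc_eq (m := 0) (d := i) s.cyl.X s.cyl.Z t.cyl.X t.cyl.Z s.cyl.u t.cyl.u δ
    rcases y with ⟨b, j⟩ | b
    · have hb : K.dim b = i + 1 := by
        have : K.dim b = 0 + i + 1 := hy
        omega
      refine (hL0 _ b j hb).trans ?_
      refine Eq.trans ?_ (congrArg (fun w : Table (tensorI K) => w.x ε (Sum.inl (b, j))) e).symm
      cases δ
      · exact (hL0 s b j hb).symm
      · exact (hL0 t b j hb).symm
    · have hb : K.dim b = i := by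
        have : K.dim b + 1 = 0 + i + 1 := hy
        omega
      refine (hL _ b hb).trans ?_
      refine Eq.trans ?_ (congrArg (fun w : Table (tensorI K) => w.x ε (Sum.inr b)) e).symm
      rw [Table.comp_x h, if_neg (by omega), if_pos hb]
      cases δ
      · exact (hL s b hb).symm
      · exact (hL t b hb).symm
  · have e := hc_top (d := k) (m := 0) (n := k) (by omega) s.cyl.isCyl t.cyl.isCyl hc i hi δ ε y hy
    rcases y with ⟨b, j⟩ | b
    · have hb : K.dim b = i + 1 := by
        have : K.dim b = 0 + i + 1 := hy
        omega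
      refine (hL0 _ b j hb).trans (Eq.trans ?_ e.symm)
      have h3 := hL0 s b j hb
      have h4 := hL0 t b j hb
      exact (congrArg₂ (· + ·) h3 h4).symm
    · have hb : K.dim b = i := by
        have : K.dim b + 1 = 0 + i + 1 := hy
        omega
      refine (hL _ b hb).trans (Eq.trans ?_ e.symm)
      have h3 := hL s b hb
      have h4 := hL t b hb
      refine Eq.trans ?_ (congrArg₂ (· + ·) h3 h4).symm
      rw [Table.comp_x h, if_neg (by omega), if_neg (by omega)]

/-- `nu K ⟶ Γ (nu (K ⊗ I))`, natural in `K`. -/
noncomputable def cylUnit : nuFunctor ⟶ tensorFunctor ⋙ nuFunctor ⋙ Gamma where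
  app K :=
    { toFun := fun t : Table K => t.cyl
      map_bd := fun k ε t => Table.cyl_face k ε t
      map_comp := fun k s t h => Table.cyl_comp k s t h }
  naturality K L f := by
    apply OmegaCat.hom_ext
    intro t
    refine CylCell.ext ?_ ?_ ?_
    · have := congrArg nuFunctor.map ((tensorIncl false).naturality f)
      rw [Functor.map_comp, Functor.map_comp] at this
      exact congrArg (fun g => OmegaCat.Hom.toFun g t) this
    · have := congrArg nuFunctor.map ((tensorIncl true).naturality f)
      rw [Functor.map_comp, Functor.map_comp] at this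
      exact congrArg (fun g => OmegaCat.Hom.toFun g t) this
    · funext i δ
      change (Table.face (0 + i) δ (Table.map f t)).prism =
        Table.map (tensorFunctor.map f) (Table.face (0 + i) δ t).prism
      rw [Table.map_prism]
      exact (congrArg Table.prism (Table.map_face f (0 + i) δ t)).symm

theorem cylUnit_e0 (K : Cpx) :
    cylUnit.app K ≫ Gamma.e0.app _ = nuFunctor.map ((tensorIncl false).app K) := rfl

theorem cylUnit_e1 (K : Cpx) :
    cylUnit.app K ≫ Gamma.e1.app _ = nuFunctor.map ((tensorIncl true).app K) := rfl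

end Vale.Agent.P213
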