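import Mathlib

/-!
# P213: definitions used in the statement

* `OmegaCat` : small strict (globular) omega-categories, in the one-sorted form of
  Street and Steiner.
* `Cpx`, `nu` : augmented directed complexes with a finite basis and Steiner's functor `nu`.
* `simplexCpx`, `oriental` : the orientals.
* `streetNerve n` : the Street nerve on strict `n`-categories, `n : ℕ∞`.
-/

open CategoryTheory

namespace Vale.Agent.P213

/-- A small strict globular `ω`-category, in one-sorted form: a type of cells with
source (`bd k false`) and target (`bd k true`) operators and a composition in each dimension `k`.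
`comp k x y` (first `x`, then `y`) is only meaningful when `bd k true x = bd k false y`. -/
structure OmegaCat where
  Cell : Type
  bd : ℕ → Bool → Cell → Cell
  comp : ℕ → Cell → Cell → Cell
  bd_bd_lt : ∀ {j k : ℕ} (η ε : Bool) (x : Cell), j < k → bd j η (bd k ε x) = bd j η x
  bd_bd_ge : ∀ {j k : ℕ} (η ε : Bool) (x : Cell), k ≤ j → bd j η (bd k ε x) = bd k ε x
  bd_source_comp : ∀ {k : ℕ} {x y : Cell}, bd k true x = bd k false y →
    bd k false (comp k x y) = bd k false x
  bd_target_comp : ∀ {k : ℕ} {x y : Cell}, bd k true x = bd k false y →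
    bd k true (comp k x y) = bd k true y
  bd_comp : ∀ {j k : ℕ} (ε : Bool) {x y : Cell}, k < j → bd k true x = bd k false y →
    bd j ε (comp k x y) = comp k (bd j ε x) (bd j ε y)
  comp_target : ∀ (k : ℕ) (x : Cell), comp k x (bd k true x) = x
  source_comp : ∀ (k : ℕ) (x : Cell), comp k (bd k false x) x = x
  comp_assoc : ∀ {k : ℕ} {x y z : Cell}, bd k true x = bd k false y →
    bd k true y = bd k false z → comp k (comp k x y) z = comp k x (comp k y z)
  interchange : ∀ {j k : ℕ} {x y x' y' : Cell}, j < k →
    bd k true x = bd k false y → bd k true x' = bd k false y' →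
    bd j true x = bd j false x' → bd j true y = bd j false y' →
    comp j (comp k x y) (comp k x' y') = comp k (comp j x x') (comp j y y')
  finite_dim : ∀ x : Cell, ∃ n : ℕ, bd n false x = x

namespace OmegaCat

/-- Strict `ω`-functors. -/
@[ext]
structure Hom (X Y : OmegaCat) where
  toFun : X.Cell → Y.Cell
  map_bd : ∀ (k : ℕ) (ε : Bool) (x : X.Cell), toFun (X.bd k ε x) = Y.bd k ε (toFun x)
  map_comp : ∀ (k : ℕ) (x y : X.Cell), X.bd k true x = X.bd k false y →
    toFun (X.comp k x y) = Y.comp k (toFun x) (toFun y)

instance : Category OmegaCat where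
  Hom X Y := Hom X Y
  id X := ⟨fun x => x, fun _ _ _ => rfl, fun _ _ _ _ => rfl⟩
  comp {X Y Z} f g := ⟨fun x => g.toFun (f.toFun x),
    fun k ε x => by rw [f.map_bd, g.map_bd],
    fun k x y h => by
      rw [f.map_comp k x y h, g.map_comp k _ _ (by rw [← f.map_bd, ← f.map_bd, h])]⟩

@[ext]
lemma hom_ext {X Y : OmegaCat} {f g : X ⟶ Y} (h : ∀ x, f.toFun x = g.toFun x) : f = g :=
  Hom.ext (funext h)

@[simp] lemma id_toFun (X : OmegaCat) (x : X.Cell) : Hom.toFun (𝟙 X) x = x := rfl
@[simp] lemma comp_toFun {X Y Z : OmegaCat} (f : X ⟶ Y) (g : Y ⟶ Z) (x : X.Cell) :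
    Hom.toFun (f ≫ g) x = g.toFun (f.toFun x) := rfl

/-- `X` is an `n`-category: all cells above dimension `n` are identities (no condition
if `n = ⊤`). -/
def IsNCat (n : ℕ∞) : ObjectProperty OmegaCat :=
  fun X => ∀ k : ℕ, n ≤ (k : ℕ∞) → ∀ x : X.Cell, X.bd k false x = x

end OmegaCat

/-- The category of small strict `n`-categories, as a full subcategory of `OmegaCat`. -/
abbrev NCat (n : ℕ∞) : Type 1 := (OmegaCat.IsNCat n).FullSubcategory

/-- An augmented directed complex with a finite basis: the graded basis
`B`, and the boundary matrix (`bd b a` is the coefficient of `a` in `∂ b`). The augmentation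
takes the value `1` on each basis element of degree `0`. -/
structure Cpx where
  B : Type
  [fin : Fintype B]
  [dec : DecidableEq B]
  dim : B → ℕ
  bd : B → B → ℤ
  dim_of_bd : ∀ b a : B, bd b a ≠ 0 → dim b = dim a + 1

attribute [instance] Cpx.fin Cpx.dec

/-- The coefficient of `a` in the boundary of the positive chain `c`. -/
def Cpx.bdry (K : Cpx) (c : K.B → ℕ) (a : K.B) : ℤ := ∑ b : K.B, (c b : ℤ) * K.bd b a

/-- The augmentation of (the degree `0` part of) the positive chain `c`. -/
def Cpx.aug (K : Cpx) (c : K.B → ℕ) : ℕ := ∑ b : K.B, if K.dim b = 0 then c b else 0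

/-- A cell of `nu K` (Steiner): two positive chains `x⁻ = x false`, `x⁺ = x true` such that
`∂ x_{i+1}^ε = x_i⁺ - x_i⁻` for both signs `ε` and all `i`, and with augmentation one in
degree `0`. -/
@[ext]
structure Table (K : Cpx) where
  x : Bool → K.B → ℕ
  aug : ∀ ε, K.aug (x ε) = 1
  bd : ∀ (ε : Bool) (a : K.B), K.bdry (x ε) a = x true a - x false a

lemma Cpx.bdry_congr (K : Cpx) {c c' : K.B → ℕ} {a : K.B}
    (h : ∀ b, K.dim b = K.dim a + 1 → c b = c' b) : K.bdry c a = K.bdry c' a := by
  refine Finset.sum_congr rfl fun b _ => ?_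
  by_cases hb : K.bd b a = 0
  · simp [hb]
  · rw [h b (K.dim_of_bd b a hb)]

lemma Cpx.bdry_add (K : Cpx) (c c' : K.B → ℕ) (a : K.B) :
    K.bdry (fun b => c b + c' b) a = K.bdry c a + K.bdry c' a := by
  simp only [Cpx.bdry, ← Finset.sum_add_distrib]
  refine Finset.sum_congr rfl fun b _ => ?_
  push_cast
  ring

lemma Cpx.bdry_zero (K : Cpx) (a : K.B) : K.bdry (fun _ => 0) a = 0 := by
  simp [Cpx.bdry]

lemma Cpx.aug_congr (K : Cpx) {c c' : K.B → ℕ}
    (h : ∀ b, K.dim b = 0 → c b = c' b) : K.aug c = K.aug c' := by
  refine Finset.sum_congr rfl fun b _ => ?_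
  by_cases hb : K.dim b = 0
  · simp [hb, h b hb]
  · simp [hb]

namespace Table

variable {K : Cpx}

/-- The `k`-dimensional source/target of a table. -/
def face (k : ℕ) (ε : Bool) (t : Table K) : Table K where
  x δ b := if K.dim b < k then t.x δ b else if K.dim b = k then t.x ε b else 0
  aug δ := by
    rcases Nat.eq_zero_or_pos k with hk | hk
    · rw [← t.aug ε]
      refine K.aug_congr fun b h => ?_
      rw [if_neg (by omega), if_pos (by omega)]
    · rw [← t.aug δ]
      refine K.aug_congr fun b h => ?_
      rw [if_pos (by omega)]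
  bd δ a := by
    rcases lt_trichotomy (K.dim a + 1) k with h | h | h
    · rw [if_pos (by omega), if_pos (by omega), ← t.bd δ a]
      refine K.bdry_congr fun b hb => ?_
      rw [if_pos (by omega)]
    · rw [if_pos (by omega), if_pos (by omega), ← t.bd ε a]
      refine K.bdry_congr fun b hb => ?_
      rw [if_neg (by omega), if_pos (by omega)]
    · have e : K.bdry (fun b => if K.dim b < k then t.x δ b
          else if K.dim b = k then t.x ε b else 0) a = 0 := by
        rw [← K.bdry_zero a]
        refine K.bdry_congr fun b hb => ?_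
        rw [if_neg (by omega), if_neg (by omega)]
      rw [e]
      by_cases hk : K.dim a = k
      · simp [hk]
      · have hk' : ¬ K.dim a < k := by omega
        simp [hk, hk']

lemma face_x (k : ℕ) (ε : Bool) (t : Table K) (δ : Bool) (b : K.B) :
    (face k ε t).x δ b =
      if K.dim b < k then t.x δ b else if K.dim b = k then t.x ε b else 0 := rfl

lemma eq_of_composable {k : ℕ} {s t : Table K} (h : face k true s = face k false t) (b : K.B)
    (hb : K.dim b = k) : s.x true b = t.x false b := by
  have := congrArg (fun u : Table K => u.x true b) h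
  simpa [face_x, hb] using this

lemma eq_of_composable' {k : ℕ} {s t : Table K} (h : face k true s = face k false t) (δ : Bool)
    (b : K.B) (hb : K.dim b < k) : s.x δ b = t.x δ b := by
  have := congrArg (fun u : Table K => u.x δ b) h
  simpa [face_x, hb] using this

open Classical in
/-- The `k`-composite of two tables (the first table if they are not composable): add the
parts of degree above `k`. -/
noncomputable def comp (k : ℕ) (s t : Table K) : Table K :=
  if h : face k true s = face k false t then
    { x := fun δ b => if K.dim b < k then s.x δ b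
        else if K.dim b = k then (if δ then t.x true b else s.x false b)
        else s.x δ b + t.x δ b
      aug := by
        intro δ
        rcases Nat.eq_zero_or_pos k with hk | hk
        · cases δ
          · rw [← s.aug false]
            refine K.aug_congr fun b h => ?_
            rw [if_neg (by omega), if_pos (by omega)]
            rfl
          · rw [← t.aug true]
            refine K.aug_congr fun b h => ?_
            rw [if_neg (by omega), if_pos (by omega)]
            rfl
        · rw [← s.aug δ]
          refine K.aug_congr fun b h => ?_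
          rw [if_pos (by omega)]
      bd := by
        intro δ a
        rcases lt_trichotomy (K.dim a + 1) k with h1 | h1 | h1
        · rw [if_pos (by omega), if_pos (by omega), ← s.bd δ a]
          refine K.bdry_congr fun b hb => ?_
          rw [if_pos (by omega)]
        · rw [if_pos (by omega), if_pos (by omega)]
          cases δ
          · rw [← s.bd false a]
            refine K.bdry_congr fun b hb => ?_
            rw [if_neg (by omega), if_pos (by omega)]
            rfl
          · rw [eq_of_composable' h true a (by omega), eq_of_composable' h false a (by omega),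
              ← t.bd true a]
            refine K.bdry_congr fun b hb => ?_
            rw [if_neg (by omega), if_pos (by omega)]
            rfl
        · have e : K.bdry (fun b => if K.dim b < k then s.x δ b
              else if K.dim b = k then (if δ then t.x true b else s.x false b)
              else s.x δ b + t.x δ b) a = K.bdry (s.x δ) a + K.bdry (t.x δ) a := by
            rw [← K.bdry_add]
            refine K.bdry_congr fun b hb => ?_
            rw [if_neg (by omega), if_neg (by omega)]
          rw [e, s.bd, t.bd]
          by_cases hk : K.dim a = k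
          · simp [hk, eq_of_composable h a hk]
          · have hk' : ¬ K.dim a < k := by omega
            simp only [hk, hk', if_false]
            push_cast
            ring }
  else s

lemma comp_x {k : ℕ} {s t : Table K} (h : face k true s = face k false t) (δ : Bool) (b : K.B) :
    (comp k s t).x δ b = if K.dim b < k then s.x δ b
        else if K.dim b = k then (if δ then t.x true b else s.x false b)
        else s.x δ b + t.x δ b := by
  unfold comp
  rw [dif_pos h]

end Table

/-- Steiner's functor `nu` on objects: the strict `ω`-category of tables of `K`. -/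
noncomputable def nu (K : Cpx) : OmegaCat where
  Cell := Table K
  bd k ε t := Table.face k ε t
  comp k s t := Table.comp k s t
  bd_bd_lt {j k} η ε x h := by
    ext δ b
    simp only [Table.face_x]
    split_ifs <;> first | rfl | omega
  bd_bd_ge {j k} η ε x h := by
    ext δ b
    simp only [Table.face_x]
    split_ifs <;> first | rfl | omega
  bd_source_comp {k x y} h := by
    ext δ b
    simp only [Table.face_x, Table.comp_x h]
    split_ifs <;> first | rfl | omega | simp_all
  bd_target_comp {k x y} h := by
    ext δ b
    simp only [Table.face_x, Table.comp_x h]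
    split_ifs with h1 h2 <;> first | rfl | omega | exact Table.eq_of_composable' h δ b h1
  bd_comp {j k} ε x y hkj h := by
    have h' : Table.face k true (Table.face j ε x) = Table.face k false (Table.face j ε y) := by
      ext δ b
      have := congrArg (fun u : Table K => u.x δ b) h
      simp only [Table.face_x] at this ⊢
      split_ifs at this ⊢ <;> first | rfl | omega | exact this
    ext δ b
    simp only [Table.face_x, Table.comp_x h, Table.comp_x h']
    split_ifs <;> first | rfl | omega
  comp_target k x := by
    have h : Table.face k true x = Table.face k false (Table.face k true x) := by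
      ext δ b
      simp only [Table.face_x]
      split_ifs <;> first | rfl | omega
    ext δ b
    simp only [Table.comp_x h, Table.face_x]
    split_ifs <;> first | rfl | omega | (cases δ <;> simp_all)
  source_comp k x := by
    have h : Table.face k true (Table.face k false x) = Table.face k false x := by
      ext δ b
      simp only [Table.face_x]
      split_ifs <;> first | rfl | omega
    ext δ b
    simp only [Table.comp_x h, Table.face_x]
    split_ifs <;> first | rfl | omega | (cases δ <;> simp_all)
  comp_assoc {k x y z} h h' := by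
    have h1 : Table.face k true (Table.comp k x y) = Table.face k false z := by
      rw [← h']
      ext δ b
      simp only [Table.face_x, Table.comp_x h]
      split_ifs with h1 h2 <;> first | rfl | omega | exact Table.eq_of_composable' h δ b h1
    have h2 : Table.face k true x = Table.face k false (Table.comp k y z) := by
      rw [h]
      ext δ b
      simp only [Table.face_x, Table.comp_x h']
      split_ifs <;> first | rfl | omega | simp_all
    ext δ b
    simp only [Table.comp_x h, Table.comp_x h', Table.comp_x h1, Table.comp_x h2]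
    split_ifs <;> first | rfl | omega | simp_all
  interchange {j k x y x' y'} hjk h1 h2 h3 h4 := by
    have h5 : Table.face j true (Table.comp k x y) = Table.face j false (Table.comp k x' y') := by
      ext δ b
      have e1 := congrArg (fun u : Table K => u.x δ b) h3
      have e2 := congrArg (fun u : Table K => u.x δ b) h4
      simp only [Table.face_x, Table.comp_x h1, Table.comp_x h2] at e1 e2 ⊢
      split_ifs at e1 e2 ⊢ <;> first | rfl | omega | assumption
    have h6 : Table.face k true (Table.comp j x x') = Table.face k false (Table.comp j y y') := by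
      ext δ b
      have e1 := fun δ => Table.eq_of_composable' h1 δ b
      have e2 := fun δ => Table.eq_of_composable' h2 δ b
      have e3 := fun h => Table.eq_of_composable h1 b h
      have e4 := fun h => Table.eq_of_composable h2 b h
      simp only [Table.face_x, Table.comp_x h3, Table.comp_x h4]
      by_cases hb1 : K.dim b < k
      · simp only [hb1, if_true, e1 _ hb1, e2 _ hb1]
      · have hb2 : ¬ K.dim b < j := by omega
        have hb3 : ¬ K.dim b = j := by omega
        simp only [hb1, hb2, hb3, if_false]
        by_cases hb4 : K.dim b = k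
        · simp only [hb4, if_true, e3 hb4, e4 hb4]
        · simp only [hb4, if_false]
    ext δ b
    simp only [Table.comp_x h1, Table.comp_x h2, Table.comp_x h3, Table.comp_x h4,
      Table.comp_x h5, Table.comp_x h6]
    have e1 := fun δ => Table.eq_of_composable' h1 δ b
    have e2 := fun δ => Table.eq_of_composable' h2 δ b
    by_cases hb1 : K.dim b < j
    · rw [if_pos (by omega), if_pos (by omega), if_pos (by omega), if_pos (by omega)]
    · by_cases hb2 : K.dim b = j
      · have hb3 : K.dim b < k := by omega
        cases δ <;> simp [hb2, hjk, e1 _ hb3, e2 _ hb3]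
      · by_cases hb3 : K.dim b < k
        · simp [hb1, hb2, hb3]
        · by_cases hb4 : K.dim b = k
          · cases δ <;> simp [hb4, hjk.ne', hjk.not_gt]
          · simp only [hb1, hb2, hb3, hb4, if_false]
            omega
  finite_dim x := by
    obtain ⟨n, hn⟩ : ∃ n : ℕ, ∀ b : K.B, K.dim b < n := by
      refine ⟨(Finset.univ.sup K.dim) + 1, fun b => ?_⟩
      exact Nat.lt_succ_of_le (Finset.le_sup (Finset.mem_univ b))
    refine ⟨n, ?_⟩
    ext δ b
    simp [Table.face_x, hn b]

/-- Morphisms of augmented directed complexes: matrices with natural number coefficients,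
compatible with degree, boundary and augmentation. -/
@[ext]
structure Cpx.Hom (K L : Cpx) where
  mat : K.B → L.B → ℕ
  dim_of_mat : ∀ b c, mat b c ≠ 0 → K.dim b = L.dim c
  aug_mat : ∀ b, K.dim b = 0 → ∑ c : L.B, mat b c = 1
  bd_mat : ∀ (b : K.B) (c : L.B),
    ∑ a : K.B, K.bd b a * (mat a c : ℤ) = ∑ d : L.B, (mat b d : ℤ) * L.bd d c

instance : Category Cpx where
  Hom K L := Cpx.Hom K L
  id K :=
    { mat := fun b c => if b = c then 1 else 0
      dim_of_mat := fun b c h => by
        by_contra hne
        exact h (if_neg (fun e => hne (by rw [e])))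
      aug_mat := fun b _ => by simp
      bd_mat := fun b c => by simp }
  comp {K L M} f g :=
    { mat := fun b d => ∑ c : L.B, f.mat b c * g.mat c d
      dim_of_mat := fun b d h => by
        obtain ⟨c, -, hc⟩ := Finset.exists_ne_zero_of_sum_ne_zero h
        rw [f.dim_of_mat b c (left_ne_zero_of_mul hc), g.dim_of_mat c d (right_ne_zero_of_mul hc)]
      aug_mat := fun b hb => by
        rw [Finset.sum_comm]
        simp only [← Finset.mul_sum]
        rw [← f.aug_mat b hb]
        refine Finset.sum_congr rfl fun c _ => ?_
        by_cases hc : f.mat b c = 0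
        · simp [hc]
        · rw [g.aug_mat c (by rw [← f.dim_of_mat b c hc, hb]), mul_one]
      bd_mat := fun b d => by
        push_cast
        simp only [Finset.mul_sum, Finset.sum_mul]
        rw [Finset.sum_comm]
        have h1 : ∀ c : L.B, ∑ a : K.B, K.bd b a * ((f.mat a c : ℤ) * (g.mat c d : ℤ)) =
            ∑ e : L.B, (f.mat b e : ℤ) * (L.bd e c * (g.mat c d : ℤ)) := fun c => by
          have := f.bd_mat b c
          simp only [← mul_assoc]
          rw [← Finset.sum_mul, this, Finset.sum_mul]
        simp only [h1]
        rw [Finset.sum_comm]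
        have h2 : ∀ e : L.B, ∑ c : L.B, (f.mat b e : ℤ) * (L.bd e c * (g.mat c d : ℤ)) =
            ∑ k : M.B, (f.mat b e : ℤ) * (g.mat e k : ℤ) * M.bd k d := fun e => by
          have := g.bd_mat e d
          rw [← Finset.mul_sum, this, Finset.mul_sum]
          simp only [mul_assoc]
        simp only [h2]
        rw [Finset.sum_comm] }
  id_comp f := by
    apply Cpx.Hom.ext
    funext b c
    simp
  comp_id f := by
    apply Cpx.Hom.ext
    funext b c
    simp
  assoc f g h := by
    apply Cpx.Hom.ext
    funext b c
    simp only [Finset.sum_mul, Finset.mul_sum]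
    rw [Finset.sum_comm]
    simp only [mul_assoc]

lemma Cpx.id_mat (K : Cpx) (b c : K.B) : Cpx.Hom.mat (𝟙 K) b c = if b = c then 1 else 0 := rfl

lemma Cpx.comp_mat {K L M : Cpx} (f : K ⟶ L) (g : L ⟶ M) (b : K.B) (d : M.B) :
    Cpx.Hom.mat (f ≫ g) b d = ∑ c : L.B, f.mat b c * g.mat c d := rfl

/-- Push-forward of a table along a morphism of complexes. -/
def Table.map {K L : Cpx} (f : K ⟶ L) (t : Table K) : Table L where
  x ε d := ∑ b : K.B, t.x ε b * f.mat b d
  aug ε := by
    rw [← t.aug ε]
    simp only [Cpx.aug]
    have h1 : ∀ d : L.B, (if L.dim d = 0 then ∑ b : K.B, t.x ε b * f.mat b d else 0) =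
        ∑ b : K.B, (if K.dim b = 0 then t.x ε b else 0) * f.mat b d := by
      intro d
      by_cases hd : L.dim d = 0
      · rw [if_pos hd]
        refine Finset.sum_congr rfl fun b _ => ?_
        by_cases hm : f.mat b d = 0
        · simp [hm]
        · rw [if_pos (by rw [f.dim_of_mat b d hm, hd])]
      · rw [if_neg hd]
        symm
        refine Finset.sum_eq_zero fun b _ => ?_
        by_cases hm : f.mat b d = 0
        · simp [hm]
        · rw [if_neg (by rw [f.dim_of_mat b d hm]; exact hd), zero_mul]
    simp only [h1]
    rw [Finset.sum_comm]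
    refine Finset.sum_congr rfl fun b _ => ?_
    rw [← Finset.mul_sum]
    by_cases hb : K.dim b = 0
    · rw [f.aug_mat b hb, mul_one]
    · simp [hb]
  bd ε c := by
    simp only [Cpx.bdry]
    push_cast
    simp only [Finset.sum_mul]
    rw [Finset.sum_comm]
    have h1 : ∀ b : K.B, ∑ d : L.B, (t.x ε b : ℤ) * (f.mat b d : ℤ) * L.bd d c =
        ∑ a : K.B, (t.x ε b : ℤ) * K.bd b a * (f.mat a c : ℤ) := fun b => by
      have := f.bd_mat b c
      simp only [mul_assoc, ← Finset.mul_sum]
      rw [this]
    simp only [h1]
    rw [Finset.sum_comm]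
    simp only [← Finset.sum_mul]
    have h2 : ∀ a : K.B, ∑ b : K.B, (t.x ε b : ℤ) * K.bd b a = t.x true a - t.x false a :=
      fun a => t.bd ε a
    simp only [h2, sub_mul, Finset.sum_sub_distrib]

lemma Table.map_x {K L : Cpx} (f : K ⟶ L) (t : Table K) (ε : Bool) (d : L.B) :
    (Table.map f t).x ε d = ∑ b : K.B, t.x ε b * f.mat b d := rfl

lemma Table.map_face {K L : Cpx} (f : K ⟶ L) (k : ℕ) (ε : Bool) (t : Table K) :
    Table.map f (Table.face k ε t) = Table.face k ε (Table.map f t) := by
  ext δ d
  simp only [Table.map_x, Table.face_x]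
  split_ifs with h1 h2
  · refine Finset.sum_congr rfl fun b _ => ?_
    by_cases hm : f.mat b d = 0
    · simp [hm]
    · rw [if_pos (by rw [f.dim_of_mat b d hm]; exact h1)]
  · refine Finset.sum_congr rfl fun b _ => ?_
    by_cases hm : f.mat b d = 0
    · simp [hm]
    · rw [if_neg (by rw [f.dim_of_mat b d hm]; exact h1),
        if_pos (by rw [f.dim_of_mat b d hm]; exact h2)]
  · refine Finset.sum_eq_zero fun b _ => ?_
    by_cases hm : f.mat b d = 0
    · simp [hm]
    · rw [if_neg (by rw [f.dim_of_mat b d hm]; exact h1),
        if_neg (by rw [f.dim_of_mat b d hm]; exact h2), zero_mul]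

lemma Table.map_comp {K L : Cpx} (f : K ⟶ L) (k : ℕ) (s t : Table K)
    (h : Table.face k true s = Table.face k false t) :
    Table.map f (Table.comp k s t) = Table.comp k (Table.map f s) (Table.map f t) := by
  have h' : Table.face k true (Table.map f s) = Table.face k false (Table.map f t) := by
    rw [← Table.map_face, ← Table.map_face, h]
  ext δ d
  simp only [Table.map_x, Table.comp_x h, Table.comp_x h']
  by_cases h1 : L.dim d < k
  · rw [if_pos h1]
    refine Finset.sum_congr rfl fun b _ => ?_
    by_cases hm : f.mat b d = 0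
    · simp [hm]
    · rw [if_pos (by rw [f.dim_of_mat b d hm]; exact h1)]
  · by_cases h2 : L.dim d = k
    · rw [if_neg h1, if_pos h2]
      have h3 : ∀ b : K.B, (if K.dim b < k then s.x δ b
          else if K.dim b = k then (if δ then t.x true b else s.x false b)
          else s.x δ b + t.x δ b) * f.mat b d =
          (if δ then t.x true b else s.x false b) * f.mat b d := by
        intro b
        by_cases hm : f.mat b d = 0
        · simp [hm]
        · rw [if_neg (by rw [f.dim_of_mat b d hm]; exact h1),
            if_pos (by rw [f.dim_of_mat b d hm]; exact h2)]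
      simp only [h3]
      cases δ <;> simp
    · rw [if_neg h1, if_neg h2, ← Finset.sum_add_distrib]
      refine Finset.sum_congr rfl fun b _ => ?_
      by_cases hm : f.mat b d = 0
      · simp [hm]
      · rw [if_neg (by rw [f.dim_of_mat b d hm]; exact h1),
          if_neg (by rw [f.dim_of_mat b d hm]; exact h2), add_mul]

/-- Steiner's functor `nu`. -/
noncomputable def nuFunctor : Cpx ⥤ OmegaCat where
  obj K := nu K
  map f := ⟨Table.map f, fun k ε t => Table.map_face f k ε t,
    fun k s t h => Table.map_comp f k s t h⟩
  map_id K := by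
    apply OmegaCat.hom_ext
    intro t
    apply Table.ext
    funext ε d
    change ∑ b : K.B, t.x ε b * Cpx.Hom.mat (𝟙 K) b d = t.x ε d
    simp [Cpx.id_mat]
  map_comp {K L M} f g := by
    apply OmegaCat.hom_ext
    intro t
    apply Table.ext
    funext ε d
    change ∑ b : K.B, t.x ε b * Cpx.Hom.mat (f ≫ g) b d =
      ∑ c : L.B, (∑ b : K.B, t.x ε b * f.mat b c) * g.mat c d
    simp only [Cpx.comp_mat, Finset.mul_sum, Finset.sum_mul]
    rw [Finset.sum_comm]
    simp only [mul_assoc]


/-- The coefficient of the face `τ` in the boundary of the simplex `σ`. -/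
def simplexBd {n : ℕ} (σ τ : Finset (Fin n)) : ℤ :=
  ∑ j ∈ σ, if σ.erase j = τ then (-1) ^ (σ.filter (· < j)).card else 0

/-- The basis of the normalized chain complex of the standard `m`-simplex: its nonempty faces. -/
abbrev SimplexBasis (m : ℕ) : Type := {σ : Finset (Fin (m + 1)) // σ.Nonempty}

/-- The normalized chain complex of the standard `m`-simplex. -/
def simplexCpx (m : ℕ) : Cpx where
  B := SimplexBasis m
  dim σ := σ.1.card - 1
  bd σ τ := simplexBd σ.1 τ.1
  dim_of_bd σ τ h := by
    obtain ⟨j, hj, hne⟩ := Finset.exists_ne_zero_of_sum_ne_zero h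
    have he : σ.1.erase j = τ.1 := by
      by_contra hcon
      exact hne (if_neg hcon)
    have h1 := Finset.card_erase_of_mem hj
    have h2 := τ.2.card_pos
    rw [he] at h1
    omega

lemma simplexBd_image_of_injOn {m n : ℕ} (φ : Fin m →o Fin n) (σ : Finset (Fin m))
    (hσ : Set.InjOn φ σ) (τ : Finset (Fin n)) :
    simplexBd (σ.image φ) τ =
      ∑ j ∈ σ, if (σ.erase j).image φ = τ then (-1) ^ (σ.filter (· < j)).card else 0 := by
  unfold simplexBd
  rw [Finset.sum_image (fun x hx y hy h => hσ hx hy h)]
  refine Finset.sum_congr rfl fun j hj => ?_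
  have h1 : (σ.image φ).erase (φ j) = (σ.erase j).image φ := by
    ext i
    simp only [Finset.mem_erase, Finset.mem_image]
    constructor
    · rintro ⟨hne, k, hk, rfl⟩
      exact ⟨k, ⟨fun h => hne (by rw [h]), hk⟩, rfl⟩
    · rintro ⟨k, ⟨hne, hk⟩, rfl⟩
      exact ⟨fun h => hne (hσ hk hj h), k, hk, rfl⟩
  have h2 : (σ.image φ).filter (· < φ j) = (σ.filter (· < j)).image φ := by
    ext i
    simp only [Finset.mem_filter, Finset.mem_image]
    constructor
    · rintro ⟨⟨k, hk, rfl⟩, hlt⟩
      refine ⟨k, ⟨hk, ?_⟩, rfl⟩
      by_contra hcon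
      exact absurd (φ.monotone (not_lt.mp hcon)) (not_le.mpr hlt)
    · rintro ⟨k, ⟨hk, hlt⟩, rfl⟩
      exact ⟨⟨k, hk, rfl⟩, lt_of_le_of_ne (φ.monotone hlt.le) fun h => hlt.ne (hσ hk hj h)⟩
  rw [h1, h2, Finset.card_image_of_injOn (hσ.mono (fun x hx => (Finset.mem_filter.mp hx).1))]

lemma simplexBd_image_of_not_injOn {m n : ℕ} (φ : Fin m →o Fin n) (σ : Finset (Fin m))
    (hσ : ¬ Set.InjOn φ σ) (τ : Finset (Fin n)) :
    (∑ j ∈ σ, if (σ.erase j).image φ = τ ∧ τ.card = (σ.erase j).card then
      ((-1) ^ (σ.filter (· < j)).card : ℤ) else 0) = 0 := by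
  obtain ⟨a, ha, b, hb, hab, hlt⟩ : ∃ a ∈ σ, ∃ b ∈ σ, φ a = φ b ∧ a < b := by
    simp only [Set.InjOn, not_forall] at hσ
    obtain ⟨x, hx, y, hy, hxy, hne⟩ := hσ
    rcases lt_or_gt_of_ne hne with h | h
    · exact ⟨x, hx, y, hy, hxy, h⟩
    · exact ⟨y, hy, x, hx, hxy.symm, h⟩
  obtain ⟨c, hc, hac, hφ, hmin⟩ : ∃ c ∈ σ, a < c ∧ φ a = φ c ∧ ∀ d ∈ σ, a < d → c ≤ d := by
    have hne : (σ.filter (a < ·)).Nonempty := ⟨b, by simp [hb, hlt]⟩
    refine ⟨(σ.filter (a < ·)).min' hne, ?_, ?_, ?_, ?_⟩
    · exact (Finset.mem_filter.mp (Finset.min'_mem _ hne)).1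
    · exact (Finset.mem_filter.mp (Finset.min'_mem _ hne)).2
    · apply le_antisymm
      · exact φ.monotone (Finset.mem_filter.mp (Finset.min'_mem _ hne)).2.le
      · rw [hab]
        exact φ.monotone (Finset.min'_le _ _ (by simp [hb, hlt]))
    · intro d hd had
      exact Finset.min'_le _ _ (by simp [hd, had])
  have key : ∀ j ∈ σ, j ≠ a → j ≠ c → ¬ ((σ.erase j).image φ = τ ∧ τ.card = (σ.erase j).card) := by
    rintro j hj hja hjc ⟨h1, h2⟩
    rw [← h1] at h2
    have := Finset.card_image_iff.mp h2
    exact hac.ne (this (by simp [ha, hja.symm]) (by simp [hc, hjc.symm]) hφ)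
  have himg : (σ.erase a).image φ = (σ.erase c).image φ := by
    ext i
    simp only [Finset.mem_image, Finset.mem_erase]
    constructor
    · rintro ⟨k, ⟨hka, hk⟩, rfl⟩
      by_cases hkc : k = c
      · exact ⟨a, ⟨hac.ne, ha⟩, by rw [hkc, hφ]⟩
      · exact ⟨k, ⟨hkc, hk⟩, rfl⟩
    · rintro ⟨k, ⟨hkc, hk⟩, rfl⟩
      by_cases hka : k = a
      · exact ⟨c, ⟨hac.ne', hc⟩, by rw [hka, hφ]⟩
      · exact ⟨k, ⟨hka, hk⟩, rfl⟩
  have hcard : (σ.erase a).card = (σ.erase c).card := by
    rw [Finset.card_erase_of_mem ha, Finset.card_erase_of_mem hc]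
  have hfil : (σ.filter (· < c)).card = (σ.filter (· < a)).card + 1 := by
    have : σ.filter (· < c) = insert a (σ.filter (· < a)) := by
      ext i
      simp only [Finset.mem_filter, Finset.mem_insert]
      constructor
      · rintro ⟨hi, hic⟩
        rcases lt_trichotomy i a with h | h | h
        · exact Or.inr ⟨hi, h⟩
        · exact Or.inl h
        · exact absurd (hmin i hi h) (not_le.mpr hic)
      · rintro (rfl | ⟨hi, hia⟩)
        · exact ⟨ha, hac⟩
        · exact ⟨hi, hia.trans hac⟩
    rw [this, Finset.card_insert_of_notMem (by simp)]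
  rw [← Finset.add_sum_erase _ _ ha, ← Finset.add_sum_erase _ _ (show c ∈ σ.erase a by
    simp [hc, hac.ne'])]
  rw [Finset.sum_eq_zero (fun j hj => by
    simp only [Finset.mem_erase] at hj
    exact if_neg (key j hj.2.2 hj.2.1 hj.1)), himg, hcard, hfil, add_zero]
  split_ifs
  · ring
  · ring

/-- The matrix of the map of chain complexes induced by a monotone map. -/
def simplexMat {m n : ℕ} (φ : Fin (m + 1) →o Fin (n + 1)) (σ : SimplexBasis m)
    (τ : SimplexBasis n) : ℕ :=
  if σ.1.image φ = τ.1 ∧ τ.1.card = σ.1.card then 1 else 0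

lemma simplexMat_aug {m n : ℕ} (φ : Fin (m + 1) →o Fin (n + 1)) (σ : SimplexBasis m)
    (hσ : σ.1.card - 1 = 0) : ∑ τ : SimplexBasis n, simplexMat φ σ τ = 1 := by
  have h1 : σ.1.card = 1 := by
    have := σ.2.card_pos
    omega
  obtain ⟨i, hi⟩ := Finset.card_eq_one.mp h1
  rw [Finset.sum_eq_single (⟨{φ i}, Finset.singleton_nonempty _⟩ : SimplexBasis n)]
  · simp [simplexMat, hi]
  · intro τ _ hτ
    unfold simplexMat
    rw [if_neg]
    rintro ⟨h2, -⟩
    apply hτ
    apply Subtype.ext
    rw [← h2, hi]
    simp
  · intro h
    exact absurd (Finset.mem_univ _) h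

lemma simplexMat_bd {m n : ℕ} (φ : Fin (m + 1) →o Fin (n + 1)) (σ : SimplexBasis m)
    (τ : SimplexBasis n) :
    ∑ ρ : SimplexBasis m, simplexBd σ.1 ρ.1 * (simplexMat φ ρ τ : ℤ) =
      ∑ ρ : SimplexBasis n, (simplexMat φ σ ρ : ℤ) * simplexBd ρ.1 τ.1 := by
  have hL : (∑ a : SimplexBasis m, simplexBd σ.1 a.1 * (simplexMat φ a τ : ℤ)) =
      ∑ j ∈ σ.1, if (σ.1.erase j).image φ = τ.1 ∧ τ.1.card = (σ.1.erase j).card then
        ((-1) ^ (σ.1.filter (· < j)).card : ℤ) else 0 := by
    simp only [simplexBd, Finset.sum_mul]
    rw [Finset.sum_comm]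
    refine Finset.sum_congr rfl fun j _ => ?_
    by_cases hj : (σ.1.erase j).image φ = τ.1 ∧ τ.1.card = (σ.1.erase j).card
    · have hne : (σ.1.erase j).Nonempty := by
        rw [← Finset.card_pos, ← hj.2]
        exact τ.2.card_pos
      rw [if_pos hj, Finset.sum_eq_single (⟨σ.1.erase j, hne⟩ : SimplexBasis m)]
      · simp only [simplexMat]
        rw [if_pos trivial, if_pos hj]
        simp
      · intro ρ _ hρ
        rw [if_neg (fun h => hρ (Subtype.ext h.symm)), zero_mul]
      · intro h
        exact absurd (Finset.mem_univ _) h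
    · rw [if_neg hj]
      refine Finset.sum_eq_zero fun ρ _ => ?_
      by_cases h : σ.1.erase j = ρ.1
      · simp only [simplexMat]
        rw [if_neg (by rw [← h]; exact hj) (c := ρ.1.image φ = τ.1 ∧ τ.1.card = ρ.1.card)]
        simp
      · rw [if_neg h, zero_mul]
  rw [hL]
  by_cases hinj : Set.InjOn φ (σ.1 : Set (Fin (m + 1)))
  · have hc : (σ.1.image φ).card = σ.1.card := Finset.card_image_iff.mpr hinj
    rw [Finset.sum_eq_single (⟨σ.1.image φ, σ.2.image φ⟩ : SimplexBasis n)]
    · simp only [simplexMat]
      rw [if_pos ⟨trivial, hc⟩, simplexBd_image_of_injOn φ σ.1 hinj]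
      simp only [Nat.cast_one, one_mul]
      refine Finset.sum_congr rfl fun j hj => ?_
      by_cases h : (σ.1.erase j).image φ = τ.1
      · rw [if_pos h, if_pos ⟨h, by
          rw [← h, Finset.card_image_of_injOn (hinj.mono (by simp))]⟩]
      · rw [if_neg h, if_neg (fun h' => h h'.1)]
    · intro ρ _ hρ
      simp only [simplexMat]
      rw [if_neg]
      · simp
      · rintro ⟨h, -⟩
        exact hρ (Subtype.ext h.symm)
    · intro h
      exact absurd (Finset.mem_univ _) h
  · rw [simplexBd_image_of_not_injOn φ σ.1 hinj]
    symm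
    refine Finset.sum_eq_zero fun ρ _ => ?_
    simp only [simplexMat]
    rw [if_neg]
    · simp
    · rintro ⟨h, h'⟩
      rw [← h] at h'
      exact hinj (Finset.card_image_iff.mp h')

lemma simplexMat_id {m : ℕ} (σ τ : SimplexBasis m) :
    simplexMat OrderHom.id σ τ = if σ = τ then 1 else 0 := by
  simp only [simplexMat]
  congr 1
  apply propext
  constructor
  · rintro ⟨h, -⟩
    apply Subtype.ext
    rw [← h]
    simp
  · rintro rfl
    simp

lemma simplexMat_comp {l m n : ℕ} (φ : Fin (l + 1) →o Fin (m + 1)) (ψ : Fin (m + 1) →o Fin (n + 1))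
    (σ : SimplexBasis l) (τ : SimplexBasis n) :
    simplexMat (ψ.comp φ) σ τ = ∑ ρ : SimplexBasis m, simplexMat φ σ ρ * simplexMat ψ ρ τ := by
  have hi : σ.1.image (ψ.comp φ) = (σ.1.image φ).image ψ := by
    rw [Finset.image_image]
    rfl
  by_cases h : (σ.1.image φ).card = σ.1.card
  · rw [Finset.sum_eq_single (⟨σ.1.image φ, σ.2.image _⟩ : SimplexBasis m)]
    · simp only [simplexMat]
      rw [if_pos (show True ∧ (σ.1.image φ).card = σ.1.card from ⟨trivial, h⟩), one_mul, h, hi]
    · intro ρ _ hρ
      simp only [simplexMat]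
      rw [if_neg, zero_mul]
      rintro ⟨h1, -⟩
      exact hρ (Subtype.ext h1.symm)
    · intro h
      exact absurd (Finset.mem_univ _) h
  · rw [Finset.sum_eq_zero]
    · simp only [simplexMat]
      rw [if_neg]
      rintro ⟨h1, h2⟩
      apply h
      apply le_antisymm Finset.card_image_le
      rw [← h2, ← h1, hi]
      exact Finset.card_image_le
    · intro ρ _
      simp only [simplexMat]
      by_cases h1 : σ.1.image φ = ρ.1 ∧ ρ.1.card = σ.1.card
      · exact absurd (by rw [h1.1, h1.2]) h
      · rw [if_neg h1, zero_mul]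

/-- The morphism of complexes induced by a monotone map. -/
def simplexCpxMap {m n : ℕ} (φ : Fin (m + 1) →o Fin (n + 1)) :
    Cpx.Hom (simplexCpx m) (simplexCpx n) where
  mat := simplexMat φ
  dim_of_mat σ τ h := by
    have : σ.1.image φ = τ.1 ∧ τ.1.card = σ.1.card := by
      by_contra hcon
      exact h (if_neg hcon)
    change σ.1.card - 1 = τ.1.card - 1
    rw [this.2]
  aug_mat σ hσ := simplexMat_aug φ σ hσ
  bd_mat σ τ := simplexMat_bd φ σ τ

/-- The cosimplicial object of the normalized chain complexes of the standard simplices. -/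
def simplexCpxFunctor : SimplexCategory ⥤ Cpx where
  obj m := simplexCpx m.len
  map φ := simplexCpxMap φ.toOrderHom
  map_id m := by
    apply Cpx.Hom.ext
    funext σ τ
    exact simplexMat_id σ τ
  map_comp {l m n} φ ψ := by
    apply Cpx.Hom.ext
    funext σ τ
    exact simplexMat_comp φ.toOrderHom ψ.toOrderHom σ τ

/-- Street's orientals, `m ↦ 𝒪_m`, as a cosimplicial strict `ω`-category. -/
noncomputable def orientalFunctor : SimplexCategory ⥤ OmegaCat :=
  simplexCpxFunctor ⋙ nuFunctor

/-- The `m`-th oriental. -/
noncomputable def oriental (m : ℕ) : OmegaCat := orientalFunctor.obj (SimplexCategory.mk m)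

/-- The Street nerve of a strict `ω`-category, `m ↦ Hom(𝒪_m, X)`. -/
noncomputable def streetNerveObj (X : OmegaCat) : SSet.{0} where
  obj m := orientalFunctor.obj m.unop ⟶ X
  map φ := TypeCat.ofHom fun x => orientalFunctor.map φ.unop ≫ x
  map_id m := by
    ext x
    simp
  map_comp φ ψ := by
    ext x
    simp

/-- The map of Street nerves induced by a functor. -/
noncomputable def streetNerveMap {X Y : OmegaCat} (f : X ⟶ Y) : streetNerveObj X ⟶ streetNerveObj Y where
  app m := TypeCat.ofHom fun x => x ≫ f
  naturality m n φ := by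
    ext x
    exact Category.assoc _ _ _

/-- The Street nerve functor on strict `ω`-categories. -/
noncomputable def streetNerveOmega : OmegaCat ⥤ SSet.{0} where
  obj := streetNerveObj
  map := streetNerveMap
  map_id X := by
    ext m x
    exact Category.comp_id _
  map_comp f g := by
    ext m x
    exact (Category.assoc _ _ _).symm

/-- The Street nerve on the category of strict `n`-categories. -/
noncomputable def streetNerve (n : ℕ∞) : NCat n ⥤ SSet.{0} :=
  (OmegaCat.IsNCat n).ι ⋙ streetNerveOmega

/-- Weak homotopy equivalences of simplicial sets: `f : X ⟶ Y` such that for each Kan complex `K`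
precomposition with `f` induces a bijection from the set of path components of `Fun(Y, K)` to that
of `Fun(X, K)`. -/
def WeakEq : MorphismProperty SSet.{0} := fun X Y f =>
  ∀ (K : SSet.{0}) [SSet.KanComplex K],
    Function.Bijective (SSet.mapπ₀ ((MonoidalClosed.pre f).app K))

/-- Kan fibrations: the right lifting property against all horn inclusions. -/
def KanFib : MorphismProperty SSet.{0} := SSet.modelCategoryQuillen.J.rlp

/-- `Ex² N_n`. -/
noncomputable def exExNerve (n : ℕ∞) : NCat n ⥤ SSet.{0} := streetNerve n ⋙ SSet.ex ⋙ SSet.ex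

/-- The class `W_n`. -/
def thomasonW (n : ℕ∞) : MorphismProperty (NCat n) := WeakEq.inverseImage (streetNerve n)

/-- The class `F_n`. -/
def thomasonF (n : ℕ∞) : MorphismProperty (NCat n) := KanFib.inverseImage (exExNerve n)

/-- The class `C_n`. -/
def thomasonC (n : ℕ∞) : MorphismProperty (NCat n) := (thomasonF n ⊓ thomasonW n).llp

end Vale.Agent.P213
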