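import Vale.Agent.Lib.P213.AW

/-! # Elementary homotopies: the chain maps `C(m) ⊗ I ⟶ C(q)` -/

open CategoryTheory

namespace Vale.Agent.P213

/-- The elementary homotopies between simplices: `φ₀ : [m] → [q]` monotone, `t ∈ [q]`, `j ≤ m+1`
with `φ₀ i ≤ t` for all `i`; the homotopy goes from `φ₀` to the map which agrees with `φ₀` on
`i < j` and is `t` on `i ≥ j`. -/
structure Elem (m q : ℕ) where
  φ₀ : Fin (m + 1) →o Fin (q + 1)
  j : ℕ
  t : Fin (q + 1)
  le : ∀ i, φ₀ i ≤ t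

/-- The end of the elementary homotopy. -/
def Elem.φ₁ {m q : ℕ} (E : Elem m q) : Fin (m + 1) →o Fin (q + 1) where
  toFun i := if (i : ℕ) < E.j then E.φ₀ i else E.t
  monotone' a b hab := by
    have h1 := E.φ₀.monotone hab
    have h2 := E.le a
    have : (a : ℕ) ≤ b := hab
    dsimp only
    split_ifs
    · exact h1
    · exact h2
    · omega
    · exact le_rfl

lemma Elem.φ₁_apply {m q : ℕ} (E : Elem m q) (i : Fin (m + 1)) :
    E.φ₁ i = if (i : ℕ) < E.j then E.φ₀ i else E.t := rfl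

/-- `φ₀` extended by `t` on a new last vertex. -/
def Elem.psi {m q : ℕ} (E : Elem m q) : Fin (m + 1 + 1) →o Fin (q + 1) where
  toFun i := if h : i = Fin.last (m + 1) then E.t else E.φ₀ (i.castPred h)
  monotone' a b hab := by
    dsimp only
    split_ifs with ha hb hb
    · exact le_rfl
    · rw [ha] at hab
      exact absurd (Fin.last_le_iff.mp hab) hb
    · exact E.le _
    · exact E.φ₀.monotone (Fin.castPred_le_castPred_iff.mpr hab)

lemma Elem.psi_last {m q : ℕ} (E : Elem m q) : E.psi (Fin.last (m + 1)) = E.t :=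
  dif_pos rfl

lemma Elem.psi_castSucc {m q : ℕ} (E : Elem m q) (i : Fin (m + 1)) :
    E.psi i.castSucc = E.φ₀ i :=
  (dif_neg (Fin.castSucc_ne_last i)).trans (by rw [Fin.castPred_castSucc])

/-- The cone on a face. -/
def hat {m : ℕ} (σ : Finset (Fin (m + 1))) : Finset (Fin (m + 1 + 1)) :=
  insert (Fin.last (m + 1)) (σ.map Fin.castSuccEmb)

lemma last_notMem {m : ℕ} (σ : Finset (Fin (m + 1))) :
    Fin.last (m + 1) ∉ σ.map Fin.castSuccEmb := by
  simp [Fin.castSucc_ne_last]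

lemma hat_card {m : ℕ} (σ : Finset (Fin (m + 1))) : (hat σ).card = σ.card + 1 := by
  rw [hat, Finset.card_insert_of_notMem (last_notMem σ), Finset.card_map]

lemma hat_image {m q : ℕ} (E : Elem m q) (σ : Finset (Fin (m + 1))) :
    (hat σ).image E.psi = insert E.t (σ.image E.φ₀) := by
  rw [hat, Finset.image_insert, E.psi_last]
  congr 1
  ext x
  simp only [Finset.mem_image, Finset.mem_map]
  constructor
  · rintro ⟨y, ⟨z, hz, rfl⟩, rfl⟩
    exact ⟨z, hz, (E.psi_castSucc z).symm⟩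
  · rintro ⟨z, hz, rfl⟩
    exact ⟨_, ⟨z, hz, rfl⟩, E.psi_castSucc z⟩

lemma map_image {m q : ℕ} (E : Elem m q) (σ : Finset (Fin (m + 1))) :
    (σ.map Fin.castSuccEmb).image E.psi = σ.image E.φ₀ := by
  ext x
  simp only [Finset.mem_image, Finset.mem_map]
  constructor
  · rintro ⟨y, ⟨z, hz, rfl⟩, rfl⟩
    exact ⟨z, hz, (E.psi_castSucc z).symm⟩
  · rintro ⟨z, hz, rfl⟩
    exact ⟨_, ⟨z, hz, rfl⟩, E.psi_castSucc z⟩

lemma hat_erase_last {m : ℕ} (σ : Finset (Fin (m + 1))) :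
    (hat σ).erase (Fin.last (m + 1)) = σ.map Fin.castSuccEmb := by
  rw [hat, Finset.erase_insert (last_notMem σ)]

lemma hat_erase {m : ℕ} (σ : Finset (Fin (m + 1))) (v : Fin (m + 1)) :
    (hat σ).erase v.castSucc = hat (σ.erase v) := by
  ext x
  simp only [hat, Finset.mem_erase, Finset.mem_insert, Finset.mem_map, Fin.coe_castSuccEmb]
  constructor
  · rintro ⟨h1, h2 | ⟨z, hz, rfl⟩⟩
    · exact Or.inl h2
    · exact Or.inr ⟨z, ⟨fun h => h1 (by rw [h]), hz⟩, rfl⟩
  · rintro (h | ⟨z, ⟨h1, h2⟩, rfl⟩)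
    · exact ⟨by rw [h]; exact (Fin.castSucc_ne_last v).symm, Or.inl h⟩
    · exact ⟨fun h => h1 (Fin.castSucc_injective _ h), Or.inr ⟨z, h2, rfl⟩⟩

lemma hat_filter_last {m : ℕ} (σ : Finset (Fin (m + 1))) :
    ((hat σ).filter (· < Fin.last (m + 1))).card = σ.card := by
  have : (hat σ).filter (· < Fin.last (m + 1)) = σ.map Fin.castSuccEmb := by
    ext x
    simp only [hat, Finset.mem_filter, Finset.mem_insert, Finset.mem_map, Fin.coe_castSuccEmb]
    constructor
    · rintro ⟨h1 | h1, h2⟩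
      · exact absurd h1 h2.ne
      · exact h1
    · rintro ⟨z, hz, rfl⟩
      exact ⟨Or.inr ⟨z, hz, rfl⟩, Fin.castSucc_lt_last z⟩
  rw [this, Finset.card_map]

lemma hat_filter {m : ℕ} (σ : Finset (Fin (m + 1))) (v : Fin (m + 1)) :
    ((hat σ).filter (· < v.castSucc)).card = (σ.filter (· < v)).card := by
  have : (hat σ).filter (· < v.castSucc) = (σ.filter (· < v)).map Fin.castSuccEmb := by
    ext x
    simp only [hat, Finset.mem_filter, Finset.mem_insert, Finset.mem_map, Fin.coe_castSuccEmb]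
    constructor
    · rintro ⟨rfl | ⟨z, hz, rfl⟩, h2⟩
      · exact absurd h2 (not_lt.mpr (Fin.le_last _))
      · exact ⟨z, ⟨hz, Fin.castSucc_lt_castSucc_iff.mp h2⟩, rfl⟩
    · rintro ⟨z, ⟨hz, hz'⟩, rfl⟩
      exact ⟨Or.inr ⟨z, hz, rfl⟩, Fin.castSucc_lt_castSucc_iff.mpr hz'⟩
  rw [this, Finset.card_map]

/-- The boundary of the cone on the image of a face. -/
lemma cone_bd {m q : ℕ} (E : Elem m q) (σ : Finset (Fin (m + 1))) (τ : SimplexBasis q) :
    (∑ v ∈ σ, (-1 : ℤ) ^ (σ.filter (· < v)).card *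
      (if τ.1 = insert E.t ((σ.erase v).image E.φ₀) ∧ τ.1.card = (σ.erase v).card + 1
        then 1 else 0)) +
      (-1) ^ σ.card * (if τ.1 = σ.image E.φ₀ ∧ τ.1.card = σ.card then 1 else 0) =
    ∑ ρ : SimplexBasis q, (if ρ.1 = insert E.t (σ.image E.φ₀) ∧ ρ.1.card = σ.card + 1
        then 1 else 0) * simplexBd ρ.1 τ.1 := by
  have hne : (hat σ).Nonempty := ⟨Fin.last _, by simp [hat]⟩
  have h := simplexMat_bd E.psi (⟨hat σ, hne⟩ : SimplexBasis (m + 1)) τ
  have hR : ∀ ρ : SimplexBasis q, (simplexMat E.psi (⟨hat σ, hne⟩ : SimplexBasis (m + 1)) ρ : ℤ) =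
      if ρ.1 = insert E.t (σ.image E.φ₀) ∧ ρ.1.card = σ.card + 1 then 1 else 0 := by
    intro ρ
    rw [simplexMat]
    simp only [hat_image, hat_card]
    by_cases h1 : ρ.1 = insert E.t (σ.image E.φ₀) ∧ ρ.1.card = σ.card + 1
    · rw [if_pos h1, if_pos ⟨h1.1.symm, h1.2⟩]
      simp
    · rw [if_neg h1, if_neg (fun h2 => h1 ⟨h2.1.symm, h2.2⟩)]
      simp
  have hL : ∑ ρ : SimplexBasis (m + 1), simplexBd (hat σ) ρ.1 * (simplexMat E.psi ρ τ : ℤ) =
      ∑ v ∈ hat σ, (-1 : ℤ) ^ ((hat σ).filter (· < v)).card *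
        (if ((hat σ).erase v).image E.psi = τ.1 ∧ τ.1.card = ((hat σ).erase v).card
          then 1 else 0) := by
    refine Eq.trans ?_ (sum_simplexBd (hat σ) (fun S : Finset (Fin (m + 1 + 1)) =>
      if S.image E.psi = τ.1 ∧ τ.1.card = S.card then (1 : ℤ) else 0) ?_)
    · refine Finset.sum_congr rfl fun ρ _ => ?_
      rw [simplexMat]
      push_cast
      rfl
    · rw [if_neg]
      rintro ⟨-, h1⟩
      have := τ.2.card_pos
      rw [Finset.card_empty] at h1
      omega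
  have h' := hL.symm.trans h
  simp only [hR] at h'
  rw [← h', hat, Finset.sum_insert (last_notMem σ), Finset.sum_map]
  have e1 : ((insert (Fin.last (m + 1)) (σ.map Fin.castSuccEmb)).filter
      (· < Fin.last (m + 1))).card = σ.card := hat_filter_last σ
  have e2 : (insert (Fin.last (m + 1)) (σ.map Fin.castSuccEmb)).erase (Fin.last (m + 1)) =
      σ.map Fin.castSuccEmb := hat_erase_last σ
  rw [e1, e2, map_image, Finset.card_map, add_comm]
  congr 1
  · congr 1
    by_cases h1 : τ.1 = σ.image E.φ₀ ∧ τ.1.card = σ.card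
    · rw [if_pos h1, if_pos ⟨h1.1.symm, h1.2⟩]
    · rw [if_neg h1, if_neg (fun h2 => h1 ⟨h2.1.symm, h2.2⟩)]
  · refine Finset.sum_congr rfl fun v _ => ?_
    have e3 : ((insert (Fin.last (m + 1)) (σ.map Fin.castSuccEmb)).filter
      (· < Fin.castSuccEmb v)).card = (σ.filter (· < v)).card := hat_filter σ v
    have e4 : (insert (Fin.last (m + 1)) (σ.map Fin.castSuccEmb)).erase (Fin.castSuccEmb v) =
      hat (σ.erase v) := hat_erase σ v
    rw [e3, e4, hat_image, hat_card]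
    congr 1
    by_cases h1 : τ.1 = insert E.t ((σ.erase v).image E.φ₀) ∧ τ.1.card = (σ.erase v).card + 1
    · rw [if_pos h1, if_pos ⟨h1.1.symm, h1.2⟩]
    · rw [if_neg h1, if_neg (fun h2 => h1 ⟨h2.1.symm, h2.2⟩)]

/-- The matrix entries of the elementary homotopy on `σ ⊗ e`. -/
def thetaR {m q : ℕ} (E : Elem m q) (σ : SimplexBasis m) (τ : SimplexBasis q) : ℕ :=
  if (∃ v ∈ σ.1, E.j ≤ (v : ℕ)) ∧ τ.1 = insert E.t (σ.1.image E.φ₀) ∧
    τ.1.card = σ.1.card + 1 then 1 else 0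

/-- The matrix of the elementary homotopy. -/
def thetaMat {m q : ℕ} (E : Elem m q) : TensorBasis (simplexCpx m) → SimplexBasis q → ℕ
  | Sum.inl (σ, false), τ => simplexMat E.φ₀ σ τ
  | Sum.inl (σ, true), τ => simplexMat E.φ₁ σ τ
  | Sum.inr σ, τ => thetaR E σ τ

lemma phi_one_eq {m q : ℕ} (E : Elem m q) (σ : Finset (Fin (m + 1)))
    (h : ¬ ∃ v ∈ σ, E.j ≤ (v : ℕ)) : σ.image E.φ₁ = σ.image E.φ₀ := by
  refine Finset.image_congr ?_
  intro v hv
  rw [E.φ₁_apply, if_pos]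
  by_contra hcon
  exact h ⟨v, hv, not_lt.mp hcon⟩

/-- The terms of the boundary which do not cancel. -/
lemma theta_aux {m q : ℕ} (E : Elem m q) (σ : SimplexBasis m) (τ : SimplexBasis q)
    (h : ∃ v ∈ σ.1, E.j ≤ (v : ℕ)) :
    (∑ v ∈ σ.1, (-1 : ℤ) ^ (σ.1.filter (· < v)).card *
      (if (¬ ∃ w ∈ σ.1.erase v, E.j ≤ (w : ℕ)) ∧
        τ.1 = insert E.t ((σ.1.erase v).image E.φ₀) ∧ τ.1.card = (σ.1.erase v).card + 1
        then 1 else 0)) = (-1) ^ (σ.1.card - 1) * (simplexMat E.φ₁ σ τ : ℤ) := by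
  obtain ⟨a, ha, haj⟩ := h
  by_cases h1 : ∃ w ∈ σ.1.erase a, E.j ≤ (w : ℕ)
  · obtain ⟨b, hb, hbj⟩ := h1
    have hba := Finset.ne_of_mem_erase hb
    have hb' := Finset.mem_of_mem_erase hb
    have hz : simplexMat E.φ₁ σ τ = 0 := by
      rw [simplexMat, if_neg]
      rintro ⟨h2, h3⟩
      rw [← h2] at h3
      have hinj := Finset.card_image_iff.mp h3
      apply hba
      apply hinj hb' ha
      rw [E.φ₁_apply, E.φ₁_apply, if_neg (by omega), if_neg (by omega)]
    rw [hz]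
    simp only [Nat.cast_zero, mul_zero]
    refine Finset.sum_eq_zero fun v hv => ?_
    rw [if_neg, mul_zero]
    rintro ⟨h2, -⟩
    apply h2
    by_cases hva : v = a
    · exact ⟨b, by rw [hva]; exact hb, hbj⟩
    · exact ⟨a, Finset.mem_erase.mpr ⟨fun h => hva h.symm, ha⟩, haj⟩
  · have huniq : ∀ w ∈ σ.1, E.j ≤ (w : ℕ) → w = a := by
      intro w hw hwj
      by_contra hcon
      exact h1 ⟨w, Finset.mem_erase.mpr ⟨hcon, hw⟩, hwj⟩
    have hlast : ∀ w ∈ σ.1, w ≤ a := by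
      intro w hw
      by_contra hcon
      have hlt := not_le.mp hcon
      have : (a : ℕ) < w := hlt
      exact hlt.ne (huniq w hw (by omega)).symm
    rw [Finset.sum_eq_single a]
    · have hf : (σ.1.filter (· < a)).card = σ.1.card - 1 := by
        have : σ.1.filter (· < a) = σ.1.erase a := by
          ext w
          simp only [Finset.mem_filter, Finset.mem_erase]
          constructor
          · rintro ⟨hw, hwa⟩
            exact ⟨hwa.ne, hw⟩
          · rintro ⟨hwa, hw⟩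
            exact ⟨hw, lt_of_le_of_ne (hlast w hw) hwa⟩
        rw [this, Finset.card_erase_of_mem ha]
      rw [hf]
      congr 1
      have him : insert E.t ((σ.1.erase a).image E.φ₀) = σ.1.image E.φ₁ := by
        rw [← phi_one_eq E (σ.1.erase a) h1]
        have : E.t = E.φ₁ a := by
          rw [E.φ₁_apply, if_neg (by omega)]
        rw [this, ← Finset.image_insert, Finset.insert_erase ha]
      have hc : (σ.1.erase a).card + 1 = σ.1.card := Finset.card_erase_add_one ha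
      rw [him, hc, simplexMat]
      by_cases h2 : σ.1.image E.φ₁ = τ.1 ∧ τ.1.card = σ.1.card
      · rw [if_pos h2, if_pos ⟨h1, h2.1.symm, h2.2⟩]
        simp
      · rw [if_neg h2, if_neg (fun h3 => h2 ⟨h3.2.1.symm, h3.2.2⟩)]
        simp
    · intro v hv hva
      rw [if_neg, mul_zero]
      rintro ⟨h2, -⟩
      exact h2 ⟨a, Finset.mem_erase.mpr ⟨fun h => hva h.symm, ha⟩, haj⟩
    · intro h
      exact absurd ha h

/-- The boundary of the elementary homotopy. -/
lemma thetaR_bd {m q : ℕ} (E : Elem m q) (σ : SimplexBasis m) (τ : SimplexBasis q) :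
    (∑ ρ : SimplexBasis m, simplexBd σ.1 ρ.1 * (thetaR E ρ τ : ℤ)) +
      (-1) ^ (σ.1.card - 1) * ((simplexMat E.φ₁ σ τ : ℤ) - simplexMat E.φ₀ σ τ) =
      ∑ ρ : SimplexBasis q, (thetaR E σ ρ : ℤ) * simplexBd ρ.1 τ.1 := by
  have hL : ∑ ρ : SimplexBasis m, simplexBd σ.1 ρ.1 * (thetaR E ρ τ : ℤ) =
      ∑ v ∈ σ.1, (-1 : ℤ) ^ (σ.1.filter (· < v)).card *
        (if (∃ w ∈ σ.1.erase v, E.j ≤ (w : ℕ)) ∧
        τ.1 = insert E.t ((σ.1.erase v).image E.φ₀) ∧ τ.1.card = (σ.1.erase v).card + 1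
        then 1 else 0) := by
    refine Eq.trans ?_ (sum_simplexBd σ.1 (fun S : Finset (Fin (m + 1)) =>
      if (∃ w ∈ S, E.j ≤ (w : ℕ)) ∧
        τ.1 = insert E.t (S.image E.φ₀) ∧ τ.1.card = S.card + 1 then (1 : ℤ) else 0) (by simp))
    refine Finset.sum_congr rfl fun ρ _ => ?_
    rw [thetaR]
    push_cast
    rfl
  rw [hL]
  by_cases hN : ∃ v ∈ σ.1, E.j ≤ (v : ℕ)
  · have hR : ∑ ρ : SimplexBasis q, (thetaR E σ ρ : ℤ) * simplexBd ρ.1 τ.1 =
        ∑ ρ : SimplexBasis q, (if ρ.1 = insert E.t (σ.1.image E.φ₀) ∧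
          ρ.1.card = σ.1.card + 1 then 1 else 0) * simplexBd ρ.1 τ.1 := by
      refine Finset.sum_congr rfl fun ρ _ => ?_
      rw [thetaR]
      congr 1
      by_cases h1 : ρ.1 = insert E.t (σ.1.image E.φ₀) ∧ ρ.1.card = σ.1.card + 1
      · rw [if_pos h1, if_pos ⟨hN, h1⟩]
        simp
      · rw [if_neg h1, if_neg (fun h => h1 h.2)]
        simp
    rw [hR, ← cone_bd E σ.1 τ, mul_sub, ← theta_aux E σ τ hN]
    have hs : ∀ v ∈ σ.1, (-1 : ℤ) ^ (σ.1.filter (· < v)).card *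
        (if τ.1 = insert E.t ((σ.1.erase v).image E.φ₀) ∧ τ.1.card = (σ.1.erase v).card + 1
        then 1 else 0) = (-1 : ℤ) ^ (σ.1.filter (· < v)).card *
        (if (∃ w ∈ σ.1.erase v, E.j ≤ (w : ℕ)) ∧
        τ.1 = insert E.t ((σ.1.erase v).image E.φ₀) ∧ τ.1.card = (σ.1.erase v).card + 1
        then 1 else 0) + (-1 : ℤ) ^ (σ.1.filter (· < v)).card *
        (if (¬ ∃ w ∈ σ.1.erase v, E.j ≤ (w : ℕ)) ∧
        τ.1 = insert E.t ((σ.1.erase v).image E.φ₀) ∧ τ.1.card = (σ.1.erase v).card + 1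
        then 1 else 0) := by
      intro v _
      by_cases h1 : ∃ w ∈ σ.1.erase v, E.j ≤ (w : ℕ) <;>
        by_cases h2 : τ.1 = insert E.t ((σ.1.erase v).image E.φ₀) ∧
          τ.1.card = (σ.1.erase v).card + 1
      · rw [if_pos h2, if_pos ⟨h1, h2⟩, if_neg (fun h => h.1 h1)]
        ring
      · rw [if_neg h2, if_neg (fun h => h2 h.2), if_neg (fun h => h2 h.2)]
        ring
      · rw [if_pos h2, if_neg (fun h => h1 h.1), if_pos ⟨h1, h2⟩]
        ring
      · rw [if_neg h2, if_neg (fun h => h2 h.2), if_neg (fun h => h2 h.2)]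
        ring
    rw [Finset.sum_congr rfl hs, Finset.sum_add_distrib]
    have hc : (-1 : ℤ) ^ σ.1.card = - (-1) ^ (σ.1.card - 1) := by
      obtain ⟨k, hk⟩ : ∃ k, σ.1.card = k + 1 := ⟨σ.1.card - 1, by
        have := σ.2.card_pos
        omega⟩
      rw [hk, pow_succ]
      simp
    have hm : (if τ.1 = σ.1.image E.φ₀ ∧ τ.1.card = σ.1.card then (1 : ℤ) else 0) =
        simplexMat E.φ₀ σ τ := by
      rw [simplexMat]
      by_cases h1 : τ.1 = σ.1.image E.φ₀ ∧ τ.1.card = σ.1.card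
      · rw [if_pos h1, if_pos ⟨h1.1.symm, h1.2⟩]
        simp
      · rw [if_neg h1, if_neg (fun h2 => h1 ⟨h2.1.symm, h2.2⟩)]
        simp
    rw [hc, hm]
    ring
  · have h1 : simplexMat E.φ₁ σ τ = simplexMat E.φ₀ σ τ := by
      rw [simplexMat, simplexMat, phi_one_eq E σ.1 hN]
    rw [h1, sub_self, mul_zero, add_zero]
    rw [Finset.sum_eq_zero, Finset.sum_eq_zero]
    · intro ρ _
      rw [thetaR, if_neg (fun h => hN h.1)]
      simp
    · intro v _
      rw [if_neg, mul_zero]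
      rintro ⟨⟨w, hw, hwj⟩, -⟩
      exact hN ⟨w, Finset.mem_of_mem_erase hw, hwj⟩

lemma thetaR_bd_full {m q : ℕ} (E : Elem m q) (σ : SimplexBasis m) (τ : SimplexBasis q) :
    ((∑ ρ : SimplexBasis m, (if ρ = σ then (-1) ^ (σ.1.card - 1) * (if false then 1 else -1)
        else 0) * (simplexMat E.φ₀ ρ τ : ℤ)) +
      ∑ ρ : SimplexBasis m, (if ρ = σ then (-1) ^ (σ.1.card - 1) * (if true then 1 else -1)
        else 0) * (simplexMat E.φ₁ ρ τ : ℤ)) +
      ∑ ρ : SimplexBasis m, simplexBd σ.1 ρ.1 * (thetaR E ρ τ : ℤ) =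
      ∑ ρ : SimplexBasis q, (thetaR E σ ρ : ℤ) * simplexBd ρ.1 τ.1 := by
  rw [← thetaR_bd E σ τ, Finset.sum_eq_single σ, Finset.sum_eq_single σ]
  · simp only [if_true]
    simp
    ring
  · intro b _ hb
    rw [if_neg hb, zero_mul]
  · intro h
    exact absurd (Finset.mem_univ _) h
  · intro b _ hb
    rw [if_neg hb, zero_mul]
  · intro h
    exact absurd (Finset.mem_univ _) h

/-- The chain map of an elementary homotopy. -/
def thetaHom {m q : ℕ} (E : Elem m q) : Cpx.Hom (tensorI (simplexCpx m)) (simplexCpx q) where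
  mat := thetaMat E
  dim_of_mat := by
    rintro (⟨σ, i⟩ | σ) τ h
    · cases i
      · exact (simplexCpxMap E.φ₀).dim_of_mat σ τ h
      · exact (simplexCpxMap E.φ₁).dim_of_mat σ τ h
    · have h1 : (∃ v ∈ σ.1, E.j ≤ (v : ℕ)) ∧ τ.1 = insert E.t (σ.1.image E.φ₀) ∧
          τ.1.card = σ.1.card + 1 := by
        by_contra hcon
        exact h (if_neg hcon)
      change σ.1.card - 1 + 1 = τ.1.card - 1
      have := σ.2.card_pos
      omega
  aug_mat := by
    rintro (⟨σ, i⟩ | σ) h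
    · cases i
      · exact (simplexCpxMap E.φ₀).aug_mat σ h
      · exact (simplexCpxMap E.φ₁).aug_mat σ h
    · exact absurd h (Nat.succ_ne_zero _)
  bd_mat := by
    rintro (⟨σ, i⟩ | σ) τ
    · refine (sum_tensorI (K := simplexCpx m) (fun a =>
        (tensorI (simplexCpx m)).bd (Sum.inl (σ, i)) a * (thetaMat E a τ : ℤ))).trans ?_
      cases i
      · refine Eq.trans ?_ ((simplexCpxMap E.φ₀).bd_mat σ τ)
        simp only [tensorI_bd_inl_inl, tensorI_bd_inl_inr, zero_mul, Finset.sum_const_zero,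
          add_zero, if_true, Bool.false_eq_true, if_false]
        rfl
      · refine Eq.trans ?_ ((simplexCpxMap E.φ₁).bd_mat σ τ)
        simp only [tensorI_bd_inl_inl, tensorI_bd_inl_inr, zero_mul, Finset.sum_const_zero,
          add_zero, zero_add, if_true, Bool.true_eq_false, if_false]
        rfl
    · refine (sum_tensorI (K := simplexCpx m) (fun a =>
        (tensorI (simplexCpx m)).bd (Sum.inr σ) a * (thetaMat E a τ : ℤ))).trans ?_
      exact thetaR_bd_full E σ τ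

/-- The chain map of an elementary homotopy. -/
def theta {m q : ℕ} (E : Elem m q) : tensorFunctor.obj (simplexCpx m) ⟶ simplexCpx q :=
  thetaHom E

lemma incl_theta_aux {K L : Cpx} (i : Bool) (g : tensorI K ⟶ L) (b : K.B) (c : L.B) :
    (∑ z : (tensorI K).B, tensorInclMat K i b z * g.mat z c) = g.mat (Sum.inl (b, i)) c := by
  rw [sum_tensorI]
  cases i <;> simp

lemma tensorIncl_theta_false {m q : ℕ} (E : Elem m q) :
    (tensorIncl false).app (simplexCpx m) ≫ theta E = simplexCpxMap E.φ₀ := by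
  apply Cpx.Hom.ext
  funext σ τ
  exact incl_theta_aux (K := simplexCpx m) (L := simplexCpx q) false (thetaHom E) σ τ

lemma tensorIncl_theta_true {m q : ℕ} (E : Elem m q) :
    (tensorIncl true).app (simplexCpx m) ≫ theta E = simplexCpxMap E.φ₁ := by
  apply Cpx.Hom.ext
  funext σ τ
  exact incl_theta_aux (K := simplexCpx m) (L := simplexCpx q) true (thetaHom E) σ τ

lemma theta_deg_inl {m q : ℕ} (φ : Fin (m + 1) →o Fin (q + 1)) (σ : SimplexBasis m)
    (τ : SimplexBasis q) :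
    ∑ ρ : SimplexBasis m, (if σ = ρ then 1 else 0) * simplexMat φ ρ τ = simplexMat φ σ τ := by
  simp

lemma thetaR_zero {m q : ℕ} (E : Elem m q) (h : m < E.j) (σ : SimplexBasis m)
    (τ : SimplexBasis q) : thetaR E σ τ = 0 := by
  rw [thetaR, if_neg]
  rintro ⟨⟨v, -, hv⟩, -⟩
  have := v.2
  omega

/-- If all vertices are `< j` the homotopy is degenerate. -/
lemma theta_deg {m q : ℕ} (E : Elem m q) (h : m < E.j) :
    theta E = tensorProj.app (simplexCpx m) ≫
      (show simplexCpx m ⟶ simplexCpx q from simplexCpxMap E.φ₀) := by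
  apply Cpx.Hom.ext
  funext y τ
  rcases y with ⟨σ, i⟩ | σ
  · have h1 : thetaMat E (Sum.inl (σ, i)) τ = simplexMat E.φ₀ σ τ := by
      cases i
      · rfl
      · change simplexMat E.φ₁ σ τ = simplexMat E.φ₀ σ τ
        have h2 : E.φ₁ = E.φ₀ := by
          apply OrderHom.ext
          funext v
          have hv : (v : ℕ) < E.j := lt_of_lt_of_le v.2 h
          exact if_pos hv
        rw [h2]
    exact h1.trans (theta_deg_inl E.φ₀ σ τ).symm
  · refine Eq.trans (thetaR_zero E h σ τ) ?_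
    change 0 = ∑ ρ : SimplexBasis m, tensorProjMat (simplexCpx m) (Sum.inr σ) ρ *
      simplexMat E.φ₀ ρ τ
    exact (Finset.sum_eq_zero fun ρ _ => Nat.zero_mul _).symm

lemma thetaR_nat {m q m' q' : ℕ} (E : Elem m q) (E' : Elem m' q')
    (α : Fin (m' + 1) →o Fin (m + 1)) (β : Fin (q' + 1) →o Fin (q + 1))
    (h0 : ∀ i, E.φ₀ (α i) = β (E'.φ₀ i))
    (hj : ∀ i : Fin (m' + 1), ((i : ℕ) < E'.j ↔ ((α i : Fin (m + 1)) : ℕ) < E.j))
    (ht : β E'.t = E.t) (σ : SimplexBasis m') (τ : SimplexBasis q) :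
    ∑ ρ : SimplexBasis m, simplexMat α σ ρ * thetaR E ρ τ =
      ∑ ρ : SimplexBasis q', thetaR E' σ ρ * simplexMat β ρ τ := by
  have him : (insert E'.t (σ.1.image E'.φ₀)).image β = insert E.t ((σ.1.image α).image E.φ₀) := by
    rw [Finset.image_insert, ht]
    congr 1
    rw [Finset.image_image, Finset.image_image]
    refine Finset.image_congr ?_
    intro v _
    exact (h0 v).symm
  have hex : (∃ v ∈ σ.1.image α, E.j ≤ (v : ℕ)) ↔ (∃ v ∈ σ.1, E'.j ≤ (v : ℕ)) := by
    simp only [Finset.mem_image]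
    constructor
    · rintro ⟨_, ⟨v, hv, rfl⟩, h⟩
      refine ⟨v, hv, ?_⟩
      have := hj v
      omega
    · rintro ⟨v, hv, h⟩
      refine ⟨_, ⟨v, hv, rfl⟩, ?_⟩
      have := hj v
      omega
  have hR : ∑ ρ : SimplexBasis q', thetaR E' σ ρ * simplexMat β ρ τ =
      if (∃ v ∈ σ.1, E'.j ≤ (v : ℕ)) ∧ τ.1 = insert E.t ((σ.1.image α).image E.φ₀) ∧
        τ.1.card = σ.1.card + 1 then 1 else 0 := by
    have hne : (insert E'.t (σ.1.image E'.φ₀)).Nonempty := ⟨E'.t, Finset.mem_insert_self _ _⟩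
    have hc1 : (insert E'.t (σ.1.image E'.φ₀)).card ≤ σ.1.card + 1 :=
      (Finset.card_insert_le _ _).trans (Nat.add_le_add_right Finset.card_image_le 1)
    rw [Finset.sum_eq_single (⟨insert E'.t (σ.1.image E'.φ₀), hne⟩ : SimplexBasis q')]
    · rw [thetaR, simplexMat]
      simp only [him]
      by_cases hc : (∃ v ∈ σ.1, E'.j ≤ (v : ℕ)) ∧
          τ.1 = insert E.t ((σ.1.image α).image E.φ₀) ∧ τ.1.card = σ.1.card + 1
      · rw [if_pos hc]
        obtain ⟨h1, h2, h3⟩ := hc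
        have hc2 : τ.1.card ≤ (insert E'.t (σ.1.image E'.φ₀)).card := by
          rw [h2, ← him]
          exact Finset.card_image_le
        rw [if_pos ⟨h1, trivial, by omega⟩, if_pos ⟨h2.symm, by omega⟩]
      · rw [if_neg hc]
        by_cases h1 : (∃ v ∈ σ.1, E'.j ≤ (v : ℕ)) ∧ True ∧
            (insert E'.t (σ.1.image E'.φ₀)).card = σ.1.card + 1
        · rw [if_pos h1, one_mul, if_neg]
          rintro ⟨h2, h3⟩
          exact hc ⟨h1.1, h2.symm, by omega⟩
        · rw [if_neg h1, zero_mul]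
    · intro ρ _ hρ
      rw [thetaR, if_neg (fun h => hρ (Subtype.ext h.2.1)), zero_mul]
    · intro h
      exact absurd (Finset.mem_univ _) h
  rw [hR, sum_simplexMat]
  have hc0 : (σ.1.image α).card ≤ σ.1.card := Finset.card_image_le
  have hc3 : (insert E.t ((σ.1.image α).image E.φ₀)).card ≤ (σ.1.image α).card + 1 :=
    (Finset.card_insert_le _ _).trans (Nat.add_le_add_right Finset.card_image_le 1)
  by_cases hc : (∃ v ∈ σ.1, E'.j ≤ (v : ℕ)) ∧
      τ.1 = insert E.t ((σ.1.image α).image E.φ₀) ∧ τ.1.card = σ.1.card + 1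
  · rw [if_pos hc]
    obtain ⟨h1, h2, h3⟩ := hc
    have h4 : (σ.1.image α).card = σ.1.card := by
      rw [h2] at h3
      omega
    rw [if_pos h4, thetaR, if_pos]
    refine ⟨hex.mpr h1, h2, ?_⟩
    change τ.1.card = (σ.1.image α).card + 1
    omega
  · rw [if_neg hc]
    by_cases h4 : (σ.1.image α).card = σ.1.card
    · rw [if_pos h4, thetaR, if_neg]
      rintro ⟨h1, h2, h3⟩
      have h3' : τ.1.card = (σ.1.image α).card + 1 := h3
      exact hc ⟨hex.mp h1, h2, by omega⟩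
    · rw [if_neg h4]

lemma phi_one_nat {m q m' q' : ℕ} (E : Elem m q) (E' : Elem m' q')
    (α : Fin (m' + 1) →o Fin (m + 1)) (β : Fin (q' + 1) →o Fin (q + 1))
    (h0 : ∀ i, E.φ₀ (α i) = β (E'.φ₀ i))
    (hj : ∀ i : Fin (m' + 1), ((i : ℕ) < E'.j ↔ ((α i : Fin (m + 1)) : ℕ) < E.j))
    (ht : β E'.t = E.t) : E.φ₁.comp α = β.comp E'.φ₁ := by
  apply OrderHom.ext
  funext i
  change E.φ₁ (α i) = β (E'.φ₁ i)
  rw [E.φ₁_apply, E'.φ₁_apply]
  by_cases h : (i : ℕ) < E'.j
  · rw [if_pos h, if_pos ((hj i).mp h), h0]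
  · rw [if_neg h, if_neg (fun h' => h ((hj i).mpr h')), ht]

/-- Naturality of the elementary homotopies. -/
lemma theta_nat {m q m' q' : ℕ} (E : Elem m q) (E' : Elem m' q')
    (α : Fin (m' + 1) →o Fin (m + 1)) (β : Fin (q' + 1) →o Fin (q + 1))
    (h0 : ∀ i, E.φ₀ (α i) = β (E'.φ₀ i))
    (hj : ∀ i : Fin (m' + 1), ((i : ℕ) < E'.j ↔ ((α i : Fin (m + 1)) : ℕ) < E.j))
    (ht : β E'.t = E.t) :
    tensorFunctor.map (show simplexCpx m' ⟶ simplexCpx m from simplexCpxMap α) ≫ theta E =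
      theta E' ≫ (show simplexCpx q' ⟶ simplexCpx q from simplexCpxMap β) := by
  have hφ₀ : E.φ₀.comp α = β.comp E'.φ₀ := by
    apply OrderHom.ext
    funext i
    exact h0 i
  have hφ₁ := phi_one_nat E E' α β h0 hj ht
  apply Cpx.Hom.ext
  funext y τ
  rcases y with ⟨σ, i⟩ | σ
  · refine (sum_tensorI (K := simplexCpx m) (fun z =>
      tensorMat (show simplexCpx m' ⟶ simplexCpx m from simplexCpxMap α) (Sum.inl (σ, i)) z *
        thetaMat E z τ)).trans ?_
    cases i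
    · have e1 := simplexMat_comp α E.φ₀ σ τ
      have e2 := simplexMat_comp E'.φ₀ β σ τ
      rw [hφ₀, e2] at e1
      refine Eq.trans ?_ e1.symm
      simp only [tensorMat_inl_inl, tensorMat_inl_inr, zero_mul, Finset.sum_const_zero,
          add_zero, if_true, Bool.false_eq_true, if_false]
      rfl
    · have e1 := simplexMat_comp α E.φ₁ σ τ
      have e2 := simplexMat_comp E'.φ₁ β σ τ
      rw [hφ₁, e2] at e1
      refine Eq.trans ?_ e1.symm
      simp only [tensorMat_inl_inl, tensorMat_inl_inr, zero_mul, Finset.sum_const_zero,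
          add_zero, zero_add, if_true, Bool.true_eq_false, if_false]
      rfl
  · refine (sum_tensorI (K := simplexCpx m) (fun z =>
      tensorMat (show simplexCpx m' ⟶ simplexCpx m from simplexCpxMap α) (Sum.inr σ) z *
        thetaMat E z τ)).trans ?_
    refine Eq.trans ?_ (thetaR_nat E E' α β h0 hj ht σ τ)
    simp only [tensorMat_inr_inl, zero_mul, Finset.sum_const_zero, zero_add]
    rfl

end Vale.Agent.P213
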