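import Vale.Agent.Lib.P213.CylUnit
import Vale.Agent.Lib.P213.Theta

/-! # The functors `𝒪_m ⟶ Γ(𝒪_q)` of the elementary homotopies -/

open CategoryTheory Simplicial

namespace Vale.Agent.P213

lemma Table.cyl_proj {K : Cpx} (t : Table K) :
    CylCell.map (nuFunctor.map (tensorProj.app K)) t.cyl = CylCell.deg (Y := nu K) t := by
  have h : ∀ i : Bool, Table.map (tensorProj.app K) (Table.map ((tensorIncl i).app K) t) = t := by
    intro i
    have h1 := congrArg nuFunctor.map (tensorIncl_proj_app i K)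
    rw [Functor.map_comp] at h1
    exact congrArg (fun g => OmegaCat.Hom.toFun g t) (h1.trans (nuFunctor.map_id K))
  refine CylCell.ext (h false) (h true) ?_
  funext i δ
  exact Table.map_proj_prism (Table.face (0 + i) δ t)

lemma cylUnit_proj (K : Cpx) :
    cylUnit.app K ≫ Gamma.map (nuFunctor.map (tensorProj.app K)) =
      Gamma.deg.app (nuFunctor.obj K) := by
  apply OmegaCat.hom_ext
  intro t
  exact Table.cyl_proj t

/-- The functor `𝒪_m ⟶ Γ(𝒪_q)` of an elementary homotopy. -/
noncomputable def elemCyl {m q : ℕ} (E : Elem m q) :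
    orientalFunctor.obj ⦋m⦌ ⟶ Gamma.obj (orientalFunctor.obj ⦋q⦌) :=
  cylUnit.app (simplexCpx m) ≫ Gamma.map (nuFunctor.map (theta E))

theorem elemCyl_e0 {m q : ℕ} (E : Elem m q) : elemCyl E ≫ Gamma.e0.app _ =
    orientalFunctor.map (SimplexCategory.Hom.mk E.φ₀) := by
  have h1 := congrArg nuFunctor.map (tensorIncl_theta_false E)
  rw [Functor.map_comp] at h1
  exact h1

theorem elemCyl_e1 {m q : ℕ} (E : Elem m q) : elemCyl E ≫ Gamma.e1.app _ =
    orientalFunctor.map (SimplexCategory.Hom.mk E.φ₁) := by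
  have h1 := congrArg nuFunctor.map (tensorIncl_theta_true E)
  rw [Functor.map_comp] at h1
  exact h1

/-- If all vertices are `< j` the homotopy is degenerate. -/
theorem elemCyl_deg {m q : ℕ} (E : Elem m q) (h : m < E.j) : elemCyl E =
    orientalFunctor.map (SimplexCategory.Hom.mk E.φ₀) ≫ Gamma.deg.app _ := by
  have key : cylUnit.app (simplexCpx m) ≫ Gamma.map (nuFunctor.map (tensorProj.app (simplexCpx m) ≫
      (show simplexCpx m ⟶ simplexCpx q from simplexCpxMap E.φ₀))) =
      nuFunctor.map (show simplexCpx m ⟶ simplexCpx q from simplexCpxMap E.φ₀) ≫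
        Gamma.deg.app (nuFunctor.obj (simplexCpx q)) := by
    rw [Functor.map_comp, Functor.map_comp]
    refine (Category.assoc _ _ _).symm.trans ?_
    rw [cylUnit_proj]
    exact (Gamma.deg.naturality _).symm
  rw [← theta_deg E h] at key
  exact key

/-- Naturality in the source and in the target simplex. -/
theorem elemCyl_nat {m q m' q' : ℕ} (E : Elem m q) (E' : Elem m' q')
    (α : Fin (m' + 1) →o Fin (m + 1)) (β : Fin (q' + 1) →o Fin (q + 1))
    (h0 : ∀ i, E.φ₀ (α i) = β (E'.φ₀ i))
    (hj : ∀ i : Fin (m' + 1), ((i : ℕ) < E'.j ↔ ((α i : Fin (m + 1)) : ℕ) < E.j))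
    (ht : β E'.t = E.t) :
    orientalFunctor.map (SimplexCategory.Hom.mk α) ≫ elemCyl E =
      elemCyl E' ≫ Gamma.map (orientalFunctor.map (SimplexCategory.Hom.mk β)) := by
  have h1 := cylUnit.naturality (show simplexCpx m' ⟶ simplexCpx m from simplexCpxMap α)
  have h2 := theta_nat E E' α β h0 hj ht
  have e1 : orientalFunctor.map (SimplexCategory.Hom.mk α) ≫ elemCyl E =
      nuFunctor.map (show simplexCpx m' ⟶ simplexCpx m from simplexCpxMap α) ≫
        cylUnit.app (simplexCpx m) ≫ Gamma.map (nuFunctor.map (theta E)) := rfl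
  have e2 : elemCyl E' ≫ Gamma.map (orientalFunctor.map (SimplexCategory.Hom.mk β)) =
      cylUnit.app (simplexCpx m') ≫ Gamma.map (nuFunctor.map (theta E' ≫
        (show simplexCpx q' ⟶ simplexCpx q from simplexCpxMap β))) := by
    rw [Functor.map_comp, Functor.map_comp]
    rfl
  rw [e1, e2, ← h2, Functor.map_comp, Functor.map_comp, ← Category.assoc, h1, Category.assoc]
  rfl

end Vale.Agent.P213
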