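import Mathlib

/-!
# `Ex` preserves filtered colimits
-/

open CategoryTheory Limits Opposite Simplicial SSet

universe u

namespace Vale.Agent.P213.SS

lemma nerve_finite (P : Type u) [PartialOrder P] [Finite P] : (nerve P).Finite := by
  have : (nerve P).HasDimensionLT (Nat.card P) := ⟨fun n hn => by
    ext x
    simp only [mem_degenerate_iff_notMem_nonDegenerate, Set.top_eq_univ, Set.mem_univ, iff_true]
    intro hx
    rw [PartialOrder.mem_nerve_nonDegenerate_iff_injective] at hx
    have h1 : Nat.card (Fin (n + 1)) ≤ Nat.card P := Nat.card_le_card_of_injective x.obj hx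
    rw [Nat.card_fin] at h1
    omega⟩
  refine finite_of_hasDimensionLT _ (Nat.card P) fun i _ => ?_
  refine Finite.of_injective (β := Fin (i + 1) → P) (fun x k => x.1.obj k) ?_
  intro x y h
  apply Subtype.ext
  refine CategoryTheory.ComposableArrows.ext (fun k => congrFun h k) ?_
  intro k hk
  exact Subsingleton.elim _ _

instance (n : ℕ) : Finite (PartialOrder.NonemptyFiniteChains (ULift.{u} (Fin (n + 1)))) :=
  Finite.of_injective (fun c => c.finset) (fun _ _ h => PartialOrder.NonemptyFiniteChains.ext h)

instance sd_obj_finite (m : SimplexCategory) : (SimplexCategory.sd.{u}.obj m).Finite :=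
  nerve_finite (PartialOrder.NonemptyFiniteChains (ULift.{u} (Fin (m.len + 1))))

attribute [local instance] Cardinal.fact_isRegular_aleph0

instance ex_preservesFiltered (J : Type) [SmallCategory J] [IsFiltered J] :
    PreservesColimitsOfShape J SSet.ex.{0} := by
  apply preservesColimitsOfShape_of_evaluation
  intro m
  have h1 : IsFinitelyPresentable.{0} (SimplexCategory.sd.{0}.obj m.unop) := inferInstance
  have h2 : (uliftCoyoneda.{0}.obj (op (SimplexCategory.sd.{0}.obj m.unop))).IsCardinalAccessible
      Cardinal.aleph0.{0} := by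
    rw [← isCardinalPresentable_iff_isCardinalAccessible_uliftCoyoneda_obj]
    exact h1
  have h3 : PreservesColimitsOfShape J
      (uliftCoyoneda.{0}.obj (op (SimplexCategory.sd.{0}.obj m.unop))) := by
    have := (isCardinalFiltered_aleph0_iff.{0} J).mpr inferInstance
    exact Functor.preservesColimitsOfShape_of_isCardinalAccessible _ Cardinal.aleph0.{0} J
  let e : SSet.ex.{0} ⋙ (evaluation _ _).obj m ≅
      uliftCoyoneda.{0}.obj (op (SimplexCategory.sd.{0}.obj m.unop)) := Iso.refl _
  exact preservesColimitsOfShape_of_natIso e.symm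

end Vale.Agent.P213.SS
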