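import Vale.Agent.Lib.P213.FreeC

/-!
# Freeness of `nu K`, main theorems

* `Free.functor_ext` : functors out of `nu K` are determined by their values on atoms.
* `Free.functorialOn_ext` : truncated version.
* `Free.exists_functor` : existence of functors with prescribed compatible values on atoms.
-/

open CategoryTheory

namespace Vale.Agent.P213.Free

open Finset

variable {K : Cpx} (S : Steiner K)

/-- a nontrivial cut at the critical level -/
structure Cut (x : Table K) where
  k : ℕ
  s : Table K
  t : Table K
  comp : Table.face k true s = Table.face k false t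
  eq : x = Table.comp k s t
  hs : ¬ Triv k s
  ht : ¬ Triv k t

include S in
lemma exists_cut_of_dec {x : Table K} {k : ℕ} {E : Finset K.B} (hE : Dec S x k E)
    (h2 : 2 ≤ E.card) : ∃ c : Cut x, c.k = k := by
  classical
  obtain ⟨e, he, hmin⟩ := Finset.exists_min_image E S.rank (Finset.card_pos.1 (by omega))
  have hI : Down S k E {e} := by
    refine Down.of_rank hE.dim_lt (Finset.singleton_subset_iff.2 he) ?_
    intro e1 he1 _ e' he'
    rw [Finset.mem_singleton] at he'
    rw [he']
    exact hmin e1 he1
  obtain ⟨e1, he1, hne⟩ : ∃ e1 ∈ E, e1 ≠ e := Finset.exists_mem_ne (by omega) e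
  refine ⟨⟨k, pc hE (Down.empty k E) hI (Finset.empty_subset _),
    pc hE hI (Down.full k E) hI.sub, pc_composable hE _ _ _ _ _, ?_, ?_, ?_⟩, rfl⟩
  · rw [← pc_comp hE (Down.empty k E) hI (Down.full k E) (Finset.empty_subset _) hI.sub, pc_full hE]
  · exact not_triv_pc hE _ _ _ (e := e) (by simp)
  · exact not_triv_pc hE _ _ _ (e := e1) (by simp [he1, hne])

include S in
lemma exists_cut (x : Table K) (h : ¬ ∃ b, x = S.atom b) :
    ∃ c : Cut x, (hi x (c.k + 1)).card ≤ 1 := by
  obtain ⟨k, h1, h2⟩ := exists_level S x h
  obtain ⟨c, hc⟩ := exists_cut_of_dec S (dec_level (S := S) h2) h1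
  exact ⟨c, by rw [hc]; exact h2⟩

lemma atom_injective {b b' : K.B} (h : S.atom b = S.atom b') : b = b' := by
  have h1 := core_atom S b
  rw [h, core_atom S b'] at h1
  exact (Finset.singleton_injective h1).symm

include S in
/-- a nontrivial cut gives at least two core elements -/
lemma two_le_card {x : Table K} (c : Cut x) : 2 ≤ (hi x c.k).card := by
  classical
  have h1 := hi_nonempty_of_not_triv c.hs
  have h2 := hi_nonempty_of_not_triv c.ht
  have h3 : hi c.s c.k ∪ hi c.t c.k ⊆ hi x c.k := by
    have e : hi x c.k = hi (Table.comp c.k c.s c.t) c.k := congrArg (fun u => hi u c.k) c.eq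
    rw [e]
    exact Finset.union_subset (hi_left c.comp le_rfl) (hi_right c.comp le_rfl)
  have h4 := Finset.card_le_card h3
  rw [Finset.card_union_of_disjoint (hi_disjoint S c.comp le_rfl)] at h4
  have := h1.card_pos
  have := h2.card_pos
  omega

lemma Cut.not_atom {x : Table K} (c : Cut x) : ¬ ∃ b, x = S.atom b := by
  rintro ⟨b, hb⟩
  have h1 := two_le_card S c
  have h2 : (hi x c.k).card ≤ (core x).card := Finset.card_le_card (Finset.filter_subset _ _)
  have h3 : core x = {b} := by rw [hb]; exact core_atom S b
  rw [h3, Finset.card_singleton] at h2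
  omega

include S in
lemma Cut.mu_s {x : Table K} (c : Cut x) : mu c.s < mu x := by
  have e : mu x = mu (Table.comp c.k c.s c.t) := congrArg mu c.eq
  rw [e]
  exact mu_left S c.comp c.ht

include S in
lemma Cut.mu_t {x : Table K} (c : Cut x) : mu c.t < mu x := by
  have e : mu x = mu (Table.comp c.k c.s c.t) := congrArg mu c.eq
  rw [e]
  exact mu_right S c.comp c.hs

open Classical in
/-- the extension of `y` to all cells -/
noncomputable def Phi (Y : OmegaCat) (y : K.B → Y.Cell) (x : Table K) : Y.Cell :=
  if h : ∃ b, x = S.atom b then y h.choose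
  else
    Y.comp (exists_cut S x h).choose.k (Phi Y y (exists_cut S x h).choose.s)
      (Phi Y y (exists_cut S x h).choose.t)
termination_by mu x
decreasing_by
  · exact Cut.mu_s S _
  · exact Cut.mu_t S _

lemma Phi_atom (Y : OmegaCat) (y : K.B → Y.Cell) (b : K.B) : Phi S Y y (S.atom b) = y b := by
  have h : ∃ b', S.atom b = S.atom b' := ⟨b, rfl⟩
  rw [Phi, dif_pos h]
  congr 1
  exact (atom_injective S h.choose_spec).symm

lemma Phi_cut (Y : OmegaCat) (y : K.B → Y.Cell) (x : Table K) (h : ¬ ∃ b, x = S.atom b) :
    ∃ c : Cut x, (hi x (c.k + 1)).card ≤ 1 ∧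
      Phi S Y y x = Y.comp c.k (Phi S Y y c.s) (Phi S Y y c.t) := by
  refine ⟨(exists_cut S x h).choose, (exists_cut S x h).choose_spec, ?_⟩
  rw [Phi, dif_neg h]

/-- The property proved by induction. -/
structure Prp (Y : OmegaCat) (y : K.B → Y.Cell) (x : Table K) : Prop where
  face : ∀ (j : ℕ) (ε : Bool), Y.bd j ε (Phi S Y y x) = Phi S Y y (Table.face j ε x)
  comp : ∀ (j : ℕ) (s t : Table K), Table.face j true s = Table.face j false t →
    x = Table.comp j s t → Phi S Y y x = Y.comp j (Phi S Y y s) (Phi S Y y t)

lemma face_comp_gt {j k : ℕ} {ε : Bool} {s t : Table K}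
    (h : Table.face k true s = Table.face k false t) (hkj : k < j) :
    Table.face k true (Table.face j ε s) = Table.face k false (Table.face j ε t) ∧
    Table.face j ε (Table.comp k s t) = Table.comp k (Table.face j ε s) (Table.face j ε t) := by
  refine ⟨?_, (nu K).bd_comp ε hkj h⟩
  rw [face_face_lt _ _ _ hkj, face_face_lt _ _ _ hkj, h]

lemma triv_of_comp {j k : ℕ} {s t : Table K} (h : Table.face k true s = Table.face k false t)
    (hkj : k < j) (hT : Triv j (Table.comp k s t)) : Triv j s ∧ Triv j t := by
  constructor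
  · intro b hb δ
    have := hT b hb δ
    rw [comp_gt h (by omega)] at this
    omega
  · intro b hb δ
    have := hT b hb δ
    rw [comp_gt h (by omega)] at this
    omega

lemma mu_pc_sub {x s : Table K} {k : ℕ} (hsub : hi s k ⊆ hi x k)
    (hk : (hi s (k + 1)).card ≤ 1) (hE : Dec S s k (hi s k))
    {I I' : Finset K.B} (hI : Down S k (hi s k) I) (hI' : Down S k (hi s k) I') (h : I ⊆ I')
    {e : K.B} (he : e ∈ hi x k) (hne : e ∉ I' \ I) : mu (pc hE hI hI' h) < mu x := by
  classical
  have h1 := mem_hi.1 he
  refine mu_lt (k + 1) ?_ (b₀ := e) (by have := h1.2; omega) h1.1 ?_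
  · intro b hb hbc
    have := hi_pc hk hE hI hI' h (mem_hi.2 ⟨hbc, by omega⟩)
    exact (mem_hi.1 (hsub (hI'.sub (Finset.mem_sdiff.1 this).1))).1
  · intro hcon
    exact hne (hi_pc hk hE hI hI' h (mem_hi.2 ⟨hcon, h1.2⟩))

lemma pc_full' {S : Steiner K} {x : Table K} {k : ℕ} {E : Finset K.B} (hE : Dec S x k E)
    {I I' : Finset K.B} (hI : Down S k E I) (hI' : Down S k E I') (h : I ⊆ I') (h0 : I = ∅)
    (h1 : I' = E) : pc hE hI hI' h = x := by
  subst h0 h1
  exact pc_full hE

/-- value of `x` through the cut along `I` -/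
noncomputable def val (Y : OmegaCat) (y : K.B → Y.Cell) {x : Table K} {k : ℕ}
    (hk : (hi x (k + 1)).card ≤ 1) {I : Finset K.B} (hI : Down S k (hi x k) I) : Y.Cell :=
  Y.comp k (Phi S Y y (pc (dec_level (S := S) hk) (Down.empty k _) hI (Finset.empty_subset _)))
    (Phi S Y y (pc (dec_level (S := S) hk) hI (Down.full k _) hI.sub))

section step

variable {Y : OmegaCat} {y : K.B → Y.Cell} {x : Table K}

lemma prp_comp {s t : Table K} {k : ℕ} (hs : Prp S Y y s) (ht : Prp S Y y t)
    (h : Table.face k true s = Table.face k false t) :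
    Y.bd k true (Phi S Y y s) = Y.bd k false (Phi S Y y t) := by
  rw [hs.face, ht.face, h]

/-- lower cuts compute the value -/
lemma val_eq_lower (ih : ∀ x', mu x' < mu x → Prp S Y y x') {j k : ℕ}
    (hk : (hi x (k + 1)).card ≤ 1) (hjk : j < k) {s t : Table K}
    (h : Table.face j true s = Table.face j false t) (hx : x = Table.comp j s t)
    (hs : ¬ Triv j s) (ht : ¬ Triv j t) {I : Finset K.B} (hI : Down S k (hi x k) I)
    (hne : I.Nonempty) (hne' : I ≠ hi x k) :
    val S Y y hk hI = Y.comp j (Phi S Y y s) (Phi S Y y t) := by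
  classical
  obtain ⟨hks, hkt, hun⟩ := hi_union h hx hjk.le hk S
  have hsubs : hi s k ⊆ hi x k := by rw [hun]; exact Finset.subset_union_left
  have hsubt : hi t k ⊆ hi x k := by rw [hun]; exact Finset.subset_union_right
  have d0 : Down S k (hi x k) ∅ := Down.empty k _
  have d1 : Down S k (hi x k) (hi x k) := Down.full k _
  have Is0 := d0.restrict hsubs
  have Is1 := hI.restrict hsubs
  have Is2 := d1.restrict hsubs
  have It0 := d0.restrict hsubt
  have It1 := hI.restrict hsubt
  have It2 := d1.restrict hsubt
  obtain ⟨c1, e1⟩ := pc_matrix (S := S) h hx hjk hk hks hkt hun d0 hI (Finset.empty_subset _)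
    Is0 Is1 It0 It1
  obtain ⟨c2, e2⟩ := pc_matrix (S := S) h hx hjk hk hks hkt hun hI d1 hI.sub
    Is1 Is2 It1 It2
  set s1 := pc (dec_level (S := S) hks) Is0 Is1
    (Finset.inter_subset_inter_right (Finset.empty_subset _)) with hs1
  set t1 := pc (dec_level (S := S) hkt) It0 It1
    (Finset.inter_subset_inter_right (Finset.empty_subset _)) with ht1
  set s2 := pc (dec_level (S := S) hks) Is1 Is2
    (Finset.inter_subset_inter_right hI.sub) with hs2
  set t2 := pc (dec_level (S := S) hkt) It1 It2
    (Finset.inter_subset_inter_right hI.sub) with ht2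
  obtain ⟨eo, heo⟩ : ∃ e, e ∈ hi x k ∧ e ∉ I := by
    by_contra hcon
    push Not at hcon
    exact hne' (Finset.Subset.antisymm hI.sub hcon)
  obtain ⟨ei, hei⟩ := hne
  have ms1 : mu s1 < mu x := mu_pc_sub S hsubs hks _ _ _ _ heo.1 (by
    simp only [mem_sdiff, mem_inter, not_and]
    intro h'
    exact absurd h'.1 heo.2)
  have mt1 : mu t1 < mu x := mu_pc_sub S hsubt hkt _ _ _ _ heo.1 (by
    simp only [mem_sdiff, mem_inter, not_and]
    intro h'
    exact absurd h'.1 heo.2)
  have ms2 : mu s2 < mu x := mu_pc_sub S hsubs hks _ _ _ _ (hI.sub hei) (by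
    simp only [mem_sdiff, mem_inter, not_and]
    intro h'
    exact fun h => h hei h'.2)
  have mt2 : mu t2 < mu x := mu_pc_sub S hsubt hkt _ _ _ _ (hI.sub hei) (by
    simp only [mem_sdiff, mem_inter, not_and]
    intro h'
    exact fun h => h hei h'.2)
  have mp : mu (pc (dec_level (S := S) hk) d0 hI (Finset.empty_subset _)) < mu x :=
    mu_pc hk _ _ _ _ heo.1 (by simp [heo.2])
  have mq : mu (pc (dec_level (S := S) hk) hI d1 hI.sub) < mu x :=
    mu_pc hk _ _ _ _ (hI.sub hei) (by simp [hei])
  have mss : mu s < mu x := by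
    conv_rhs => rw [hx]
    exact mu_left S h ht
  have mtt : mu t < mu x := by
    conv_rhs => rw [hx]
    exact mu_right S h hs
  have cs : Table.face k true s1 = Table.face k false s2 := pc_composable _ _ _ _ _ _
  have ct : Table.face k true t1 = Table.face k false t2 := pc_composable _ _ _ _ _ _
  have es : s = Table.comp k s1 s2 := by
    rw [hs1, hs2, ← pc_comp]
    rw [pc_full' _ _ _ _ (by simp) (Finset.inter_eq_right.2 hsubs)]
  have et : t = Table.comp k t1 t2 := by
    rw [ht1, ht2, ← pc_comp]
    rw [pc_full' _ _ _ _ (by simp) (Finset.inter_eq_right.2 hsubt)]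
  rw [val, (ih _ mp).comp j s1 t1 c1 e1, (ih _ mq).comp j s2 t2 c2 e2,
    (ih _ mss).comp k s1 s2 cs es, (ih _ mtt).comp k t1 t2 ct et]
  exact (Y.interchange hjk (prp_comp S (ih _ ms1) (ih _ ms2) cs)
    (prp_comp S (ih _ mt1) (ih _ mt2) ct) (prp_comp S (ih _ ms1) (ih _ mt1) c1)
    (prp_comp S (ih _ ms2) (ih _ mt2) c2)).symm

/-- nested cuts have the same value -/
lemma val_nested (ih : ∀ x', mu x' < mu x → Prp S Y y x') {k : ℕ}
    (hk : (hi x (k + 1)).card ≤ 1) {I J : Finset K.B} (hI : Down S k (hi x k) I)
    (hJ : Down S k (hi x k) J) (hne : I.Nonempty) (hne' : J ≠ hi x k) (h : I ⊆ J) :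
    val S Y y hk hI = val S Y y hk hJ := by
  classical
  obtain ⟨eo, heo⟩ : ∃ e, e ∈ hi x k ∧ e ∉ J := by
    by_contra hcon
    push Not at hcon
    exact hne' (Finset.Subset.antisymm hJ.sub hcon)
  obtain ⟨ei, hei⟩ := hne
  have hE := dec_level (S := S) hk
  have d0 : Down S k (hi x k) ∅ := Down.empty k _
  have d1 : Down S k (hi x k) (hi x k) := Down.full k _
  have hoI : eo ∉ I := fun h' => heo.2 (h h')
  have m1 : mu (pc hE d0 hI (Finset.empty_subset _)) < mu x :=
    mu_pc hk _ _ _ _ heo.1 (by simp [hoI])
  have m2 : mu (pc hE d0 hJ (Finset.empty_subset _)) < mu x :=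
    mu_pc hk _ _ _ _ heo.1 (by simp [heo.2])
  have m3 : mu (pc hE hI hJ h) < mu x :=
    mu_pc hk _ _ _ _ (hI.sub hei) (by simp [hei])
  have m4 : mu (pc hE hI d1 hI.sub) < mu x :=
    mu_pc hk _ _ _ _ (hI.sub hei) (by simp [hei])
  have m5 : mu (pc hE hJ d1 hJ.sub) < mu x :=
    mu_pc hk _ _ _ _ (hI.sub hei) (by simp [h hei])
  have c1 := pc_composable hE d0 hI hJ (Finset.empty_subset _) h
  have c2 := pc_composable hE hI hJ d1 h hJ.sub
  have e1 := pc_comp hE d0 hI hJ (Finset.empty_subset _) h
  have e2 := pc_comp hE hI hJ d1 h hJ.sub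
  rw [val, val, (ih _ m4).comp k _ _ c2 e2, (ih _ m2).comp k _ _ c1 e1]
  exact (Y.comp_assoc (prp_comp S (ih _ m1) (ih _ m3) c1) (prp_comp S (ih _ m3) (ih _ m5) c2)).symm

include S in
/-- two unrelated top elements: there is a lower cut -/
lemma split_below {k : ℕ} (hk : (hi x (k + 1)).card ≤ 1) {e e' : K.B} (hee : e ≠ e')
    (hE : hi x k = {e, e'}) (hI : Down S k (hi x k) {e}) (hI' : Down S k (hi x k) {e'}) :
    ∃ c : Cut x, c.k < k := by
  classical
  have hD := dec_level (S := S) hk
  have he : e ∈ hi x k := by rw [hE]; simp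
  have he' : e' ∈ hi x k := by rw [hE]; simp
  have hde := (mem_hi.1 he).2
  have hde' := (mem_hi.1 he').2
  have htot : ∀ a, K.dim a = k → (x.x true a : ℤ) = x.x false a +
      (((S.atom e).x true a : ℤ) - (S.atom e).x false a) +
      (((S.atom e').x true a : ℤ) - (S.atom e').x false a) := by
    intro a ha
    rw [hD.total ha, hE, Finset.sum_pair hee]
    ring
  have hle : ∀ a, K.dim a = k → (S.atom e).x false a + (S.atom e').x false a ≤ x.x false a := by
    intro a ha
    have h1 := htot a ha
    have h2 : (S.atom e).x false a ≠ 0 → (S.atom e').x true a = 0 := by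
      intro h
      by_contra h3
      exact hI.dn e' he' (by simpa using hee.symm) e (by simp) a ha h3 h
    have h3 : (S.atom e').x false a ≠ 0 → (S.atom e).x true a = 0 := by
      intro h
      by_contra h3
      exact hI'.dn e he (by simpa using hee) e' (by simp) a ha h3 h
    have h4 := S.disj a e (by omega)
    have h5 := S.disj a e' (by omega)
    have h6 : (0 : ℤ) ≤ x.x true a := by positivity
    by_cases q1 : (S.atom e).x false a = 0
    · by_cases q2 : (S.atom e').x false a = 0
      · omega
      · have := h3 q2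
        rcases h5 with h5 | h5
        · exact absurd h5 q2
        · omega
    · have := h2 q1
      rcases h4 with h4 | h4
      · exact absurd h4 q1
      · omega
  have hk1 : 1 ≤ k := by
    by_contra hk0
    have hk0 : k = 0 := by omega
    have a1 := x.aug false
    have a2 := (S.atom e).aug false
    have a3 := (S.atom e').aug false
    have : K.aug ((S.atom e).x false) + K.aug ((S.atom e').x false) ≤ K.aug (x.x false) := by
      simp only [Cpx.aug]
      rw [← Finset.sum_add_distrib]
      refine Finset.sum_le_sum fun b _ => ?_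
      by_cases hb : K.dim b = 0
      · simp only [hb, if_true]
        exact hle b (by omega)
      · simp [hb]
    omega
  let r : K.B → ℕ := fun a => x.x false a - (S.atom e).x false a - (S.atom e').x false a
  let R : Finset K.B := univ.filter (fun a => K.dim a = k ∧ r a ≠ 0)
  have hR : ∀ a, K.dim a = k → r a = if a ∈ R then 1 else 0 := by
    intro a ha
    have h1 := mult_free S x false a
    have h2 : r a ≤ 1 := by simp only [r]; omega
    by_cases h3 : a ∈ R
    · rw [if_pos h3]
      simp only [R, mem_filter, mem_univ, true_and] at h3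
      omega
    · rw [if_neg h3]
      simp only [R, mem_filter, mem_univ, true_and, not_and, not_not] at h3
      exact h3 ha
  have hdisj : Disjoint ({e, e'} : Finset K.B) R := by
    rw [Finset.disjoint_left]
    intro b hb hbR
    simp only [R, mem_filter, mem_univ, true_and] at hbR
    rw [Finset.mem_insert, Finset.mem_singleton] at hb
    rcases hb with rfl | rfl <;> omega
  have hDec : Dec S x (k - 1) ({e, e'} ∪ R) := by
    refine ⟨?_, ?_⟩
    · intro b hb
      rw [Finset.mem_union, Finset.mem_insert, Finset.mem_singleton] at hb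
      rcases hb with (rfl | rfl) | hb
      · omega
      · omega
      · simp only [R, mem_filter, mem_univ, true_and] at hb
        omega
    · intro ε a ha
      rw [Finset.sum_union hdisj, Finset.sum_pair hee]
      have h1 : ∑ b ∈ R, (S.atom b).x ε a = if a ∈ R then 1 else 0 := by
        have : ∀ b ∈ R, (S.atom b).x ε a = if a = b then 1 else 0 := by
          intro b hb
          simp only [R, mem_filter, mem_univ, true_and] at hb
          exact S.top a b ε (by omega)
        rw [Finset.sum_congr rfl this, Finset.sum_ite_eq]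
      rw [h1]
      by_cases hak : K.dim a = k
      · rw [← hR a hak]
        have h2 := htot a hak
        have h3 := hle a hak
        simp only [r]
        cases ε
        · omega
        · omega
      · have h2 : a ∉ R := by
          simp only [R, mem_filter, mem_univ, true_and, not_and]
          intro h; exact absurd h hak
        rw [if_neg h2, hD.eq ε a (by omega), hE, Finset.sum_pair hee, add_zero]
  have hcard : 2 ≤ ({e, e'} ∪ R : Finset K.B).card := by
    rw [← Finset.card_pair hee]
    exact Finset.card_le_card Finset.subset_union_left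
  obtain ⟨c, hc⟩ := exists_cut_of_dec S hDec hcard
  exact ⟨c, by omega⟩

/-- all cuts at the critical level have the same value -/
lemma val_indep (ih : ∀ x', mu x' < mu x → Prp S Y y x') {k : ℕ}
    (hk : (hi x (k + 1)).card ≤ 1) {I J : Finset K.B} (hI : Down S k (hi x k) I)
    (hJ : Down S k (hi x k) J) (hI1 : I.Nonempty) (hI2 : I ≠ hi x k) (hJ1 : J.Nonempty)
    (hJ2 : J ≠ hi x k) : val S Y y hk hI = val S Y y hk hJ := by
  classical
  by_cases h1 : (I ∩ J).Nonempty
  · have hIJ := hI.inter hJ
    rw [← val_nested S ih hk hIJ hI h1 hI2 Finset.inter_subset_left,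
      ← val_nested S ih hk hIJ hJ h1 hJ2 Finset.inter_subset_right]
  · by_cases h2 : I ∪ J = hi x k
    · -- complementary case
      rw [Finset.not_nonempty_iff_eq_empty] at h1
      have hdis : Disjoint I J := Finset.disjoint_iff_inter_eq_empty.2 h1
      -- auxiliary: the case where `A` has at least two elements
      have aux : ∀ {A B : Finset K.B} (hA : Down S k (hi x k) A) (hB : Down S k (hi x k) B),
          Disjoint A B → A ∪ B = hi x k → B.Nonempty → A ≠ hi x k → B ≠ hi x k → 2 ≤ A.card →
          val S Y y hk hA = val S Y y hk hB := by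
        intro A B hA hB hAB hABu hB1 hA2 hB2 hcard
        obtain ⟨e, he, hmin⟩ := Finset.exists_min_image A S.rank (Finset.card_pos.1 (by omega))
        have hsing : Down S k (hi x k) {e} := by
          refine ⟨Finset.singleton_subset_iff.2 (hA.sub he), ?_⟩
          intro e1 he1 hne e' he' a ha h3 h4
          rw [Finset.mem_singleton] at he'
          subst he'
          by_cases h5 : e1 ∈ A
          · have r1 := S.rtgt a e1 (by rw [ha]; exact (mem_hi.1 he1).2) h3
            have r2 := S.rsrc a e' (by rw [ha]; exact (mem_hi.1 (hA.sub he)).2) h4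
            have := hmin e1 h5
            omega
          · exact hA.dn e1 he1 h5 e' he a ha h3 h4
        have hun := hsing.union hB
        have hneq : {e} ∪ B ≠ hi x k := by
          intro hcon
          have h5 : A ⊆ {e} := by
            intro a ha
            have : a ∈ {e} ∪ B := by rw [hcon]; exact hA.sub ha
            rw [Finset.mem_union] at this
            rcases this with h | h
            · exact h
            · exact absurd h (Finset.disjoint_left.1 hAB ha)
          have := Finset.card_le_card h5
          simp at this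
          omega
        rw [← val_nested S ih hk hsing hA ⟨e, by simp⟩ hA2 (Finset.singleton_subset_iff.2 he),
          val_nested S ih hk hsing hun ⟨e, by simp⟩ hneq Finset.subset_union_left,
          ← val_nested S ih hk hB hun hB1 hneq Finset.subset_union_right]
      by_cases hc1 : 2 ≤ I.card
      · exact aux hI hJ hdis h2 hJ1 hI2 hJ2 hc1
      · by_cases hc2 : 2 ≤ J.card
        · exact (aux hJ hI hdis.symm (by rw [Finset.union_comm]; exact h2) hI1 hJ2 hI2 hc2).symm
        · have hI3 : I.card = 1 := by have := hI1.card_pos; omega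
          have hJ3 : J.card = 1 := by have := hJ1.card_pos; omega
          obtain ⟨e, he⟩ := Finset.card_eq_one.1 hI3
          obtain ⟨e', he'⟩ := Finset.card_eq_one.1 hJ3
          subst he he'
          have hee : e ≠ e' := by
            intro h
            subst h
            simp at hdis
          have hE : hi x k = {e, e'} := by
            rw [← h2]; rfl
          obtain ⟨c, hc⟩ := split_below S hk hee hE hI hJ
          rw [val_eq_lower S ih hk hc c.comp c.eq c.hs c.ht hI hI1 hI2,
            val_eq_lower S ih hk hc c.comp c.eq c.hs c.ht hJ hJ1 hJ2]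
    · have hIJ := hI.union hJ
      rw [val_nested S ih hk hI hIJ hI1 h2 Finset.subset_union_left,
        val_nested S ih hk hJ hIJ hJ1 h2 Finset.subset_union_right]

end step

/-- compatibility of the prescribed values -/
structure Compatible (Y : OmegaCat) (y : K.B → Y.Cell) : Prop where
  dim : ∀ b, Y.bd (K.dim b) false (y b) = y b
  bd : ∀ (n : ℕ) (Φ : Table K → Y.Cell), FunctorialOn n Φ →
    (∀ b, K.dim b ≤ n → Φ (S.atom b) = y b) →
    ∀ b, K.dim b = n + 1 → ∀ ε, Y.bd n ε (y b) = Φ (Table.face n ε (S.atom b))

lemma triv_atom {b : K.B} {j : ℕ} (h : K.dim b ≤ j) : Triv j (S.atom b) := by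
  intro a ha δ
  rw [S.top a b δ (by omega), if_neg]
  rintro rfl
  omega

theorem prp {Y : OmegaCat} {y : K.B → Y.Cell} (hy : Compatible S Y y) (x : Table K) :
    Prp S Y y x := by
  classical
  induction hm : mu x using Nat.strong_induction_on generalizing x with
  | _ m IH =>
  have ih : ∀ x', mu x' < mu x → Prp S Y y x' := fun x' h => IH (mu x') (hm ▸ h) x' rfl
  -- faces
  have hface : ∀ (j : ℕ) (ε : Bool), Y.bd j ε (Phi S Y y x) = Phi S Y y (Table.face j ε x) := by
    by_cases hat : ∃ b, x = S.atom b
    · obtain ⟨b, hb⟩ := hat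
      intro j ε
      by_cases hj : K.dim b ≤ j
      · have h1 : Table.face j ε x = x := by
          rw [hb]; exact face_of_triv (triv_atom S hj)
        rw [h1, hb, Phi_atom, ← hy.dim b, Y.bd_bd_ge _ _ _ hj]
      · obtain ⟨n, hn⟩ : ∃ n, K.dim b = n + 1 := ⟨K.dim b - 1, by omega⟩
        have hlow : ∀ t : Table K, Table.face n false t = t → Prp S Y y t := by
          intro t ht
          apply ih
          rw [hb]
          have htr := triv_of_face ht
          have hnc : ∀ c, n < K.dim c → c ∉ core t := by
            intro c hc hcon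
            exact (mem_core.1 hcon).1 (htr c hc false)
          refine mu_lt (n + 1) ?_ (b₀ := b) (by omega) (by rw [core_atom]; simp) (hnc b (by omega))
          intro c hc hcon
          exact absurd hcon (hnc c (by omega))
        have hF : FunctorialOn n (Phi S Y y) := by
          refine ⟨?_, ?_⟩
          · intro k ε t ht
            exact ((hlow t ht).face k ε).symm
          · intro k s t hs ht hst
            have h1 : Table.face n false (Table.comp k s t) = Table.comp k s t := by
              apply face_of_triv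
              have hs' := triv_of_face hs
              have ht' := triv_of_face ht
              intro c hc δ
              by_cases hkc : k < K.dim c
              · rw [comp_gt hst hkc, hs' c hc, ht' c hc]
              · rcases Nat.lt_or_ge (K.dim c) k with h | h
                · rw [comp_lt hst h, hs' c hc]
                · have hkc' : K.dim c = k := by omega
                  cases δ
                  · rw [comp_false hst hkc', hs' c hc]
                  · rw [comp_true hst hkc', ht' c hc]
            exact (hlow _ h1).comp k s t hst rfl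
        have hbd : Y.bd n ε (y b) = Phi S Y y (Table.face n ε (S.atom b)) :=
          hy.bd n (Phi S Y y) hF (fun b' _ => Phi_atom S Y y b') b hn ε
        rw [hb, Phi_atom]
        rcases Nat.lt_or_ge j n with hjn | hjn
        · have h2 : Y.bd n false (y b) = Phi S Y y (Table.face n false (S.atom b)) :=
            hy.bd n (Phi S Y y) hF (fun b' _ => Phi_atom S Y y b') b hn false
          rw [← Y.bd_bd_lt ε false (y b) hjn, h2,
            (hlow (Table.face n false (S.atom b)) (face_face_ge _ _ _ le_rfl)).face j ε,
            face_face_lt _ _ _ hjn]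
        · have : j = n := by omega
          subst this
          exact hbd
    · obtain ⟨c, hck, hc⟩ := Phi_cut S Y y x hat
      have ps := ih _ (c.mu_s S)
      have pt := ih _ (c.mu_t S)
      have hcomp := prp_comp S ps pt c.comp
      have hk0 : ∀ ε, Y.bd c.k ε (Phi S Y y x) = Phi S Y y (Table.face c.k ε x) := by
        intro ε
        rw [hc]
        cases ε
        · rw [Y.bd_source_comp hcomp, ps.face]
          congr 1
          have e1 : Table.face c.k false x = Table.face c.k false (Table.comp c.k c.s c.t) :=
            congrArg (Table.face c.k false) c.eq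
          rw [e1]
          exact ((nu K).bd_source_comp c.comp).symm
        · rw [Y.bd_target_comp hcomp, pt.face]
          congr 1
          have e1 : Table.face c.k true x = Table.face c.k true (Table.comp c.k c.s c.t) :=
            congrArg (Table.face c.k true) c.eq
          rw [e1]
          exact ((nu K).bd_target_comp c.comp).symm
      intro j ε
      rcases lt_trichotomy j c.k with hj | hj | hj
      · rw [← Y.bd_bd_lt ε false (Phi S Y y x) hj, hc, Y.bd_source_comp hcomp,
          Y.bd_bd_lt ε false _ hj, ps.face]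
        congr 1
        have e1 : Table.face c.k false x = Table.face c.k false c.s :=
          (congrArg (Table.face c.k false) c.eq).trans ((nu K).bd_source_comp c.comp)
        rw [← face_face_lt ε false c.s hj, ← e1, face_face_lt _ _ _ hj]
      · rw [hj]; exact hk0 ε
      · by_cases hT : Triv j x
        · have hT' := hT
          rw [c.eq] at hT'
          obtain ⟨hTs, hTt⟩ := triv_of_comp c.comp hj hT'
          rw [face_of_triv hT]
          rw [hc, Y.bd_comp ε hj hcomp, ps.face, pt.face, face_of_triv hTs, face_of_triv hTt]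
        · have pf := ih _ (mu_face (ε := ε) hT)
          obtain ⟨h1, h2⟩ := face_comp_gt (ε := ε) c.comp hj
          have h3 : Table.face j ε x = Table.comp c.k (Table.face j ε c.s) (Table.face j ε c.t) :=
            (congrArg (Table.face j ε) c.eq).trans h2
          rw [hc, Y.bd_comp ε hj hcomp, ps.face, pt.face]
          exact (pf.comp c.k _ _ h1 h3).symm
  refine ⟨hface, ?_⟩
  intro j s t h hx
  by_cases hs : Triv j s
  · obtain ⟨h1, h2⟩ := comp_of_triv_left h hs
    have h3 : x = t := by rw [hx, h2]
    subst h3
    rw [h1, ← hface, Y.source_comp]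
  · by_cases ht : Triv j t
    · obtain ⟨h1, h2⟩ := comp_of_triv_right h ht
      have h3 : x = s := by rw [hx, h2]
      subst h3
      rw [h1, ← hface, Y.comp_target]
    · let c0 : Cut x := ⟨j, s, t, h, hx, hs, ht⟩
      have hna := c0.not_atom S
      obtain ⟨c, hck, hc⟩ := Phi_cut S Y y x hna
      have hE := dec_level (S := S) hck
      have hIc := down_of_cut (S := S) c.comp c.eq hck
      have hIc1 := hi_nonempty_of_not_triv c.hs
      have hproper : ∀ (c' : Cut x), c'.k = c.k → hi c'.s c.k ≠ hi x c.k := by
        intro c' hc' hcon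
        have h1 := hi_nonempty_of_not_triv c'.ht
        obtain ⟨e, he⟩ := h1
        have h2 : e ∈ hi x c'.k := by
          have e1 : hi x c'.k = hi (Table.comp c'.k c'.s c'.t) c'.k :=
            congrArg (fun u => hi u c'.k) c'.eq
          rw [e1]
          exact hi_right c'.comp le_rfl he
        rw [hc'] at h2
        rw [← hcon] at h2
        have h3 := Finset.disjoint_left.1 (hi_disjoint S c'.comp (le_refl c'.k))
        rw [hc'] at h3
        rw [hc'] at he
        exact h3 h2 he
      have hIc2 : hi c.s c.k ≠ hi x c.k := hproper c rfl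
      obtain ⟨es, et⟩ := cut_eq_pc (S := S) c.comp c.eq hck
      have hval : Phi S Y y x = val S Y y hck hIc := by
        rw [hc, val, ← es, ← et]
      have hjk : j ≤ c.k := by
        by_contra hcon
        have h1 := two_le_card S c0
        have h2 : (hi x c0.k).card ≤ (hi x (c.k + 1)).card :=
          Finset.card_le_card (hi_anti (by
            show c.k + 1 ≤ j
            omega))
        omega
      rcases hjk.lt_or_eq with hlt | heq
      · rw [hval]
        exact val_eq_lower S ih hck hlt h hx hs ht hIc hIc1 hIc2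
      · have hx0 : Table.face c.k true s = Table.face c.k false t := by rw [← heq]; exact h
        have hx1 : x = Table.comp c.k s t := by rw [← heq]; exact hx
        have hs0 : ¬ Triv c.k s := by rw [← heq]; exact hs
        have ht0 : ¬ Triv c.k t := by rw [← heq]; exact ht
        have hI := down_of_cut (S := S) hx0 hx1 hck
        obtain ⟨es', et'⟩ := cut_eq_pc (S := S) hx0 hx1 hck
        have hI1 := hi_nonempty_of_not_triv hs0
        have hI2 : hi s c.k ≠ hi x c.k := hproper ⟨c.k, s, t, hx0, hx1, hs0, ht0⟩ rfl
        rw [hval, val_indep S ih hck hIc hI hIc1 hIc2 hI1 hI2, val, ← es', ← et', heq]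

lemma face_comp_low {n k : ℕ} {s t : Table K} (hs : Table.face n false s = s)
    (ht : Table.face n false t = t) (hst : Table.face k true s = Table.face k false t) :
    Table.face n false (Table.comp k s t) = Table.comp k s t := by
  apply face_of_triv
  have hs' := triv_of_face hs
  have ht' := triv_of_face ht
  intro c hc δ
  by_cases hkc : k < K.dim c
  · rw [comp_gt hst hkc, hs' c hc, ht' c hc]
  · rcases Nat.lt_or_ge (K.dim c) k with h | h
    · rw [comp_lt hst h, hs' c hc]
    · have hkc' : K.dim c = k := by omega
      cases δ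
      · rw [comp_false hst hkc', hs' c hc]
      · rw [comp_true hst hkc', ht' c hc]

/-- pieces of a cut of a low-dimensional cell are low-dimensional -/
lemma Cut.triv {x : Table K} (c : Cut x) {n : ℕ} (h : Triv n x) : Triv n c.s ∧ Triv n c.t := by
  by_cases hkn : c.k < n
  · have h' : Triv n (Table.comp c.k c.s c.t) := by
      rw [← c.eq]
      exact h
    exact triv_of_comp c.comp hkn h'
  · exfalso
    have h1 := c.hs
    apply h1
    intro b hb δ
    have h2 := h b (by omega) δ
    have h3 : x.x δ b = (Table.comp c.k c.s c.t).x δ b := congrArg (fun u => u.x δ b) c.eq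
    rw [h3, comp_gt c.comp hb] at h2
    omega

include S in
/-- Two maps functorial on cells of dimension at most `n` which agree on atoms agree. -/
theorem ext_trunc {Y : OmegaCat} (n : ℕ) (Φ Ψ : Table K → Y.Cell) (hΦ : FunctorialOn n Φ)
    (hΨ : FunctorialOn n Ψ) (h : ∀ b, K.dim b ≤ n → Φ (S.atom b) = Ψ (S.atom b)) (t : Table K)
    (ht : Table.face n false t = t) : Φ t = Ψ t := by
  induction hm : mu t using Nat.strong_induction_on generalizing t with
  | _ m IH =>
  by_cases hat : ∃ b, t = S.atom b
  · obtain ⟨b, rfl⟩ := hat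
    apply h
    by_contra hcon
    have h1 := triv_of_face ht b (by omega) false
    rw [S.atom_self] at h1
    omega
  · obtain ⟨c, -⟩ := exists_cut S t hat
    obtain ⟨h1, h2⟩ := c.triv (triv_of_face ht)
    have h3 := face_of_triv (ε := false) h1
    have h4 := face_of_triv (ε := false) h2
    have e1 := IH (mu c.s) (hm ▸ c.mu_s S) c.s h3 rfl
    have e2 := IH (mu c.t) (hm ▸ c.mu_t S) c.t h4 rfl
    have e3 : Φ t = Φ (Table.comp c.k c.s c.t) := congrArg Φ c.eq
    have e4 : Ψ t = Ψ (Table.comp c.k c.s c.t) := congrArg Ψ c.eq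
    rw [e3, e4, hΦ.2 c.k c.s c.t h3 h4 c.comp, hΨ.2 c.k c.s c.t h3 h4 c.comp, e1, e2]

end Free

theorem functor_ext_trunc {K : Cpx} (hK : Steiner K) {Y : OmegaCat} (n : ℕ)
    (Φ Ψ : Table K → Y.Cell) (hΦ : FunctorialOn n Φ) (hΨ : FunctorialOn n Ψ)
    (h : ∀ b, K.dim b ≤ n → Φ (hK.atom b) = Ψ (hK.atom b)) (t : Table K)
    (ht : Table.face n false t = t) : Φ t = Ψ t :=
  Free.ext_trunc hK n Φ Ψ hΦ hΨ h t ht

lemma functorialOn_of_hom {K : Cpx} {Y : OmegaCat} (F : nu K ⟶ Y) (n : ℕ) :
    FunctorialOn n F.toFun :=
  ⟨fun k ε t _ => F.map_bd k ε t, fun k s t _ _ h => F.map_comp k s t h⟩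

theorem functor_ext {K : Cpx} (hK : Steiner K) {Y : OmegaCat} (F G : nu K ⟶ Y)
    (h : ∀ b, F.toFun (hK.atom b) = G.toFun (hK.atom b)) : F = G := by
  apply OmegaCat.hom_ext
  intro t
  obtain ⟨n, hn⟩ := (nu K).finite_dim t
  exact functor_ext_trunc hK n F.toFun G.toFun (functorialOn_of_hom F n) (functorialOn_of_hom G n)
    (fun b _ => h b) t hn

theorem exists_functor {K : Cpx} (hK : Steiner K) {Y : OmegaCat} (y : K.B → Y.Cell)
    (hdim : ∀ b, Y.bd (K.dim b) false (y b) = y b)
    (hbd : ∀ (n : ℕ) (Φ : Table K → Y.Cell), FunctorialOn n Φ →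
      (∀ b, K.dim b ≤ n → Φ (hK.atom b) = y b) →
      ∀ b, K.dim b = n + 1 → ∀ ε, Y.bd n ε (y b) = Φ (Table.face n ε (hK.atom b))) :
    ∃ F : nu K ⟶ Y, ∀ b, F.toFun (hK.atom b) = y b := by
  have hy : Free.Compatible hK Y y := ⟨hdim, hbd⟩
  exact ⟨⟨Free.Phi hK Y y, fun k ε t => ((Free.prp hK hy t).face k ε).symm,
    fun k s t h => (Free.prp hK hy _).comp k s t h rfl⟩, fun b => Free.Phi_atom hK Y y b⟩

/-- Existence and uniqueness together. -/
theorem existsUnique_functor {K : Cpx} (hK : Steiner K) {Y : OmegaCat} (y : K.B → Y.Cell)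
    (hdim : ∀ b, Y.bd (K.dim b) false (y b) = y b)
    (hbd : ∀ (n : ℕ) (Φ : Table K → Y.Cell), FunctorialOn n Φ →
      (∀ b, K.dim b ≤ n → Φ (hK.atom b) = y b) →
      ∀ b, K.dim b = n + 1 → ∀ ε, Y.bd n ε (y b) = Φ (Table.face n ε (hK.atom b))) :
    ∃! F : nu K ⟶ Y, ∀ b, F.toFun (hK.atom b) = y b := by
  obtain ⟨F, hF⟩ := exists_functor hK y hdim hbd
  exact ⟨F, hF, fun G hG => functor_ext hK G F (fun b => by rw [hG, hF])⟩

end Vale.Agent.P213
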