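import Vale.Agent.Lib.P213.Defs

/-!
# P213: free strict n-categories on Horn classes

`Colim.free C` is the strict `ω`-category generated by a type `A` of cells subject to all the
equations which hold in a class `C` of strict `ω`-categories `X` with a map `A → X.Cell`.
-/

open CategoryTheory Limits

namespace Vale.Agent.P213

namespace Colim

lemma bd_of_dim {X : OmegaCat} {N M : ℕ} {x : X.Cell} (hx : X.bd N false x = x) (h : N ≤ M)
    (ε : Bool) : X.bd M ε x = x := by
  rw [← hx, X.bd_bd_ge _ _ _ h]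

/-- Formal expressions in the generators `A`. -/
inductive Tm (A : Type) : Type
  | gen (a : A) : Tm A
  | bd (k : ℕ) (ε : Bool) (t : Tm A) : Tm A
  | comp (k : ℕ) (s t : Tm A) : Tm A

variable {A : Type}

/-- Evaluation of an expression. -/
def Tm.eval {X : OmegaCat} (φ : A → X.Cell) : Tm A → X.Cell
  | .gen a => φ a
  | .bd k ε t => X.bd k ε (t.eval φ)
  | .comp k s t => X.comp k (s.eval φ) (t.eval φ)

variable (C : ∀ X : OmegaCat, (A → X.Cell) → Prop)

/-- Expressions such that all composites are composable in all the members of `C`. -/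
inductive Good : Tm A → Prop
  | gen (a : A) : Good (.gen a)
  | bd (k : ℕ) (ε : Bool) (t : Tm A) : Good t → Good (.bd k ε t)
  | comp (k : ℕ) (s t : Tm A) : Good s → Good t →
      (∀ (X : OmegaCat) (φ : A → X.Cell), C X φ →
        X.bd k true (s.eval φ) = X.bd k false (t.eval φ)) → Good (.comp k s t)

/-- Equality in all members of `C`. -/
def setoid : Setoid {t : Tm A // Good C t} where
  r s t := ∀ (X : OmegaCat) (φ : A → X.Cell), C X φ → s.1.eval φ = t.1.eval φ
  iseqv := ⟨fun _ _ _ _ => rfl, fun h X φ hφ => (h X φ hφ).symm,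
    fun h h' X φ hφ => (h X φ hφ).trans (h' X φ hφ)⟩

/-- The cells of the free object. -/
def Cells : Type := Quotient (setoid C)

variable {C}

/-- The evaluation map. -/
def ev {X : OmegaCat} {φ : A → X.Cell} (h : C X φ) (x : Cells C) : X.Cell :=
  Quotient.lift (s := setoid C) (fun t => t.1.eval φ) (fun _ _ hst => hst X φ h) x

/-- The class of a good expression. -/
def mk (t : Tm A) (ht : Good C t) : Cells C := Quotient.mk (setoid C) ⟨t, ht⟩

lemma exists_mk (x : Cells C) : ∃ (t : Tm A) (ht : Good C t), mk t ht = x := by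
  obtain ⟨⟨t, ht⟩, h⟩ := Quotient.exists_rep x
  exact ⟨t, ht, h⟩

/-- A representative. -/
noncomputable def rep (x : Cells C) : Tm A := (exists_mk x).choose

lemma rep_good (x : Cells C) : Good C (rep x) := (exists_mk x).choose_spec.choose

lemma mk_rep (x : Cells C) : mk (rep x) (rep_good x) = x := (exists_mk x).choose_spec.choose_spec

lemma ev_mk {X : OmegaCat} {φ : A → X.Cell} (h : C X φ) (t : Tm A) (ht : Good C t) :
    ev h (mk t ht) = t.eval φ := rfl

lemma eval_rep {X : OmegaCat} {φ : A → X.Cell} (h : C X φ) (x : Cells C) :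
    (rep x).eval φ = ev h x := by
  conv_rhs => rw [← mk_rep x]
  rw [ev_mk]

lemma cells_ext {x y : Cells C}
    (h : ∀ (X : OmegaCat) (φ : A → X.Cell) (hφ : C X φ), ev hφ x = ev hφ y) : x = y := by
  obtain ⟨s, hs, rfl⟩ := exists_mk x
  obtain ⟨t, ht, rfl⟩ := exists_mk y
  exact Quotient.sound (s := setoid C) (fun X φ hφ => h X φ hφ)

/-- The generators. -/
def gen (a : A) : Cells C := mk (.gen a) (.gen a)

/-- The source and target operators. -/
noncomputable def cbd (k : ℕ) (ε : Bool) (x : Cells C) : Cells C :=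
  mk (.bd k ε (rep x)) (.bd k ε _ (rep_good x))

lemma ev_gen {X : OmegaCat} {φ : A → X.Cell} (h : C X φ) (a : A) :
    ev h (gen a : Cells C) = φ a := rfl

lemma ev_bd {X : OmegaCat} {φ : A → X.Cell} (h : C X φ) (k : ℕ) (ε : Bool) (x : Cells C) :
    ev h (cbd k ε x) = X.bd k ε (ev h x) := by
  unfold cbd
  rw [ev_mk, ← eval_rep h x]
  rfl

open Classical in
/-- The composition. -/
noncomputable def ccomp (k : ℕ) (x y : Cells C) : Cells C :=
  if h : cbd k true x = cbd k false y then
    mk (.comp k (rep x) (rep y)) (.comp k _ _ (rep_good x) (rep_good y) (by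
        intro X φ hφ
        have h1 := congrArg (ev hφ) h
        rw [ev_bd, ev_bd] at h1
        rw [eval_rep hφ, eval_rep hφ]
        exact h1))
  else x

lemma ev_comp {X : OmegaCat} {φ : A → X.Cell} (h : C X φ) (k : ℕ) {x y : Cells C}
    (hxy : cbd k true x = cbd k false y) :
    ev h (ccomp k x y) = X.comp k (ev h x) (ev h y) := by
  unfold ccomp
  rw [dif_pos hxy, ev_mk, ← eval_rep h x, ← eval_rep h y]
  rfl

lemma ev_composable {X : OmegaCat} {φ : A → X.Cell} (h : C X φ) {k : ℕ} {x y : Cells C}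
    (hxy : cbd k true x = cbd k false y) : X.bd k true (ev h x) = X.bd k false (ev h y) := by
  rw [← ev_bd, hxy, ev_bd]

lemma cells_induction {P : Cells C → Prop} (hgen : ∀ a, P (gen a))
    (hbd : ∀ k ε x, P x → P (cbd k ε x))
    (hcomp : ∀ k x y, cbd k true x = cbd k false y → P x → P y → P (ccomp k x y))
    (x : Cells C) : P x := by
  obtain ⟨t, ht, rfl⟩ := exists_mk x
  induction ht with
  | gen a => exact hgen a
  | bd k ε t ht ih =>
    have h3 : cbd k ε (mk t ht) = mk (.bd k ε t) (.bd k ε t ht) :=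
      cells_ext fun X φ hφ => by
        rw [ev_bd, ev_mk, ev_mk]
        rfl
    rw [← h3]
    exact hbd k ε _ ih
  | comp k s t hs ht h ihs iht =>
    have h1 : cbd k true (mk s hs) = cbd k false (mk t ht) :=
      cells_ext fun X φ hφ => by
        rw [ev_bd, ev_bd]
        exact h X φ hφ
    have h2 := hcomp k _ _ h1 ihs iht
    have h3 : ccomp k (mk s hs) (mk t ht) = mk (.comp k s t) (.comp k s t hs ht h) :=
      cells_ext fun X φ hφ => by
        rw [ev_comp hφ k h1]
        rfl
    rwa [h3] at h2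

lemma cells_dim (hb : ∀ a : A, ∃ N : ℕ, ∀ (X : OmegaCat) (φ : A → X.Cell), C X φ →
    X.bd N false (φ a) = φ a) (x : Cells C) :
    ∃ N : ℕ, ∀ (X : OmegaCat) (φ : A → X.Cell) (h : C X φ), X.bd N false (ev h x) = ev h x := by
  induction x using cells_induction with
  | hgen a => exact hb a
  | hbd k ε x ih =>
    obtain ⟨N, hN⟩ := ih
    refine ⟨N, fun X φ h => ?_⟩
    rw [ev_bd]
    rcases le_or_gt k N with hk | hk
    · rw [X.bd_bd_ge _ _ _ hk]
    · rw [bd_of_dim (hN X φ h) hk.le, hN X φ h]
  | hcomp k x y hxy ihx ihy =>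
    obtain ⟨N, hN⟩ := ihx
    obtain ⟨M, hM⟩ := ihy
    refine ⟨max (max N M) (k + 1), fun X φ h => ?_⟩
    rw [ev_comp h k hxy, X.bd_comp _ (by omega) (ev_composable h hxy),
      bd_of_dim (hN X φ h) (by omega), bd_of_dim (hM X φ h) (by omega)]

/-- The free object. -/
noncomputable def free (C : ∀ X : OmegaCat, (A → X.Cell) → Prop)
    (hb : ∀ a : A, ∃ N : ℕ, ∀ (X : OmegaCat) (φ : A → X.Cell), C X φ →
      X.bd N false (φ a) = φ a) : OmegaCat where
  Cell := Cells C
  bd := cbd
  comp := ccomp
  bd_bd_lt η ε x h := cells_ext fun X φ hφ => by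
    simp only [ev_bd, X.bd_bd_lt _ _ _ h]
  bd_bd_ge η ε x h := cells_ext fun X φ hφ => by
    simp only [ev_bd, X.bd_bd_ge _ _ _ h]
  bd_source_comp h := cells_ext fun X φ hφ => by
    rw [ev_bd, ev_bd, ev_comp hφ _ h, X.bd_source_comp (ev_composable hφ h)]
  bd_target_comp h := cells_ext fun X φ hφ => by
    rw [ev_bd, ev_bd, ev_comp hφ _ h, X.bd_target_comp (ev_composable hφ h)]
  bd_comp {j k} ε x y hk h := cells_ext fun X φ hφ => by
    have h' : cbd k true (cbd j ε x) = cbd k false (cbd j ε y) := cells_ext fun X φ hφ => by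
      rw [ev_bd, ev_bd, ev_bd, ev_bd, X.bd_bd_lt _ _ _ hk, X.bd_bd_lt _ _ _ hk,
        ev_composable hφ h]
    rw [ev_bd, ev_comp hφ _ h, ev_comp hφ _ h', X.bd_comp _ hk (ev_composable hφ h), ev_bd, ev_bd]
  comp_target k x := cells_ext fun X φ hφ => by
    have h : cbd k true x = cbd k false (cbd k true x) := cells_ext fun X φ hφ => by
      rw [ev_bd, ev_bd, ev_bd, X.bd_bd_ge _ _ _ le_rfl]
    rw [ev_comp hφ _ h, ev_bd, X.comp_target]
  source_comp k x := cells_ext fun X φ hφ => by
    have h : cbd k true (cbd k false x) = cbd k false x := cells_ext fun X φ hφ => by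
      rw [ev_bd, ev_bd, X.bd_bd_ge _ _ _ le_rfl]
    rw [ev_comp hφ _ h, ev_bd, X.source_comp]
  comp_assoc {k x y z} h h' := cells_ext fun X φ hφ => by
    have h1 : cbd k true (ccomp k x y) = cbd k false z := cells_ext fun X φ hφ => by
      rw [ev_bd, ev_comp hφ _ h, X.bd_target_comp (ev_composable hφ h), ev_composable hφ h',
        ev_bd]
    have h2 : cbd k true x = cbd k false (ccomp k y z) := cells_ext fun X φ hφ => by
      rw [ev_bd, ev_bd, ev_comp hφ _ h', X.bd_source_comp (ev_composable hφ h'),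
        ev_composable hφ h]
    rw [ev_comp hφ _ h1, ev_comp hφ _ h, ev_comp hφ _ h2, ev_comp hφ _ h',
      X.comp_assoc (ev_composable hφ h) (ev_composable hφ h')]
  interchange {j k x y x' y'} hjk h1 h2 h3 h4 := cells_ext fun X φ hφ => by
    have h5 : cbd j true (ccomp k x y) = cbd j false (ccomp k x' y') :=
      cells_ext fun X φ hφ => by
        have e1 := X.bd_bd_lt true true (ev hφ (ccomp k x y)) hjk
        have e2 := X.bd_bd_lt false true (ev hφ (ccomp k x' y')) hjk
        rw [ev_bd, ev_bd, ← e1, ← e2, ev_comp hφ _ h1, ev_comp hφ _ h2,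
          X.bd_target_comp (ev_composable hφ h1), X.bd_target_comp (ev_composable hφ h2),
          X.bd_bd_lt _ _ _ hjk, X.bd_bd_lt _ _ _ hjk, ev_composable hφ h4]
    have h6 : cbd k true (ccomp j x x') = cbd k false (ccomp j y y') :=
      cells_ext fun X φ hφ => by
        rw [ev_bd, ev_bd, ev_comp hφ _ h3, ev_comp hφ _ h4, X.bd_comp _ hjk (ev_composable hφ h3),
          X.bd_comp _ hjk (ev_composable hφ h4), ev_composable hφ h1, ev_composable hφ h2]
    rw [ev_comp hφ _ h5, ev_comp hφ _ h1, ev_comp hφ _ h2, ev_comp hφ _ h6, ev_comp hφ _ h3,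
      ev_comp hφ _ h4, X.interchange hjk (ev_composable hφ h1) (ev_composable hφ h2)
      (ev_composable hφ h3) (ev_composable hφ h4)]
  finite_dim x := by
    obtain ⟨N, hN⟩ := cells_dim hb x
    exact ⟨N, cells_ext fun X φ hφ => by rw [ev_bd, hN]⟩

section

variable (hb : ∀ a : A, ∃ N : ℕ, ∀ (X : OmegaCat) (φ : A → X.Cell), C X φ →
      X.bd N false (φ a) = φ a)

/-- The functor out of the free object. -/
noncomputable def freeLift {X : OmegaCat} {φ : A → X.Cell} (h : C X φ) : free C hb ⟶ X where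
  toFun := ev h
  map_bd k ε x := ev_bd h k ε x
  map_comp k x y hxy := ev_comp h k hxy

lemma free_hom_ext {X : OmegaCat} {F G : free C hb ⟶ X}
    (h : ∀ a, F.toFun (gen a : Cells C) = G.toFun (gen a : Cells C)) : F = G := by
  apply OmegaCat.hom_ext
  intro x
  refine cells_induction (C := C) (P := fun x => F.toFun x = G.toFun x) h ?_ ?_ x
  · intro k ε x hx
    have h1 := F.map_bd k ε x
    have h2 := G.map_bd k ε x
    rw [hx] at h1
    exact h1.trans h2.symm
  · intro k x y hxy hx hy
    have h1 := F.map_comp k x y hxy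
    have h2 := G.map_comp k x y hxy
    rw [hx, hy] at h1
    exact h1.trans h2.symm

end

end Colim

end Vale.Agent.P213
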