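import Vale.Agent.Lib.P213.FreeA

/-!
# Freeness of `nu K`, part B: cuts
-/

open CategoryTheory

namespace Vale.Agent.P213.Free

open Finset

variable {K : Cpx}

/-- basis elements interior to the cell `x` -/
def core (x : Table K) : Finset K.B := univ.filter (fun b => x.x false b ≠ 0 ∧ x.x true b ≠ 0)

def hi (x : Table K) (k : ℕ) : Finset K.B := (core x).filter (fun e => k < K.dim e)

lemma mem_core {x : Table K} {b : K.B} : b ∈ core x ↔ x.x false b ≠ 0 ∧ x.x true b ≠ 0 := by
  simp [core]

lemma mem_hi {x : Table K} {k : ℕ} {b : K.B} : b ∈ hi x k ↔ b ∈ core x ∧ k < K.dim b := by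
  simp [hi]

lemma hi_anti {x : Table K} {k l : ℕ} (h : k ≤ l) : hi x l ⊆ hi x k := by
  intro b hb
  rw [mem_hi] at hb ⊢
  exact ⟨hb.1, by omega⟩

/-- the cell is an identity over dimension `j` -/
def Triv (j : ℕ) (s : Table K) : Prop := ∀ b, j < K.dim b → ∀ δ, s.x δ b = 0

lemma hi_nonempty_of_not_triv {j : ℕ} {s : Table K} (h : ¬ Triv j s) : (hi s j).Nonempty := by
  classical
  unfold Triv at h
  push Not at h
  obtain ⟨b, hb, δ, hne⟩ := h
  -- take an element of maximal dimension
  obtain ⟨m, hm, hmax⟩ := Finset.exists_max_image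
    (univ.filter (fun b : K.B => j < K.dim b ∧ ∃ δ, s.x δ b ≠ 0)) (fun b => K.dim b)
    ⟨b, by simp only [mem_filter, mem_univ, true_and]; exact ⟨hb, δ, hne⟩⟩
  simp only [mem_filter, mem_univ, true_and] at hm hmax
  have h0 : K.bdry (s.x false) m = 0 := by
    rw [← K.bdry_zero m]
    refine K.bdry_congr fun c hc => ?_
    by_contra hcon
    have := hmax c ⟨by omega, false, hcon⟩
    omega
  have h1 := s.bd false m
  rw [h0] at h1
  have h2 : s.x true m = s.x false m := by omega
  refine ⟨m, mem_hi.2 ⟨mem_core.2 ?_, hm.1⟩⟩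
  obtain ⟨δ', hδ'⟩ := hm.2
  cases δ'
  · exact ⟨hδ', h2 ▸ hδ'⟩
  · exact ⟨h2 ▸ hδ', hδ'⟩

variable (S : Steiner K)

include S in
lemma core_atom (b : K.B) : core (S.atom b) = {b} := by
  ext a
  rw [mem_core, mem_singleton]
  constructor
  · rintro ⟨h1, h2⟩
    by_contra hne
    by_cases hd : K.dim b ≤ K.dim a
    · rw [S.top a b false hd, if_neg hne] at h1
      exact h1 rfl
    · rcases S.disj a b (by omega) with h | h
      · exact h1 h
      · exact h2 h
  · rintro rfl
    rw [S.top a a false le_rfl, S.top a a true le_rfl]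
    simp

include S in
/-- reconstruction of a cell from its core, above a degree with at most one higher core element -/
theorem dec (x : Table K) (d₀ : ℕ) (h : (hi x d₀).card ≤ 1) (ε : Bool) (a : K.B)
    (ha : d₀ ≤ K.dim a) :
    x.x ε a = ∑ e ∈ (core x).filter (fun e => d₀ ≤ K.dim e), (S.atom e).x ε a := by
  classical
  obtain ⟨M, hM⟩ : ∃ M : ℕ, ∀ b : K.B, K.dim b < M :=
    ⟨(Finset.univ.sup K.dim) + 1, fun b =>
      Nat.lt_succ_of_le (Finset.le_sup (Finset.mem_univ b))⟩
  suffices H : ∀ n : ℕ, ∀ a : K.B, d₀ ≤ K.dim a → M ≤ K.dim a + n → ∀ ε,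
      x.x ε a = ∑ e ∈ (core x).filter (fun e => d₀ ≤ K.dim e), (S.atom e).x ε a from
    H M a ha (by omega) ε
  intro n
  induction n with
  | zero =>
    intro a _ h2
    have := hM a
    omega
  | succ n ih =>
    intro a ha hMa
    set F := (core x).filter (fun e => d₀ ≤ K.dim e) with hF
    have hdiff : (x.x true a : ℤ) - x.x false a =
        ((∑ e ∈ F, (S.atom e).x true a : ℕ) : ℤ) - (∑ e ∈ F, (S.atom e).x false a : ℕ) := by
      have h1 := table_bdZ x false a
      have h2 : bdZ K (fun b => (x.x false b : ℤ)) a =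
          bdZ K (fun b => ∑ e ∈ F, ((S.atom e).x false b : ℤ)) a := by
        refine bdZ_congr fun b hb => ?_
        rw [ih b (by omega) (by omega) false]
        push_cast
        rfl
      rw [h2, bdZ_sum] at h1
      rw [← h1]
      push_cast
      rw [← Finset.sum_sub_distrib]
      exact Finset.sum_congr rfl fun e _ => table_bdZ _ _ _
    have hT : ∀ ε, ∑ e ∈ F, (S.atom e).x ε a = (if a ∈ F then 1 else 0) +
        ∑ e ∈ F.filter (fun e => K.dim a < K.dim e), (S.atom e).x ε a := by
      intro ε
      rw [← Finset.sum_filter_not_add_sum_filter F (fun e => K.dim a < K.dim e)]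
      congr 1
      have h3 : ∀ e ∈ F.filter (fun e => ¬ K.dim a < K.dim e),
          (S.atom e).x ε a = if a = e then 1 else 0 := by
        intro e he
        rw [mem_filter] at he
        exact S.top a e ε (by omega)
      rw [Finset.sum_congr rfl h3, Finset.sum_ite_eq]
      simp
    have hmem : a ∈ F ↔ (x.x false a ≠ 0 ∧ x.x true a ≠ 0) := by
      rw [hF, mem_filter, mem_core]
      exact ⟨fun h => h.1, fun h => ⟨h, ha⟩⟩
    have hH : (F.filter (fun e => K.dim a < K.dim e)).card ≤ 1 := by
      refine le_trans (Finset.card_le_card ?_) h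
      intro e he
      rw [mem_filter, hF, mem_filter] at he
      rw [mem_hi]
      exact ⟨he.1.1, by omega⟩
    have hdisj : (∑ e ∈ F.filter (fun e => K.dim a < K.dim e), (S.atom e).x false a) = 0 ∨
        (∑ e ∈ F.filter (fun e => K.dim a < K.dim e), (S.atom e).x true a) = 0 := by
      rcases Nat.le_one_iff_eq_zero_or_eq_one.1 hH with h0 | h1
      · rw [Finset.card_eq_zero] at h0
        rw [h0]
        simp
      · obtain ⟨b, hb⟩ := Finset.card_eq_one.1 h1
        have hbm : b ∈ F.filter (fun e => K.dim a < K.dim e) := by rw [hb]; simp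
        rw [mem_filter] at hbm
        rw [hb]
        simpa using S.disj a b hbm.2
    have m1 := mult_free S x false a
    have m2 := mult_free S x true a
    rw [hT true, hT false] at hdiff
    intro ε
    rw [hT ε]
    by_cases hF2 : a ∈ F
    · have h4 := hmem.1 hF2
      simp only [hF2, if_true] at hdiff ⊢
      have h5 := h4.1
      have h6 := h4.2
      cases ε
      · omega
      · omega
    · have h4 : ¬ (x.x false a ≠ 0 ∧ x.x true a ≠ 0) := fun h => hF2 (hmem.2 h)
      simp only [hF2, if_false] at hdiff ⊢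
      cases ε
      · omega
      · omega

include S in
theorem eq_atom_of_card (x : Table K) (h : (hi x 0).card ≤ 1) : ∃ b, x = S.atom b := by
  classical
  have hd := dec S x 0 h
  have h1 : (core x).card = 1 := by
    have h2 := table_augZ x false
    have h3 : augZ K (fun b => (x.x false b : ℤ)) =
        augZ K (fun b => ∑ e ∈ (core x).filter (fun e => 0 ≤ K.dim e), ((S.atom e).x false b : ℤ)) := by
      refine augZ_congr fun b _ => ?_
      rw [hd false b (Nat.zero_le _)]
      push_cast
      rfl
    rw [h3, augZ_sum] at h2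
    simp only [table_augZ, zero_le, Finset.filter_true, Finset.sum_const, nsmul_eq_mul,
      mul_one] at h2
    exact_mod_cast h2
  obtain ⟨b, hb⟩ := Finset.card_eq_one.1 h1
  refine ⟨b, ?_⟩
  ext ε a
  rw [hd ε a (Nat.zero_le _)]
  simp [hb]

include S in
theorem exists_level (x : Table K) (h : ¬ ∃ b, x = S.atom b) :
    ∃ k, 2 ≤ (hi x k).card ∧ (hi x (k + 1)).card ≤ 1 := by
  classical
  have h2 : 2 ≤ (hi x 0).card := by
    by_contra hcon
    exact h (eq_atom_of_card S x (by omega))
  have hex : ∃ k, (hi x (k + 1)).card ≤ 1 := by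
    refine ⟨Finset.univ.sup K.dim, ?_⟩
    have : hi x (Finset.univ.sup K.dim + 1) = ∅ := by
      rw [Finset.eq_empty_iff_forall_notMem]
      intro b hb
      have h3 := (mem_hi.1 hb).2
      have h4 : K.dim b ≤ Finset.univ.sup K.dim := Finset.le_sup (Finset.mem_univ b)
      omega
    rw [this]
    simp
  refine ⟨Nat.find hex, ?_, Nat.find_spec hex⟩
  rcases Nat.eq_zero_or_pos (Nat.find hex) with h0 | h0
  · rw [h0]; exact h2
  · have := Nat.find_min hex (Nat.sub_one_lt_of_lt h0)
    rw [show Nat.find hex - 1 + 1 = Nat.find hex by omega] at this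
    omega

/-- `E` is a decomposition of `x` in degrees `> k` as a sum of atoms -/
structure Dec (x : Table K) (k : ℕ) (E : Finset K.B) : Prop where
  dim_lt : ∀ e ∈ E, k < K.dim e
  eq : ∀ ε a, k < K.dim a → x.x ε a = ∑ e ∈ E, (S.atom e).x ε a

variable {S}

lemma dec_level {x : Table K} {k : ℕ} (h : (hi x (k + 1)).card ≤ 1) : Dec S x k (hi x k) where
  dim_lt e he := (mem_hi.1 he).2
  eq ε a ha := by
    rw [dec S x (k + 1) h ε a ha]
    rfl

lemma Dec.total {x : Table K} {k : ℕ} {E : Finset K.B} (hE : Dec S x k E) {a : K.B}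
    (ha : K.dim a = k) : (x.x true a : ℤ) = x.x false a +
      ∑ e ∈ E, (((S.atom e).x true a : ℤ) - (S.atom e).x false a) := by
  have h1 := table_bdZ x false a
  have h2 : bdZ K (fun b => (x.x false b : ℤ)) a =
      bdZ K (fun b => ∑ e ∈ E, ((S.atom e).x false b : ℤ)) a := by
    refine bdZ_congr fun b hb => ?_
    rw [hE.eq false b (by omega)]
    push_cast
    rfl
  rw [h2, bdZ_sum] at h1
  have h3 : ∑ e ∈ E, bdZ K (fun b => ((S.atom e).x false b : ℤ)) a =
      ∑ e ∈ E, (((S.atom e).x true a : ℤ) - (S.atom e).x false a) :=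
    Finset.sum_congr rfl fun e _ => table_bdZ _ _ _
  rw [h3] at h1
  linarith

variable (S)

/-- intermediate chain in degree `k` -/
def sI (x : Table K) (I : Finset K.B) (a : K.B) : ℤ :=
  x.x false a + ∑ e ∈ I, (((S.atom e).x true a : ℤ) - (S.atom e).x false a)

/-- down sets -/
structure Down (k : ℕ) (E I : Finset K.B) : Prop where
  sub : I ⊆ E
  dn : ∀ e ∈ E, e ∉ I → ∀ e' ∈ I, ∀ a, K.dim a = k → (S.atom e).x true a ≠ 0 →
    (S.atom e').x false a ≠ 0 → False

variable {S}

lemma Down.empty (k : ℕ) (E : Finset K.B) : Down S k E ∅ where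
  sub := Finset.empty_subset _
  dn e _ _ e' he' := absurd he' (Finset.notMem_empty _)

lemma Down.full (k : ℕ) (E : Finset K.B) : Down S k E E where
  sub := Finset.Subset.refl _
  dn e he he' := absurd he he'

lemma Down.inter {k : ℕ} {E I J : Finset K.B} (hI : Down S k E I) (hJ : Down S k E J) :
    Down S k E (I ∩ J) where
  sub := Finset.inter_subset_left.trans hI.sub
  dn e he hn e' he' a ha h1 h2 := by
    rw [Finset.mem_inter] at hn he'
    by_cases h : e ∈ I
    · exact hJ.dn e he (fun h' => hn ⟨h, h'⟩) e' he'.2 a ha h1 h2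
    · exact hI.dn e he h e' he'.1 a ha h1 h2

lemma Down.union {k : ℕ} {E I J : Finset K.B} (hI : Down S k E I) (hJ : Down S k E J) :
    Down S k E (I ∪ J) where
  sub := Finset.union_subset hI.sub hJ.sub
  dn e he hn e' he' a ha h1 h2 := by
    rw [Finset.mem_union] at he'
    rw [Finset.mem_union, not_or] at hn
    rcases he' with h | h
    · exact hI.dn e he hn.1 e' h a ha h1 h2
    · exact hJ.dn e he hn.2 e' h a ha h1 h2

lemma Down.restrict {k : ℕ} {E E' I : Finset K.B} (hI : Down S k E I) (h : E' ⊆ E) :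
    Down S k E' (I ∩ E') where
  sub := Finset.inter_subset_right
  dn e he hn e' he' a ha h1 h2 := by
    rw [Finset.mem_inter] at hn he'
    exact hI.dn e (h he) (fun h' => hn ⟨h', he⟩) e' he'.1 a ha h1 h2

/-- rank-lower subsets are down sets -/
lemma Down.of_rank {k : ℕ} {E I : Finset K.B} (hE : ∀ e ∈ E, k < K.dim e) (hI : I ⊆ E)
    (h : ∀ e ∈ E, e ∉ I → ∀ e' ∈ I, S.rank e' ≤ S.rank e) : Down S k E I where
  sub := hI
  dn e he hn e' he' a ha h1 h2 := by
    have r1 := S.rtgt a e (by rw [ha]; exact hE e he) h1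
    have r2 := S.rsrc a e' (by rw [ha]; exact hE e' (hI he')) h2
    have := h e he hn e' he'
    omega

lemma sI_nonneg {x : Table K} {k : ℕ} {E I : Finset K.B} (hE : Dec S x k E) (hI : Down S k E I)
    {a : K.B} (ha : K.dim a = k) : 0 ≤ sI S x I a := by
  classical
  have h := pos_arith (x.x false a) (x.x true a) (fun e => (S.atom e).x false a)
    (fun e => (S.atom e).x true a) (fun e => if e ∈ E then 1 else 0)
    (fun e => if e ∈ I then 1 else 0) (by
      intro e
      by_cases h : e ∈ I
      · simp [h, hI.sub h]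
      · simp [h]) (by
      rw [hE.total ha]
      simp) (by
      rintro e e' h1 h2 ⟨h3, h4⟩
      have he' : e' ∈ I := by
        by_contra hn
        simp [hn] at h2
      have he : e ∈ E := by
        by_contra hn
        simp [hn] at h1
      have hn : e ∉ I := by
        intro hn
        simp [hn, he] at h1
      exact hI.dn e he hn e' he' a ha h3 h4)
  simpa [sI] using h

lemma sI_empty (x : Table K) (a : K.B) : sI S x ∅ a = x.x false a := by simp [sI]

lemma sI_full {x : Table K} {k : ℕ} {E : Finset K.B} (hE : Dec S x k E) {a : K.B}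
    (ha : K.dim a = k) : sI S x E a = x.x true a := by
  rw [sI, hE.total ha]

lemma sI_sub (x : Table K) {I J : Finset K.B} (h : I ⊆ J) (a : K.B) :
    sI S x J a = sI S x I a + ∑ e ∈ J \ I, (((S.atom e).x true a : ℤ) - (S.atom e).x false a) := by
  classical
  rw [sI, sI, ← Finset.sum_sdiff h]
  ring

lemma sum_indZ (J : Finset K.B) (g : K.B → ℤ) :
    ∑ e, (((if e ∈ J then 1 else 0 : ℕ) : ℕ) : ℤ) * g e = ∑ e ∈ J, g e := by
  simp only [Nat.cast_ite, Nat.cast_one, Nat.cast_zero, ite_mul, one_mul, zero_mul,
    Finset.sum_ite_mem, Finset.univ_inter]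

lemma sum_indN (J : Finset K.B) (g : K.B → ℕ) :
    ∑ e, (if e ∈ J then 1 else 0 : ℕ) * g e = ∑ e ∈ J, g e := by
  simp only [ite_mul, one_mul, zero_mul, Finset.sum_ite_mem, Finset.univ_inter]

/-- the piece of `x` between the down sets `I ⊆ I'` -/
noncomputable def pc {x : Table K} {k : ℕ} {E : Finset K.B} (hE : Dec S x k E) {I I' : Finset K.B}
    (hI : Down S k E I) (hI' : Down S k E I') (h : I ⊆ I') : Table K :=
  piece S x k (fun e => if e ∈ I' \ I then 1 else 0) (fun a => (sI S x I a).toNat)
    (fun a => (sI S x I' a).toNat)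
    (by
      intro hk
      have h1 : (K.aug (fun a => (sI S x I a).toNat) : ℤ) = 1 := by
        rw [aug_eq_augZ]
        have h2 : augZ K (fun b => (((sI S x I b).toNat : ℕ) : ℤ)) =
            augZ K (fun b => (x.x false b : ℤ) +
              ∑ e ∈ I, (((S.atom e).x true b : ℤ) - (S.atom e).x false b)) :=
          augZ_congr fun b hb => Int.toNat_of_nonneg (sI_nonneg hE hI (by omega))
        rw [h2, augZ_add, table_augZ, augZ_sum]
        have h3 : ∀ e ∈ I, augZ K (fun b => ((S.atom e).x true b : ℤ) - (S.atom e).x false b) = 0 := by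
          intro e _
          rw [augZ_sub, table_augZ, table_augZ]
          simp
        rw [Finset.sum_eq_zero h3]
        simp
      exact_mod_cast h1)
    (by
      intro a ha
      rw [bdry_eq_bdZ]
      have h2 : bdZ K (fun b => (((sI S x I b).toNat : ℕ) : ℤ)) a =
          bdZ K (fun b => (x.x false b : ℤ) +
            ∑ e ∈ I, (((S.atom e).x true b : ℤ) - (S.atom e).x false b)) a :=
        bdZ_congr fun b hb => Int.toNat_of_nonneg (sI_nonneg hE hI (by omega))
      rw [h2, bdZ_add, table_bdZ, bdZ_sum]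
      have h3 : ∀ e ∈ I, bdZ K (fun b => ((S.atom e).x true b : ℤ) - (S.atom e).x false b) a = 0 := by
        intro e _
        rw [bdZ_sub, table_bdZ, table_bdZ]
        simp
      rw [Finset.sum_eq_zero h3]
      simp)
    (by
      intro a ha
      rw [Int.toNat_of_nonneg (sI_nonneg hE hI' ha), Int.toNat_of_nonneg (sI_nonneg hE hI ha),
        sI_sub x h]
      congr 1
      exact (sum_indZ _ _).symm)

lemma pc_x {x : Table K} {k : ℕ} {E : Finset K.B} (hE : Dec S x k E) {I I' : Finset K.B}
    (hI : Down S k E I) (hI' : Down S k E I') (h : I ⊆ I') (δ : Bool) (b : K.B) :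
    (pc hE hI hI' h).x δ b = if K.dim b < k then x.x δ b else if K.dim b = k then
      (if δ then (sI S x I' b).toNat else (sI S x I b).toNat)
      else ∑ e ∈ I' \ I, (S.atom e).x δ b := by
  simp only [pc, piece, sum_indN]

lemma pc_composable {x : Table K} {k : ℕ} {E : Finset K.B} (hE : Dec S x k E) {I J L : Finset K.B}
    (hI : Down S k E I) (hJ : Down S k E J) (hL : Down S k E L) (h : I ⊆ J) (h' : J ⊆ L) :
    Table.face k true (pc hE hI hJ h) = Table.face k false (pc hE hJ hL h') := by
  ext δ b
  simp only [Table.face_x, pc_x]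
  split_ifs <;> first | rfl | omega | simp_all

lemma pc_comp {x : Table K} {k : ℕ} {E : Finset K.B} (hE : Dec S x k E) {I J L : Finset K.B}
    (hI : Down S k E I) (hJ : Down S k E J) (hL : Down S k E L) (h : I ⊆ J) (h' : J ⊆ L) :
    pc hE hI hL (h.trans h') = Table.comp k (pc hE hI hJ h) (pc hE hJ hL h') := by
  classical
  ext δ b
  rw [Table.comp_x (pc_composable hE hI hJ hL h h')]
  simp only [pc_x]
  by_cases h1 : K.dim b < k
  · simp [h1]
  · by_cases h2 : K.dim b = k
    · simp only [h1, h2, if_true, lt_irrefl, if_false]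
      cases δ <;> simp
    · simp only [h1, h2, if_false]
      rw [← Finset.sum_union]
      · congr 1
        ext e
        simp only [mem_sdiff, mem_union]
        constructor
        · rintro ⟨h3, h4⟩
          by_cases h5 : e ∈ J
          · exact Or.inl ⟨h5, h4⟩
          · exact Or.inr ⟨h3, h5⟩
        · rintro (⟨h3, h4⟩ | ⟨h3, h4⟩)
          · exact ⟨h' h3, h4⟩
          · exact ⟨h3, fun h5 => h4 (h h5)⟩
      · rw [Finset.disjoint_left]
        intro e he he'
        rw [mem_sdiff] at he he'
        exact he'.2 he.1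

lemma pc_full {x : Table K} {k : ℕ} {E : Finset K.B} (hE : Dec S x k E) :
    pc hE (Down.empty k E) (Down.full k E) (Finset.empty_subset _) = x := by
  ext δ b
  rw [pc_x]
  by_cases h1 : K.dim b < k
  · simp [h1]
  · by_cases h2 : K.dim b = k
    · simp only [h1, h2, lt_irrefl, if_true, if_false]
      cases δ
      · simp [sI_empty]
      · simp [sI_full hE h2]
    · simp only [h1, h2, if_false, Finset.sdiff_empty]
      rw [hE.eq δ b (by omega)]

/-- usage bound -/
lemma usage {x : Table K} {k : ℕ} {E : Finset K.B} (hE : Dec S x k E) {a : K.B}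
    (ha : K.dim a = k) : x.x false a + ∑ e ∈ E, (S.atom e).x true a ≤ 1 := by
  classical
  let I := E.filter (fun e => S.rank e < S.rank a)
  have hI : Down S k E I := by
    refine Down.of_rank hE.dim_lt (Finset.filter_subset _ _) ?_
    intro e he hn e' he'
    simp only [I, mem_filter, not_and, not_lt] at hn he'
    have := hn he
    omega
  have h1 := mult_free S (pc hE (Down.empty k E) hI (Finset.empty_subset _)) true a
  rw [pc_x, if_neg (by omega), if_pos ha] at h1
  simp only [if_true] at h1
  have h2 : sI S x I a = ((x.x false a + ∑ e ∈ E, (S.atom e).x true a : ℕ) : ℤ) := by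
    rw [sI]
    push_cast
    congr 1
    rw [← Finset.sum_filter_add_sum_filter_not E (fun e => S.rank e < S.rank a)
      (fun e => ((S.atom e).x true a : ℤ))]
    have h3 : ∑ e ∈ E.filter (fun e => ¬ S.rank e < S.rank a), ((S.atom e).x true a : ℤ) = 0 := by
      refine Finset.sum_eq_zero fun e he => ?_
      rw [mem_filter] at he
      by_contra hne
      have := S.rtgt a e (by rw [ha]; exact hE.dim_lt e he.1) (by exact_mod_cast hne)
      omega
    rw [h3, add_zero]
    refine Finset.sum_congr rfl fun e he => ?_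
    simp only [mem_filter, I] at he
    have : (S.atom e).x false a = 0 := by
      by_contra hne
      have := S.rsrc a e (by rw [ha]; exact hE.dim_lt e he.1) hne
      omega
    rw [this]
    simp
  rw [h2, Int.toNat_natCast] at h1
  exact h1

end Vale.Agent.P213.Free
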