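import Vale.Agent.Lib.P213.FreeB

/-!
# Freeness of `nu K`, part C: splitting of cuts, measure
-/

open CategoryTheory

namespace Vale.Agent.P213.Free

open Finset

variable {K : Cpx}

lemma comp_gt {j : ℕ} {s t : Table K} (h : Table.face j true s = Table.face j false t) {b : K.B}
    (hb : j < K.dim b) (δ : Bool) : (Table.comp j s t).x δ b = s.x δ b + t.x δ b := by
  rw [Table.comp_x h, if_neg (by omega), if_neg (by omega)]

lemma comp_lt {j : ℕ} {s t : Table K} (h : Table.face j true s = Table.face j false t) {b : K.B}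
    (hb : K.dim b < j) (δ : Bool) : (Table.comp j s t).x δ b = s.x δ b := by
  rw [Table.comp_x h, if_pos hb]

lemma comp_lt' {j : ℕ} {s t : Table K} (h : Table.face j true s = Table.face j false t) {b : K.B}
    (hb : K.dim b < j) (δ : Bool) : (Table.comp j s t).x δ b = t.x δ b := by
  rw [comp_lt h hb, Table.eq_of_composable' h δ b hb]

lemma comp_false {j : ℕ} {s t : Table K} (h : Table.face j true s = Table.face j false t) {b : K.B}
    (hb : K.dim b = j) : (Table.comp j s t).x false b = s.x false b := by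
  rw [Table.comp_x h, if_neg (by omega), if_pos hb]
  rfl

lemma comp_true {j : ℕ} {s t : Table K} (h : Table.face j true s = Table.face j false t) {b : K.B}
    (hb : K.dim b = j) : (Table.comp j s t).x true b = t.x true b := by
  rw [Table.comp_x h, if_neg (by omega), if_pos hb]
  rfl

lemma hi_left {j l : ℕ} {s t : Table K} (h : Table.face j true s = Table.face j false t)
    (hl : j ≤ l) : hi s l ⊆ hi (Table.comp j s t) l := by
  intro b hb
  rw [mem_hi, mem_core] at hb ⊢
  refine ⟨⟨?_, ?_⟩, hb.2⟩ <;> rw [comp_gt h (by omega)]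
  · have := hb.1.1; omega
  · have := hb.1.2; omega

lemma hi_right {j l : ℕ} {s t : Table K} (h : Table.face j true s = Table.face j false t)
    (hl : j ≤ l) : hi t l ⊆ hi (Table.comp j s t) l := by
  intro b hb
  rw [mem_hi, mem_core] at hb ⊢
  refine ⟨⟨?_, ?_⟩, hb.2⟩ <;> rw [comp_gt h (by omega)]
  · have := hb.1.1; omega
  · have := hb.1.2; omega

lemma hi_disjoint (S : Steiner K) {j l : ℕ} {s t : Table K}
    (h : Table.face j true s = Table.face j false t) (hl : j ≤ l) : Disjoint (hi s l) (hi t l) := by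
  rw [Finset.disjoint_left]
  intro b hb hb'
  rw [mem_hi, mem_core] at hb hb'
  have h1 := mult_free S (Table.comp j s t) false b
  rw [comp_gt h (by omega)] at h1
  have := hb.1.1
  have := hb'.1.1
  omega

/-- the measure -/
def mu (x : Table K) : ℕ := ∑ b ∈ core x, (Fintype.card K.B + 1) ^ K.dim b

lemma mu_lt {x y : Table K} (i : ℕ) (h1 : ∀ b, i ≤ K.dim b → b ∈ core y → b ∈ core x)
    {b₀ : K.B} (hb : i ≤ K.dim b₀) (hx : b₀ ∈ core x) (hy : b₀ ∉ core y) : mu y < mu x := by
  classical
  set P := Fintype.card K.B + 1 with hP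
  set m := K.dim b₀ with hm
  have hlow : ∑ b ∈ (core y).filter (fun b => K.dim b < m), P ^ K.dim b < P ^ m := by
    have h2 : P * ∑ b ∈ (core y).filter (fun b => K.dim b < m), P ^ K.dim b ≤
        Fintype.card K.B * P ^ m := by
      rw [Finset.mul_sum]
      refine (Finset.sum_le_card_nsmul _ _ (P ^ m) ?_).trans ?_
      · intro b hb'
        rw [mem_filter] at hb'
        rw [← pow_succ']
        exact Nat.pow_le_pow_right (by omega) hb'.2
      · rw [smul_eq_mul]
        exact Nat.mul_le_mul_right _ (Finset.card_le_univ _)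
    have h3 : Fintype.card K.B * P ^ m < P * P ^ m :=
      Nat.mul_lt_mul_of_pos_right (by omega) (by positivity)
    exact lt_of_mul_lt_mul_left (h2.trans_lt h3) (Nat.zero_le P)
  have hsub : (core y).filter (fun b => ¬ K.dim b < m) ⊆
      ((core x).filter (fun b => ¬ K.dim b < m)).erase b₀ := by
    intro b hb'
    rw [mem_filter] at hb'
    rw [mem_erase, mem_filter]
    refine ⟨?_, h1 b (by omega) hb'.1, hb'.2⟩
    rintro rfl
    exact hy hb'.1
  have h4 : ∑ b ∈ (core y).filter (fun b => ¬ K.dim b < m), P ^ K.dim b ≤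
      ∑ b ∈ ((core x).filter (fun b => ¬ K.dim b < m)).erase b₀, P ^ K.dim b :=
    Finset.sum_le_sum_of_subset hsub
  have h5 : ∑ b ∈ ((core x).filter (fun b => ¬ K.dim b < m)).erase b₀, P ^ K.dim b + P ^ m =
      ∑ b ∈ (core x).filter (fun b => ¬ K.dim b < m), P ^ K.dim b := by
    rw [add_comm]
    exact Finset.add_sum_erase _ (fun b => P ^ K.dim b)
      (by rw [mem_filter]; exact ⟨hx, by omega⟩)
  have h6 : ∑ b ∈ (core x).filter (fun b => ¬ K.dim b < m), P ^ K.dim b ≤ mu x :=
    Finset.sum_le_sum_of_subset (Finset.filter_subset _ _)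
  have h7 : mu y = ∑ b ∈ (core y).filter (fun b => K.dim b < m), P ^ K.dim b +
      ∑ b ∈ (core y).filter (fun b => ¬ K.dim b < m), P ^ K.dim b :=
    (Finset.sum_filter_add_sum_filter_not _ _ _).symm
  omega

lemma mu_left (S : Steiner K) {j : ℕ} {s t : Table K}
    (h : Table.face j true s = Table.face j false t) (ht : ¬ Triv j t) :
    mu s < mu (Table.comp j s t) := by
  obtain ⟨b₀, hb₀⟩ := hi_nonempty_of_not_triv ht
  have h1 := (mem_hi.1 (hi_right h le_rfl hb₀))
  refine mu_lt (j + 1) ?_ (b₀ := b₀) (by have := h1.2; omega) h1.1 ?_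
  · intro b hb hbs
    exact (mem_hi.1 (hi_left h le_rfl (mem_hi.2 ⟨hbs, by omega⟩))).1
  · intro hcon
    exact Finset.disjoint_left.1 (hi_disjoint S h le_rfl) (mem_hi.2 ⟨hcon, h1.2⟩) hb₀

lemma mu_right (S : Steiner K) {j : ℕ} {s t : Table K}
    (h : Table.face j true s = Table.face j false t) (hs : ¬ Triv j s) :
    mu t < mu (Table.comp j s t) := by
  obtain ⟨b₀, hb₀⟩ := hi_nonempty_of_not_triv hs
  have h1 := (mem_hi.1 (hi_left h le_rfl hb₀))
  refine mu_lt (j + 1) ?_ (b₀ := b₀) (by have := h1.2; omega) h1.1 ?_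
  · intro b hb hbs
    exact (mem_hi.1 (hi_right h le_rfl (mem_hi.2 ⟨hbs, by omega⟩))).1
  · intro hcon
    exact Finset.disjoint_left.1 (hi_disjoint S h le_rfl) hb₀ (mem_hi.2 ⟨hcon, h1.2⟩)

lemma mu_face {j : ℕ} {ε : Bool} {x : Table K} (hx : ¬ Triv j x) :
    mu (Table.face j ε x) < mu x := by
  obtain ⟨b₀, hb₀⟩ := hi_nonempty_of_not_triv hx
  rw [mem_hi] at hb₀
  have hz : ∀ b, j < K.dim b → b ∉ core (Table.face j ε x) := by
    intro b hb hcon
    rw [mem_core] at hcon
    apply hcon.1
    rw [Table.face_x, if_neg (by omega), if_neg (by omega)]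
  refine mu_lt (j + 1) ?_ (b₀ := b₀) (by have := hb₀.2; omega) hb₀.1 (hz b₀ hb₀.2)
  intro b hb hbs
  exact absurd hbs (hz b (by omega))

lemma face_of_triv {j : ℕ} {ε : Bool} {x : Table K} (hx : Triv j x) : Table.face j ε x = x := by
  ext δ b
  rw [Table.face_x]
  by_cases h1 : K.dim b < j
  · rw [if_pos h1]
  · rw [if_neg h1]
    by_cases h2 : K.dim b = j
    · rw [if_pos h2]
      have h3 := x.bd false b
      have h4 : K.bdry (x.x false) b = 0 := by
        rw [← K.bdry_zero b]
        exact K.bdry_congr fun c hc => hx c (by omega) false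
      rw [h4] at h3
      have h5 : x.x true b = x.x false b := by omega
      cases ε <;> cases δ <;> simp [h5]
    · rw [if_neg h2]
      exact (hx b (by omega) δ).symm

lemma triv_of_face {j : ℕ} {ε : Bool} {x : Table K} (h : Table.face j ε x = x) : Triv j x := by
  intro b hb δ
  rw [← h, Table.face_x, if_neg (by omega), if_neg (by omega)]

lemma face_face_lt {j k : ℕ} (η ε : Bool) (x : Table K) (h : j < k) :
    Table.face j η (Table.face k ε x) = Table.face j η x := (nu K).bd_bd_lt η ε x h

lemma face_face_ge {j k : ℕ} (η ε : Bool) (x : Table K) (h : k ≤ j) :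
    Table.face j η (Table.face k ε x) = Table.face k ε x := (nu K).bd_bd_ge η ε x h

lemma comp_of_triv_left {j : ℕ} {s t : Table K} (h : Table.face j true s = Table.face j false t)
    (hs : Triv j s) : s = Table.face j false t ∧ Table.comp j s t = t := by
  have h1 : s = Table.face j false t := by rw [← h, face_of_triv hs]
  refine ⟨h1, ?_⟩
  rw [h1]
  exact (nu K).source_comp j t

lemma comp_of_triv_right {j : ℕ} {s t : Table K} (h : Table.face j true s = Table.face j false t)
    (ht : Triv j t) : t = Table.face j true s ∧ Table.comp j s t = s := by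
  have h1 : t = Table.face j true s := by rw [h, face_of_triv ht]
  refine ⟨h1, ?_⟩
  rw [h1]
  exact (nu K).comp_target j s

section cuts

variable {S : Steiner K}

lemma hi_pc {x : Table K} {k : ℕ} (hk : (hi x (k + 1)).card ≤ 1) (hE : Dec S x k (hi x k))
    {I I' : Finset K.B} (hI : Down S k (hi x k) I) (hI' : Down S k (hi x k) I') (h : I ⊆ I') :
    hi (pc hE hI hI' h) k ⊆ I' \ I := by
  classical
  intro b hb
  rw [mem_hi, mem_core] at hb
  by_contra hbJ
  have hkb := hb.2
  have e0 : ∀ ε, (pc hE hI hI' h).x ε b = ∑ e ∈ I' \ I, (S.atom e).x ε b := by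
    intro ε
    rw [pc_x, if_neg (by omega), if_neg (by omega)]
  have h1 := hb.1.1
  have h2 := hb.1.2
  rw [e0] at h1 h2
  obtain ⟨e1, he1, hne1⟩ := Finset.exists_ne_zero_of_sum_ne_zero h1
  obtain ⟨e2, he2, hne2⟩ := Finset.exists_ne_zero_of_sum_ne_zero h2
  have key : ∀ e ε, e ∈ I' \ I → (S.atom e).x ε b ≠ 0 → K.dim b < K.dim e ∧ e ∈ hi x (k + 1) := by
    intro e ε he hne
    have hd : K.dim b < K.dim e := by
      by_contra hd
      rw [S.top b e ε (by omega)] at hne
      have : b = e := by
        by_contra hbe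
        rw [if_neg hbe] at hne
        exact hne rfl
      rw [this] at hbJ
      exact hbJ he
    refine ⟨hd, ?_⟩
    have := mem_hi.1 (hI'.sub (Finset.mem_sdiff.1 he).1)
    exact mem_hi.2 ⟨this.1, by omega⟩
  obtain ⟨hd1, hm1⟩ := key e1 _ he1 hne1
  obtain ⟨hd2, hm2⟩ := key e2 _ he2 hne2
  have : e1 = e2 := Finset.card_le_one.1 hk e1 hm1 e2 hm2
  subst this
  rcases S.disj b e1 hd1 with h | h
  · exact hne1 h
  · exact hne2 h

lemma mu_pc {x : Table K} {k : ℕ} (hk : (hi x (k + 1)).card ≤ 1) (hE : Dec S x k (hi x k))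
    {I I' : Finset K.B} (hI : Down S k (hi x k) I) (hI' : Down S k (hi x k) I') (h : I ⊆ I')
    {e : K.B} (he : e ∈ hi x k) (hne : e ∉ I' \ I) : mu (pc hE hI hI' h) < mu x := by
  classical
  have h1 := mem_hi.1 he
  refine mu_lt (k + 1) ?_ (b₀ := e) (by have := h1.2; omega) h1.1 ?_
  · intro b hb hbc
    have := hi_pc hk hE hI hI' h (mem_hi.2 ⟨hbc, by omega⟩)
    exact (mem_hi.1 (hI'.sub (Finset.mem_sdiff.1 this).1)).1
  · intro hcon
    exact hne (hi_pc hk hE hI hI' h (mem_hi.2 ⟨hcon, h1.2⟩))

lemma not_triv_pc {x : Table K} {k : ℕ} {E : Finset K.B} (hE : Dec S x k E)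
    {I I' : Finset K.B} (hI : Down S k E I) (hI' : Down S k E I') (h : I ⊆ I')
    {e : K.B} (he : e ∈ I' \ I) : ¬ Triv k (pc hE hI hI' h) := by
  classical
  intro hT
  have hd := hE.dim_lt e (hI'.sub (Finset.mem_sdiff.1 he).1)
  have h1 := hT e hd false
  rw [pc_x, if_neg (by omega), if_neg (by omega), Finset.sum_eq_zero_iff] at h1
  have h2 := h1 e he
  rw [S.top e e false le_rfl, if_pos rfl] at h2
  exact one_ne_zero h2

/-- splitting of the level data along a composite -/
lemma hi_union {x s t : Table K} {j k : ℕ} (h : Table.face j true s = Table.face j false t)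
    (hx : x = Table.comp j s t) (hjk : j ≤ k) (hk : (hi x (k + 1)).card ≤ 1) (S : Steiner K) :
    (hi s (k + 1)).card ≤ 1 ∧ (hi t (k + 1)).card ≤ 1 ∧ hi x k = hi s k ∪ hi t k := by
  classical
  subst hx
  have hs : (hi s (k + 1)).card ≤ 1 := le_trans (Finset.card_le_card (hi_left h (by omega))) hk
  have ht : (hi t (k + 1)).card ≤ 1 := le_trans (Finset.card_le_card (hi_right h (by omega))) hk
  refine ⟨hs, ht, ?_⟩
  apply Finset.Subset.antisymm
  · intro e he
    by_contra hcon
    have hdx := (dec_level (S := S) hk).eq false e (mem_hi.1 he).2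
    have hds := (dec_level (S := S) hs).eq false e (mem_hi.1 he).2
    have hdt := (dec_level (S := S) ht).eq false e (mem_hi.1 he).2
    have hke := (mem_hi.1 he).2
    rw [comp_gt h (by omega), hds, hdt, ← Finset.sum_union (hi_disjoint S h hjk)] at hdx
    have hsub : hi s k ∪ hi t k ⊆ hi (Table.comp j s t) k :=
      Finset.union_subset (hi_left h hjk) (hi_right h hjk)
    rw [← Finset.sum_sdiff hsub] at hdx
    have h0 : ∑ e' ∈ hi (Table.comp j s t) k \ (hi s k ∪ hi t k), (S.atom e').x false e = 0 := by
      omega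
    rw [Finset.sum_eq_zero_iff] at h0
    have := h0 e (Finset.mem_sdiff.2 ⟨he, hcon⟩)
    rw [S.top e e false le_rfl, if_pos rfl] at this
    exact one_ne_zero this
  · exact Finset.union_subset (hi_left h hjk) (hi_right h hjk)

/-- cuts at the critical level are down sets -/
lemma down_of_cut {x s t : Table K} {k : ℕ} (h : Table.face k true s = Table.face k false t)
    (hx : x = Table.comp k s t) (hk : (hi x (k + 1)).card ≤ 1) :
    Down S k (hi x k) (hi s k) := by
  classical
  obtain ⟨hs, ht, hun⟩ := hi_union h hx le_rfl hk S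
  refine ⟨by rw [hun]; exact Finset.subset_union_left, ?_⟩
  intro e he hn e' he' a ha h1 h2
  have het : e ∈ hi t k := by
    rw [hun, Finset.mem_union] at he
    rcases he with h | h
    · exact absurd h hn
    · exact h
  have htot := (dec_level (S := S) hs).total ha
  have hus := usage (dec_level (S := S) hk) ha
  rw [hun, Finset.sum_union (hi_disjoint S h le_rfl)] at hus
  have hxa : x.x false a = s.x false a := by rw [hx, comp_false h ha]
  rw [hxa] at hus
  rw [Finset.sum_sub_distrib] at htot
  have h3 : (S.atom e').x false a ≤ ∑ e ∈ hi s k, (S.atom e).x false a :=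
    Finset.single_le_sum (f := fun e => (S.atom e).x false a) (fun _ _ => Nat.zero_le _) he'
  have h4 : (S.atom e).x true a ≤ ∑ e ∈ hi t k, (S.atom e).x true a :=
    Finset.single_le_sum (f := fun e => (S.atom e).x true a) (fun _ _ => Nat.zero_le _) het
  have h5 : ((∑ e ∈ hi s k, (S.atom e).x true a : ℕ) : ℤ) =
      ∑ e ∈ hi s k, ((S.atom e).x true a : ℤ) := by push_cast; rfl
  have h6 : ((∑ e ∈ hi s k, (S.atom e).x false a : ℕ) : ℤ) =
      ∑ e ∈ hi s k, ((S.atom e).x false a : ℤ) := by push_cast; rfl
  rw [← h5, ← h6] at htot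
  omega

/-- cuts at the critical level are the standard ones -/
lemma cut_eq_pc {x s t : Table K} {k : ℕ} (h : Table.face k true s = Table.face k false t)
    (hx : x = Table.comp k s t) (hk : (hi x (k + 1)).card ≤ 1) :
    s = pc (dec_level (S := S) hk) (Down.empty k _) (down_of_cut h hx hk) (Finset.empty_subset _) ∧
    t = pc (dec_level (S := S) hk) (down_of_cut h hx hk) (Down.full k _)
      (down_of_cut (S := S) h hx hk).sub := by
  classical
  obtain ⟨hs, ht, hun⟩ := hi_union h hx le_rfl hk S
  have hE := dec_level (S := S) hk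
  have hsI : ∀ b, K.dim b = k → sI S x (hi s k) b = s.x true b := by
    intro b hb
    rw [sI, hx, comp_false h hb, ← (dec_level (S := S) hs).total hb]
  constructor
  · ext δ b
    rw [pc_x]
    by_cases h1 : K.dim b < k
    · rw [if_pos h1, hx, comp_lt h h1]
    · rw [if_neg h1]
      by_cases h2 : K.dim b = k
      · rw [if_pos h2]
        cases δ
        · rw [if_neg (by simp), sI_empty, Int.toNat_natCast, hx, comp_false h h2]
        · rw [if_pos rfl, hsI b h2, Int.toNat_natCast]
      · rw [if_neg h2, Finset.sdiff_empty]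
        exact (dec_level (S := S) hs).eq δ b (by omega)
  · ext δ b
    rw [pc_x]
    by_cases h1 : K.dim b < k
    · rw [if_pos h1, hx, comp_lt' h h1]
    · rw [if_neg h1]
      by_cases h2 : K.dim b = k
      · rw [if_pos h2]
        cases δ
        · rw [if_neg (by simp), hsI b h2, Int.toNat_natCast, Table.eq_of_composable h b h2]
        · rw [if_pos rfl, sI_full hE h2, Int.toNat_natCast, hx, comp_true h h2]
      · rw [if_neg h2]
        have h3 : hi x k \ hi s k = hi t k := by
          rw [hun]
          ext e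
          have hdis : e ∈ hi s k → e ∉ hi t k :=
            fun he => Finset.disjoint_left.1 (hi_disjoint S h (le_refl k)) he
          simp only [mem_sdiff, mem_union]
          tauto
        rw [h3]
        exact (dec_level (S := S) ht).eq δ b (by omega)

/-- matrix decomposition -/
lemma pc_matrix {x s t : Table K} {j k : ℕ} (h : Table.face j true s = Table.face j false t)
    (hx : x = Table.comp j s t) (hjk : j < k) (hk : (hi x (k + 1)).card ≤ 1)
    (hks : (hi s (k + 1)).card ≤ 1) (hkt : (hi t (k + 1)).card ≤ 1)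
    (hun : hi x k = hi s k ∪ hi t k)
    {I I' : Finset K.B} (hI : Down S k (hi x k) I) (hI' : Down S k (hi x k) I') (hII : I ⊆ I')
    (hIs : Down S k (hi s k) (I ∩ hi s k)) (hIs' : Down S k (hi s k) (I' ∩ hi s k))
    (hIt : Down S k (hi t k) (I ∩ hi t k)) (hIt' : Down S k (hi t k) (I' ∩ hi t k)) :
    Table.face j true (pc (dec_level (S := S) hks) hIs hIs' (Finset.inter_subset_inter_right hII)) =
      Table.face j false (pc (dec_level (S := S) hkt) hIt hIt'
        (Finset.inter_subset_inter_right hII)) ∧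
    pc (dec_level (S := S) hk) hI hI' hII = Table.comp j
      (pc (dec_level (S := S) hks) hIs hIs' (Finset.inter_subset_inter_right hII))
      (pc (dec_level (S := S) hkt) hIt hIt' (Finset.inter_subset_inter_right hII)) := by
  classical
  have hc : Table.face j true (pc (dec_level (S := S) hks) hIs hIs'
      (Finset.inter_subset_inter_right hII)) =
      Table.face j false (pc (dec_level (S := S) hkt) hIt hIt'
        (Finset.inter_subset_inter_right hII)) := by
    ext δ b
    have h0 := congrArg (fun u : Table K => u.x δ b) h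
    simp only [Table.face_x] at h0
    simp only [Table.face_x, pc_x]
    by_cases h1 : K.dim b < j
    · have h2 : K.dim b < k := by omega
      simpa [h1, h2] using h0
    · by_cases h2 : K.dim b = j
      · have h3 : K.dim b < k := by omega
        simpa [h1, h2, hjk] using h0
      · simp [h1, h2]
  refine ⟨hc, ?_⟩
  have hsplit : ∀ L : Finset K.B, L ⊆ hi x k → ∀ g : K.B → ℤ,
      ∑ e ∈ L, g e = ∑ e ∈ L ∩ hi s k, g e + ∑ e ∈ L ∩ hi t k, g e := by
    intro L hL g
    rw [← Finset.sum_union]
    · congr 1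
      rw [← Finset.inter_union_distrib_left, ← hun]
      exact (Finset.inter_eq_left.2 hL).symm
    · exact (hi_disjoint S h hjk.le).mono Finset.inter_subset_right Finset.inter_subset_right
  have hsI : ∀ (L : Finset K.B), L ⊆ hi x k → ∀ b, K.dim b = k →
      sI S x L b = sI S s (L ∩ hi s k) b + sI S t (L ∩ hi t k) b := by
    intro L hL b hb
    rw [sI, sI, sI, hsplit L hL, hx, comp_gt h (by omega)]
    push_cast
    ring
  ext δ b
  rcases lt_trichotomy (K.dim b) j with h1 | h1 | h1
  · rw [comp_lt hc h1, pc_x, pc_x, if_pos (by omega), if_pos (by omega), hx, comp_lt h h1]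
  · have h2 : K.dim b < k := by omega
    cases δ
    · rw [comp_false hc h1, pc_x, pc_x, if_pos h2, if_pos h2, hx, comp_false h h1]
    · rw [comp_true hc h1, pc_x, pc_x, if_pos h2, if_pos h2, hx, comp_true h h1]
  · rw [comp_gt hc h1, pc_x, pc_x, pc_x]
    by_cases h2 : K.dim b < k
    · rw [if_pos h2, if_pos h2, if_pos h2, hx, comp_gt h h1]
    · rw [if_neg h2, if_neg h2, if_neg h2]
      by_cases h3 : K.dim b = k
      · rw [if_pos h3, if_pos h3, if_pos h3, hsI I' hI'.sub b h3, hsI I hI.sub b h3]
        have p1 := sI_nonneg (dec_level (S := S) hks) hIs h3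
        have p2 := sI_nonneg (dec_level (S := S) hks) hIs' h3
        have p3 := sI_nonneg (dec_level (S := S) hkt) hIt h3
        have p4 := sI_nonneg (dec_level (S := S) hkt) hIt' h3
        cases δ
        · simp only [Bool.false_eq_true, if_false]
          rw [Int.toNat_add p1 p3]
        · simp only [if_true]
          rw [Int.toNat_add p2 p4]
      · rw [if_neg h3, if_neg h3, if_neg h3]
        have h4 := hsplit (I' \ I) (Finset.sdiff_subset.trans hI'.sub)
          (fun e => ((S.atom e).x δ b : ℤ))
        have h5 : ∀ A : Finset K.B, (I' \ I) ∩ A = (I' ∩ A) \ (I ∩ A) := by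
          intro A
          ext e
          simp only [mem_inter, mem_sdiff]
          tauto
        rw [h5, h5] at h4
        exact_mod_cast h4

end cuts

end Vale.Agent.P213.Free
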