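import Mathlib

/-!
# Morphisms all of whose pushouts are sent by a functor into a given class

Used for the acyclicity condition in the transfer of the Kan-Quillen model structure.
-/

open CategoryTheory Limits MorphismProperty

namespace Vale.Agent.P213.Transfer

universe w v v' u u'

variable {C : Type u} [Category.{v} C] {D : Type u'} [Category.{v'} D]
  (N : C ⥤ D) (T : MorphismProperty D)

/-- The morphisms all of whose pushouts are sent by `N` into `T`. -/
def Good : MorphismProperty C := fun A B j =>
  ∀ ⦃X Y : C⦄ (f : A ⟶ X) (g : B ⟶ Y) (j' : X ⟶ Y), IsPushout f j j' g → T (N.map j')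

variable {N T}

lemma Good.self {A B : C} {j : A ⟶ B} (hj : Good N T j) : T (N.map j) :=
  hj (𝟙 A) (𝟙 B) j (IsPushout.of_horiz_isIso ⟨by simp⟩)

instance : (Good N T).IsStableUnderCobaseChange where
  of_isPushout sq hf _ _ _ _ j' sq' := hf _ _ j' (sq.paste_horiz sq')

instance : (Good N T).RespectsIso := inferInstance

lemma Good.comp [HasPushouts C] [T.IsStableUnderComposition] {A B E : C} {j : A ⟶ B} {k : B ⟶ E}
    (hj : Good N T j) (hk : Good N T k) : Good N T (j ≫ k) := by
  intro X Y f g l sq
  have sq1 := IsPushout.of_hasPushout f j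
  let m : pushout f j ⟶ Y := pushout.desc l (k ≫ g) (by simpa using sq.w)
  have hm1 : pushout.inl f j ≫ m = l := pushout.inl_desc _ _ _
  have hm2 : pushout.inr f j ≫ m = k ≫ g := pushout.inr_desc _ _ _
  have sq2 : IsPushout (pushout.inr f j) k m g := by
    refine IsPushout.of_top (h₁₁ := f) (v₁₁ := j) (v₁₂ := pushout.inl f j) ?_ hm2 sq1
    rw [hm1]
    exact sq
  rw [← hm1, N.map_comp]
  exact T.comp_mem _ _ (hj _ _ _ sq1) (hk _ _ _ sq2)

lemma Good.of_isIso [T.ContainsIdentities] [T.RespectsIso] {A B : C} (j : A ⟶ B) [IsIso j] :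
    Good N T j := by
  intro X Y f g j' sq
  have : IsIso j' := (isomorphisms C).of_isPushout sq (isomorphisms.infer_property j)
  exact T.of_isIso (N.map j')

/-! ### Filtered colimits -/

section

variable {J : Type w} [SmallCategory J] [IsConnected J]

/-- Pushouts of a diagram of morphisms along a map out of the colimit. -/
lemma isColimit_pushouts {X₁ X₂ P : J ⥤ C} {c₁ : Cocone X₁} {c₂ : Cocone X₂}
    (h₁ : IsColimit c₁) (h₂ : IsColimit c₂) {f : X₁ ⟶ X₂} {φ : c₁.pt ⟶ c₂.pt}
    (hφ : ∀ j, c₁.ι.app j ≫ φ = f.app j ≫ c₂.ι.app j)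
    {X Y : C} {a : c₁.pt ⟶ X} {b : c₂.pt ⟶ Y} {l : X ⟶ Y} (sq : IsPushout a φ l b)
    {inl : (Functor.const J).obj X ⟶ P} {inr : X₂ ⟶ P}
    (hP : ∀ j, IsPushout (c₁.ι.app j ≫ a) (f.app j) (inl.app j) (inr.app j)) :
    ∃ c : Cocone P, Nonempty (IsColimit c) ∧ ∃ e : c.pt = Y, ∀ j, inl.app j ≫ c.ι.app j =
      l ≫ eqToHom e.symm := by
  let t : ∀ j, P.obj j ⟶ Y := fun j => (hP j).desc l (c₂.ι.app j ≫ b) (by
    rw [Category.assoc, sq.w, ← Category.assoc, hφ, Category.assoc])
  have ht1 : ∀ j, inl.app j ≫ t j = l := fun j => (hP j).inl_desc _ _ _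
  have ht2 : ∀ j, inr.app j ≫ t j = c₂.ι.app j ≫ b := fun j => (hP j).inr_desc _ _ _
  let c : Cocone P :=
    { pt := Y
      ι := { app := t
             naturality := by
              intro i j u
              change P.map u ≫ t j = t i ≫ 𝟙 Y
              rw [Category.comp_id]
              apply (hP i).hom_ext
              · have e1 : inl.app i ≫ P.map u = inl.app j := by
                  rw [← inl.naturality]; simp
                rw [← Category.assoc, e1]
                exact (ht1 j).trans (ht1 i).symm
              · have e1 : inr.app i ≫ P.map u = X₂.map u ≫ inr.app j :=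
                  (inr.naturality u).symm
                rw [← Category.assoc, e1, Category.assoc, ht2, ht2, ← Category.assoc, c₂.w] } }
  refine ⟨c, ⟨?_⟩, rfl, fun j => by simpa using ht1 j⟩
  -- the induced maps
  have hX : ∀ s : Cocone P, ∃ x : X ⟶ s.pt, ∀ j, inl.app j ≫ s.ι.app j = x := by
    intro s
    let d : Cocone ((Functor.const J).obj X) := ⟨s.pt, inl ≫ s.ι⟩
    refine ⟨(isColimitConstCocone J X).desc d, fun j => ?_⟩
    have h : 𝟙 X ≫ (isColimitConstCocone J X).desc d = inl.app j ≫ s.ι.app j :=
      (isColimitConstCocone J X).fac d j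
    exact h.symm.trans (Category.id_comp _)
  have hY : ∀ s : Cocone P, ∃ y : c₂.pt ⟶ s.pt, ∀ j, c₂.ι.app j ≫ y = inr.app j ≫ s.ι.app j := by
    intro s
    let d : Cocone X₂ := ⟨s.pt, inr ≫ s.ι⟩
    exact ⟨h₂.desc d, fun j => h₂.fac d j⟩
  have hw : ∀ (s : Cocone P) (x : X ⟶ s.pt) (y : c₂.pt ⟶ s.pt),
      (∀ j, inl.app j ≫ s.ι.app j = x) → (∀ j, c₂.ι.app j ≫ y = inr.app j ≫ s.ι.app j) →
      a ≫ x = φ ≫ y := by
    intro s x y hx hy
    apply h₁.hom_ext
    intro j
    have e1 := (hP j).w
    calc c₁.ι.app j ≫ a ≫ x = (c₁.ι.app j ≫ a) ≫ inl.app j ≫ s.ι.app j := by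
          rw [hx j, Category.assoc]
      _ = (f.app j ≫ inr.app j) ≫ s.ι.app j := by rw [← Category.assoc, e1]
      _ = f.app j ≫ c₂.ι.app j ≫ y := by rw [Category.assoc, ← hy j]
      _ = c₁.ι.app j ≫ φ ≫ y := by rw [← Category.assoc, ← hφ, Category.assoc]
  exact
    { desc := fun s => sq.desc (hX s).choose (hY s).choose
        (hw s _ _ (hX s).choose_spec (hY s).choose_spec)
      fac := by
        intro s j
        apply (hP j).hom_ext
        · change inl.app j ≫ t j ≫ _ = _
          rw [← Category.assoc, ht1, sq.inl_desc, (hX s).choose_spec]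
        · change inr.app j ≫ t j ≫ _ = _
          rw [← Category.assoc, ht2, Category.assoc, sq.inr_desc, (hY s).choose_spec]
      uniq := by
        intro s m hm
        apply sq.hom_ext
        · obtain ⟨j⟩ : Nonempty J := inferInstance
          rw [sq.inl_desc, ← (hX s).choose_spec j, ← hm j]
          change l ≫ m = inl.app j ≫ t j ≫ m
          rw [← Category.assoc, ht1]
        · rw [sq.inr_desc]
          apply h₂.hom_ext
          intro j
          rw [(hY s).choose_spec j, ← hm j]
          change c₂.ι.app j ≫ b ≫ m = inr.app j ≫ t j ≫ m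
          rw [← Category.assoc, ← Category.assoc, ht2] }

end

section

variable (J : Type w) [SmallCategory J] [IsConnected J] [HasPushouts C]
  [PreservesColimitsOfShape J N] [T.IsStableUnderColimitsOfShape J]

instance good_colimitsOfShape : (Good N T).IsStableUnderColimitsOfShape J where
  condition X₁ X₂ c₁ c₂ h₁ h₂ f hf φ hφ := by
    intro X Y a b l sq
    let α : X₁ ⟶ (Functor.const J).obj X :=
      { app := fun j => c₁.ι.app j ≫ a
        naturality := by
          intro i j u
          simp }
    have hP : ∀ j, IsPushout (c₁.ι.app j ≫ a) (f.app j) ((pushout.inl α f).app j)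
        ((pushout.inr α f).app j) := fun j =>
      (IsPushout.of_hasPushout α f).map ((evaluation J C).obj j)
    obtain ⟨c, ⟨hc⟩, e, he⟩ := isColimit_pushouts h₁ h₂ hφ sq hP
    have h3 := isColimitOfPreserves N (isColimitConstCocone J X)
    have h4 := isColimitOfPreserves N hc
    have h5 : T (N.map (l ≫ eqToHom e.symm)) := by
      refine IsStableUnderColimitsOfShape.condition (W := T) _ _ _ _ h3 h4
        (Functor.whiskerRight (pushout.inl α f) N) (fun j => hf j _ _ _ (hP j)) _ ?_
      intro j
      change N.map (𝟙 X) ≫ N.map (l ≫ eqToHom e.symm) = N.map _ ≫ N.map _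
      rw [← N.map_comp, ← N.map_comp, he j, Category.id_comp]
    subst e
    simpa using h5

end

/-! ### Coproducts -/

section

variable [HasPushouts C] [T.IsMultiplicative] [T.RespectsIso]

lemma good_coprod [HasBinaryCoproducts C] {A B A' B' : C} {f : A ⟶ B} {g : A' ⟶ B'}
    (hf : Good N T f) (hg : Good N T g) : Good N T (coprod.map f g) := by
  have h1 : coprod.map f g = coprod.map f (𝟙 A') ≫ (coprod.braiding _ _).hom ≫
      coprod.map g (𝟙 B) ≫ (coprod.braiding _ _).hom := by
    apply coprod.hom_ext
    · simp [coprod.inl_desc, coprod.inr_desc]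
    · simp [coprod.inl_desc, coprod.inr_desc]
  have h2 : Good N T (coprod.map f (𝟙 A')) :=
    IsStableUnderCobaseChange.of_isPushout (IsPushout.of_coprod_inl_with_id f A') hf
  have h3 : Good N T (coprod.map g (𝟙 B)) :=
    IsStableUnderCobaseChange.of_isPushout (IsPushout.of_coprod_inl_with_id g B) hg
  rw [h1]
  exact h2.comp ((Good.of_isIso _).comp (h3.comp (Good.of_isIso _)))

/-- Coproducts over `Option α`. -/
noncomputable def sigmaOption [HasBinaryCoproducts C] {α : Type*} (X : Option α → C)
    [HasCoproduct X] [HasCoproduct (fun a => X (some a))] :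
    ∐ X ≅ X none ⨿ ∐ (fun a => X (some a)) where
  hom := Sigma.desc (fun o => match o with
    | none => coprod.inl
    | some a => Sigma.ι (fun a => X (some a)) a ≫ coprod.inr)
  inv := coprod.desc (Sigma.ι X none) (Sigma.desc fun a => Sigma.ι X (some a))
  hom_inv_id := by
    apply Sigma.hom_ext
    rintro (_ | a)
    · simp [coprod.inl_desc]
    · simp [coprod.inr_desc]
  inv_hom_id := by
    apply coprod.hom_ext
    · simp [coprod.inl_desc]
    · apply Sigma.hom_ext
      intro a
      simp [coprod.inr_desc]

lemma good_sigma_option [HasBinaryCoproducts C] {α : Type*} {X₁ X₂ : Option α → C}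
    [HasCoproduct X₁] [HasCoproduct (fun a => X₁ (some a))]
    [HasCoproduct X₂] [HasCoproduct (fun a => X₂ (some a))] (f : ∀ o, X₁ o ⟶ X₂ o)
    (h0 : Good N T (f none)) (h : Good N T (Limits.Sigma.map (fun a => f (some a)))) :
    Good N T (Limits.Sigma.map f) := by
  refine (Good N T).arrow_mk_iso_iff (Arrow.isoMk (sigmaOption X₁) (sigmaOption X₂) ?_) |>.2
    (good_coprod h0 h)
  dsimp
  apply Sigma.hom_ext
  rintro (_ | a)
  · simp [sigmaOption]
  · simp [sigmaOption]

instance [HasFiniteCoproducts C] : (Good N T).IsStableUnderFiniteCoproducts where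
  isStableUnderCoproductsOfShape J hJ := by
    refine Finite.induction_empty_option
      (P := fun J => (Good N T).IsStableUnderCoproductsOfShape J) ?_ ?_ ?_ J
    · intro α β e h
      have h := (isStableUnderColimitsOfShape_iff_colimitsOfShape_le _ _).1 h
      refine (isStableUnderColimitsOfShape_iff_colimitsOfShape_le _ _).2 ?_
      rwa [← colimitsOfShape_eq_of_equivalence _ (Discrete.equivalence e)]
    · apply IsStableUnderCoproductsOfShape.mk
      intro X₁ X₂ _ _ f hf
      have : IsIso (Limits.Sigma.map f) := by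
        refine ⟨Sigma.desc (fun x => x.elim), ?_, ?_⟩
        · apply Sigma.hom_ext
          rintro ⟨⟩
        · apply Sigma.hom_ext
          rintro ⟨⟩
      exact Good.of_isIso _
    · intro α _ h
      apply IsStableUnderCoproductsOfShape.mk
      intro X₁ X₂ _ _ f hf
      exact good_sigma_option f (hf none) ((Good N T).colimMap _ (fun a => hf (some a.as)))

instance [HasColimitsOfSize.{0, 0} C]
    [PreservesFilteredColimitsOfSize.{0, 0} N]
    [IsStableUnderFilteredColimits.{0, 0} T] : IsStableUnderCoproducts.{0} (Good N T) where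
  isStableUnderCoproductsOfShape J := by
    have : HasFiniteCoproducts C := inferInstance
    apply IsStableUnderCoproductsOfShape.mk
    intro X₁ X₂ _ _ f hf
    have h₁ := CoproductsFromFiniteFiltered.isColimitFiniteSubproductsCocone X₁
    have h₂ := CoproductsFromFiniteFiltered.isColimitFiniteSubproductsCocone X₂
    have : IsConnected (Finset (Discrete J)) := IsFiltered.isConnected _
    refine IsStableUnderColimitsOfShape.condition (W := Good N T) (J := Finset (Discrete J))
      _ _ _ _ h₁ h₂
      ((CoproductsFromFiniteFiltered.liftToFinset C J).map (Discrete.natTrans (fun j => f j.as)))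
      ?_ _ ?_
    · intro S
      exact (Good N T).colimMap _ (fun a => hf a.as.1.as)
    · intro S
      apply Sigma.hom_ext
      intro x
      change Sigma.ι (fun x : S => X₁ x.1.as) x ≫ Sigma.desc (fun x : S => Sigma.ι X₁ x.1.as) ≫
        Limits.Sigma.map f = Sigma.ι (fun x : S => X₁ x.1.as) x ≫
          Limits.Sigma.map (fun x : S => f x.1.as) ≫ Sigma.desc (fun x : S => Sigma.ι X₂ x.1.as)
      rw [Sigma.ι_desc_assoc, Sigma.ι_map, Sigma.ι_map_assoc, Sigma.ι_desc]

end

end Vale.Agent.P213.Transfer
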