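import Vale.Agent.Lib.P213.Free

/-!
# The Steiner structure of the complex of the standard simplex
-/

open CategoryTheory

namespace Vale.Agent.P213

open Finset

/-- number of elements of `τ` below `i` -/
def below {n : ℕ} (τ : Finset (Fin n)) (i : Fin n) : ℕ := (τ.filter (· < i)).card

/-- the parity attached to a sign -/
def parity (ε : Bool) : ℕ := if ε then 0 else 1

/-- `τ` appears in the `ε`-side of the atom of `σ`. -/
def InAtom {n : ℕ} (σ : Finset (Fin n)) (ε : Bool) (τ : Finset (Fin n)) : Prop :=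
  τ ⊆ σ ∧ ∀ i ∈ σ, i ∉ τ → below τ i % 2 = parity ε

instance {n : ℕ} (σ : Finset (Fin n)) (ε : Bool) (τ : Finset (Fin n)) :
    Decidable (InAtom σ ε τ) := by
  unfold InAtom
  infer_instance

lemma simplex_key {n : ℕ} (D : Finset (Fin n)) (p : Fin n → ℕ) (ε : Bool) :
    ∑ v ∈ D, (if (∀ i ∈ D, i < v → p i % 2 = parity ε) ∧
        (∀ i ∈ D, v < i → (p i + 1) % 2 = parity ε) then (-1 : ℤ) ^ (p v) else 0) =
      (if ∀ i ∈ D, p i % 2 = 0 then 1 else 0) - (if ∀ i ∈ D, p i % 2 = 1 then 1 else 0) := by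
  induction D using Finset.induction_on_max with
  | empty => simp
  | insert w D hw ih =>
    have hwD : w ∉ D := fun h => lt_irrefl w (hw w h)
    rw [Finset.sum_insert hwD]
    have h1 : (if (∀ i ∈ insert w D, i < w → p i % 2 = parity ε) ∧
        (∀ i ∈ insert w D, w < i → (p i + 1) % 2 = parity ε) then (-1 : ℤ) ^ (p w) else 0) =
        if (∀ i ∈ D, p i % 2 = parity ε) then (-1 : ℤ) ^ (p w) else 0 := by
      congr 1
      apply propext
      constructor
      · rintro ⟨h, -⟩ i hi
        exact h i (Finset.mem_insert_of_mem hi) (hw i hi)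
      · intro h
        refine ⟨fun i hi hiw => ?_, fun i hi hiw => ?_⟩
        · rcases Finset.mem_insert.1 hi with rfl | hi
          · exact absurd hiw (lt_irrefl _)
          · exact h i hi
        · rcases Finset.mem_insert.1 hi with rfl | hi
          · exact absurd hiw (lt_irrefl _)
          · exact absurd hiw (not_lt.2 (hw i hi).le)
    have h2 : ∀ v ∈ D, (if (∀ i ∈ insert w D, i < v → p i % 2 = parity ε) ∧
        (∀ i ∈ insert w D, v < i → (p i + 1) % 2 = parity ε) then (-1 : ℤ) ^ (p v) else 0) =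
        (if (p w + 1) % 2 = parity ε then 1 else 0) *
        (if (∀ i ∈ D, i < v → p i % 2 = parity ε) ∧
        (∀ i ∈ D, v < i → (p i + 1) % 2 = parity ε) then (-1 : ℤ) ^ (p v) else 0) := by
      intro v hv
      by_cases h0 : (p w + 1) % 2 = parity ε
      · rw [if_pos h0, one_mul]
        congr 1
        apply propext
        constructor
        · rintro ⟨h, h'⟩
          exact ⟨fun i hi => h i (Finset.mem_insert_of_mem hi),
            fun i hi => h' i (Finset.mem_insert_of_mem hi)⟩
        · rintro ⟨h, h'⟩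
          refine ⟨fun i hi hiw => ?_, fun i hi hiw => ?_⟩
          · rcases Finset.mem_insert.1 hi with rfl | hi
            · exact absurd (hiw.trans (hw v hv)) (lt_irrefl _)
            · exact h i hi hiw
          · rcases Finset.mem_insert.1 hi with rfl | hi
            · exact h0
            · exact h' i hi hiw
      · rw [if_neg h0, zero_mul, if_neg]
        rintro ⟨-, h'⟩
        exact h0 (h' w (Finset.mem_insert_self _ _) (hw v hv))
    rw [h1, Finset.sum_congr rfl h2, ← Finset.mul_sum, ih]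
    simp only [Finset.forall_mem_insert]
    rcases Nat.mod_two_eq_zero_or_one (p w) with hp | hp
    · have hs : (-1 : ℤ) ^ (p w) = 1 := Even.neg_one_pow (Nat.even_iff.2 hp)
      have hp1 : (p w + 1) % 2 = 1 := by omega
      cases ε <;> simp [parity, hp, hp1, hs]
    · have hs : (-1 : ℤ) ^ (p w) = -1 := Odd.neg_one_pow (Nat.odd_iff.2 hp)
      have hp1 : (p w + 1) % 2 = 0 := by omega
      cases ε <;> simp [parity, hp, hp1, hs] <;> split_ifs <;> simp

lemma below_insert {n : ℕ} (ρ : Finset (Fin n)) (j i : Fin n) (hj : j ∉ ρ) :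
    below (insert j ρ) i = below ρ i + if j < i then 1 else 0 := by
  unfold below
  rw [Finset.filter_insert]
  split_ifs with h
  · rw [Finset.card_insert_of_notMem (by simp [hj])]
  · rfl

lemma simplexBd_eq {n : ℕ} (σ τ : Finset (Fin n)) :
    simplexBd σ τ = ∑ j : Fin n, if j ∉ τ ∧ insert j τ = σ then (-1) ^ (below τ j) else 0 := by
  unfold simplexBd
  rw [← Finset.sum_filter_add_sum_filter_not univ (fun j => j ∈ σ)]
  have h1 : ∑ j ∈ univ.filter (fun j => ¬ j ∈ σ),
      (if j ∉ τ ∧ insert j τ = σ then (-1 : ℤ) ^ (below τ j) else 0) = 0 := by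
    refine Finset.sum_eq_zero fun j hj => if_neg ?_
    rintro ⟨-, h⟩
    rw [Finset.mem_filter] at hj
    exact hj.2 (h ▸ Finset.mem_insert_self _ _)
  rw [h1, add_zero, Finset.filter_mem_eq_inter, Finset.univ_inter]
  refine Finset.sum_congr rfl fun j hj => ?_
  by_cases h : σ.erase j = τ
  · have h2 : j ∉ τ := h ▸ Finset.notMem_erase j σ
    have h3 : insert j τ = σ := by rw [← h, Finset.insert_erase hj]
    rw [if_pos h, if_pos ⟨h2, h3⟩]
    congr 1
    change below σ j = _
    rw [← h3, below_insert _ _ _ h2]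
    simp
  · rw [if_neg h, if_neg]
    rintro ⟨h2, h3⟩
    apply h
    rw [← h3, Finset.erase_insert h2]

/-- coefficients of the atoms -/
def simplexAtomX {m : ℕ} (σ : SimplexBasis m) (ε : Bool) (τ : SimplexBasis m) : ℕ :=
  if InAtom σ.1 ε τ.1 then 1 else 0

lemma simplexAtom_bd {m : ℕ} (σ : SimplexBasis m) (ε : Bool) (ρ : SimplexBasis m) :
    ∑ τ : SimplexBasis m, (simplexAtomX σ ε τ : ℤ) * simplexBd τ.1 ρ.1 =
      simplexAtomX σ true ρ - simplexAtomX σ false ρ := by
  have h1 : ∑ τ : SimplexBasis m, (simplexAtomX σ ε τ : ℤ) * simplexBd τ.1 ρ.1 =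
      ∑ j : Fin (m + 1), if j ∉ ρ.1 ∧ InAtom σ.1 ε (insert j ρ.1) then (-1) ^ (below ρ.1 j)
        else 0 := by
    simp only [simplexBd_eq, Finset.mul_sum]
    rw [Finset.sum_comm]
    refine Finset.sum_congr rfl fun j _ => ?_
    rw [Finset.sum_eq_single (⟨insert j ρ.1, Finset.insert_nonempty _ _⟩ : SimplexBasis m)]
    · simp only [simplexAtomX, and_true]
      by_cases h : j ∈ ρ.1 <;> by_cases h' : InAtom σ.1 ε (insert j ρ.1) <;> simp [h, h']
    · intro τ _ hτ
      rw [if_neg, mul_zero]
      rintro ⟨-, h⟩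
      exact hτ (Subtype.ext h.symm)
    · intro h
      exact absurd (Finset.mem_univ _) h
  rw [h1]
  by_cases hρ : ρ.1 ⊆ σ.1
  · have h2 : ∀ ε', simplexAtomX σ ε' ρ =
        if ∀ i ∈ σ.1 \ ρ.1, below ρ.1 i % 2 = parity ε' then 1 else 0 := by
      intro ε'
      unfold simplexAtomX InAtom
      congr 1
      apply propext
      constructor
      · rintro ⟨-, h⟩ i hi
        exact h i (Finset.mem_sdiff.1 hi).1 (Finset.mem_sdiff.1 hi).2
      · intro h
        exact ⟨hρ, fun i hi hi' => h i (Finset.mem_sdiff.2 ⟨hi, hi'⟩)⟩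
    rw [h2 true, h2 false]
    have h3 := simplex_key (σ.1 \ ρ.1) (below ρ.1) ε
    have h5 : ((if ∀ i ∈ σ.1 \ ρ.1, below ρ.1 i % 2 = parity true then 1 else 0 : ℕ) : ℤ) -
        ((if ∀ i ∈ σ.1 \ ρ.1, below ρ.1 i % 2 = parity false then 1 else 0 : ℕ) : ℤ) =
        (if ∀ i ∈ σ.1 \ ρ.1, below ρ.1 i % 2 = 0 then 1 else 0) -
        (if ∀ i ∈ σ.1 \ ρ.1, below ρ.1 i % 2 = 1 then 1 else 0) := by
      push_cast
      rfl
    rw [h5, ← h3, ← Finset.sum_filter_add_sum_filter_not univ (fun j => j ∈ σ.1 \ ρ.1)]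
    have h4 : ∑ j ∈ univ.filter (fun j => ¬ j ∈ σ.1 \ ρ.1),
        (if j ∉ ρ.1 ∧ InAtom σ.1 ε (insert j ρ.1) then (-1 : ℤ) ^ (below ρ.1 j) else 0) = 0 := by
      refine Finset.sum_eq_zero fun j hj => if_neg ?_
      rintro ⟨h, h'⟩
      rw [Finset.mem_filter] at hj
      exact hj.2 (Finset.mem_sdiff.2 ⟨h'.1 (Finset.mem_insert_self _ _), h⟩)
    rw [h4, add_zero, Finset.filter_mem_eq_inter, Finset.univ_inter]
    refine Finset.sum_congr rfl fun j hj => ?_
    rw [Finset.mem_sdiff] at hj
    congr 1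
    apply propext
    constructor
    · rintro ⟨-, -, h⟩
      refine ⟨fun i hi hij => ?_, fun i hi hij => ?_⟩
      · rw [Finset.mem_sdiff] at hi
        have := h i hi.1 (by
          rw [Finset.mem_insert, not_or]
          exact ⟨hij.ne, hi.2⟩)
        rw [below_insert _ _ _ hj.2, if_neg (not_lt.2 hij.le), add_zero] at this
        exact this
      · rw [Finset.mem_sdiff] at hi
        have := h i hi.1 (by
          rw [Finset.mem_insert, not_or]
          exact ⟨hij.ne', hi.2⟩)
        rw [below_insert _ _ _ hj.2, if_pos hij] at this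
        exact this
    · rintro ⟨h, h'⟩
      refine ⟨hj.2, Finset.insert_subset hj.1 hρ, fun i hi hi' => ?_⟩
      rw [Finset.mem_insert, not_or] at hi'
      rw [below_insert _ _ _ hj.2]
      rcases lt_or_gt_of_ne hi'.1 with hlt | hlt
      · rw [if_neg (not_lt.2 hlt.le), add_zero]
        exact h i (Finset.mem_sdiff.2 ⟨hi, hi'.2⟩) hlt
      · rw [if_pos hlt]
        exact h' i (Finset.mem_sdiff.2 ⟨hi, hi'.2⟩) hlt
  · have h2 : ∀ ε', simplexAtomX σ ε' ρ = 0 := fun ε' => if_neg (fun h => hρ h.1)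
    rw [h2, h2]
    simp only [Nat.cast_zero, sub_zero]
    refine Finset.sum_eq_zero fun j _ => if_neg ?_
    rintro ⟨-, h⟩
    exact hρ ((Finset.subset_insert _ _).trans h.1)

lemma inAtom_singleton {n : ℕ} (σ : Finset (Fin n)) (hσ : σ.Nonempty) (ε : Bool) (v : Fin n) :
    InAtom σ ε {v} ↔ v = if ε then σ.max' hσ else σ.min' hσ := by
  unfold InAtom
  cases ε
  · simp only [Bool.false_eq_true, if_false, parity]
    constructor
    · rintro ⟨h1, h2⟩
      refine le_antisymm ?_ (Finset.min'_le _ _ (h1 (Finset.mem_singleton_self v)))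
      have h3 := Finset.min'_mem σ hσ
      by_contra hcon
      rw [not_le] at hcon
      have := h2 _ h3 (by simpa using hcon.ne)
      unfold below at this
      rw [Finset.filter_singleton, if_neg (not_lt.2 hcon.le)] at this
      simp at this
    · rintro rfl
      refine ⟨Finset.singleton_subset_iff.2 (Finset.min'_mem σ hσ), fun i hi hi' => ?_⟩
      unfold below
      rw [Finset.filter_singleton, if_pos]
      · simp
      · exact lt_of_le_of_ne (Finset.min'_le _ _ hi) (fun h => hi' (by simp [h]))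
  · simp only [if_true, parity]
    constructor
    · rintro ⟨h1, h2⟩
      refine le_antisymm (Finset.le_max' _ _ (h1 (Finset.mem_singleton_self v))) ?_
      have h3 := Finset.max'_mem σ hσ
      by_contra hcon
      rw [not_le] at hcon
      have := h2 _ h3 (by simpa using hcon.ne')
      unfold below at this
      rw [Finset.filter_singleton, if_pos hcon] at this
      simp at this
    · rintro rfl
      refine ⟨Finset.singleton_subset_iff.2 (Finset.max'_mem σ hσ), fun i hi hi' => ?_⟩
      unfold below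
      rw [Finset.filter_singleton, if_neg]
      · simp
      · exact not_lt.2 (Finset.le_max' _ _ hi)

lemma simplexAtom_aug {m : ℕ} (σ : SimplexBasis m) (ε : Bool) :
    (simplexCpx m).aug (simplexAtomX σ ε) = 1 := by
  classical
  unfold Cpx.aug
  have h1 : ∀ τ : SimplexBasis m, (if (simplexCpx m).dim τ = 0 then simplexAtomX σ ε τ else 0) =
      if τ = ⟨{if ε then σ.1.max' σ.2 else σ.1.min' σ.2}, Finset.singleton_nonempty _⟩ then 1
        else 0 := by
    intro τ
    by_cases hd : (simplexCpx m).dim τ = 0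
    · rw [if_pos hd]
      have hc : τ.1.card = 1 := by
        have h1 : τ.1.card - 1 = 0 := hd
        have h2 := τ.2.card_pos
        omega
      obtain ⟨v, hv⟩ := Finset.card_eq_one.1 hc
      unfold simplexAtomX
      congr 1
      apply propext
      rw [hv, inAtom_singleton _ σ.2, Subtype.ext_iff, hv, Finset.singleton_inj]
    · rw [if_neg hd, if_neg]
      rintro rfl
      apply hd
      change ({_} : Finset _).card - 1 = 0
      simp
  refine (Finset.sum_congr rfl fun τ _ => h1 τ).trans ?_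
  have h2 : ∀ a : SimplexBasis m, ∑ τ : SimplexBasis m, (if τ = a then 1 else 0) = 1 := by
    intro a
    simp
  exact h2 _

/-- the atom of a simplex -/
def simplexAtom {m : ℕ} (σ : SimplexBasis m) : Table (simplexCpx m) where
  x ε τ := simplexAtomX σ ε τ
  aug ε := simplexAtom_aug σ ε
  bd ε ρ := simplexAtom_bd σ ε ρ

/-- the bits of the rank -/
def simplexBit {m : ℕ} (σ : Finset (Fin (m + 1))) (v : Fin (m + 1)) : Bool :=
  decide ((σ.filter (· ≤ v)).card % 2 = 0)

/-- the rank of a face of the simplex -/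
def simplexRank {m : ℕ} (σ : Finset (Fin (m + 1))) : ℕ :=
  Nat.ofBits (fun k : Fin (m + 1) => simplexBit σ (Fin.rev k))

lemma simplexRank_lt {m : ℕ} (σ τ : Finset (Fin (m + 1))) (v : Fin (m + 1))
    (h1 : simplexBit σ v = false) (h2 : simplexBit τ v = true)
    (h3 : ∀ w, w < v → simplexBit σ w = simplexBit τ w) : simplexRank σ < simplexRank τ := by
  unfold simplexRank
  apply Nat.lt_of_testBit (Fin.rev v : Fin (m + 1))
  · rw [Nat.testBit_ofBits_lt _ _ (Fin.rev v).2]
    change simplexBit σ (Fin.rev (Fin.rev v)) = false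
    rw [Fin.rev_rev]
    exact h1
  · rw [Nat.testBit_ofBits_lt _ _ (Fin.rev v).2]
    change simplexBit τ (Fin.rev (Fin.rev v)) = true
    rw [Fin.rev_rev]
    exact h2
  · intro j hj
    rcases Nat.lt_or_ge j (m + 1) with hlt | hge
    · rw [Nat.testBit_ofBits_lt _ _ hlt, Nat.testBit_ofBits_lt _ _ hlt]
      apply h3
      have h4 : Fin.rev v < (⟨j, hlt⟩ : Fin (m + 1)) := hj
      rw [Fin.rev_lt_iff] at h4
      exact h4
    · rw [Nat.testBit_ofBits_ge _ _ hge, Nat.testBit_ofBits_ge _ _ hge]

lemma card_filter_le_below {n : ℕ} (τ : Finset (Fin n)) (v : Fin n) :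
    (τ.filter (· ≤ v)).card = below τ v + if v ∈ τ then 1 else 0 := by
  unfold below
  have h : τ.filter (· ≤ v) = τ.filter (· < v) ∪ (if v ∈ τ then {v} else ∅) := by
    ext i
    split_ifs with hv
    · simp only [mem_filter, mem_union, mem_singleton]
      constructor
      · rintro ⟨h1, h2⟩
        rcases h2.lt_or_eq with h | h
        · exact Or.inl ⟨h1, h⟩
        · exact Or.inr h
      · rintro (⟨h1, h2⟩ | rfl)
        · exact ⟨h1, h2.le⟩
        · exact ⟨hv, le_rfl⟩
    · simp only [mem_filter, union_empty]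
      constructor
      · rintro ⟨h1, h2⟩
        exact ⟨h1, lt_of_le_of_ne h2 (fun h => hv (h ▸ h1))⟩
      · rintro ⟨h1, h2⟩
        exact ⟨h1, h2.le⟩
  rw [h, Finset.card_union_of_disjoint]
  · split_ifs <;> simp
  · split_ifs <;> simp

lemma simplex_first_diff {n : ℕ} {σ τ : Finset (Fin n)} (h : τ ⊆ σ) (hne : τ ≠ σ) :
    ∃ v, v ∈ σ ∧ v ∉ τ ∧ below σ v = below τ v ∧
      ∀ w, w < v → (σ.filter (· ≤ w)).card = (τ.filter (· ≤ w)).card := by
  have hD : (σ \ τ).Nonempty := by
    rw [Finset.sdiff_nonempty]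
    exact fun h' => hne (Finset.Subset.antisymm h h')
  have hmem := Finset.mem_sdiff.1 (Finset.min'_mem _ hD)
  have hmin : ∀ i ∈ σ, i < (σ \ τ).min' hD → i ∈ τ := by
    intro i hi hlt
    by_contra hcon
    exact absurd (Finset.min'_le _ _ (Finset.mem_sdiff.2 ⟨hi, hcon⟩)) (not_le.2 hlt)
  refine ⟨(σ \ τ).min' hD, hmem.1, hmem.2, ?_, ?_⟩
  · unfold below
    congr 1
    ext i
    simp only [mem_filter]
    exact ⟨fun ⟨h1, h2⟩ => ⟨hmin i h1 h2, h2⟩, fun ⟨h1, h2⟩ => ⟨h h1, h2⟩⟩
  · intro w hw
    congr 1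
    ext i
    simp only [mem_filter]
    exact ⟨fun ⟨h1, h2⟩ => ⟨hmin i h1 (lt_of_le_of_lt h2 hw), h2⟩, fun ⟨h1, h2⟩ => ⟨h h1, h2⟩⟩

lemma simplex_ne_of_dim {m : ℕ} {σ τ : SimplexBasis m}
    (h : (simplexCpx m).dim τ < (simplexCpx m).dim σ) : τ.1 ≠ σ.1 := by
  intro he
  have h' : τ.1.card - 1 < σ.1.card - 1 := h
  rw [he] at h'
  omega

lemma inAtom_of_ne_zero {m : ℕ} {σ τ : SimplexBasis m} {ε : Bool}
    (h : (simplexAtom σ).x ε τ ≠ 0) : InAtom σ.1 ε τ.1 := by
  by_contra hcon
  exact h (if_neg hcon)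

/-- The Steiner structure of the complex of the standard simplex. -/
def simplexSteiner (m : ℕ) : Steiner (simplexCpx m) where
  atom σ := simplexAtom σ
  atom_self σ ε := if_pos ⟨subset_rfl, fun i hi hi' => absurd hi hi'⟩
  atom_top σ τ ε h hne := by
    apply if_neg
    rintro ⟨h1, -⟩
    apply hne
    apply Subtype.ext
    apply Finset.eq_of_subset_of_card_le h1
    have h2 : σ.1.card - 1 ≤ τ.1.card - 1 := h
    have h3 := τ.2.card_pos
    omega
  atom_disj σ τ h := by
    by_contra hcon
    rw [not_or] at hcon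
    have h1 := inAtom_of_ne_zero hcon.1
    have h2 := inAtom_of_ne_zero hcon.2
    obtain ⟨v, hv, hv', -⟩ := simplex_first_diff h1.1 (simplex_ne_of_dim h)
    have h3 := h1.2 v hv hv'
    have h4 := h2.2 v hv hv'
    simp only [parity, Bool.false_eq_true, if_false, if_true] at h3 h4
    omega
  rank σ := simplexRank σ.1
  rank_src σ τ h hne := by
    have h1 := inAtom_of_ne_zero hne
    obtain ⟨v, hv, hv', hb, hlt⟩ := simplex_first_diff h1.1 (simplex_ne_of_dim h)
    have h3 := h1.2 v hv hv'
    simp only [parity, Bool.false_eq_true, if_false] at h3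
    apply simplexRank_lt _ _ v
    · simp only [simplexBit, card_filter_le_below, hv', if_false, decide_eq_false_iff_not]
      omega
    · simp only [simplexBit, card_filter_le_below, hv, if_true, decide_eq_true_eq, hb]
      omega
    · intro w hw
      simp only [simplexBit, hlt w hw]
  rank_tgt σ τ h hne := by
    have h1 := inAtom_of_ne_zero hne
    obtain ⟨v, hv, hv', hb, hlt⟩ := simplex_first_diff h1.1 (simplex_ne_of_dim h)
    have h3 := h1.2 v hv hv'
    simp only [parity, if_true] at h3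
    apply simplexRank_lt _ _ v
    · simp only [simplexBit, card_filter_le_below, hv, if_true, decide_eq_false_iff_not, hb]
      omega
    · simp only [simplexBit, card_filter_le_below, hv', if_false, decide_eq_true_eq]
      omega
    · intro w hw
      simp only [simplexBit, hlt w hw]

end Vale.Agent.P213
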