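import Vale.Agent.Lib.P213.Rep
import Vale.Agent.Lib.P213.AW
import Vale.Agent.Lib.P213.SimplexSteiner

/-!
# Homotopies of Street nerves from functors into the path object
-/

open CategoryTheory MonoidalCategory Simplicial Opposite

namespace Vale.Agent.P213

section rep

variable {K L : Cpx} (hK : Steiner K) (hL : Steiner L) {Y Y' : OmegaCat}

/-- The functor `nu (K ⊗ I) ⟶ Y` corresponding to a functor `nu K ⟶ Γ Y`. -/
noncomputable def rep (F : nuFunctor.obj K ⟶ Gamma.obj Y) :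
    nuFunctor.obj (tensorFunctor.obj K) ⟶ Y := (cyl_rep hK F).exists.choose

lemma rep_spec (F : nuFunctor.obj K ⟶ Gamma.obj Y) : cylUnit.app K ≫ Gamma.map (rep hK F) = F :=
  (cyl_rep hK F).exists.choose_spec

lemma rep_unique {F : nuFunctor.obj K ⟶ Gamma.obj Y}
    {G : nuFunctor.obj (tensorFunctor.obj K) ⟶ Y} (h : cylUnit.app K ≫ Gamma.map G = F) :
    G = rep hK F := (cyl_rep hK F).unique h (rep_spec hK F)

lemma rep_nat (f : K ⟶ L) (F : nuFunctor.obj L ⟶ Gamma.obj Y) :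
    nuFunctor.map (tensorFunctor.map f) ≫ rep hL F = rep hK (nuFunctor.map f ≫ F) := by
  apply rep_unique
  rw [Functor.map_comp, ← Category.assoc]
  have h := cylUnit.naturality f
  have h' : cylUnit.app K ≫ Gamma.map (nuFunctor.map (tensorFunctor.map f)) =
      nuFunctor.map f ≫ cylUnit.app L := h.symm
  rw [h', Category.assoc, rep_spec]

lemma rep_post (F : nuFunctor.obj K ⟶ Gamma.obj Y) (g : Y ⟶ Y') :
    rep hK F ≫ g = rep hK (F ≫ Gamma.map g) := by
  apply rep_unique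
  rw [Functor.map_comp, ← Category.assoc, rep_spec]

lemma incl_rep_false (F : nuFunctor.obj K ⟶ Gamma.obj Y) :
    nuFunctor.map ((tensorIncl false).app K) ≫ rep hK F = F ≫ Gamma.e0.app Y := by
  conv_rhs => rw [← rep_spec hK F]
  rfl

lemma incl_rep_true (F : nuFunctor.obj K ⟶ Gamma.obj Y) :
    nuFunctor.map ((tensorIncl true).app K) ≫ rep hK F = F ≫ Gamma.e1.app Y := by
  conv_rhs => rw [← rep_spec hK F]
  rfl

lemma cylUnit_proj_htpy (K : Cpx) : cylUnit.app K ≫ Gamma.map (nuFunctor.map (tensorProj.app K)) =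
    Gamma.deg.app (nuFunctor.obj K) := by
  apply OmegaCat.hom_ext
  intro t
  refine CylCell.ext ?_ ?_ ?_
  · have h1 := (nuFunctor.map_comp _ _).symm.trans
      ((congrArg nuFunctor.map (tensorIncl_proj_app false K)).trans (nuFunctor.map_id K))
    exact congrArg (fun g => OmegaCat.Hom.toFun g t) h1
  · have h1 := (nuFunctor.map_comp _ _).symm.trans
      ((congrArg nuFunctor.map (tensorIncl_proj_app true K)).trans (nuFunctor.map_id K))
    exact congrArg (fun g => OmegaCat.Hom.toFun g t) h1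
  · funext i δ
    exact Table.map_proj_prism (Table.face (0 + i) δ t)

lemma rep_deg (f : nuFunctor.obj K ⟶ Y) :
    rep hK (f ≫ Gamma.deg.app Y) = nuFunctor.map (tensorProj.app K) ≫ f := by
  symm
  apply rep_unique
  rw [Functor.map_comp, ← Category.assoc, cylUnit_proj_htpy]
  exact (Gamma.deg.naturality f).symm

end rep

section htpy

variable {X Y X' Y' : OmegaCat}

/-- the monotone map of a simplex of `Δ[1]` -/
def dOne {m : SimplexCategoryᵒᵖ} (t : (Δ[1] : SSet.{0}).obj m) :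
    Fin (m.unop.len + 1) →o Fin 2 := (SSet.stdSimplex.objEquiv t).toOrderHom

/-- the Alexander-Whitney map as a morphism of complexes -/
def aw {m : ℕ} (η : Fin (m + 1) →o Fin 2) :
    simplexCpx m ⟶ tensorFunctor.obj (simplexCpx m) := awHom η

/-- the map of complexes induced by a monotone map -/
def sc {m n : ℕ} (φ : Fin (m + 1) →o Fin (n + 1)) : simplexCpx m ⟶ simplexCpx n :=
  simplexCpxMap φ

lemma sc_aw {m n : ℕ} (φ : Fin (m + 1) →o Fin (n + 1)) (η : Fin (n + 1) →o Fin 2) :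
    sc φ ≫ aw η = aw (η.comp φ) ≫ tensorFunctor.map (sc φ) := awHom_nat φ η

/-- value of the homotopy on a simplex -/
noncomputable def nerveHtpyVal {m : ℕ} (η : Fin (m + 1) →o Fin 2)
    (F : nuFunctor.obj (simplexCpx m) ⟶ Gamma.obj Y) : nuFunctor.obj (simplexCpx m) ⟶ Y :=
  nuFunctor.map (aw η) ≫ rep (simplexSteiner m) F

lemma nerveHtpyVal_nat {m n : ℕ} (φ : Fin (m + 1) →o Fin (n + 1)) (η : Fin (n + 1) →o Fin 2)
    (F : nuFunctor.obj (simplexCpx n) ⟶ Gamma.obj Y) :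
    nerveHtpyVal (η.comp φ) (nuFunctor.map (sc φ) ≫ F) =
      nuFunctor.map (sc φ) ≫ nerveHtpyVal η F := by
  unfold nerveHtpyVal
  rw [← rep_nat (simplexSteiner m) (simplexSteiner n) (sc φ) F, ← Category.assoc,
    ← Category.assoc, ← nuFunctor.map_comp, ← nuFunctor.map_comp, sc_aw]

lemma nerveHtpyVal_post {m : ℕ} (η : Fin (m + 1) →o Fin 2)
    (F : nuFunctor.obj (simplexCpx m) ⟶ Gamma.obj Y) (g : Y ⟶ Y') :
    nerveHtpyVal η F ≫ g = nerveHtpyVal η (F ≫ Gamma.map g) := by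
  unfold nerveHtpyVal
  rw [← rep_post, Category.assoc]

lemma nerveHtpyVal_deg {m : ℕ} (η : Fin (m + 1) →o Fin 2)
    (f : nuFunctor.obj (simplexCpx m) ⟶ Y) :
    nerveHtpyVal η (f ≫ Gamma.deg.app Y) = f := by
  unfold nerveHtpyVal
  have h2 : aw η ≫ tensorProj.app (simplexCpx m) = 𝟙 _ := awHom_proj η
  rw [rep_deg, ← Category.assoc, ← nuFunctor.map_comp, h2, nuFunctor.map_id, Category.id_comp]

lemma nerveHtpyVal_zero {m : ℕ} (η : Fin (m + 1) →o Fin 2) (h : ∀ v, η v = 0)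
    (F : nuFunctor.obj (simplexCpx m) ⟶ Gamma.obj Y) :
    nerveHtpyVal η F = F ≫ Gamma.e0.app Y := by
  unfold nerveHtpyVal
  have h2 : aw η = (tensorIncl false).app (simplexCpx m) := awHom_zero η h
  rw [h2]
  exact incl_rep_false _ _

lemma nerveHtpyVal_one {m : ℕ} (η : Fin (m + 1) →o Fin 2) (h : ∀ v, η v ≠ 0)
    (F : nuFunctor.obj (simplexCpx m) ⟶ Gamma.obj Y) :
    nerveHtpyVal η F = F ≫ Gamma.e1.app Y := by
  unfold nerveHtpyVal
  have h2 : aw η = (tensorIncl true).app (simplexCpx m) := awHom_one η h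
  rw [h2]
  exact incl_rep_true _ _

/-- a simplex of the Street nerve as a functor -/
def toFunctor {m : SimplexCategoryᵒᵖ} (s : (streetNerveOmega.obj X).obj m) :
    nuFunctor.obj (simplexCpx m.unop.len) ⟶ X := s

/-- The homotopy of Street nerves defined by a functor into the path object. -/
noncomputable def nerveHtpy (H : X ⟶ Gamma.obj Y) :
    streetNerveOmega.obj X ⊗ Δ[1] ⟶ streetNerveOmega.obj Y where
  app m := TypeCat.ofHom fun z => nerveHtpyVal (dOne z.2) (toFunctor z.1 ≫ H)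
  naturality m m' φ := by
    ext ⟨s, t⟩
    exact nerveHtpyVal_nat φ.unop.toOrderHom (dOne t) (toFunctor s ≫ H)

lemma nerve_ext {A : SSet.{0}} {Y : OmegaCat} {f g : A ⟶ streetNerveOmega.obj Y}
    (h : ∀ m (x : A.obj m), f.app m x = g.app m x) : f = g := by
  ext m x
  exact h m x

lemma ι₀_nerveHtpy (H : X ⟶ Gamma.obj Y) :
    SSet.ι₀ ≫ nerveHtpy H = streetNerveOmega.map (H ≫ Gamma.e0.app Y) := by
  apply nerve_ext
  intro m s
  exact (nerveHtpyVal_zero _ (fun v => rfl) (toFunctor s ≫ H)).trans (Category.assoc _ _ _)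

lemma ι₁_nerveHtpy (H : X ⟶ Gamma.obj Y) :
    SSet.ι₁ ≫ nerveHtpy H = streetNerveOmega.map (H ≫ Gamma.e1.app Y) := by
  apply nerve_ext
  intro m s
  exact (nerveHtpyVal_one _ (fun v => by
    change (1 : Fin 2) ≠ 0
    decide) (toFunctor s ≫ H)).trans (Category.assoc _ _ _)

lemma nerveHtpy_pre (f : X' ⟶ X) (H : X ⟶ Gamma.obj Y) :
    streetNerveOmega.map f ▷ Δ[1] ≫ nerveHtpy H = nerveHtpy (f ≫ H) := by
  apply nerve_ext
  rintro m ⟨s, t⟩
  exact congrArg (nerveHtpyVal (dOne t)) (Category.assoc (toFunctor s) f H)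

lemma nerveHtpy_post (H : X ⟶ Gamma.obj Y) (g : Y ⟶ Y') :
    nerveHtpy H ≫ streetNerveOmega.map g = nerveHtpy (H ≫ Gamma.map g) := by
  apply nerve_ext
  rintro m ⟨s, t⟩
  exact (nerveHtpyVal_post (dOne t) (toFunctor s ≫ H) g).trans
    (congrArg (nerveHtpyVal (dOne t)) (Category.assoc _ _ _))

lemma nerveHtpy_deg (f : X ⟶ Y) :
    nerveHtpy (f ≫ Gamma.deg.app Y) = CartesianMonoidalCategory.fst _ _ ≫
      streetNerveOmega.map f := by
  apply nerve_ext
  rintro m ⟨s, t⟩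
  exact (congrArg (nerveHtpyVal (dOne t)) (Category.assoc _ _ _).symm).trans
    (nerveHtpyVal_deg (dOne t) (toFunctor s ≫ f))

/-- A functor into the path object gives a homotopy of Street nerves. -/
theorem nerve_homotopy {X Y : OmegaCat} (H : X ⟶ Gamma.obj Y) :
    ∃ h : streetNerveOmega.obj X ⊗ Δ[1] ⟶ streetNerveOmega.obj Y,
      SSet.ι₀ ≫ h = streetNerveOmega.map (H ≫ Gamma.e0.app Y) ∧
      SSet.ι₁ ≫ h = streetNerveOmega.map (H ≫ Gamma.e1.app Y) :=
  ⟨nerveHtpy H, ι₀_nerveHtpy H, ι₁_nerveHtpy H⟩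

end htpy

end Vale.Agent.P213
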