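import Vale.Agent.Lib.P213.Poset
import Vale.Agent.Lib.P213.CatLemmas

/-! # P213: nerves of lower sets and pushouts -/

open CategoryTheory Limits Simplicial

namespace Vale.Agent.P213

variable {B : Type} [PartialOrder B]

/-- Restriction of a chain to a lower set which contains its last vertex. -/
def restrChain {B' B'' : LowerSet B} {m : ℕ} (σ : Fin (m + 1) →o B'')
    (h : (σ (Fin.last m)).1 ∈ B') : Fin (m + 1) →o B' where
  toFun i := ⟨(σ i).1, B'.lower (σ.monotone (Fin.le_last i)) h⟩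
  monotone' _ _ hij := σ.monotone hij

lemma restrChain_comp {B' B'' : LowerSet B} {m m' : ℕ} (σ : Fin (m + 1) →o B'')
    (h : (σ (Fin.last m)).1 ∈ B') (α : Fin (m' + 1) →o Fin (m + 1))
    (h' : ((σ.comp α) (Fin.last m')).1 ∈ B') :
    restrChain (σ.comp α) h' = (restrChain σ h).comp α := rfl

section desc

variable {B₁ B₂ : LowerSet B} {T : SSet.{0}} (x₁ : pNerve B₁ ⟶ T) (x₂ : pNerve B₂ ⟶ T)

/-- Value of a simplicial map at a chain. -/
def atCh {P : Type} [PartialOrder P] (x : pNerve P ⟶ T) {m : ℕ} (σ : Fin (m + 1) →o P) :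
    T.obj (Opposite.op ⦋m⦌) := x.app (Opposite.op ⦋m⦌) σ

lemma atCh_comp {P : Type} [PartialOrder P] (x : pNerve P ⟶ T) {m m' : ℕ}
    (σ : Fin (m + 1) →o P) (α : Fin (m' + 1) →o Fin (m + 1)) :
    atCh x (σ.comp α) =
      T.map (Quiver.Hom.op (SimplexCategory.Hom.mk α : ⦋m'⦌ ⟶ ⦋m⦌)) (atCh x σ) :=
  ConcreteCategory.congr_hom
    (x.naturality (Quiver.Hom.op (SimplexCategory.Hom.mk α : ⦋m'⦌ ⟶ ⦋m⦌))) σ

lemma pNerve_hom_ext {P : Type} [PartialOrder P] {x y : pNerve P ⟶ T}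
    (h : ∀ (m : ℕ) (σ : Fin (m + 1) →o P), atCh x σ = atCh y σ) : x = y := by
  ext m σ
  exact h m.unop.len σ

/-- Construct a simplicial map out of the nerve of a poset. -/
def pNerveLift {P : Type} [PartialOrder P]
    (v : ∀ (m : ℕ), (Fin (m + 1) →o P) → T.obj (Opposite.op ⦋m⦌))
    (hv : ∀ (m m' : ℕ) (σ : Fin (m + 1) →o P) (α : Fin (m' + 1) →o Fin (m + 1)),
      v m' (σ.comp α) = T.map (Quiver.Hom.op (SimplexCategory.Hom.mk α : ⦋m'⦌ ⟶ ⦋m⦌)) (v m σ)) :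
    pNerve P ⟶ T where
  app m := TypeCat.ofHom fun σ => v m.unop.len σ
  naturality m m' φ := by
    ext σ
    exact hv m.unop.len m'.unop.len σ φ.unop.toOrderHom

lemma atCh_lift {P : Type} [PartialOrder P]
    (v : ∀ (m : ℕ), (Fin (m + 1) →o P) → T.obj (Opposite.op ⦋m⦌))
    (hv : ∀ (m m' : ℕ) (σ : Fin (m + 1) →o P) (α : Fin (m' + 1) →o Fin (m + 1)),
      v m' (σ.comp α) = T.map (Quiver.Hom.op (SimplexCategory.Hom.mk α : ⦋m'⦌ ⟶ ⦋m⦌)) (v m σ))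
    {m : ℕ} (σ : Fin (m + 1) →o P) : atCh (pNerveLift v hv) σ = v m σ := rfl

lemma atCh_map_comp {P Q : Type} [PartialOrder P] [PartialOrder Q] (g : P →o Q)
    (x : pNerve Q ⟶ T) {m : ℕ} (σ : Fin (m + 1) →o P) :
    atCh (pNerveMap g ≫ x) σ = atCh x (g.comp σ) := rfl

lemma mem_of_not_mem {m : ℕ} (σ : Fin (m + 1) →o ↥(B₁ ⊔ B₂)) (h : (σ (Fin.last m)).1 ∉ B₁) :
    (σ (Fin.last m)).1 ∈ B₂ :=
  ((LowerSet.mem_sup_iff).mp (σ (Fin.last m)).2).resolve_left h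

open Classical in
/-- The value of the glued map. -/
noncomputable def pDescFun (m : ℕ) (σ : Fin (m + 1) →o ↥(B₁ ⊔ B₂)) :
    T.obj (Opposite.op ⦋m⦌) :=
  if h : (σ (Fin.last m)).1 ∈ B₁ then atCh x₁ (restrChain σ h)
  else atCh x₂ (restrChain σ (mem_of_not_mem σ h))

variable (w : pNerveMap (lowerIncl (inf_le_left : B₁ ⊓ B₂ ≤ B₁)) ≫ x₁ =
  pNerveMap (lowerIncl (inf_le_right : B₁ ⊓ B₂ ≤ B₂)) ≫ x₂)

include w in
lemma restr_eq {m : ℕ} (σ : Fin (m + 1) →o ↥(B₁ ⊔ B₂)) (h₁ : (σ (Fin.last m)).1 ∈ B₁)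
    (h₂ : (σ (Fin.last m)).1 ∈ B₂) : atCh x₁ (restrChain σ h₁) = atCh x₂ (restrChain σ h₂) := by
  have h12 : (σ (Fin.last m)).1 ∈ B₁ ⊓ B₂ := ⟨h₁, h₂⟩
  have := congrArg (fun z => atCh z (restrChain σ h12)) w
  exact this

include w in
lemma pDescFun_comp (m m' : ℕ) (σ : Fin (m + 1) →o ↥(B₁ ⊔ B₂))
    (α : Fin (m' + 1) →o Fin (m + 1)) :
    pDescFun x₁ x₂ m' (σ.comp α) =
      T.map (Quiver.Hom.op (SimplexCategory.Hom.mk α : ⦋m'⦌ ⟶ ⦋m⦌)) (pDescFun x₁ x₂ m σ) := by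
  by_cases h : (σ (Fin.last m)).1 ∈ B₁
  · have h' : ((σ.comp α) (Fin.last m')).1 ∈ B₁ :=
      B₁.lower (σ.monotone (Fin.le_last (α (Fin.last m')))) h
    rw [pDescFun, dif_pos h', pDescFun, dif_pos h, restrChain_comp σ h, atCh_comp]
  · have h2 := mem_of_not_mem σ h
    have h2' : ((σ.comp α) (Fin.last m')).1 ∈ B₂ :=
      B₂.lower (σ.monotone (Fin.le_last (α (Fin.last m')))) h2
    rw [pDescFun]
    by_cases h' : ((σ.comp α) (Fin.last m')).1 ∈ B₁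
    · rw [dif_pos h', pDescFun, dif_neg h, restr_eq x₁ x₂ w (σ.comp α) h' h2',
        restrChain_comp σ h2, atCh_comp]
    · rw [dif_neg h', pDescFun, dif_neg h, restrChain_comp σ h2, atCh_comp]

end desc

/-- The nerves of two lower sets, their intersection and their union form a pushout square. -/
theorem pNerve_isPushout (B₁ B₂ : LowerSet B) :
    IsPushout (pNerveMap (lowerIncl (inf_le_left : B₁ ⊓ B₂ ≤ B₁)))
      (pNerveMap (lowerIncl (inf_le_right : B₁ ⊓ B₂ ≤ B₂)))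
      (pNerveMap (lowerIncl (le_sup_left : B₁ ≤ B₁ ⊔ B₂)))
      (pNerveMap (lowerIncl (le_sup_right : B₂ ≤ B₁ ⊔ B₂))) := by
  refine ⟨⟨rfl⟩, ⟨PushoutCocone.IsColimit.mk _
    (fun c => pNerveLift (pDescFun c.inl c.inr)
      (fun m m' σ α => pDescFun_comp c.inl c.inr c.condition m m' σ α)) ?_ ?_ ?_⟩⟩
  · intro c
    apply pNerve_hom_ext
    intro m σ
    rw [atCh_map_comp, atCh_lift]
    have h : (((lowerIncl (le_sup_left : B₁ ≤ B₁ ⊔ B₂)).comp σ) (Fin.last m)).1 ∈ B₁ :=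
      (σ (Fin.last m)).2
    rw [pDescFun, dif_pos h]
    rfl
  · intro c
    apply pNerve_hom_ext
    intro m σ
    rw [atCh_map_comp, atCh_lift]
    have h2 : (((lowerIncl (le_sup_right : B₂ ≤ B₁ ⊔ B₂)).comp σ) (Fin.last m)).1 ∈ B₂ :=
      (σ (Fin.last m)).2
    rw [pDescFun]
    split_ifs with h
    · rw [restr_eq c.inl c.inr c.condition _ h h2]
      rfl
    · rfl
  · intro c y hy₁ hy₂
    apply pNerve_hom_ext
    intro m σ
    rw [atCh_lift, pDescFun]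
    split_ifs with h
    · rw [← hy₁]
      rfl
    · rw [← hy₂]
      rfl

/-- Maps out of the nerve of an empty poset. -/
lemma pNerve_empty_ext {P : Type} [PartialOrder P] [IsEmpty P] {T : SSet.{0}}
    (x y : pNerve P ⟶ T) : x = y :=
  pNerve_hom_ext fun _ σ => isEmptyElim (σ 0)

end Vale.Agent.P213
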