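import Vale.Agent.Lib.P213.Sieve

/-!
# P213: the Street nerve preserves binary coproducts
-/

open CategoryTheory Limits Opposite

namespace Vale.Agent.P213

open OmegaCat

section Coprod

variable {n : ℕ∞} {C E D : NCat n}

lemma coprod_hom_ext {i : C ⟶ D} {j : E ⟶ D} (h : IsColimit (BinaryCofan.mk i j))
    {Y : NCat n} {u v : D ⟶ Y} (h1 : i ≫ u = i ≫ v) (h2 : j ≫ u = j ≫ v) : u = v :=
  BinaryCofan.IsColimit.hom_ext h h1 h2

/-- A sieve of a binary coproduct is determined by its restrictions. -/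
lemma coprod_sieve_ext (hn : 1 ≤ n) {i : C ⟶ D} {j : E ⟶ D}
    (h : IsColimit (BinaryCofan.mk i j)) {P Q : D.obj.Cell → Prop} (hP : IsSieve _ P)
    (hQ : IsSieve _ Q) (h1 : ∀ x, P (i.hom.toFun x) ↔ Q (i.hom.toFun x))
    (h2 : ∀ x, P (j.hom.toFun x) ↔ Q (j.hom.toFun x)) (x) : P x ↔ Q x := by
  have key : ObjectProperty.homMk (Y := coneN hn D) (hat hP (𝟙 _)) =
      ObjectProperty.homMk (Y := coneN hn D) (hat hQ (𝟙 _)) := by
    apply coprod_hom_ext h
    · apply ObjectProperty.hom_ext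
      change i.hom ≫ hat hP (𝟙 _) = i.hom ≫ hat hQ (𝟙 _)
      rw [comp_hat hP _ _ (IsSieve.comap hP _) (fun _ => Iff.rfl),
        comp_hat hQ _ _ (IsSieve.comap hP _) h1]
    · apply ObjectProperty.hom_ext
      change j.hom ≫ hat hP (𝟙 _) = j.hom ≫ hat hQ (𝟙 _)
      rw [comp_hat hP _ _ (IsSieve.comap hP _) (fun _ => Iff.rfl),
        comp_hat hQ _ _ (IsSieve.comap hP _) h2]
  have h3 : hatFun P (𝟙 _) x = hatFun Q (𝟙 _) x :=
    congrArg (fun F : D ⟶ coneN hn D => F.hom.toFun x) key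
  have h4 : ∀ {R : D.obj.Cell → Prop}, R x ↔ ∃ y, hatFun R (𝟙 _) x = .base y := by
    intro R
    constructor
    · intro hR
      exact ⟨_, hatFun_base _ hR⟩
    · rintro ⟨y, hy⟩
      by_contra hR
      by_cases hR' : R (D.obj.bd 0 false x)
      · rw [hatFun_arr _ hR hR'] at hy
        cases hy
      · rw [hatFun_star _ hR hR'] at hy
        cases hy
  rw [h4 (R := P), h4 (R := Q), h3]

/-- The inclusion of a summand is an isomorphism onto a sieve. -/
lemma coprod_half (hn : 1 ≤ n) {i : C ⟶ D} {j : E ⟶ D} (h : IsColimit (BinaryCofan.mk i j)) :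
    ∃ P : D.obj.Cell → Prop, IsSieve D.obj P ∧ Function.Injective i.hom.toFun ∧
      (∀ x, (∃ y, i.hom.toFun y = x) ↔ P x) ∧ ∀ y, ¬ P (j.hom.toFun y) := by
  obtain ⟨p, hp1, hp2⟩ : ∃ p : D ⟶ coneN hn C, i ≫ p = inlN hn C ∧
      j ≫ p = ObjectProperty.homMk (Y := coneN hn C) (coneStar E.obj C.obj) :=
    ⟨h.desc (BinaryCofan.mk (inlN hn C)
      (ObjectProperty.homMk (Y := coneN hn C) (coneStar E.obj C.obj))),
      h.fac _ ⟨WalkingPair.left⟩, h.fac _ ⟨WalkingPair.right⟩⟩
  have e1 : ∀ y, p.hom.toFun (i.hom.toFun y) = RCell.base y := fun y =>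
    congrArg (fun F : C ⟶ coneN hn C => F.hom.toFun y) hp1
  have e2 : ∀ y, p.hom.toFun (j.hom.toFun y) = (RCell.star : RCell C.obj) := fun y =>
    congrArg (fun F : E ⟶ coneN hn C => F.hom.toFun y) hp2
  let P : D.obj.Cell → Prop := baseSieve (Y := C.obj) p.hom
  have hP : IsSieve D.obj P := isSieve_baseSieve (Y := C.obj) _
  have hPi : ∀ y, P (i.hom.toFun y) := fun y => ⟨y, e1 y⟩
  have hPj : ∀ y, ¬ P (j.hom.toFun y) := by
    rintro y ⟨z, hz⟩
    have := (e2 y).symm.trans hz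
    cases this
  refine ⟨P, hP, fun x y hxy => ?_, fun x => ⟨?_, ?_⟩, hPj⟩
  · exact RCell.base.inj ((e1 x).symm.trans ((congrArg _ hxy).trans (e1 y)))
  · rintro ⟨y, rfl⟩
    exact hPi y
  · rintro ⟨y, hy⟩
    have key : p ≫ ObjectProperty.homMk (X := coneN hn C) (Y := coneN hn D) (coneMap i.hom) =
        ObjectProperty.homMk (Y := coneN hn D) (hat hP (𝟙 _)) := by
      apply coprod_hom_ext h
      · apply ObjectProperty.hom_ext
        apply hom_ext
        intro z
        change (coneMap i.hom).toFun (p.hom.toFun (i.hom.toFun z)) =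
          hatFun P (𝟙 _) (i.hom.toFun z)
        rw [e1, hatFun_base _ (hPi z)]
        rfl
      · apply ObjectProperty.hom_ext
        apply hom_ext
        intro z
        change (coneMap i.hom).toFun (p.hom.toFun (j.hom.toFun z)) =
          hatFun P (𝟙 _) (j.hom.toFun z)
        rw [e2, hatFun_star _ (hPj z)]
        · rfl
        · rw [← j.hom.map_bd]
          exact hPj _
    have h2 : (coneMap i.hom).toFun (p.hom.toFun x) = hatFun P (𝟙 _) x :=
      congrArg (fun F : D ⟶ coneN hn D => F.hom.toFun x) key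
    rw [hatFun_base _ ⟨y, hy⟩, hy] at h2
    exact ⟨y, RCell.base.inj h2⟩

lemma coprod_union (hn : 1 ≤ n) {i : C ⟶ D} {j : E ⟶ D} (h : IsColimit (BinaryCofan.mk i j))
    {P Q : D.obj.Cell → Prop} (hP : IsSieve _ P) (hQ : IsSieve _ Q)
    (h1 : ∀ x, P (i.hom.toFun x)) (h2 : ∀ x, Q (j.hom.toFun x)) (x) : P x ∨ Q x :=
  (coprod_sieve_ext hn h (isSieve_true _) (hP.union hQ) (fun x => ⟨fun _ => Or.inl (h1 x),
    fun _ => trivial⟩) (fun x => ⟨fun _ => Or.inr (h2 x), fun _ => trivial⟩) x).1 trivial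

/-- The Street nerve preserves binary coproducts. -/
theorem streetNerve_coprod (hn : 1 ≤ n) (i : C ⟶ D) (j : E ⟶ D)
    (h : Nonempty (IsColimit (BinaryCofan.mk i j))) :
    Nonempty (IsColimit (BinaryCofan.mk ((streetNerve n).map i) ((streetNerve n).map j))) := by
  obtain ⟨h⟩ := h
  obtain ⟨P, hP, hinj, hrange, hPj⟩ := coprod_half hn h
  obtain ⟨Q, hQ, hinj', hrange', hQi⟩ := coprod_half hn (BinaryCofan.isColimitFlip h)
  have hU : ∀ x, P x ∨ Q x := coprod_union hn h hP hQ (fun x => (hrange _).1 ⟨x, rfl⟩)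
    (fun x => (hrange' _).1 ⟨x, rfl⟩)
  refine ⟨evaluationJointlyReflectsColimits _ (fun ⟨m⟩ => ?_)⟩
  refine (isColimitMapCoconeBinaryCofanEquiv _ _ _).symm ?_
  refine Nonempty.some ?_
  rw [Types.binaryCofan_isColimit_iff]
  refine ⟨?_, ?_, ?_⟩
  · intro F G hFG
    change orientalFunctor.obj m ⟶ C.obj at F G
    have hFG' : F ≫ i.hom = G ≫ i.hom := hFG
    apply hom_ext
    intro t
    exact hinj (congrArg (fun H : orientalFunctor.obj m ⟶ D.obj => H.toFun t) hFG')
  · intro F G hFG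
    change orientalFunctor.obj m ⟶ E.obj at F G
    have hFG' : F ≫ j.hom = G ≫ j.hom := hFG
    apply hom_ext
    intro t
    exact hinj' (congrArg (fun H : orientalFunctor.obj m ⟶ D.obj => H.toFun t) hFG')
  · obtain ⟨e, -, he⟩ := exists_edge (m := m) 0 (Fin.last m.len) (Fin.zero_le _)
    constructor
    · rw [Set.disjoint_left]
      rintro _ ⟨F, rfl⟩ ⟨G, hG⟩
      change orientalFunctor.obj m ⟶ C.obj at F
      change orientalFunctor.obj m ⟶ E.obj at G
      have hG' : G ≫ j.hom = F ≫ i.hom := hG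
      have h1 : j.hom.toFun (G.toFun e) = i.hom.toFun (F.toFun e) :=
        congrArg (fun H : orientalFunctor.obj m ⟶ D.obj => H.toFun e) hG'
      exact hPj (G.toFun e) (by rw [h1]; exact (hrange _).1 ⟨_, rfl⟩)
    · rw [codisjoint_iff_le_sup]
      intro F _
      change orientalFunctor.obj m ⟶ D.obj at F
      rcases hU (F.toFun e) with h1 | h1
      · obtain ⟨G, hG⟩ := exists_lift_of_injective i.hom hinj F
          (fun t => (hrange _).2 (forall_of_last hP F e he h1 t))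
        exact Or.inl ⟨G, hG⟩
      · obtain ⟨G, hG⟩ := exists_lift_of_injective j.hom hinj' F
          (fun t => (hrange' _).2 (forall_of_last hQ F e he h1 t))
        exact Or.inr ⟨G, hG⟩

end Coprod

end Vale.Agent.P213
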