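import Vale.Agent.Lib.P213.KeyHtpy
import Vale.Agent.Lib.P213.PosetPushout
import Vale.Agent.Lib.P213.Htpy
import Vale.Agent.Lib.P213.Colim
import Vale.Agent.Lib.P213.SieveD
import Vale.Agent.Lib.P213.SSGlue

/-! # P213: the key lemma -/

open CategoryTheory Limits Simplicial

namespace Vale.Agent.P213

/-- A functor into the path object gives a homotopy of Street nerves. -/
lemma HR_of_gammaN {n : ℕ∞} {X Y : NCat n} (H : X ⟶ (gammaN n).obj Y) (f g : X ⟶ Y)
    (hf : H ≫ e0X Y = f) (hg : H ≫ e1X Y = g) :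
    SS.HR ((streetNerve n).map f) ((streetNerve n).map g) := by
  obtain ⟨h, h0, h1⟩ := nerve_homotopy H.hom
  subst hf hg
  exact ⟨h, h0, h1⟩

section Direct

variable {n : ℕ∞} {c : SSet.{0} ⥤ NCat n} (adj : c ⊣ streetNerve n)
variable {B : Type} [PartialOrder B]

include adj in
/-- If `B'` is obtained from `A` by adding elements below `b`, and the elements of `A` below `b`
have a greatest element, then `N C ⟶ N (C ⊔_{O(A)} O(B'))` is a weak equivalence. -/
theorem glueInl_weq {A B' : LowerSet B} (h : A ≤ B') {C : NCat n} (f : c.obj (pNerve A) ⟶ C)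
    (b : B) (hb : b ∈ B') (hB' : ∀ y ∈ B', y ∈ A ∨ y ≤ b) (r : B) (hr : r ∈ A) (hrb : r ≤ b)
    (hr' : ∀ a ∈ A, a ≤ b → a ≤ r) : WeakEq ((streetNerve n).map (glueInl f B' h)) := by
  classical
  -- the data on posets
  let L : LowerSet B' := ⟨{y | y.1 ∈ A}, fun y z hzy hy => A.lower hzy hy⟩
  let t : B' := ⟨b, hb⟩
  have ht : ∀ y ∉ L, y ≤ t := fun y hy => (hB' y.1 y.2).resolve_left hy
  let g : B' →o B' :=
    { toFun := fun y => if y ∈ L then y else t
      monotone' := fun y z hyz => by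
        dsimp only
        split_ifs with h1 h2 h2
        · exact hyz
        · exact hyz.trans (ht z h2)
        · exact absurd (L.lower hyz h2) h1
        · exact le_rfl }
  have g1 : ∀ y ∈ L, g y = y := fun y hy => if_pos hy
  have g2 : ∀ y ∉ L, g y = t := fun y hy => if_neg hy
  let ρ : B' →o A :=
    { toFun := fun y => if hy : y ∈ L then ⟨y.1, hy⟩ else ⟨r, hr⟩
      monotone' := fun y z hyz => by
        dsimp only
        split_ifs with h1 h2 h2
        · exact hyz
        · exact hr' _ h1 ((show y.1 ≤ z.1 from hyz).trans (ht z h2))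
        · exact absurd (L.lower hyz h2) h1
        · exact le_rfl }
  have ρ1 : ∀ y (hy : y ∈ L), ρ y = ⟨y.1, hy⟩ := fun y hy => dif_pos hy
  have ρ2 : ∀ y ∉ L, ρ y = ⟨r, hr⟩ := fun y hy => dif_neg hy
  have hιL : ∀ a : A, lowerIncl h a ∈ L := fun a => a.2
  have hρι : ρ.comp (lowerIncl h) = OrderHom.id := by
    apply OrderHom.ext
    funext a
    exact ρ1 _ (hιL a)
  -- the two homotopies
  obtain ⟨H1, a1, b1, c1⟩ := poset_homotopy adj L OrderHom.id g t ht (fun y hy => g1 y hy) g2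
    (glueInr f B' h)
  obtain ⟨H2, a2, b2, c2⟩ := poset_homotopy adj L ((lowerIncl h).comp ρ) g t
    (fun y hy => by
      change lowerIncl h (ρ y) ≤ t
      rw [ρ2 y hy]
      exact hrb)
    (fun y hy => by
      change g y = lowerIncl h (ρ y)
      rw [ρ1 y hy, g1 y hy]
      rfl) g2 (glueInr f B' h)
  let q : glue f B' h ⟶ C := pushout.desc (𝟙 C) (c.map (pNerveMap ρ) ≫ f) (by
    rw [Category.comp_id, ← Category.assoc, ← c.map_comp, pNerveMap_comp, hρι, pNerveMap_id,
      c.map_id, Category.id_comp])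
  have q1 : glueInl f B' h ≫ q = 𝟙 C := pushout.inl_desc _ _ _
  have q2 : glueInr f B' h ≫ q = c.map (pNerveMap ρ) ≫ f := pushout.inr_desc _ _ _
  let κ : glue f B' h ⟶ (gammaN n).obj (glue f B' h) :=
    pushout.desc (glueInl f B' h ≫ degX (glue f B' h)) H1 (by
      rw [c1 (lowerIncl h) hιL, ← Category.assoc, glue_condition, Category.assoc]
      rfl)
  have κ1 : glueInl f B' h ≫ κ = glueInl f B' h ≫ degX (glue f B' h) := pushout.inl_desc _ _ _
  have κ2 : glueInr f B' h ≫ κ = H1 := pushout.inr_desc _ _ _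
  let η : glue f B' h ⟶ (gammaN n).obj (glue f B' h) :=
    pushout.desc (glueInl f B' h ≫ degX (glue f B' h)) H2 (by
      rw [c2 (lowerIncl h) hιL, ← Category.assoc, glue_condition, Category.assoc]
      have : ((lowerIncl h).comp ρ).comp (lowerIncl h) = lowerIncl h := by
        apply OrderHom.ext
        funext a
        change lowerIncl h (ρ (lowerIncl h a)) = _
        rw [ρ1 _ (hιL a)]
        rfl
      rw [this])
  have η1 : glueInl f B' h ≫ η = glueInl f B' h ≫ degX (glue f B' h) := pushout.inl_desc _ _ _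
  have η2 : glueInr f B' h ≫ η = H2 := pushout.inr_desc _ _ _
  have ext : ∀ {W : NCat n} {u v : glue f B' h ⟶ W}, glueInl f B' h ≫ u = glueInl f B' h ≫ v →
      glueInr f B' h ≫ u = glueInr f B' h ≫ v → u = v := fun h1 h2 => pushout.hom_ext h1 h2
  have k0 : κ ≫ e0X _ = 𝟙 _ := by
    apply ext
    · rw [← Category.assoc, κ1, Category.assoc, degX_e0X]
    · rw [← Category.assoc, κ2, a1, pNerveMap_id, c.map_id, Category.id_comp, Category.comp_id]
  have k1 : κ ≫ e1X _ = η ≫ e1X _ := by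
    apply ext
    · rw [← Category.assoc, κ1, ← Category.assoc, η1]
    · rw [← Category.assoc, κ2, b1, ← Category.assoc, η2, b2]
  have k2 : η ≫ e0X _ = q ≫ glueInl f B' h := by
    apply ext
    · rw [← Category.assoc, η1, Category.assoc, degX_e0X, Category.comp_id, ← Category.assoc, q1,
        Category.id_comp]
    · rw [← Category.assoc, η2, a2, ← Category.assoc, q2, Category.assoc, glue_condition,
        ← Category.assoc, ← c.map_comp, pNerveMap_comp]
  refine SS.weq_of_homotopyEquiv _ ((streetNerve n).map q) ?_ ?_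
  · rw [← (streetNerve n).map_comp, q1, (streetNerve n).map_id]
    exact SS.HE.refl _
  · have e1 : SS.HR ((streetNerve n).map (𝟙 (glue f B' h)))
        ((streetNerve n).map (η ≫ e1X _)) := HR_of_gammaN κ _ _ k0 k1
    have e2 : SS.HR ((streetNerve n).map (q ≫ glueInl f B' h))
        ((streetNerve n).map (η ≫ e1X _)) := HR_of_gammaN η _ _ k2 rfl
    rw [(streetNerve n).map_id] at e1
    rw [← (streetNerve n).map_comp]
    exact e2.he.trans e1.he.symm

end Direct

section Main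

variable {n : ℕ∞} (hn : 1 ≤ n) (c : SSet.{0} ⥤ NCat n) (adj : c ⊣ streetNerve n)
variable {B : Type} [PartialOrder B]

/-- The Street nerve of `c` of the nerve of a lower set. -/
noncomputable abbrev NO (B' : LowerSet B) : SSet.{0} := (streetNerve n).obj (c.obj (pNerve B'))

/-- The map between the Street nerves for an inclusion of lower sets. -/
noncomputable abbrev NOm {B' B'' : LowerSet B} (h : B' ≤ B'') : NO c B' ⟶ NO c B'' :=
  (streetNerve n).map (c.map (pNerveMap (lowerIncl h)))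

lemma NOm_comp {B₀ B₁ B₂ : LowerSet B} (h : B₀ ≤ B₁) (h' : B₁ ≤ B₂) :
    NOm c h ≫ NOm c h' = NOm c (h.trans h') := by
  rw [← (streetNerve n).map_comp, ← c.map_comp, pNerveMap_comp]
  rfl

variable {c}

instance {A : LowerSet B} (B' : LowerSet B) (h : A ≤ B') :
    IsIso (glueInr (𝟙 (c.obj (pNerve A))) B' h) :=
  inferInstanceAs (IsIso (pushout.inr _ _))

include hn adj in
lemma NOm_mono {B' B'' : LowerSet B} (h : B' ≤ B'') : Mono (NOm c h) := by
  have e : NOm c h ≫ (streetNerve n).map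
      (glueInr (𝟙 (c.obj (pNerve (⊥ : LowerSet B)))) B'' bot_le) =
      (streetNerve n).map (glueInr (𝟙 (c.obj (pNerve (⊥ : LowerSet B)))) B' bot_le) ≫
        (streetNerve n).map (glueMap _ bot_le h) := by
    rw [← (streetNerve n).map_comp, ← (streetNerve n).map_comp, glueInr_glueMap]
  have := glueMap_mono adj hn (𝟙 (c.obj (pNerve (⊥ : LowerSet B)))) bot_le h
  exact mono_of_mono_fac e

include hn adj in
lemma NO_isPushout (B₁ B₂ : LowerSet B) :
    IsPushout (NOm c (inf_le_left : B₁ ⊓ B₂ ≤ B₁)) (NOm c (inf_le_right : B₁ ⊓ B₂ ≤ B₂))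
      (NOm c (le_sup_left : B₁ ≤ B₁ ⊔ B₂)) (NOm c (le_sup_right : B₂ ≤ B₁ ⊔ B₂)) := by
  have e : ∀ {B' B'' : LowerSet B} (h : B' ≤ B''), NOm c h ≫ (streetNerve n).map
      (glueInr (𝟙 (c.obj (pNerve (⊥ : LowerSet B)))) B'' bot_le) =
      (streetNerve n).map (glueInr (𝟙 (c.obj (pNerve (⊥ : LowerSet B)))) B' bot_le) ≫
        (streetNerve n).map (glueMap _ bot_le h) := fun h => by
    rw [← (streetNerve n).map_comp, ← (streetNerve n).map_comp, glueInr_glueMap]
  have sq := glue_isPushout adj hn (𝟙 (c.obj (pNerve (⊥ : LowerSet B)))) B₁ B₂ bot_le bot_le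
  exact IsPushout.of_iso sq
    (asIso ((streetNerve n).map (glueInr (𝟙 (c.obj (pNerve (⊥ : LowerSet B)))) _ bot_le))).symm
    (asIso ((streetNerve n).map (glueInr (𝟙 (c.obj (pNerve (⊥ : LowerSet B)))) _ bot_le))).symm
    (asIso ((streetNerve n).map (glueInr (𝟙 (c.obj (pNerve (⊥ : LowerSet B)))) _ bot_le))).symm
    (asIso ((streetNerve n).map (glueInr (𝟙 (c.obj (pNerve (⊥ : LowerSet B)))) _ bot_le))).symm
    (by rw [Iso.symm_hom, Iso.symm_hom, Iso.comp_inv_eq, Category.assoc, asIso_hom, e,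
          asIso_inv, IsIso.inv_hom_id_assoc])
    (by rw [Iso.symm_hom, Iso.symm_hom, Iso.comp_inv_eq, Category.assoc, asIso_hom, e,
          asIso_inv, IsIso.inv_hom_id_assoc])
    (by rw [Iso.symm_hom, Iso.symm_hom, Iso.comp_inv_eq, Category.assoc, asIso_hom, e,
          asIso_inv, IsIso.inv_hom_id_assoc])
    (by rw [Iso.symm_hom, Iso.symm_hom, Iso.comp_inv_eq, Category.assoc, asIso_hom, e,
          asIso_inv, IsIso.inv_hom_id_assoc])

variable {A : LowerSet B} {C : NCat n} (f : c.obj (pNerve A) ⟶ C)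

lemma cmp_w (B' : LowerSet B) (h : A ≤ B') :
    (streetNerve n).map f ≫ (streetNerve n).map (glueInl f B' h) =
      NOm c h ≫ (streetNerve n).map (glueInr f B' h) := by
  rw [← (streetNerve n).map_comp, ← (streetNerve n).map_comp, glue_condition]

/-- The comparison map `N C ⊔_{N O(A)} N O(B') ⟶ N (C ⊔_{O(A)} O(B'))`. -/
noncomputable def cmp (B' : LowerSet B) (h : A ≤ B') :
    pushout ((streetNerve n).map f) (NOm c h) ⟶ (streetNerve n).obj (glue f B' h) :=
  pushout.desc ((streetNerve n).map (glueInl f B' h)) ((streetNerve n).map (glueInr f B' h))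
    (cmp_w f B' h)

@[reassoc (attr := simp)]
lemma inl_cmp (B' : LowerSet B) (h : A ≤ B') :
    pushout.inl _ _ ≫ cmp f B' h = (streetNerve n).map (glueInl f B' h) := pushout.inl_desc _ _ _

@[reassoc (attr := simp)]
lemma inr_cmp (B' : LowerSet B) (h : A ≤ B') :
    pushout.inr _ _ ≫ cmp f B' h = (streetNerve n).map (glueInr f B' h) := pushout.inr_desc _ _ _

/-- Functoriality of the source of the comparison map. -/
noncomputable def cmpSrc {B' B'' : LowerSet B} (h : A ≤ B') (h' : B' ≤ B'') :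
    pushout ((streetNerve n).map f) (NOm c h) ⟶
      pushout ((streetNerve n).map f) (NOm c (h.trans h')) :=
  pushout.desc (pushout.inl _ _) (NOm c h' ≫ pushout.inr _ _) (by
    rw [pushout.condition, ← Category.assoc, NOm_comp])

@[reassoc (attr := simp)]
lemma inl_cmpSrc {B' B'' : LowerSet B} (h : A ≤ B') (h' : B' ≤ B'') :
    pushout.inl _ _ ≫ cmpSrc f h h' = pushout.inl _ _ := pushout.inl_desc _ _ _

@[reassoc (attr := simp)]
lemma inr_cmpSrc {B' B'' : LowerSet B} (h : A ≤ B') (h' : B' ≤ B'') :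
    pushout.inr _ _ ≫ cmpSrc f h h' = NOm c h' ≫ pushout.inr _ _ := pushout.inr_desc _ _ _

lemma cmpSrc_cmp {B' B'' : LowerSet B} (h : A ≤ B') (h' : B' ≤ B'') :
    cmpSrc f h h' ≫ cmp f B'' (h.trans h') =
      cmp f B' h ≫ (streetNerve n).map (glueMap f h h') := by
  apply pushout.hom_ext
  · rw [inl_cmpSrc_assoc, inl_cmp, inl_cmp_assoc, ← (streetNerve n).map_comp, glueInl_glueMap]
  · rw [inr_cmpSrc_assoc, inr_cmp, inr_cmp_assoc, ← (streetNerve n).map_comp,
      ← (streetNerve n).map_comp, glueInr_glueMap]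

include hn adj in
lemma cmpSrc_mono {B' B'' : LowerSet B} (h : A ≤ B') (h' : B' ≤ B'') : Mono (cmpSrc f h h') := by
  have sq := isPushout_side (IsPushout.of_hasPushout ((streetNerve n).map f) (NOm c h))
    (NOm_comp c h h') (IsPushout.of_hasPushout ((streetNerve n).map f) (NOm c (h.trans h')))
    (p₁ := cmpSrc f h h') (inl_cmpSrc f h h') (inr_cmpSrc f h h')
  have := NOm_mono hn adj h'
  exact (MorphismProperty.monomorphisms _).of_isPushout sq.flip this

include hn adj in
lemma cmpSrc_isPushout (B₁ B₂ : LowerSet B) (h₁ : A ≤ B₁) (h₂ : A ≤ B₂) :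
    IsPushout (cmpSrc f (le_inf h₁ h₂) (inf_le_left : B₁ ⊓ B₂ ≤ B₁))
      (cmpSrc f (le_inf h₁ h₂) (inf_le_right : B₁ ⊓ B₂ ≤ B₂))
      (cmpSrc f h₁ (le_sup_left : B₁ ≤ B₁ ⊔ B₂)) (cmpSrc f h₂ (le_sup_right : B₂ ≤ B₁ ⊔ B₂)) :=
  isPushout_pushout (NO_isPushout hn adj B₁ B₂)
    (IsPushout.of_hasPushout ((streetNerve n).map f) (NOm c (le_inf h₁ h₂)))
    (IsPushout.of_hasPushout ((streetNerve n).map f) (NOm c h₁))
    (IsPushout.of_hasPushout ((streetNerve n).map f) (NOm c h₂))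
    (NOm_comp c h₁ le_sup_left)
    (IsPushout.of_hasPushout ((streetNerve n).map f) (NOm c (h₁.trans le_sup_left)))
    (inl_cmpSrc f _ _) (inr_cmpSrc f _ _) (inl_cmpSrc f _ _) (inr_cmpSrc f _ _)
    (inl_cmpSrc f _ _) (inr_cmpSrc f _ _) (inl_cmpSrc f _ _) (inr_cmpSrc f _ _)

include hn adj in
lemma cmp_step (B₁ B₂ : LowerSet B) (h₁ : A ≤ B₁) (h₂ : A ≤ B₂)
    (w₀ : WeakEq (cmp f (B₁ ⊓ B₂) (le_inf h₁ h₂))) (w₁ : WeakEq (cmp f B₁ h₁))
    (w₂ : WeakEq (cmp f B₂ h₂)) : WeakEq (cmp f (B₁ ⊔ B₂) (h₁.trans le_sup_left)) := by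
  have := cmpSrc_mono hn adj f (le_inf h₁ h₂) (inf_le_left : B₁ ⊓ B₂ ≤ B₁)
  have := glueMap_mono adj hn f (le_inf h₁ h₂) (inf_le_left : B₁ ⊓ B₂ ≤ B₁)
  exact SS.gluing (cmpSrc_isPushout hn adj f B₁ B₂ h₁ h₂) (glue_isPushout adj hn f B₁ B₂ h₁ h₂)
    (cmp f (B₁ ⊓ B₂) (le_inf h₁ h₂)) (cmp f B₁ h₁) (cmp f B₂ h₂)
    (cmp f (B₁ ⊔ B₂) (h₁.trans le_sup_left))
    (cmpSrc_cmp f _ _) (cmpSrc_cmp f _ _) (cmpSrc_cmp f _ _) (cmpSrc_cmp f _ _) w₀ w₁ w₂

/-- A pushout square of Street nerves gives the comparison. -/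
lemma cmp_of_isPushout (B' : LowerSet B) (h : A ≤ B')
    (sq : IsPushout ((streetNerve n).map f) (NOm c h) ((streetNerve n).map (glueInl f B' h))
      ((streetNerve n).map (glueInr f B' h))) : WeakEq (cmp f B' h) := by
  have : IsIso (cmp f B' h) := by
    refine ⟨sq.desc (pushout.inl _ _) (pushout.inr _ _) pushout.condition, ?_, ?_⟩
    · apply pushout.hom_ext
      · rw [inl_cmp_assoc, sq.inl_desc, Category.comp_id]
      · rw [inr_cmp_assoc, sq.inr_desc, Category.comp_id]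
    · apply sq.hom_ext
      · rw [sq.inl_desc_assoc, inl_cmp, Category.comp_id]
      · rw [sq.inr_desc_assoc, inr_cmp, Category.comp_id]
  exact SS.weq_of_isIso _

lemma cmp_self (h : A ≤ A) : WeakEq (cmp f A h) := by
  have e : pNerveMap (lowerIncl h) = 𝟙 (pNerve A) := rfl
  have : IsIso (glueInl f A h) := by
    have : IsIso (c.map (pNerveMap (lowerIncl h))) := by
      rw [e]
      infer_instance
    exact inferInstanceAs (IsIso (pushout.inl _ _))
  have : IsIso (NOm c h) := by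
    rw [NOm, e]
    infer_instance
  apply cmp_of_isPushout
  exact IsPushout.of_vert_isIso ⟨cmp_w f A h⟩

include adj in
lemma NOm_weq {B' : LowerSet B} (h : A ≤ B')
    (b : B) (hb : b ∈ B') (hB' : ∀ y ∈ B', y ∈ A ∨ y ≤ b) (r : B) (hr : r ∈ A) (hrb : r ≤ b)
    (hr' : ∀ a ∈ A, a ≤ b → a ≤ r) : WeakEq (NOm c h) := by
  have h1 := glueInl_weq adj h (𝟙 (c.obj (pNerve A))) b hb hB' r hr hrb hr'
  have e : (streetNerve n).map (glueInl (𝟙 (c.obj (pNerve A))) B' h) =
      NOm c h ≫ (streetNerve n).map (glueInr (𝟙 (c.obj (pNerve A))) B' h) := by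
    rw [← cmp_w, (streetNerve n).map_id, Category.id_comp]
  rw [e] at h1
  exact SS.weq.of_postcomp _ _ (SS.weq_of_isIso _) h1

include hn adj in
lemma cmp_direct (B' : LowerSet B) (h : A ≤ B')
    (b : B) (hb : b ∈ B') (hB' : ∀ y ∈ B', y ∈ A ∨ y ≤ b) (r : B) (hr : r ∈ A) (hrb : r ≤ b)
    (hr' : ∀ a ∈ A, a ≤ b → a ≤ r) : WeakEq (cmp f B' h) := by
  have h1 := glueInl_weq adj h f b hb hB' r hr hrb hr'
  have h2 : SS.tcof (NOm c h) := ⟨NOm_mono hn adj h, NOm_weq adj h b hb hB' r hr hrb hr'⟩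
  have h3 : SS.tcof (pushout.inl ((streetNerve n).map f) (NOm c h)) :=
    SS.tcof.of_isPushout (IsPushout.of_hasPushout ((streetNerve n).map f) (NOm c h)) h2
  exact SS.weq.of_precomp _ _ h3.weq (by rw [inl_cmp]; exact h1)

include hn adj in
lemma cmp_disjoint (R : LowerSet B) (hR : ∀ y ∈ A, y ∉ R) :
    WeakEq (cmp f (A ⊔ R) le_sup_left) := by
  have : PreservesColimitsOfSize.{0, 0} c := adj.leftAdjoint_preservesColimits
  have sq0 := (pNerve_isPushout A R).map c
  have : IsEmpty ↥(A ⊓ R) := ⟨fun y => hR y.1 y.2.1 y.2.2⟩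
  have hI : ∀ {T : NCat n} (a b : c.obj (pNerve ↥(A ⊓ R)) ⟶ T), a = b := fun a b =>
    (adj.homEquiv _ _).injective (pNerve_empty_ext _ _)
  have k1 := coprod_of_isPushout_initial hI sq0
  have k2 : IsCoprod (glueInl f (A ⊔ R) le_sup_left)
      (c.map (pNerveMap (lowerIncl (le_sup_right : R ≤ A ⊔ R))) ≫
        glueInr f (A ⊔ R) le_sup_left) :=
    coprod_of_isPushout k1 (IsPushout.of_hasPushout f
      (c.map (pNerveMap (lowerIncl (le_sup_left : A ≤ A ⊔ R)))))
  have k3 := isCoprod_iff.mpr (streetNerve_coprod hn _ _ (isCoprod_iff.mp k1))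
  have k4 := isCoprod_iff.mpr (streetNerve_coprod hn _ _ (isCoprod_iff.mp k2))
  apply cmp_of_isPushout
  refine isPushout_of_coprod k3 (cmp_w f (A ⊔ R) le_sup_left) ?_
  rw [← (streetNerve n).map_comp]
  exact k4

/-- Removing a maximal element from a lower set. -/
def removeMax (B' : LowerSet B) (b : B) (hb : ∀ y ∈ B', b ≤ y → y = b) : LowerSet B where
  carrier := {y | y ∈ B' ∧ y ≠ b}
  lower' := by
    rintro y z hzy ⟨hy, hyb⟩
    refine ⟨B'.lower hzy hy, ?_⟩
    rintro rfl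
    exact hyb (hb y hy hzy)

include hn adj in
/-- The comparison map is a weak equivalence. -/
theorem cmp_weq [Finite B] (hA : Dwyer A) (B' : LowerSet B) (h : A ≤ B') :
    WeakEq (cmp f B' h) := by
  have : Finite (LowerSet B) := Finite.of_injective (fun s : LowerSet B => (s : Set B))
    SetLike.coe_injective
  induction B' using (Finite.to_wellFoundedLT : WellFoundedLT (LowerSet B)).induction with
  | _ B' ih =>
  by_cases hBA : B' ≤ A
  · obtain rfl : B' = A := le_antisymm hBA h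
    exact cmp_self f h
  · obtain ⟨x, hx, hxA⟩ := Set.not_subset.mp hBA
    obtain ⟨b, ⟨hbB, hbA⟩, hbmax⟩ := (Set.toFinite {y | y ∈ B' ∧ y ∉ A}).exists_maximal
      ⟨x, hx, hxA⟩
    have hb : ∀ y ∈ B', b ≤ y → y = b := fun y hy hby =>
      le_antisymm (hbmax ⟨hy, fun hyA => hbA (A.lower hby hyA)⟩ hby) hby
    let B₁ := removeMax B' b hb
    let B₂ := A ⊔ LowerSet.Iic b
    have h₁ : A ≤ B₁ := fun a ha => ⟨h ha, fun hab => hbA (hab ▸ ha)⟩
    have h₂ : A ≤ B₂ := le_sup_left
    have hlt : B₁ < B' := by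
      refine lt_of_le_of_ne (fun y hy => hy.1) ?_
      intro heq
      have : b ∈ B₁ := by rw [heq]; exact hbB
      exact this.2 rfl
    have hsup : B₁ ⊔ B₂ = B' := by
      apply le_antisymm
      · refine sup_le hlt.le (sup_le h ?_)
        rintro y hy
        exact B'.lower hy hbB
      · intro y hy
        by_cases hyb : y = b
        · subst hyb
          exact LowerSet.mem_sup_iff.mpr (Or.inr (LowerSet.mem_sup_iff.mpr
            (Or.inr (LowerSet.mem_Iic_iff.mpr le_rfl))))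
        · exact LowerSet.mem_sup_iff.mpr (Or.inl ⟨hy, hyb⟩)
    have w₁ := ih B₁ hlt h₁
    have w₀ := ih (B₁ ⊓ B₂) (lt_of_le_of_lt inf_le_left hlt) (le_inf h₁ h₂)
    have w₂ : WeakEq (cmp f B₂ h₂) := by
      rcases hA b hbA with hempty | ⟨r, hr, hrb, hr'⟩
      · exact cmp_disjoint hn adj f (LowerSet.Iic b) (fun y hy hyb => hempty y hy hyb)
      · refine cmp_direct hn adj f B₂ h₂ b ?_ ?_ r hr hrb hr'
        · exact LowerSet.mem_sup_iff.mpr (Or.inr (LowerSet.mem_Iic_iff.mpr le_rfl))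
        · intro y hy
          exact (LowerSet.mem_sup_iff.mp hy).imp id LowerSet.mem_Iic_iff.mp
    have key := cmp_step hn adj f B₁ B₂ h₁ h₂ w₀ w₁ w₂
    revert h
    rw [← hsup]
    intro h
    exact key

end Main

/-- The key lemma. -/
theorem key_lemma {n : ℕ∞} (hn : 1 ≤ n) {c : SSet.{0} ⥤ NCat n} (adj : c ⊣ streetNerve n)
    {B : Type} [PartialOrder B] [Finite B] (A : LowerSet B) (hA : Dwyer A)
    {C D : NCat n} (f : c.obj (pNerve A) ⟶ C) (g : c.obj (pNerve B) ⟶ D) (j : C ⟶ D)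
    (sq : IsPushout f (c.map (pNerveMap (lowerVal A))) j g)
    {P : SSet.{0}} (a : (streetNerve n).obj C ⟶ P) (b : (streetNerve n).obj (c.obj (pNerve B)) ⟶ P)
    (sq' : IsPushout ((streetNerve n).map f) ((streetNerve n).map (c.map (pNerveMap (lowerVal A))))
      a b) :
    Mono ((streetNerve n).map j) ∧
    WeakEq (sq'.desc ((streetNerve n).map j) ((streetNerve n).map g)
      (by rw [← Functor.map_comp, ← Functor.map_comp, sq.w])) := by
  have w := cmp_weq hn adj f hA ⊤ le_top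
  have m := glueInl_mono adj hn f ⊤ le_top
  -- identify `⊤` with `B`
  let τ : ↥(⊤ : LowerSet B) →o B := lowerVal ⊤
  let τ' : B →o ↥(⊤ : LowerSet B) := ⟨fun y => ⟨y, trivial⟩, fun _ _ h => h⟩
  have hτ : τ.comp τ' = OrderHom.id := rfl
  have hτ' : τ'.comp τ = OrderHom.id := rfl
  have hi : IsIso (c.map (pNerveMap τ)) := by
    refine ⟨c.map (pNerveMap τ'), ?_, ?_⟩
    · rw [← c.map_comp, pNerveMap_comp, hτ', pNerveMap_id, c.map_id]
    · rw [← c.map_comp, pNerveMap_comp, hτ, pNerveMap_id, c.map_id]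
  have hinc : c.map (pNerveMap (lowerIncl (le_top : A ≤ ⊤))) ≫ c.map (pNerveMap τ) =
      c.map (pNerveMap (lowerVal A)) := by
    rw [← c.map_comp, pNerveMap_comp]
    rfl
  let e : glue f ⊤ le_top ⟶ D := pushout.desc j (c.map (pNerveMap τ) ≫ g) (by
    rw [← Category.assoc, hinc, sq.w])
  have e1 : glueInl f ⊤ le_top ≫ e = j := pushout.inl_desc _ _ _
  have e2 : glueInr f ⊤ le_top ≫ e = c.map (pNerveMap τ) ≫ g := pushout.inr_desc _ _ _
  have hee : IsIso e := isIso_of_isPushout (IsPushout.of_hasPushout f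
    (c.map (pNerveMap (lowerIncl (le_top : A ≤ ⊤))))) sq (c.map (pNerveMap τ)) hinc e1 e2
  constructor
  · rw [← e1, (streetNerve n).map_comp]
    exact mono_comp _ _
  · have hinc' : NOm c (le_top : A ≤ ⊤) ≫ (streetNerve n).map (c.map (pNerveMap τ)) =
        (streetNerve n).map (c.map (pNerveMap (lowerVal A))) := by
      rw [← (streetNerve n).map_comp, hinc]
    let φ : pushout ((streetNerve n).map f) (NOm c (le_top : A ≤ ⊤)) ⟶ P :=
      pushout.desc a ((streetNerve n).map (c.map (pNerveMap τ)) ≫ b) (by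
        rw [← Category.assoc, hinc', sq'.w])
    have φ1 : pushout.inl _ _ ≫ φ = a := pushout.inl_desc _ _ _
    have φ2 : pushout.inr _ _ ≫ φ = (streetNerve n).map (c.map (pNerveMap τ)) ≫ b :=
      pushout.inr_desc _ _ _
    have hφ : IsIso φ := isIso_of_isPushout (IsPushout.of_hasPushout ((streetNerve n).map f)
      (NOm c (le_top : A ≤ ⊤))) sq' ((streetNerve n).map (c.map (pNerveMap τ))) hinc' φ1 φ2
    refine SS.weq.of_precomp φ _ (SS.weq_of_isIso φ) ?_
    have key : φ ≫ sq'.desc ((streetNerve n).map j) ((streetNerve n).map g)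
        (by rw [← Functor.map_comp, ← Functor.map_comp, sq.w]) =
        cmp f ⊤ le_top ≫ (streetNerve n).map e := by
      apply pushout.hom_ext
      · rw [reassoc_of% φ1, sq'.inl_desc, inl_cmp_assoc, ← (streetNerve n).map_comp, e1]
      · rw [reassoc_of% φ2, sq'.inr_desc, inr_cmp_assoc, ← (streetNerve n).map_comp,
          ← (streetNerve n).map_comp, e2]
    rw [key]
    exact SS.weq.comp_mem _ _ w (SS.weq_of_isIso _)

end Vale.Agent.P213
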