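import Vale.Agent.Lib.P213.Poset
import Vale.Agent.Lib.P213.ElemCyl

/-! # P213: homotopies on `C ⊔_{O(A)} O(B)` coming from homotopies of posets -/

open CategoryTheory Limits Simplicial

namespace Vale.Agent.P213

/-- The path object of an `n`-category. -/
noncomputable def gammaN (n : ℕ∞) : NCat n ⥤ NCat n :=
  ObjectProperty.lift _ ((OmegaCat.IsNCat n).ι ⋙ Gamma)
    (fun X => Gamma.isNCat n X.obj X.property)

/-- The bottom of a cylinder. -/
noncomputable def e0N (n : ℕ∞) : gammaN n ⟶ 𝟭 (NCat n) where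
  app X := ObjectProperty.homMk (Gamma.e0.app X.obj)
  naturality _ _ f := ObjectProperty.hom_ext _ (Gamma.e0.naturality f.hom)

/-- The top of a cylinder. -/
noncomputable def e1N (n : ℕ∞) : gammaN n ⟶ 𝟭 (NCat n) where
  app X := ObjectProperty.homMk (Gamma.e1.app X.obj)
  naturality _ _ f := ObjectProperty.hom_ext _ (Gamma.e1.naturality f.hom)

/-- Degenerate cylinders. -/
noncomputable def degN (n : ℕ∞) : 𝟭 (NCat n) ⟶ gammaN n where
  app X := ObjectProperty.homMk (Gamma.deg.app X.obj)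
  naturality _ _ f := ObjectProperty.hom_ext _ (Gamma.deg.naturality f.hom)

/-- The bottom of a cylinder. -/
noncomputable def e0X {n : ℕ∞} (X : NCat n) : (gammaN n).obj X ⟶ X := (e0N n).app X

/-- The top of a cylinder. -/
noncomputable def e1X {n : ℕ∞} (X : NCat n) : (gammaN n).obj X ⟶ X := (e1N n).app X

/-- Degenerate cylinders. -/
noncomputable def degX {n : ℕ∞} (X : NCat n) : X ⟶ (gammaN n).obj X := (degN n).app X

@[reassoc (attr := simp)]
lemma degX_e0X {n : ℕ∞} (X : NCat n) : degX X ≫ e0X X = 𝟙 X := rfl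

@[reassoc (attr := simp)]
lemma degX_e1X {n : ℕ∞} (X : NCat n) : degX X ≫ e1X X = 𝟙 X := rfl

/-- Degenerate cylinders. -/
noncomputable def degO (X : OmegaCat) : X ⟶ Gamma.obj X := Gamma.deg.app X

lemma degO_nat {X Y : OmegaCat} (f : X ⟶ Y) : degO X ≫ Gamma.map f = f ≫ degO Y :=
  (Gamma.deg.naturality f).symm

lemma elemCyl_deg' {m q : ℕ} (E : Elem m q) (h : m < E.j) : elemCyl E =
    orientalFunctor.map (SimplexCategory.Hom.mk E.φ₀) ≫ degO _ := elemCyl_deg E h

section Homotopy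

variable {Q P : Type} [PartialOrder Q] [PartialOrder P]

lemma exists_cutoff (L : LowerSet Q) {m : ℕ} (σ : Fin (m + 1) →o Q) :
    ∃ j : ℕ, ∀ i : Fin (m + 1), (i : ℕ) < j ↔ σ i ∈ L := by
  classical
  by_cases h : ∃ k : ℕ, ∃ hk : k < m + 1, σ ⟨k, hk⟩ ∉ L
  · refine ⟨Nat.find h, fun i => ⟨fun hi => ?_, fun hi => ?_⟩⟩
    · by_contra hcon
      exact Nat.find_min h hi ⟨i.2, hcon⟩
    · by_contra hcon
      obtain ⟨hk, hk'⟩ := Nat.find_spec h
      exact hk' (L.lower (σ.monotone (show (⟨Nat.find h, hk⟩ : Fin (m + 1)) ≤ i from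
        (not_lt.mp hcon : Nat.find h ≤ (i : ℕ)))) hi)
  · push Not at h
    exact ⟨m + 1, fun i => ⟨fun _ => h i.1 i.2, fun _ => i.2⟩⟩

/-- The number of vertices of a chain in the lower set `L`. -/
noncomputable def cutoff (L : LowerSet Q) {m : ℕ} (σ : Fin (m + 1) →o Q) : ℕ :=
  (exists_cutoff L σ).choose

lemma lt_cutoff (L : LowerSet Q) {m : ℕ} (σ : Fin (m + 1) →o Q) (i : Fin (m + 1)) :
    (i : ℕ) < cutoff L σ ↔ σ i ∈ L := (exists_cutoff L σ).choose_spec i

/-- The elementary homotopy attached to a chain. -/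
noncomputable def cutElem (L : LowerSet Q) {m : ℕ} (σ : Fin (m + 1) →o Q) : Elem m (m + 1) where
  φ₀ := Fin.castSuccOrderEmb.toOrderHom
  j := cutoff L σ
  t := Fin.last (m + 1)
  le _ := Fin.le_last _

/-- The chain `φ₀ σ` followed by `t`. -/
def snocChain (φ₀ : Q →o P) (t : P) {m : ℕ} (σ : Fin (m + 1) →o Q) (h : φ₀ (σ (Fin.last m)) ≤ t) :
    Fin (m + 1 + 1) →o P where
  toFun := Fin.lastCases t (fun i => φ₀ (σ i))
  monotone' a b hab := by
    have hle : ∀ i, φ₀ (σ i) ≤ t := fun i =>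
      (φ₀.monotone (σ.monotone (Fin.le_last i))).trans h
    cases a using Fin.lastCases with
    | last =>
      cases b using Fin.lastCases with
      | last => exact le_rfl
      | cast b => exact absurd hab (not_le.mpr (Fin.castSucc_lt_last b))
    | cast a =>
      cases b using Fin.lastCases with
      | last =>
        simp only [Fin.lastCases_castSucc, Fin.lastCases_last]
        exact hle a
      | cast b =>
        simp only [Fin.lastCases_castSucc]
        exact φ₀.monotone (σ.monotone (Fin.castSucc_le_castSucc_iff.mp hab))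

@[simp] lemma snocChain_castSucc (φ₀ : Q →o P) (t : P) {m : ℕ} (σ : Fin (m + 1) →o Q)
    (h : φ₀ (σ (Fin.last m)) ≤ t) (i : Fin (m + 1)) :
    snocChain φ₀ t σ h i.castSucc = φ₀ (σ i) := by
  change (Fin.lastCases t (fun i => φ₀ (σ i)) i.castSucc : P) = _
  rw [Fin.lastCases_castSucc]

@[simp] lemma snocChain_last (φ₀ : Q →o P) (t : P) {m : ℕ} (σ : Fin (m + 1) →o Q)
    (h : φ₀ (σ (Fin.last m)) ≤ t) :
    snocChain φ₀ t σ h (Fin.last (m + 1)) = t := by
  change (Fin.lastCases t (fun i => φ₀ (σ i)) (Fin.last (m + 1)) : P) = _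
  rw [Fin.lastCases_last]

/-- The extension of `α` by `last ↦ last`. -/
def extLast {m' m : ℕ} (α : Fin (m' + 1) →o Fin (m + 1)) : Fin (m' + 1 + 1) →o Fin (m + 1 + 1) :=
  snocChain (Fin.castSuccOrderEmb.toOrderHom) (Fin.last (m + 1)) α (Fin.le_last _)

variable {n : ℕ∞} {D : NCat n} (x : pNerve P ⟶ (streetNerve n).obj D)

/-- Value of a simplicial map to a Street nerve at a chain. -/
def atChain {m : ℕ} (σ : Fin (m + 1) →o P) : orientalFunctor.obj ⦋m⦌ ⟶ D.obj :=
  x.app (Opposite.op ⦋m⦌) σ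

lemma atChain_comp {m' m : ℕ} (σ : Fin (m + 1) →o P) (α : Fin (m' + 1) →o Fin (m + 1)) :
    atChain x (σ.comp α) = orientalFunctor.map (SimplexCategory.Hom.mk α) ≫ atChain x σ := by
  exact ConcreteCategory.congr_hom
    (x.naturality (Quiver.Hom.op (SimplexCategory.Hom.mk α : ⦋m'⦌ ⟶ ⦋m⦌))) σ

lemma snocChain_comp (φ₀ : Q →o P) (t : P) {m' m : ℕ} (σ : Fin (m + 1) →o Q)
    (α : Fin (m' + 1) →o Fin (m + 1)) (h : φ₀ (σ (Fin.last m)) ≤ t)
    (h' : φ₀ ((σ.comp α) (Fin.last m')) ≤ t) :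
    (snocChain φ₀ t σ h).comp (extLast α) = snocChain φ₀ t (σ.comp α) h' := by
  apply OrderHom.ext
  funext i
  change snocChain φ₀ t σ h (extLast α i) = _
  cases i using Fin.lastCases with
  | last => rw [extLast, snocChain_last, snocChain_last, snocChain_last]
  | cast i =>
    rw [extLast, snocChain_castSucc, snocChain_castSucc]
    exact snocChain_castSucc φ₀ t σ h (α i)

open Classical in
/-- The homotopy at a chain. -/
noncomputable def htpyChain (L : LowerSet Q) (φ₀ : Q →o P) (t : P) (ht : ∀ y ∉ L, φ₀ y ≤ t)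
    {m : ℕ} (σ : Fin (m + 1) →o Q) : orientalFunctor.obj ⦋m⦌ ⟶ Gamma.obj D.obj :=
  if h : σ (Fin.last m) ∈ L then atChain x (φ₀.comp σ) ≫ degO D.obj
  else elemCyl (cutElem L σ) ≫ Gamma.map (atChain x (snocChain φ₀ t σ (ht _ h)))

lemma htpyChain_comp (L : LowerSet Q) (φ₀ : Q →o P) (t : P) (ht : ∀ y ∉ L, φ₀ y ≤ t)
    {m' m : ℕ} (σ : Fin (m + 1) →o Q) (α : Fin (m' + 1) →o Fin (m + 1)) :
    htpyChain x L φ₀ t ht (σ.comp α) =
      orientalFunctor.map (SimplexCategory.Hom.mk α) ≫ htpyChain x L φ₀ t ht σ := by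
  by_cases h : σ (Fin.last m) ∈ L
  · have h' : (σ.comp α) (Fin.last m') ∈ L := L.lower (σ.monotone (Fin.le_last _)) h
    rw [htpyChain, dif_pos h', htpyChain, dif_pos h, ← Category.assoc, ← atChain_comp]
    rfl
  · by_cases h' : (σ.comp α) (Fin.last m') ∈ L
    · rw [htpyChain, dif_pos h', htpyChain, dif_neg h, ← Category.assoc]
      have key := elemCyl_nat (cutElem L σ)
        { φ₀ := (Fin.castSuccOrderEmb.toOrderHom).comp α
          j := m' + 1
          t := Fin.last (m + 1)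
          le := fun i => Fin.le_last _ } α OrderHom.id (fun i => rfl) (fun i => by
            have : ((α i : Fin (m + 1)) : ℕ) < cutoff L σ :=
              (lt_cutoff L σ (α i)).mpr (L.lower ((σ.comp α).monotone (Fin.le_last i)) h')
            simp only [cutElem, this, iff_true]
            exact i.2) rfl
      rw [key, elemCyl_deg' _ (by simp), Category.assoc, Category.assoc, ← Gamma.map_comp,
        ← atChain_comp, degO_nat, ← Category.assoc, ← atChain_comp]
      congr 2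
      apply OrderHom.ext
      funext i
      exact (snocChain_castSucc φ₀ t σ (ht _ h) (α i)).symm
    · rw [htpyChain, dif_neg h', htpyChain, dif_neg h, ← Category.assoc]
      have key := elemCyl_nat (cutElem L σ) (cutElem L (σ.comp α)) α (extLast α)
        (fun i => (snocChain_castSucc _ _ α (Fin.le_last _) i).symm)
        (fun i => by
          simp only [cutElem]
          rw [lt_cutoff, lt_cutoff]
          rfl)
        (snocChain_last _ _ α (Fin.le_last _))
      rw [key, Category.assoc, ← Gamma.map_comp, ← atChain_comp,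
        snocChain_comp φ₀ t σ α (ht _ h) (ht _ h')]

/-- The simplicial map given by `htpyChain`. -/
noncomputable def htpyMap (L : LowerSet Q) (φ₀ : Q →o P) (t : P) (ht : ∀ y ∉ L, φ₀ y ≤ t) :
    pNerve Q ⟶ (streetNerve n).obj ((gammaN n).obj D) where
  app m := TypeCat.ofHom fun σ => htpyChain x L φ₀ t ht (m := m.unop.len) σ
  naturality m m' φ := by
    ext σ
    exact htpyChain_comp x L φ₀ t ht σ φ.unop.toOrderHom

lemma htpyChain_e0 (L : LowerSet Q) (φ₀ : Q →o P) (t : P) (ht : ∀ y ∉ L, φ₀ y ≤ t)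
    {m : ℕ} (σ : Fin (m + 1) →o Q) :
    htpyChain x L φ₀ t ht σ ≫ Gamma.e0.app D.obj = atChain x (φ₀.comp σ) := by
  by_cases h : σ (Fin.last m) ∈ L
  · rw [htpyChain, dif_pos h, Category.assoc]
    rfl
  · rw [htpyChain, dif_neg h, Category.assoc, Gamma.e0.naturality, ← Category.assoc, elemCyl_e0]
    change orientalFunctor.map _ ≫ atChain x _ = _
    rw [← atChain_comp]
    congr 1
    apply OrderHom.ext
    funext i
    exact snocChain_castSucc φ₀ t σ (ht _ h) i

lemma htpyChain_e1 (L : LowerSet Q) (φ₀ φ₁ : Q →o P) (t : P) (ht : ∀ y ∉ L, φ₀ y ≤ t)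
    (h1 : ∀ y ∈ L, φ₁ y = φ₀ y) (h2 : ∀ y ∉ L, φ₁ y = t) {m : ℕ} (σ : Fin (m + 1) →o Q) :
    htpyChain x L φ₀ t ht σ ≫ Gamma.e1.app D.obj = atChain x (φ₁.comp σ) := by
  by_cases h : σ (Fin.last m) ∈ L
  · rw [htpyChain, dif_pos h, Category.assoc]
    change atChain x _ = _
    congr 1
    apply OrderHom.ext
    funext i
    exact (h1 _ (L.lower (σ.monotone (Fin.le_last i)) h)).symm
  · rw [htpyChain, dif_neg h, Category.assoc, Gamma.e1.naturality, ← Category.assoc, elemCyl_e1]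
    change orientalFunctor.map _ ≫ atChain x _ = _
    rw [← atChain_comp]
    congr 1
    apply OrderHom.ext
    funext i
    change snocChain φ₀ t σ (ht _ h) ((cutElem L σ).φ₁ i) = φ₁ (σ i)
    by_cases hi : σ i ∈ L
    · have : (cutElem L σ).φ₁ i = i.castSucc := if_pos ((lt_cutoff L σ i).mpr hi)
      rw [this, snocChain_castSucc, h1 _ hi]
    · have : (cutElem L σ).φ₁ i = Fin.last (m + 1) :=
        if_neg (fun h' => hi ((lt_cutoff L σ i).mp h'))
      rw [this, snocChain_last, h2 _ hi]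

lemma htpyChain_deg {A : Type} [PartialOrder A] (ι : A →o Q) (L : LowerSet Q) (hι : ∀ a, ι a ∈ L)
    (φ₀ : Q →o P) (t : P) (ht : ∀ y ∉ L, φ₀ y ≤ t) {m : ℕ} (σ : Fin (m + 1) →o A) :
    htpyChain x L φ₀ t ht (ι.comp σ) = atChain x ((φ₀.comp ι).comp σ) ≫ degO D.obj := by
  have h : (ι.comp σ) (Fin.last m) ∈ L := hι (σ (Fin.last m))
  rw [htpyChain, dif_pos h]
  rfl

lemma htpyMap_e0 (L : LowerSet Q) (φ₀ : Q →o P) (t : P) (ht : ∀ y ∉ L, φ₀ y ≤ t) :
    htpyMap x L φ₀ t ht ≫ (streetNerve n).map (e0X D) = pNerveMap φ₀ ≫ x := by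
  ext m σ
  exact htpyChain_e0 x L φ₀ t ht (m := m.unop.len) σ

lemma htpyMap_e1 (L : LowerSet Q) (φ₀ φ₁ : Q →o P) (t : P) (ht : ∀ y ∉ L, φ₀ y ≤ t)
    (h1 : ∀ y ∈ L, φ₁ y = φ₀ y) (h2 : ∀ y ∉ L, φ₁ y = t) :
    htpyMap x L φ₀ t ht ≫ (streetNerve n).map (e1X D) = pNerveMap φ₁ ≫ x := by
  ext m σ
  exact htpyChain_e1 x L φ₀ φ₁ t ht h1 h2 (m := m.unop.len) σ

lemma htpyMap_deg {A : Type} [PartialOrder A] (ι : A →o Q) (L : LowerSet Q) (hι : ∀ a, ι a ∈ L)
    (φ₀ : Q →o P) (t : P) (ht : ∀ y ∉ L, φ₀ y ≤ t) :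
    pNerveMap ι ≫ htpyMap x L φ₀ t ht =
      pNerveMap (φ₀.comp ι) ≫ x ≫ (streetNerve n).map (degX D) := by
  ext m σ
  exact htpyChain_deg x ι L hι φ₀ t ht (m := m.unop.len) σ

end Homotopy

/-- A homotopy of posets `φ₀ ≤ φ₁`, where `φ₁` is `φ₀` on the lower set `L` and constant outside
`L`, gives a homotopy of functors, constant on `L`. -/
theorem poset_homotopy {n : ℕ∞} {c : SSet.{0} ⥤ NCat n} (adj : c ⊣ streetNerve n)
    {Q P : Type} [PartialOrder Q] [PartialOrder P] (L : LowerSet Q) (φ₀ φ₁ : Q →o P) (t : P)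
    (ht : ∀ y ∉ L, φ₀ y ≤ t) (h1 : ∀ y ∈ L, φ₁ y = φ₀ y) (h2 : ∀ y ∉ L, φ₁ y = t)
    {D : NCat n} (F : c.obj (pNerve P) ⟶ D) :
    ∃ H : c.obj (pNerve Q) ⟶ (gammaN n).obj D,
      H ≫ e0X D = c.map (pNerveMap φ₀) ≫ F ∧
      H ≫ e1X D = c.map (pNerveMap φ₁) ≫ F ∧
      ∀ {A : Type} [PartialOrder A] (ι : A →o Q), (∀ a, ι a ∈ L) →
        c.map (pNerveMap ι) ≫ H = c.map (pNerveMap (φ₀.comp ι)) ≫ F ≫ degX D := by
  refine ⟨(adj.homEquiv _ _).symm (htpyMap (adj.homEquiv _ _ F) L φ₀ t ht), ?_, ?_, ?_⟩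
  · apply (adj.homEquiv _ _).injective
    rw [adj.homEquiv_naturality_right, adj.homEquiv_naturality_left, Equiv.apply_symm_apply]
    exact htpyMap_e0 _ L φ₀ t ht
  · apply (adj.homEquiv _ _).injective
    rw [adj.homEquiv_naturality_right, adj.homEquiv_naturality_left, Equiv.apply_symm_apply]
    exact htpyMap_e1 _ L φ₀ φ₁ t ht h1 h2
  · intro A _ ι hι
    apply (adj.homEquiv _ _).injective
    rw [adj.homEquiv_naturality_left, Equiv.apply_symm_apply, adj.homEquiv_naturality_left,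
      adj.homEquiv_naturality_right]
    exact htpyMap_deg _ ι L hι φ₀ t ht

end Vale.Agent.P213
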