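import Mathlib
import Vale.Agent.Lib.P213.SSSdMono

/-!
# The subdivision of a subcomplex of a simplex is the nerve of its poset of faces
-/

open CategoryTheory MonoidalCategory CartesianMonoidalCategory Simplicial HomotopicalAlgebra Limits
open SSet SSet.modelCategoryQuillen Opposite

universe u

namespace Vale.Agent.P213.SS

variable {n : ℕ} {K K' : (Δ[n] : SSet.{u}).Subcomplex} {Fc Fc' : Set (Ch.{u} n)}

lemma toN_map (hK : Faces K Fc) {m m' : SimplexCategoryᵒᵖ} (φ : m ⟶ m')
    {σ : (Δ[n] : SSet.{u}).obj m} (hσ : σ ∈ K.obj m)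
    (hσ' : (Δ[n] : SSet.{u}).map φ σ ∈ K.obj m') :
    toN hK hσ' = SimplexCategory.sd.map φ.unop ≫ toN hK hσ := by
  apply ss_ext
  intro l y
  apply nerve_ext (P := Fc)
  intro i
  apply Subtype.ext
  change chMap _ (vt y i) = chMap _ (vt ((SimplexCategory.sd.map φ.unop).app l y) i)
  rw [vt_sd_map, chMap_comp]
  rfl

/-- the canonical map `K ⟶ ex (nerve Fc)` -/
noncomputable def kap (hK : Faces K Fc) : (K : SSet.{u}) ⟶ ex.obj (nerve Fc) where
  app m := ↾fun σ => exMk (m := m) (toN hK σ.2)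
  naturality m m' φ := by
    ext σ
    apply ex_ext
    exact toN_map hK φ σ.2 _

lemma kap_app (hK : Faces K Fc) {m : SimplexCategoryᵒᵖ} (σ : (K : SSet.{u}).obj m) :
    exDown ((kap hK).app m σ) = toN hK σ.2 := rfl

/-- the canonical map `sd K ⟶ nerve Fc` -/
noncomputable def sdToNerve (hK : Faces K Fc) : sd.obj (K : SSet.{u}) ⟶ nerve Fc :=
  (sdExAdjunction.homEquiv _ _).symm (kap hK)

lemma kap_bijective (hK : Faces K Fc) (T : SSet.{u}) :
    Function.Bijective (fun f : nerve Fc ⟶ T => kap hK ≫ ex.map f) := by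
  constructor
  · intro f f' h
    apply ss_ext
    intro l x
    obtain ⟨q⟩ := exists_pres (K := K) hK x
    have h1 : toN hK q.hσ ≫ f = toN hK q.hσ ≫ f' :=
      congrArg (fun z : (K : SSet.{u}) ⟶ ex.obj T => exDown (z.app q.m ⟨q.σ, q.hσ⟩)) h
    have h2 : (toN hK q.hσ).app l q.y = x := by
      apply nerve_ext (P := Fc)
      intro i
      exact Subtype.ext (q.hy i)
    have h3 := congrArg (fun z => z.app l q.y) h1
    change f.app l ((toN hK q.hσ).app l q.y) = f'.app l ((toN hK q.hσ).app l q.y) at h3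
    rwa [h2] at h3
  · intro g
    refine ⟨glueEx g hK, ?_⟩
    apply ss_ext
    rintro m ⟨σ, hσ⟩
    apply ex_ext
    exact toN_glueEx g hK hσ

instance (hK : Faces K Fc) : IsIso (sdToNerve hK) := by
  rw [isIso_iff_coyoneda_map_bijective]
  intro T
  have h : (fun f : nerve Fc ⟶ T => sdToNerve hK ≫ f) =
      (sdExAdjunction.homEquiv _ _).symm ∘ (fun f : nerve Fc ⟶ T => kap hK ≫ ex.map f) := by
    funext f
    exact (Adjunction.homEquiv_naturality_right_symm _ _ _).symm
  rw [h]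
  exact (Equiv.bijective _).comp (kap_bijective hK T)

/-- the inclusion of faces -/
def incF (h : Fc ⊆ Fc') : Fc →o Fc' := ⟨fun c => ⟨c.1, h c.2⟩, fun _ _ h => h⟩

lemma kap_nat (hK : Faces K Fc) (hK' : Faces K' Fc') (h : Fc ⊆ Fc') (h' : K ≤ K') :
    kap hK ≫ ex.map (nm (incF h)) = Subcomplex.homOfLE h' ≫ kap hK' := rfl

lemma sdToNerve_nat (hK : Faces K Fc) (hK' : Faces K' Fc') (h : Fc ⊆ Fc') (h' : K ≤ K') :
    sdToNerve hK ≫ nm (incF h) = sd.map (Subcomplex.homOfLE h') ≫ sdToNerve hK' := by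
  apply (sdExAdjunction.homEquiv _ _).injective
  rw [Adjunction.homEquiv_naturality_right, Adjunction.homEquiv_naturality_left]
  simp only [sdToNerve, Equiv.apply_symm_apply]
  exact kap_nat hK hK' h h'

/-- The arrow `sd K ⟶ sd K'` is isomorphic to the nerve of the inclusion of the posets of
faces. -/
noncomputable def sdArrowIso (hK : Faces K Fc) (hK' : Faces K' Fc') (h : Fc ⊆ Fc')
    (h' : K ≤ K') : Arrow.mk (sd.map (Subcomplex.homOfLE h')) ≅ Arrow.mk (nm (incF h)) :=
  Arrow.isoMk (asIso (sdToNerve hK)) (asIso (sdToNerve hK')) (sdToNerve_nat hK hK' h h')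

end Vale.Agent.P213.SS
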