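import Vale.Agent.Lib.P213.Poset
import Vale.Agent.Lib.P213.SSSdNerve

/-!
# `Sd²` of a subcomplex inclusion is the nerve of a Dwyer inclusion of finite posets
-/

open CategoryTheory Limits Simplicial Opposite
open SSet Vale.Agent.P213.SS

namespace Vale.Agent.P213

section lin

variable {Q P : Type} [PartialOrder Q] [PartialOrder P] {N : ℕ}

/-- a linear extension -/
lemma exists_lin (P : Type) [PartialOrder P] [Finite P] [Nonempty P] :
    ∃ (N : ℕ) (L : P →o Fin (N + 1)), Function.Injective L := by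
  classical
  have : Finite (LinearExtension P) := ‹Finite P›
  have : Nonempty (LinearExtension P) := ‹Nonempty P›
  have : Fintype (LinearExtension P) := Fintype.ofFinite _
  have hc : Fintype.card (LinearExtension P) = (Fintype.card (LinearExtension P) - 1) + 1 := by
    have := Fintype.card_pos (α := LinearExtension P)
    omega
  let e := Fintype.orderIsoFinOfCardEq (LinearExtension P) hc
  refine ⟨_, e.symm.toOrderEmbedding.toOrderHom.comp toLinearExtension, ?_⟩
  exact e.symm.injective.comp (fun x y h => h)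

/-- the map of the nerve to a simplex -/
noncomputable def psi (L : P →o Fin (N + 1)) : nerve P ⟶ (Δ[N] : SSet.{0}) :=
  nm (Q := ULift.{0} (Fin (N + 1))) ⟨fun p => ⟨L p⟩, fun _ _ h => L.monotone h⟩ ≫
    (stdSimplex.isoNerve N).inv

lemma psi_app (L : P →o Fin (N + 1)) {m : SimplexCategoryᵒᵖ} (x : (nerve P).obj m)
    (i : Fin (m.unop.len + 1)) :
    (stdSimplex.objEquiv ((psi L).app m x)).toOrderHom i = L (x.obj i) := rfl

lemma psi_mono (L : P →o Fin (N + 1)) (hL : Function.Injective L) : Mono (psi L) := by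
  have h : ∀ m, Mono ((psi L).app m) := by
    intro m
    rw [CategoryTheory.mono_iff_injective]
    intro x y hxy
    apply nerve_ext (P := P)
    intro i
    apply hL
    rw [← psi_app, ← psi_app, hxy]
  exact NatTrans.mono_of_mono_app _

/-- the faces of the image -/
def linF (L : P →o Fin (N + 1)) (j : Q →o P) : Set (Ch.{0} N) := 
  {c | (∀ v ∈ c.finset, ∃ q, L (j q) = v.down) ∧
    ∀ p q : P, ULift.up (L p) ∈ c.finset → ULift.up (L q) ∈ c.finset → L p ≤ L q → p ≤ q}

lemma faces_linF (L : P →o Fin (N + 1)) (hL : Function.Injective L) (j : Q →o P)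
    (hj : ∀ x y, j x ≤ j y → x ≤ y) :
    Faces (Subcomplex.range (psi (L.comp j))) (linF L j) := by
  refine ⟨?_, ?_⟩
  · rintro c c' h ⟨h1, h2⟩
    exact ⟨fun v hv => h1 v (h hv), fun p q hp hq => h2 p q (h hp) (h hq)⟩
  · intro m σ
    have hmem : ∀ v : ULift.{0} (Fin (N + 1)), v ∈ (chMap.{0} (stdSimplex.objEquiv σ).toOrderHom
        (chTop _)).finset ↔ ∃ i, (stdSimplex.objEquiv σ).toOrderHom i = v.down := by
      intro v
      rw [mem_chMap]
      exact ⟨fun ⟨x, _, h⟩ => ⟨x.down, h⟩, fun ⟨i, h⟩ => ⟨⟨i⟩, mem_chTop _, h⟩⟩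
    constructor
    · rintro ⟨x, rfl⟩
      refine ⟨?_, ?_⟩
      · intro v hv
        rw [hmem] at hv
        obtain ⟨i, hi⟩ := hv
        exact ⟨x.obj i, hi⟩
      · intro p q hp hq hpq
        rw [hmem] at hp hq
        obtain ⟨a, ha⟩ := hp
        obtain ⟨b, hb⟩ := hq
        have ha' : j (x.obj a) = p := hL ha
        have hb' : j (x.obj b) = q := hL hb
        obtain h | h := le_total a b
        · rw [← ha', ← hb']
          exact j.monotone (nerve_mono x h)
        · have h1 : q ≤ p := by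
            rw [← ha', ← hb']
            exact j.monotone (nerve_mono x h)
          have h2 : p = q := hL (le_antisymm hpq (L.monotone h1))
          exact h2.le
    · rintro ⟨h1, h2⟩
      have h3 : ∀ i, ∃ q, L (j q) = (stdSimplex.objEquiv σ).toOrderHom i := fun i =>
        h1 ⟨_⟩ ((hmem _).2 ⟨i, rfl⟩)
      choose x hx using h3
      refine ⟨nmk (P := Q) (m := m) x ?_, ?_⟩
      · intro a b hab
        apply hj
        apply h2
        · rw [hx, hmem]
          exact ⟨a, rfl⟩
        · rw [hx, hmem]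
          exact ⟨b, rfl⟩
        · rw [hx, hx]
          exact (stdSimplex.objEquiv σ).toOrderHom.monotone hab
      · apply std_ext
        intro i
        exact hx i

lemma linF_sub (L : P →o Fin (N + 1)) (j : Q →o P) :
    linF L j ⊆ linF L (OrderHom.id : P →o P) :=
  fun _ h => ⟨fun v hv => (h.1 v hv).imp' j fun _ h => h, h.2⟩

lemma range_sub (L : P →o Fin (N + 1)) (j : Q →o P) :
    Subcomplex.range (psi (L.comp j)) ≤ Subcomplex.range (psi (L.comp (OrderHom.id : P →o P))) := by
  rintro m _ ⟨x, rfl⟩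
  exact ⟨(nm j).app m x, rfl⟩

/-- The nerve of `j` as an inclusion of subcomplexes of the simplex. -/
noncomputable def rangeArrowIso (L : P →o Fin (N + 1)) (hL : Function.Injective L) (j : Q →o P)
    (hj : ∀ x y, j x ≤ j y → x ≤ y) :
    Arrow.mk (nm j) ≅ Arrow.mk (Subcomplex.homOfLE (range_sub L j)) := by
  have : Mono (psi (L.comp j)) := psi_mono _ (hL.comp fun x y h =>
    le_antisymm (hj _ _ h.le) (hj _ _ h.ge))
  have : Mono (psi (L.comp (OrderHom.id : P →o P))) := psi_mono _ hL
  exact Arrow.isoMk (asIso (Subcomplex.toRange (psi (L.comp j))))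
    (asIso (Subcomplex.toRange (psi (L.comp (OrderHom.id : P →o P))))) rfl

/-- The subdivision of the nerve of an inclusion of finite posets. -/
noncomputable def sdNmArrowIso (L : P →o Fin (N + 1)) (hL : Function.Injective L) (j : Q →o P)
    (hj : ∀ x y, j x ≤ j y → x ≤ y) :
    Arrow.mk (sd.map (nm j)) ≅ Arrow.mk (nm (incF (linF_sub L j))) :=
  sd.mapArrow.mapIso (rangeArrowIso L hL j hj) ≪≫
    sdArrowIso (faces_linF L hL j hj) (faces_linF L hL _ fun _ _ h => h) _ (range_sub L j)

/-- The faces of the smaller poset as a lower set. -/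
def linLower (L : P →o Fin (N + 1)) (j : Q →o P) :
    LowerSet (linF L (OrderHom.id : P →o P)) where
  carrier := {b | b.1 ∈ linF L j}
  lower' := fun _ _ h h' => ⟨fun v hv => h'.1 v (h hv), fun p q hp hq => h'.2 p q (h hp) (h hq)⟩

lemma dwyer_linLower (L : P →o Fin (N + 1)) (j : Q →o P) : Dwyer (linLower L j) := by
  classical
  rintro ⟨b, hb⟩ _
  let r : Finset (ULift.{0} (Fin (N + 1))) := b.finset.filter (fun v => ∃ q, L (j q) = v.down)
  by_cases hr : r.Nonempty
  · refine Or.inr ⟨⟨chMk r hr, ?_⟩, ?_, ?_, ?_⟩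
    · refine ⟨fun v hv => ?_, fun p q hp hq => ?_⟩
      · exact hb.1 v (Finset.mem_filter.1 hv).1
      · exact hb.2 p q (Finset.mem_filter.1 hp).1 (Finset.mem_filter.1 hq).1
    · refine ⟨fun v hv => ?_, fun p q hp hq => ?_⟩
      · exact (Finset.mem_filter.1 hv).2
      · exact hb.2 p q (Finset.mem_filter.1 hp).1 (Finset.mem_filter.1 hq).1
    · intro v hv
      exact (Finset.mem_filter.1 hv).1
    · rintro ⟨a, ha⟩ ha' hab v hv
      exact Finset.mem_filter.2 ⟨hab hv, ha'.1 v hv⟩
  · refine Or.inl ?_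
    rintro ⟨a, ha⟩ ha' hab
    obtain ⟨v, hv⟩ := a.nonempty
    exact hr ⟨v, Finset.mem_filter.2 ⟨hab hv, ha'.1 v hv⟩⟩

/-- comparison of the two nerves -/
def nerveIso {Q Q' : Type} [PartialOrder Q] [PartialOrder Q'] (e : Q ≃o Q') :
    nerve Q ≅ pNerve Q' where
  hom := { app := fun m => TypeCat.ofHom fun x =>
             ⟨fun i => e (x.obj i), fun _ _ h => e.monotone (nerve_mono x h)⟩
           naturality := fun _ _ _ => rfl }
  inv := { app := fun m => TypeCat.ofHom fun x =>
             nmk (m := m) (fun i => e.symm (OrderHom.toFun x i))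
               fun _ _ h => e.symm.monotone (OrderHom.monotone' x h)
           naturality := fun _ _ _ => rfl }
  hom_inv_id := by
    apply ss_ext
    intro m x
    apply nerve_ext (P := Q)
    intro i
    exact e.symm_apply_apply _
  inv_hom_id := by
    apply ss_ext
    intro m x
    apply OrderHom.ext
    funext i
    exact e.apply_symm_apply _

/-- The lower set as a poset. -/
def lowerIso (L : P →o Fin (N + 1)) (j : Q →o P) : linF L j ≃o linLower L j where
  toFun c := ⟨⟨c.1, linF_sub L j c.2⟩, c.2⟩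
  invFun c := ⟨c.1.1, c.2⟩
  left_inv _ := rfl
  right_inv _ := rfl
  map_rel_iff' := Iff.rfl

/-- comparison -/
noncomputable def lowerArrowIso (L : P →o Fin (N + 1)) (j : Q →o P) :
    Arrow.mk (nm (incF (linF_sub L j))) ≅ Arrow.mk (pNerveMap (lowerVal (linLower L j))) :=
  Arrow.isoMk (nerveIso (lowerIso L j)) (nerveIso (OrderIso.refl _)) rfl

instance : Finite (Ch.{0} N) :=
  Finite.of_injective (fun c => c.finset) fun _ _ h => PartialOrder.NonemptyFiniteChains.ext h

end lin

/-- The inclusion of a subcomplex as an inclusion of subcomplexes. -/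
noncomputable def iotaArrowIso {X : SSet.{0}} (K : X.Subcomplex) :
    Arrow.mk K.ι ≅ Arrow.mk (Subcomplex.homOfLE (le_top : K ≤ ⊤)) :=
  Arrow.isoMk (Iso.refl _) (Subcomplex.topIso X).symm (by
    rw [← cancel_mono (Subcomplex.topIso X).hom]
    rfl)

/-- the faces of a subcomplex -/
def facesOf {m : ℕ} (K : (Δ[m] : SSet.{0}).Subcomplex) : Set (Ch.{0} m) :=
  {c | ∀ (l : SimplexCategoryᵒᵖ) (σ : (Δ[m] : SSet.{0}).obj l),
    chMap (SSet.stdSimplex.objEquiv σ).toOrderHom (chTop _) ≤ c → σ ∈ K.obj l}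

lemma mem_of_image_le {m : ℕ} (K : (Δ[m] : SSet.{0}).Subcomplex) {l l' : SimplexCategoryᵒᵖ}
    (σ : (Δ[m] : SSet.{0}).obj l) (σ' : (Δ[m] : SSet.{0}).obj l') (hσ : σ ∈ K.obj l)
    (h : chMap.{0} (SSet.stdSimplex.objEquiv σ').toOrderHom (chTop _) ≤
      chMap.{0} (SSet.stdSimplex.objEquiv σ).toOrderHom (chTop _)) : σ' ∈ K.obj l' := by
  classical
  have h1 : ∀ i, ∃ t, (SSet.stdSimplex.objEquiv σ).toOrderHom t =
      (SSet.stdSimplex.objEquiv σ').toOrderHom i := by
    intro i
    have h2 : (ULift.up ((SSet.stdSimplex.objEquiv σ').toOrderHom i)) ∈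
      (chMap.{0} (SSet.stdSimplex.objEquiv σ').toOrderHom (chTop _)).finset :=
        (mem_chMap _ _ _).2 ⟨⟨i⟩, mem_chTop _, rfl⟩
    obtain ⟨t, -, ht⟩ := (mem_chMap _ _ _).1 (h h2)
    exact ⟨t.down, ht⟩
  let t : Fin (m + 1) → Fin (l.unop.len + 1) := fun v =>
    if h : ∃ t, (SSet.stdSimplex.objEquiv σ).toOrderHom t = v then h.choose else 0
  have ht : ∀ i, (SSet.stdSimplex.objEquiv σ).toOrderHom
      (t ((SSet.stdSimplex.objEquiv σ').toOrderHom i)) =
        (SSet.stdSimplex.objEquiv σ').toOrderHom i := by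
    intro i
    simp only [t, dif_pos (h1 i)]
    exact (h1 i).choose_spec
  let θ : Fin (l'.unop.len + 1) →o Fin (l.unop.len + 1) :=
    { toFun := fun i => t ((SSet.stdSimplex.objEquiv σ').toOrderHom i)
      monotone' := by
        intro a b hab
        by_contra hcon
        rw [not_le] at hcon
        have h3 := (SSet.stdSimplex.objEquiv σ).toOrderHom.monotone hcon.le
        rw [ht, ht] at h3
        have h4 := le_antisymm h3 ((SSet.stdSimplex.objEquiv σ').toOrderHom.monotone hab)
        exact hcon.ne (congrArg t h4) }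
  let Θ : l'.unop ⟶ l.unop := SimplexCategory.Hom.mk θ
  have h5 : σ' = (Δ[m] : SSet.{0}).map Θ.op σ := by
    apply std_ext
    intro i
    exact (ht i).symm
  rw [h5]
  exact K.map _ hσ

lemma faces_facesOf {m : ℕ} (K : (Δ[m] : SSet.{0}).Subcomplex) : Faces K (facesOf K) :=
  ⟨fun _ _ h hc l σ hσ => hc l σ (hσ.trans h),
    fun σ => ⟨fun hσ _ σ' h => mem_of_image_le K σ σ' hσ h, fun h => h _ σ le_rfl⟩⟩

lemma facesOf_mono {m : ℕ} {K K' : (Δ[m] : SSet.{0}).Subcomplex} (h : K ≤ K') :
    facesOf K ⊆ facesOf K' := fun _ hc l σ hσ => h _ (hc l σ hσ)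

theorem sdsd_dwyer (m : ℕ) (K : (Δ[m] : SSet.{0}).Subcomplex) :
    ∃ (B : Type) (_ : PartialOrder B) (_ : Finite B) (A : LowerSet B), Dwyer A ∧
      Nonempty (Arrow.mk (SSet.sd.map (SSet.sd.map K.ι)) ≅
        Arrow.mk (pNerveMap (lowerVal A))) := by
  let P : Type := facesOf (⊤ : (Δ[m] : SSet.{0}).Subcomplex)
  have : Nonempty P := ⟨⟨chTop m, fun _ _ _ => trivial⟩⟩
  obtain ⟨N, L, hL⟩ := exists_lin P
  let j : facesOf K →o P := incF (facesOf_mono le_top)
  refine ⟨_, inferInstance, inferInstance, linLower L j, dwyer_linLower L j, ⟨?_⟩⟩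
  let e1 : Arrow.mk (sd.map K.ι) ≅ Arrow.mk (nm j) :=
    sd.mapArrow.mapIso (iotaArrowIso K) ≪≫ sdArrowIso (faces_facesOf K) (faces_facesOf ⊤) _ le_top
  exact sd.mapArrow.mapIso e1 ≪≫ sdNmArrowIso L hL j (fun _ _ h => h) ≪≫ lowerArrowIso L j

end Vale.Agent.P213
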