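import Vale.Agent.Lib.P213.KeyUnit
import Vale.Agent.Lib.P213.SSExWeq
import Vale.Agent.Lib.P213.SdDwyer

/-! # P213: the key lemma for `c_n Sd²` of inclusions of subcomplexes of simplices -/

open CategoryTheory Limits Simplicial

namespace Vale.Agent.P213

variable {n : ℕ∞} (hn : 1 ≤ n) {c : SSet.{0} ⥤ NCat n} (adj : c ⊣ streetNerve n)

include hn adj in
lemma mono_N_lowerVal {B : Type} [PartialOrder B] (A : LowerSet B) :
    Mono ((streetNerve n).map (c.map (pNerveMap (lowerVal A)))) := by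
  let τ : ↥(⊤ : LowerSet B) →o B := lowerVal ⊤
  let τ' : B →o ↥(⊤ : LowerSet B) := ⟨fun y => ⟨y, trivial⟩, fun _ _ h => h⟩
  have hi : IsIso (pNerveMap τ) := ⟨pNerveMap τ', rfl, rfl⟩
  have e : (streetNerve n).map (c.map (pNerveMap (lowerVal A))) =
      NOm c (le_top : A ≤ ⊤) ≫ (streetNerve n).map (c.map (pNerveMap τ)) := by
    rw [← (streetNerve n).map_comp, ← c.map_comp, pNerveMap_comp]
    rfl
  rw [e]
  have := NOm_mono hn adj (le_top : A ≤ ⊤)
  exact mono_comp _ _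

include hn adj in
lemma weq_N_lowerVal {B : Type} [PartialOrder B] [Finite B] (A : LowerSet B)
    (hw : WeakEq (pNerveMap (lowerVal A))) :
    WeakEq ((streetNerve n).map (c.map (pNerveMap (lowerVal A)))) := by
  have e : adj.unit.app (pNerve A) ≫ (streetNerve n).map (c.map (pNerveMap (lowerVal A))) =
      pNerveMap (lowerVal A) ≫ adj.unit.app (pNerve B) :=
    (adj.unit.naturality (pNerveMap (lowerVal A))).symm
  refine SS.weq.of_precomp _ _ (show SS.weq _ from unit_lower hn adj A) ?_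
  rw [e]
  exact SS.weq.comp_mem _ _ hw (unit_poset hn adj B)

include hn adj in
/-- Pushouts of `c N A ⟶ c N B` when `N A ⟶ N B` is a weak equivalence. -/
theorem poset_pushout_weq {B : Type} [PartialOrder B] [Finite B] (A : LowerSet B) (hA : Dwyer A)
    (hw : WeakEq (pNerveMap (lowerVal A)))
    {C D : NCat n} (f : c.obj (pNerve A) ⟶ C) (g : c.obj (pNerve B) ⟶ D) (j : C ⟶ D)
    (sq : IsPushout f (c.map (pNerveMap (lowerVal A))) j g) :
    Mono ((streetNerve n).map j) ∧ WeakEq ((streetNerve n).map j) := by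
  have sq' := IsPushout.of_hasPushout ((streetNerve n).map f)
    ((streetNerve n).map (c.map (pNerveMap (lowerVal A))))
  obtain ⟨h1, h2⟩ := key_lemma hn adj A hA f g j sq _ _ sq'
  refine ⟨h1, ?_⟩
  have h3 : SS.tcof ((streetNerve n).map (c.map (pNerveMap (lowerVal A)))) :=
    ⟨mono_N_lowerVal hn adj A, weq_N_lowerVal hn adj A hw⟩
  have h4 := SS.tcof.of_isPushout sq' h3
  have e := sq'.inl_desc ((streetNerve n).map j) ((streetNerve n).map g)
    (by rw [← Functor.map_comp, ← Functor.map_comp, sq.w])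
  rw [← e]
  exact SS.weq.comp_mem _ _ h4.weq h2

/-- Transport of a pushout square along an isomorphism of arrows. -/
lemma isPushout_transport {𝒞 : Type*} [Category 𝒞] {X Y X' Y' C D : 𝒞} {i : X ⟶ Y} {i' : X' ⟶ Y'}
    (eX : X ≅ X') (eY : Y ≅ Y') (w : i ≫ eY.hom = eX.hom ≫ i')
    {f : X ⟶ C} {g : Y ⟶ D} {j : C ⟶ D} (sq : IsPushout f i j g) :
    IsPushout (eX.inv ≫ f) i' j (eY.inv ≫ g) := by
  refine IsPushout.of_iso sq eX (Iso.refl _) eY (Iso.refl _) ?_ ?_ ?_ ?_
  · simp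
  · exact w
  · simp
  · simp

variable (c)

/-- The conclusion of the key lemma for an arrow. -/
def KeyProp {X Y : SSet.{0}} (i : X ⟶ Y) : Prop :=
  ∀ {C D : NCat n} (f : c.obj X ⟶ C) (g : c.obj Y ⟶ D) (j : C ⟶ D)
    (sq : IsPushout f (c.map i) j g) {P : SSet.{0}} (a : (streetNerve n).obj C ⟶ P)
    (b : (streetNerve n).obj (c.obj Y) ⟶ P)
    (sq' : IsPushout ((streetNerve n).map f) ((streetNerve n).map (c.map i)) a b),
    Mono ((streetNerve n).map j) ∧
    WeakEq (sq'.desc ((streetNerve n).map j) ((streetNerve n).map g)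
      (by rw [← Functor.map_comp, ← Functor.map_comp, sq.w]))

variable {c}

lemma KeyProp.of_iso {X Y X' Y' : SSet.{0}} {i : X ⟶ Y} {i' : X' ⟶ Y'}
    (eX : X ≅ X') (eY : Y ≅ Y') (w : i ≫ eY.hom = eX.hom ≫ i') (h : KeyProp c i') :
    KeyProp c i := by
  intro C D f g j sq P a b sq'
  have sq2 := isPushout_transport (c.mapIso eX) (c.mapIso eY) (by
    rw [Functor.mapIso_hom, Functor.mapIso_hom, ← c.map_comp, ← c.map_comp, w]) sq
  have sq2' := isPushout_transport ((c ⋙ streetNerve n).mapIso eX)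
    ((c ⋙ streetNerve n).mapIso eY) (i' := (c ⋙ streetNerve n).map i') (by
    rw [Functor.mapIso_hom, Functor.mapIso_hom]
    change (c ⋙ streetNerve n).map i ≫ _ = _
    rw [← (c ⋙ streetNerve n).map_comp, ← (c ⋙ streetNerve n).map_comp, w]) sq'
  have e1 : ((c ⋙ streetNerve n).mapIso eX).inv ≫ (streetNerve n).map f =
      (streetNerve n).map ((c.mapIso eX).inv ≫ f) := by
    rw [(streetNerve n).map_comp]
    rfl
  rw [e1] at sq2'
  obtain ⟨h1, h2⟩ := h _ _ j sq2 _ _ sq2'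
  refine ⟨h1, ?_⟩
  convert h2 using 1
  apply sq'.hom_ext
  · rw [sq'.inl_desc, sq2'.inl_desc]
  · rw [sq'.inr_desc]
    have := sq2'.inr_desc ((streetNerve n).map j) ((streetNerve n).map ((c.mapIso eY).inv ≫ g))
      (by rw [← Functor.map_comp]
          change _ = (streetNerve n).map (c.map i') ≫ _
          rw [← Functor.map_comp, sq2.w])
    rw [← cancel_epi ((c ⋙ streetNerve n).mapIso eY).inv, ← Category.assoc]
    refine Eq.trans ?_ this.symm
    rw [(streetNerve n).map_comp]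
    rfl

include hn adj in
/-- The key lemma for `c Sd²` of the inclusion of a subcomplex of a simplex. -/
theorem key_sd (m : ℕ) (K : (Δ[m] : SSet.{0}).Subcomplex) :
    KeyProp c (SSet.sd.map (SSet.sd.map K.ι)) := by
  obtain ⟨B, _, _, A, hA, ⟨e⟩⟩ := sdsd_dwyer m K
  exact KeyProp.of_iso (Arrow.leftFunc.mapIso e) (Arrow.rightFunc.mapIso e) e.hom.w.symm
    (fun f g j sq _ a b sq' => key_lemma hn adj A hA f g j sq a b sq')

include hn adj in
/-- The unit at `Sd²` of a subcomplex of a simplex. -/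
theorem unit_sd (m : ℕ) (K : (Δ[m] : SSet.{0}).Subcomplex) :
    WeakEq (adj.unit.app (SSet.sd.obj (SSet.sd.obj (K : SSet.{0})))) ∧
    WeakEq (adj.unit.app (SSet.sd.obj (SSet.sd.obj Δ[m]))) := by
  obtain ⟨B, _, _, A, hA, ⟨e⟩⟩ := sdsd_dwyer m K
  have key : ∀ {X Y : SSet.{0}} (eX : X ≅ Y), WeakEq (adj.unit.app Y) → WeakEq (adj.unit.app X) := by
    intro X Y eX h
    have e1 : adj.unit.app X ≫ (c ⋙ streetNerve n).map eX.hom = eX.hom ≫ adj.unit.app Y :=
      (adj.unit.naturality eX.hom).symm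
    refine SS.weq.of_postcomp _ _ (SS.weq_of_isIso ((c ⋙ streetNerve n).map eX.hom)) ?_
    rw [e1]
    exact SS.weq.comp_mem _ _ (SS.weq_of_isIso _) h
  exact ⟨key (Arrow.leftFunc.mapIso e) (unit_lower hn adj A),
    key (Arrow.rightFunc.mapIso e) (unit_poset hn adj B)⟩

variable (c)

/-- All pushouts of `c.map i` have a nerve which is a trivial cofibration. -/
def PushProp {X Y : SSet.{0}} (i : X ⟶ Y) : Prop :=
  ∀ {C D : NCat n} (f : c.obj X ⟶ C) (g : c.obj Y ⟶ D) (j : C ⟶ D)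
    (_ : IsPushout f (c.map i) j g), Mono ((streetNerve n).map j) ∧ thomasonW n j

variable {c}

lemma PushProp.of_iso {X Y X' Y' : SSet.{0}} {i : X ⟶ Y} {i' : X' ⟶ Y'}
    (eX : X ≅ X') (eY : Y ≅ Y') (w : i ≫ eY.hom = eX.hom ≫ i') (h : PushProp c i') :
    PushProp c i := by
  intro C D f g j sq
  exact h _ _ j (isPushout_transport (c.mapIso eX) (c.mapIso eY) (by
    rw [Functor.mapIso_hom, Functor.mapIso_hom, ← c.map_comp, ← c.map_comp, w]) sq)

lemma weq_of_iso {X Y X' Y' : SSet.{0}} {i : X ⟶ Y} {i' : X' ⟶ Y'}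
    (eX : X ≅ X') (eY : Y ≅ Y') (w : i ≫ eY.hom = eX.hom ≫ i') (h : WeakEq i) : WeakEq i' := by
  have h1 : SS.weq (eX.hom ≫ i') := by
    rw [← w]
    exact SS.weq.comp_mem _ _ h (SS.weq_of_isIso _)
  exact SS.weq.of_precomp _ _ (SS.weq_of_isIso eX.hom) h1

include hn adj in
/-- Pushouts of `c Sd²` of a weak equivalence between a subcomplex of a simplex and the simplex. -/
theorem pushout_sd (m : ℕ) (K : (Δ[m] : SSet.{0}).Subcomplex)
    (hw : WeakEq (SSet.sd.map (SSet.sd.map K.ι))) :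
    PushProp c (SSet.sd.map (SSet.sd.map K.ι)) := by
  obtain ⟨B, _, _, A, hA, ⟨e⟩⟩ := sdsd_dwyer m K
  have hw' : WeakEq (pNerveMap (lowerVal A)) :=
    weq_of_iso (Arrow.leftFunc.mapIso e) (Arrow.rightFunc.mapIso e) e.hom.w.symm hw
  have h : PushProp c (pNerveMap (lowerVal A)) :=
    fun f g j sq => poset_pushout_weq hn adj A hA hw' f g j sq
  intro C D f g j sq
  exact PushProp.of_iso (Arrow.leftFunc.mapIso e) (Arrow.rightFunc.mapIso e) e.hom.w.symm h
    f g j sq

lemma weq_sd_sd_horn (m : ℕ) (k : Fin (m + 2)) :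
    WeakEq (SSet.sd.map (SSet.sd.map (Λ[m + 1, k] : (Δ[m + 1] : SSet.{0}).Subcomplex).ι)) :=
  (SS.weq_sd_map_iff _).mpr ((SS.weq_sd_map_iff _).mpr
    (SS.weq_of_anodyne _ (SSet.anodyneExtensions.horn_ι k)))

/-- Every pushout of `c_n Sd²` of a horn inclusion is in `W_n`, and its Street nerve is a
monomorphism. -/
theorem pushout_horn (hn : 1 ≤ n) (adj : c ⊣ streetNerve n)
    (m : ℕ) (k : Fin (m + 2)) {C D : NCat n}
    (f : c.obj (SSet.sd.obj (SSet.sd.obj (Λ[m + 1, k] : SSet.{0}))) ⟶ C)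
    (g : c.obj (SSet.sd.obj (SSet.sd.obj Δ[m + 1])) ⟶ D) (j : C ⟶ D)
    (sq : IsPushout f (c.map (SSet.sd.map (SSet.sd.map Λ[m + 1, k].ι))) j g) :
    Mono ((streetNerve n).map j) ∧ thomasonW n j :=
  pushout_sd hn adj (m + 1) Λ[m + 1, k] (weq_sd_sd_horn m k) f g j sq

end Vale.Agent.P213
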