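import Vale.Agent.Lib.P213.Key
import Vale.Agent.Lib.P213.SSPoset

/-! # P213: the unit `N P ⟶ N c (N P)` for finite posets -/

open CategoryTheory Limits Simplicial

namespace Vale.Agent.P213

section nerveIso

variable {P Q : Type} [PartialOrder P] [PartialOrder Q]

/-- Comparison with the nerve of Mathlib. -/
def toNerve (P : Type) [PartialOrder P] : pNerve P ⟶ nerve P :=
  pNerveLift (fun m σ => SS.nmk (m := Opposite.op ⦋m⦌) σ σ.monotone) (fun _ _ _ _ => rfl)

/-- Comparison with the nerve of Mathlib. -/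
def ofNerve (P : Type) [PartialOrder P] : nerve P ⟶ pNerve P where
  app m := TypeCat.ofHom fun x => (⟨x.obj, fun _ _ h => SS.nerve_mono x h⟩ :
    Fin (m.unop.len + 1) →o P)
  naturality m m' φ := by
    ext x
    rfl

lemma toNerve_ofNerve (P : Type) [PartialOrder P] : toNerve P ≫ ofNerve P = 𝟙 _ := by
  apply pNerve_hom_ext
  intro m σ
  rfl

lemma pNerveMap_eq (f : P →o Q) : pNerveMap f = toNerve P ≫ SS.nm f ≫ ofNerve Q := by
  apply pNerve_hom_ext
  intro m σ
  rfl

lemma HR_pNerveMap (f g : P →o Q) (h : ∀ x, f x ≤ g x) : SS.HR (pNerveMap f) (pNerveMap g) := by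
  rw [pNerveMap_eq, pNerveMap_eq]
  exact ((SS.HR_nm f g h).postcomp (ofNerve Q)).precomp (toNerve P)

end nerveIso

instance pNerveMap_mono {P Q : Type} [PartialOrder P] [PartialOrder Q] (f : P →o Q)
    [hf : Fact (Function.Injective f)] : Mono (pNerveMap f) := by
  rw [NatTrans.mono_iff_mono_app]
  intro m
  rw [mono_iff_injective]
  intro x y hxy
  apply OrderHom.ext
  funext i
  exact hf.1 (congrArg (fun z : Fin (m.unop.len + 1) →o Q => z i) hxy)

/-- The empty `ω`-category. -/
def emptyOmega : OmegaCat where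
  Cell := Empty
  bd _ _ x := x
  comp _ x _ := x
  bd_bd_lt _ _ x := x.elim
  bd_bd_ge _ _ x := x.elim
  bd_source_comp {_ x} := x.elim
  bd_target_comp {_ x} := x.elim
  bd_comp {_ _} _ {x} := x.elim
  comp_target _ x := x.elim
  source_comp _ x := x.elim
  comp_assoc {_ x} := x.elim
  interchange {_ _ x} := x.elim
  finite_dim x := x.elim

/-- The empty `n`-category. -/
def emptyN (n : ℕ∞) : NCat n := ⟨emptyOmega, fun _ _ x => x.elim⟩

lemma simplexBasis_zero (b b' : SimplexBasis 0) : b' = b := by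
  apply Subtype.ext
  obtain ⟨i, hi⟩ := b.2
  obtain ⟨i', hi'⟩ := b'.2
  ext j
  have e1 : j = i := Subsingleton.elim (α := Fin 1) _ _
  have e2 : j = i' := Subsingleton.elim (α := Fin 1) _ _
  exact ⟨fun _ => e1 ▸ hi, fun _ => e2 ▸ hi'⟩

lemma table_zero_x (t : Table (simplexCpx 0)) (ε : Bool) (b : (simplexCpx 0).B) :
    t.x ε b = 1 := by
  have hd : (simplexCpx 0).dim b = 0 := by
    change (b : SimplexBasis 0).1.card - 1 = 0
    have : (b : SimplexBasis 0).1.card ≤ 1 := (Finset.card_le_univ _).trans (by simp)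
    omega
  have h2 : (simplexCpx 0).aug (t.x ε) = t.x ε b := by
    unfold Cpx.aug
    refine (Finset.sum_eq_single b (fun b' _ hne => absurd (simplexBasis_zero b b') hne)
      (fun h => absurd (Finset.mem_univ _) h)).trans ?_
    rw [if_pos hd]
  rw [← h2, t.aug]

lemma table_zero_subsingleton : Subsingleton (Table (simplexCpx 0)) := by
  constructor
  intro s t
  apply Table.ext
  funext ε b
  exact (table_zero_x s ε b).trans (table_zero_x t ε b).symm

instance : Subsingleton (orientalFunctor.obj ⦋0⦌).Cell := table_zero_subsingleton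

instance (m : ℕ) : Nonempty (orientalFunctor.obj ⦋m⦌).Cell :=
  ⟨(simplexAtom ⟨{0}, Finset.singleton_nonempty 0⟩ : Table (simplexCpx m))⟩

/-- The zeroth oriental as an `n`-category. -/
noncomputable def O0 (n : ℕ∞) : NCat n :=
  ⟨orientalFunctor.obj ⦋0⦌, fun _ _ _ => Subsingleton.elim _ _⟩

section unit

variable {n : ℕ∞} {c : SSet.{0} ⥤ NCat n} (adj : c ⊣ streetNerve n)

/-- The simplices of `N c X` given by the unit. -/
noncomputable def unitAt (P : Type) [PartialOrder P] {m : ℕ} (σ : Fin (m + 1) →o P) :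
    orientalFunctor.obj ⦋m⦌ ⟶ (c.obj (pNerve P)).obj :=
  atChain (adj.unit.app (pNerve P)) σ

lemma unitAt_comp (P : Type) [PartialOrder P] {m m' : ℕ} (σ : Fin (m + 1) →o P)
    (α : Fin (m' + 1) →o Fin (m + 1)) : unitAt adj P (σ.comp α) =
      orientalFunctor.map (SimplexCategory.Hom.mk α) ≫ unitAt adj P σ :=
  atChain_comp _ σ α

include adj in
lemma subsingleton_cPt (P : Type) [PartialOrder P] [Unique P] :
    Subsingleton (c.obj (pNerve P)).obj.Cell := by
  -- the two functors
  let pt : Fin 1 →o P := ⟨fun _ => default, fun _ _ _ => le_rfl⟩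
  let z : ∀ m : ℕ, Fin (m + 1) →o Fin 1 := fun m => ⟨fun _ => 0, fun _ _ _ => le_rfl⟩
  let b : O0 n ⟶ c.obj (pNerve P) := ObjectProperty.homMk (unitAt adj P pt)
  let a' : pNerve P ⟶ (streetNerve n).obj (O0 n) :=
    pNerveLift (T := (streetNerve n).obj (O0 n))
      (fun m _ => orientalFunctor.map (SimplexCategory.Hom.mk (z m) : ⦋m⦌ ⟶ ⦋0⦌))
      (fun m m' σ α => by
        change orientalFunctor.map _ = orientalFunctor.map _ ≫ orientalFunctor.map _
        rw [← orientalFunctor.map_comp]
        rfl)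
  let a : c.obj (pNerve P) ⟶ O0 n := (adj.homEquiv _ _).symm a'
  have hab : a ≫ b = 𝟙 _ := by
    apply (adj.homEquiv _ _).injective
    rw [adj.homEquiv_naturality_right, Equiv.apply_symm_apply, adj.homEquiv_id]
    apply pNerve_hom_ext
    intro m σ
    change orientalFunctor.map (SimplexCategory.Hom.mk (z m) : ⦋m⦌ ⟶ ⦋0⦌) ≫ unitAt adj P pt =
      unitAt adj P σ
    rw [← unitAt_comp]
    congr 1
    apply OrderHom.ext
    funext i
    exact Subsingleton.elim _ _
  constructor
  intro x y
  have h : ∀ x : (c.obj (pNerve P)).obj.Cell, b.hom.toFun (a.hom.toFun x) = x := fun x => by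
    have := congrArg (fun u : c.obj (pNerve P) ⟶ c.obj (pNerve P) => u.hom.toFun x) hab
    exact this
  have h0 : a.hom.toFun x = a.hom.toFun y :=
    Subsingleton.elim (α := (orientalFunctor.obj ⦋0⦌).Cell) _ _
  rw [← h x, ← h y, h0]

include adj in
lemma isIso_unit_pt (P : Type) [PartialOrder P] [Unique P] :
    IsIso (adj.unit.app (pNerve P)) := by
  have := subsingleton_cPt adj P
  let r : (c ⋙ streetNerve n).obj (pNerve P) ⟶ pNerve P :=
    { app := fun m => TypeCat.ofHom fun _ => (⟨fun _ => default, fun _ _ _ => le_rfl⟩ :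
        Fin (m.unop.len + 1) →o P)
      naturality := fun m m' φ => by
        ext x
        rfl }
  refine ⟨r, ?_, ?_⟩
  · apply pNerve_hom_ext
    intro m σ
    apply OrderHom.ext
    funext i
    exact Subsingleton.elim _ _
  · ext m x
    apply OmegaCat.hom_ext
    intro y
    exact Subsingleton.elim (α := (c.obj (pNerve P)).obj.Cell) _ _

include adj in
lemma isIso_unit_empty (P : Type) [PartialOrder P] [IsEmpty P] :
    IsIso (adj.unit.app (pNerve P)) := by
  let a' : pNerve P ⟶ (streetNerve n).obj (emptyN n) :=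
    pNerveLift (T := (streetNerve n).obj (emptyN n)) (fun m σ => isEmptyElim (σ 0))
      (fun m m' σ α => isEmptyElim (σ 0))
  let a : c.obj (pNerve P) ⟶ emptyN n := (adj.homEquiv _ _).symm a'
  have he : IsEmpty (c.obj (pNerve P)).obj.Cell := ⟨fun x => (a.hom.toFun x : Empty).elim⟩
  have hne : ∀ m : SimplexCategoryᵒᵖ, IsEmpty (((c ⋙ streetNerve n).obj (pNerve P)).obj m) := by
    intro m
    constructor
    intro x
    obtain ⟨y⟩ := (inferInstance : Nonempty (orientalFunctor.obj ⦋m.unop.len⦌).Cell)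
    exact he.false (OmegaCat.Hom.toFun (X := orientalFunctor.obj ⦋m.unop.len⦌)
      (Y := (c.obj (pNerve P)).obj) x y)
  let r : (c ⋙ streetNerve n).obj (pNerve P) ⟶ pNerve P :=
    { app := fun m => TypeCat.ofHom fun x => ((hne m).false x).elim
      naturality := fun m m' φ => by
        ext x
        exact ((hne m).false x).elim }
  refine ⟨r, pNerve_empty_ext _ _, ?_⟩
  ext m x
  exact ((hne m).false x).elim

include adj in
/-- The unit at the nerve of a poset with a greatest element. -/
lemma unit_top_weq (P : Type) [PartialOrder P] (t : P) (ht : ∀ y, y ≤ t) :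
    WeakEq (adj.unit.app (pNerve P)) := by
  let p : P →o PUnit.{1} := ⟨fun _ => PUnit.unit, fun _ _ _ => le_rfl⟩
  let s : PUnit.{1} →o P := ⟨fun _ => t, fun _ _ _ => le_rfl⟩
  have hps : p.comp s = OrderHom.id := rfl
  -- the simplicial side
  have w1 : WeakEq (pNerveMap p) := by
    refine SS.weq_of_homotopyEquiv _ (pNerveMap s) ?_ ?_
    · rw [pNerveMap_comp, ← pNerveMap_id]
      exact (HR_pNerveMap OrderHom.id (s.comp p) (fun y => ht y)).he.symm
    · rw [pNerveMap_comp, hps, pNerveMap_id]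
      exact SS.HE.refl _
  have w2 : WeakEq ((streetNerve n).map (c.map (pNerveMap p))) := by
    refine SS.weq_of_homotopyEquiv _ ((streetNerve n).map (c.map (pNerveMap s))) ?_ ?_
    · obtain ⟨H, h0, h1, -⟩ := poset_homotopy adj (⊥ : LowerSet P) OrderHom.id (s.comp p) t
        (fun y _ => ht y) (fun y hy => absurd hy (LowerSet.notMem_bot)) (fun _ _ => rfl)
        (𝟙 (c.obj (pNerve P)))
      have := HR_of_gammaN H _ _ h0 h1
      rw [pNerveMap_id, c.map_id, Category.comp_id, Category.comp_id, (streetNerve n).map_id,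
        ← pNerveMap_comp, c.map_comp, (streetNerve n).map_comp] at this
      exact this.he.symm
    · rw [← (streetNerve n).map_comp, ← c.map_comp, pNerveMap_comp, hps, pNerveMap_id, c.map_id,
        (streetNerve n).map_id]
      exact SS.HE.refl _
  have w3 : WeakEq (adj.unit.app (pNerve PUnit.{1})) := by
    have := isIso_unit_pt adj PUnit.{1}
    exact SS.weq_of_isIso _
  have e : adj.unit.app (pNerve P) ≫ (streetNerve n).map (c.map (pNerveMap p)) =
      pNerveMap p ≫ adj.unit.app (pNerve PUnit.{1}) := (adj.unit.naturality (pNerveMap p)).symm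
  have h : SS.weq (adj.unit.app (pNerve P) ≫ (streetNerve n).map (c.map (pNerveMap p))) := by
    rw [e]
    exact SS.weq.comp_mem _ _ w1 w3
  exact SS.weq.of_postcomp _ _ (show SS.weq _ from w2) h

end unit

/-- The unit for lower sets of a finite poset. -/
theorem unit_lower {n : ℕ∞} (hn : 1 ≤ n) {c : SSet.{0} ⥤ NCat n} (adj : c ⊣ streetNerve n)
    {B : Type} [PartialOrder B] [Finite B] (B' : LowerSet B) :
    WeakEq (adj.unit.app (pNerve B')) := by
  have : Finite (LowerSet B) := Finite.of_injective (fun s : LowerSet B => (s : Set B))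
    SetLike.coe_injective
  induction B' using (Finite.to_wellFoundedLT : WellFoundedLT (LowerSet B)).induction with
  | _ B' ih =>
  by_cases hB : IsEmpty B'
  · have := isIso_unit_empty adj B'
    exact SS.weq_of_isIso _
  · rw [not_isEmpty_iff] at hB
    obtain ⟨⟨x, hx⟩⟩ := hB
    obtain ⟨b, hbB, hbmax⟩ := (Set.toFinite {y | y ∈ B'}).exists_maximal ⟨x, hx⟩
    have hb : ∀ y ∈ B', b ≤ y → y = b := fun y hy hby => le_antisymm (hbmax hy hby) hby
    let B₁ := removeMax B' b hb
    let B₂ := LowerSet.Iic b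
    have hlt : B₁ < B' := by
      refine lt_of_le_of_ne (fun y hy => hy.1) ?_
      intro heq
      have : b ∈ B₁ := by rw [heq]; exact hbB
      exact this.2 rfl
    have hsup : B₁ ⊔ B₂ = B' := by
      apply le_antisymm
      · refine sup_le hlt.le ?_
        rintro y hy
        exact B'.lower hy hbB
      · intro y hy
        by_cases hyb : y = b
        · subst hyb
          exact LowerSet.mem_sup_iff.mpr (Or.inr (LowerSet.mem_Iic_iff.mpr le_rfl))
        · exact LowerSet.mem_sup_iff.mpr (Or.inl ⟨hy, hyb⟩)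
    have w₁ := ih B₁ hlt
    have w₀ := ih (B₁ ⊓ B₂) (lt_of_le_of_lt inf_le_left hlt)
    have w₂ : WeakEq (adj.unit.app (pNerve B₂)) :=
      unit_top_weq adj B₂ ⟨b, LowerSet.mem_Iic_iff.mpr le_rfl⟩
        (fun y => LowerSet.mem_Iic_iff.mp y.2)
    have : Fact (Function.Injective (lowerIncl (inf_le_left : B₁ ⊓ B₂ ≤ B₁))) :=
      ⟨fun y z h => Subtype.ext (show y.1 = z.1 from congrArg (fun w : B₁ => w.1) h)⟩
    have := NOm_mono hn adj (inf_le_left : B₁ ⊓ B₂ ≤ B₁)
    have key : WeakEq (adj.unit.app (pNerve ↥(B₁ ⊔ B₂))) :=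
      SS.gluing (pNerve_isPushout B₁ B₂) (NO_isPushout hn adj B₁ B₂)
        (adj.unit.app _) (adj.unit.app _) (adj.unit.app _) (adj.unit.app _)
        (adj.unit.naturality _) (adj.unit.naturality _) (adj.unit.naturality _)
        (adj.unit.naturality _) w₀ w₁ w₂
    rw [hsup] at key
    exact key

/-- The unit `N P ⟶ N c (N P)` is a weak equivalence for every finite poset `P`. -/
theorem unit_poset {n : ℕ∞} (hn : 1 ≤ n) {c : SSet.{0} ⥤ NCat n} (adj : c ⊣ streetNerve n)
    (B : Type) [PartialOrder B] [Finite B] : WeakEq (adj.unit.app (pNerve B)) := by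
  have w := unit_lower hn adj (⊤ : LowerSet B)
  let τ : ↥(⊤ : LowerSet B) →o B := lowerVal ⊤
  let τ' : B →o ↥(⊤ : LowerSet B) := ⟨fun y => ⟨y, trivial⟩, fun _ _ h => h⟩
  have hi : IsIso (pNerveMap τ) := ⟨pNerveMap τ', rfl, rfl⟩
  have e : pNerveMap τ ≫ adj.unit.app (pNerve B) =
      adj.unit.app (pNerve ↥(⊤ : LowerSet B)) ≫ (streetNerve n).map (c.map (pNerveMap τ)) :=
    adj.unit.naturality (pNerveMap τ)
  refine SS.weq.of_precomp _ _ (SS.weq_of_isIso (pNerveMap τ)) ?_
  rw [e]
  exact SS.weq.comp_mem _ _ w (SS.weq_of_isIso _)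

end Vale.Agent.P213
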