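import Vale.Agent.Lib.P213.Colim
import Vale.Agent.Lib.P213.CellCoprod
import Vale.Agent.Lib.P213.ExFilt
import Vale.Agent.Lib.P213.SSTriv

/-!
# P213, module T7a: the transferred model structure
-/

open CategoryTheory Limits Simplicial HomotopicalAlgebra MorphismProperty Opposite
open SSet SSet.modelCategoryQuillen

namespace Vale.Agent.P213

namespace Model

variable {n : ℕ∞} {c : SSet.{0} ⥤ NCat n} (adj : c ⊣ streetNerve n)

/-- The functor `c Sd²`. -/
noncomputable abbrev cSd (c : SSet.{0} ⥤ NCat n) : SSet.{0} ⥤ NCat n := SSet.sd ⋙ SSet.sd ⋙ c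

/-- The adjunction `c Sd² ⊣ Ex² N`. -/
noncomputable def adj₂ : cSd c ⊣ exExNerve n :=
  SSet.sdExAdjunction.comp (SSet.sdExAdjunction.comp adj)

variable (c) in
/-- The generating cofibrations. -/
def Icell : MorphismProperty (NCat n) :=
  .ofHoms (fun m : ℕ => (cSd c).map (boundary.{0} m).ι)

variable (c) in
/-- The generating trivial cofibrations. -/
def Jcell : MorphismProperty (NCat n) :=
  .ofHoms (fun p : (Σ m : ℕ, Fin (m + 2)) => (cSd c).map (horn.{0} (p.1 + 1) p.2).ι)

lemma Jcell_mem (m : ℕ) (i : Fin (m + 2)) :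
    Jcell c ((cSd c).map (horn.{0} (m + 1) i).ι) :=
  ofHoms.mk (f := fun p : (Σ m : ℕ, Fin (m + 2)) => (cSd c).map (horn.{0} (p.1 + 1) p.2).ι) ⟨m, i⟩

include adj in
lemma Icell_rlp_iff {X Y : NCat n} (p : X ⟶ Y) :
    (Icell c).rlp p ↔ I.rlp ((exExNerve n).map p) := by
  constructor
  · rintro h _ _ _ ⟨m⟩
    exact ((adj₂ adj).hasLiftingProperty_iff _ _).mp (h _ ⟨m⟩)
  · rintro h _ _ _ ⟨m⟩
    exact ((adj₂ adj).hasLiftingProperty_iff _ _).mpr (h _ ⟨m⟩)

include adj in
lemma Jcell_rlp_iff {X Y : NCat n} (p : X ⟶ Y) :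
    (Jcell c).rlp p ↔ J.rlp ((exExNerve n).map p) := by
  constructor
  · intro h _ _ _ hi
    simp only [J, iSup_iff] at hi
    obtain ⟨m, ⟨i⟩⟩ := hi
    exact ((adj₂ adj).hasLiftingProperty_iff _ _).mp (h _ (Jcell_mem m i))
  · rintro h _ _ _ ⟨⟨m, i⟩⟩
    exact ((adj₂ adj).hasLiftingProperty_iff _ _).mpr (h _ (horn_ι_mem_J _ _))

lemma Jcell_rlp (hc : c ⊣ streetNerve n) : (Jcell c).rlp = thomasonF n := by
  ext X Y p
  exact Jcell_rlp_iff hc p

instance exExNerve_preservesFiltered (K : Type) [SmallCategory K] [IsFiltered K] :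
    PreservesColimitsOfShape K (exExNerve n) := by
  unfold exExNerve
  infer_instance

attribute [local instance] Cardinal.fact_isRegular_aleph0
  Cardinal.orderBotAleph0OrdToType

instance : (exExNerve n).IsCardinalAccessible Cardinal.aleph0.{0} where
  preservesColimitOfShape K _ hK := by
    have : IsFiltered K := (isCardinalFiltered_aleph0_iff.{0} K).mp hK
    infer_instance

include adj in
lemma cSd_presentable (A : SSet.{0}) [A.Finite] : IsFinitelyPresentable.{0} ((cSd c).obj A) :=
  (adj₂ adj).isCardinalPresentable_leftAdjoint_obj Cardinal.aleph0.{0} A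

include adj in
lemma Icell_hasSmallObjectArgument : HasSmallObjectArgument.{0} (Icell c) := by
  have h : IsCardinalForSmallObjectArgument (Icell c) Cardinal.aleph0.{0} :=
    { isSmall := isSmall_ofHoms ..
      preservesColimit := by
        intro A B X Y i hi f hf
        have : IsFinitelyPresentable.{0} A := by
          obtain ⟨m⟩ := hi
          exact cSd_presentable adj _
        infer_instance }
  exact ⟨.aleph0, inferInstance, inferInstance, h⟩

include adj in
lemma Jcell_hasSmallObjectArgument : HasSmallObjectArgument.{0} (Jcell c) := by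
  have h : IsCardinalForSmallObjectArgument (Jcell c) Cardinal.aleph0.{0} :=
    { isSmall := isSmall_ofHoms ..
      preservesColimit := by
        intro A B X Y i hi f hf
        have : IsFinitelyPresentable.{0} A := by
          obtain ⟨m⟩ := hi
          exact cSd_presentable adj _
        infer_instance }
  exact ⟨.aleph0, inferInstance, inferInstance, h⟩

instance (K : Type) [LinearOrder K] [SuccOrder K] [OrderBot K] [WellFoundedLT K] :
    PreservesWellOrderContinuousOfShape K (streetNerve n) where
  preservesColimitsOfShape j hj := by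
    have : Nonempty (Set.Iio j) := ⟨⟨⊥, Order.IsSuccLimit.bot_lt hj⟩⟩
    infer_instance

/-- The maps of `n`-categories whose Street nerve is a monomorphism and a weak equivalence. -/
def NTcof (n : ℕ∞) : MorphismProperty (NCat n) := SS.tcof.{0}.inverseImage (streetNerve n)

instance : IsStableUnderTransfiniteComposition.{0} (NTcof n) where
  isStableUnderTransfiniteCompositionOfShape K _ _ _ _ := ⟨by
    intro X Y f hf
    exact SS.tcof.transfiniteCompositionsOfShape_le K _
      (transfiniteCompositionsOfShape_map_of_preserves _ (streetNerve n) f hf)⟩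

/-- The hypothesis: pushouts of `c Sd²(horn)`. -/
def PushHorn (c : SSet.{0} ⥤ NCat n) : Prop :=
  ∀ (m : ℕ) (k : Fin (m + 2)) {C D : NCat n}
    (f : c.obj (SSet.sd.obj (SSet.sd.obj (Λ[m + 1, k] : SSet.{0}))) ⟶ C)
    (g : c.obj (SSet.sd.obj (SSet.sd.obj Δ[m + 1])) ⟶ D) (j : C ⟶ D)
    (_ : IsPushout f (c.map (SSet.sd.map (SSet.sd.map Λ[m + 1, k].ι))) j g),
    Mono ((streetNerve n).map j) ∧ thomasonW n j

lemma Jcell_le (hpush : PushHorn c) : Jcell c ≤ Cell.pushoutCore (NTcof n) := by
  rintro _ _ _ ⟨⟨m, k⟩⟩ X' Y' x y f' sq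
  exact hpush m k x y f' sq

instance : IsStableUnderCoproducts.{0} (Cell.pushoutCore (NTcof n)) :=
  Cell.isStableUnderCoproducts_of_transfinite _

include adj in
lemma llp_rlp_Jcell_le (hpush : PushHorn c) : (Jcell c).rlp.llp ≤ NTcof n := by
  have := Jcell_hasSmallObjectArgument adj
  rw [llp_rlp_of_hasSmallObjectArgument]
  have : (NTcof n).IsStableUnderRetracts := by
    unfold NTcof
    infer_instance
  refine (retracts_monotone ?_).trans (retracts_le (NTcof n))
  refine le_trans ?_ (transfiniteCompositions_le.{0} (NTcof n))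
  apply transfiniteCompositions_monotone
  refine le_trans ?_ (Cell.pushoutCore_le (NTcof n))
  rw [pushouts_le_iff]
  refine le_trans ?_ (coproducts_le.{0} (Cell.pushoutCore (NTcof n)))
  exact coproducts_monotone (Jcell_le hpush)

include adj in
/-- The transferred model structure, from the three inputs. -/
theorem exists_modelCategory (hpush : PushHorn c)
    (hEx : ∀ {X Y : SSet.{0}} (f : X ⟶ Y), WeakEq (SSet.ex.map f) ↔ WeakEq f)
    (htriv : ∀ {X Y : SSet.{0}} (p : X ⟶ Y), I.rlp p ↔ J.rlp p ∧ WeakEq p) :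
    ∃ M : ModelCategory (NCat n), (weakEquivalences (NCat n)) = thomasonW n ∧
      fibrations (NCat n) = thomasonF n ∧ cofibrations (NCat n) = thomasonC n := by
  have hI := Icell_hasSmallObjectArgument adj
  have hJ := Jcell_hasSmallObjectArgument adj
  have hIrlp : (Icell c).rlp = thomasonF n ⊓ thomasonW n := by
    ext X Y p
    rw [Icell_rlp_iff adj p, htriv]
    refine and_congr Iff.rfl ?_
    exact (hEx _).trans (hEx _)
  have hJrlp : (Jcell c).rlp = thomasonF n := Jcell_rlp adj
  have hC : thomasonC n = (Icell c).rlp.llp := by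
    rw [hIrlp]
    rfl
  let _ : CategoryWithFibrations (NCat n) := ⟨thomasonF n⟩
  let _ : CategoryWithCofibrations (NCat n) := ⟨thomasonC n⟩
  let _ : CategoryWithWeakEquivalences (NCat n) := ⟨thomasonW n⟩
  have h2of3 : (weakEquivalences (NCat n)).HasTwoOutOfThreeProperty :=
    inferInstanceAs ((SS.weq.{0}.inverseImage (streetNerve n)).HasTwoOutOfThreeProperty)
  have hTC : trivialCofibrations (NCat n) = (Jcell c).rlp.llp := by
    apply le_antisymm
    · rintro X Y f ⟨hf1, hf2⟩
      let d := factorizationData (Jcell c).rlp.llp (Jcell c).rlp f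
      have h1 : weakEquivalences (NCat n) d.i := (llp_rlp_Jcell_le adj hpush _ d.hi).2
      have h2 : weakEquivalences (NCat n) d.p := by
        have h3 : weakEquivalences (NCat n) (d.i ≫ d.p) := by
          rw [d.fac]
          exact hf2
        exact (weakEquivalences (NCat n)).of_precomp _ _ h1 h3
      have h4 : thomasonF n d.p := by
        rw [← hJrlp]
        exact d.hp
      have h5 : HasLiftingProperty f d.p := hf1 _ ⟨h4, h2⟩
      have h6 : RetractArrow f d.i := RetractArrow.ofLeftLiftingProperty d.fac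
      exact (Jcell c).rlp.llp.of_retract h6 d.hi
    · intro X Y f hf
      refine ⟨?_, (llp_rlp_Jcell_le adj hpush _ hf).2⟩
      have h1 : (Icell c).rlp ≤ (Jcell c).rlp := by
        rw [hIrlp, hJrlp]
        exact inf_le_left
      change thomasonC n f
      rw [hC]
      exact antitone_llp h1 _ hf
  have hTF : trivialFibrations (NCat n) = (Icell c).rlp := hIrlp.symm
  have hCC : cofibrations (NCat n) = (Icell c).rlp.llp := hC
  have hFF : fibrations (NCat n) = (Jcell c).rlp := hJrlp.symm
  have wfs1 : IsWeakFactorizationSystem (cofibrations (NCat n)) (trivialFibrations (NCat n)) := by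
    rw [hTF, hCC]
    exact { rlp := rlp_llp_rlp _, llp := rfl }
  have wfs2 : IsWeakFactorizationSystem (trivialCofibrations (NCat n)) (fibrations (NCat n)) := by
    rw [hTC, hFF]
    exact { rlp := rlp_llp_rlp _, llp := rfl }
  exact ⟨ModelCategory.mk' (NCat n), rfl, rfl, rfl⟩

end Model

end Vale.Agent.P213
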