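import Vale.Agent.Lib.P213.TensorMap

/-! # The prism of a table: a cell of `nu (K ⊗ I)` for each cell of `nu K` -/

open CategoryTheory

namespace Vale.Agent.P213

/-- The chains of the prism `t ⊗ e` of a table. -/
def prismX {K : Cpx} (t : Table K) (ε : Bool) : TensorBasis K → ℕ
  | Sum.inl (b, i) => if i = (ε ^^ decide (K.dim b % 2 = 1)) then t.x ε b else 0
  | Sum.inr b => t.x ε b

@[simp] lemma prismX_inl {K : Cpx} (t : Table K) (ε : Bool) (b : K.B) (i : Bool) :
    prismX t ε (Sum.inl (b, i)) =
      if i = (ε ^^ decide (K.dim b % 2 = 1)) then t.x ε b else 0 := rfl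

@[simp] lemma prismX_inr {K : Cpx} (t : Table K) (ε : Bool) (b : K.B) :
    prismX t ε (Sum.inr b) = t.x ε b := rfl

/-- The prism `t ⊗ e` of a table `t`. -/
def Table.prism {K : Cpx} (t : Table K) : Table (tensorI K) where
  x := prismX t
  aug ε := by
    unfold Cpx.aug
    rw [sum_tensorI]
    have h0 := t.aug ε
    unfold Cpx.aug at h0
    have h : ∀ i : Bool, (∑ b : K.B, if (tensorI K).dim (Sum.inl (b, i)) = 0 then
        prismX t ε (Sum.inl (b, i)) else 0) = if i = ε then 1 else 0 := by
      intro i
      by_cases hi : i = ε
      · rw [if_pos hi, ← h0]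
        refine Finset.sum_congr rfl fun b _ => ?_
        simp only [tensorI_dim_inl, prismX_inl]
        by_cases hb : K.dim b = 0
        · simp [hb, hi]
        · simp [hb]
      · rw [if_neg hi]
        refine Finset.sum_eq_zero fun b _ => ?_
        simp only [tensorI_dim_inl, prismX_inl]
        by_cases hb : K.dim b = 0
        · simp [hb, hi]
        · simp [hb]
    rw [h, h]
    have h2 : (∑ b : K.B, if (tensorI K).dim (Sum.inr b) = 0 then
        prismX t ε (Sum.inr b) else 0) = 0 := by
      refine Finset.sum_eq_zero fun b _ => ?_
      simp
    rw [h2]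
    cases ε <;> simp
  bd ε c := by
    unfold Cpx.bdry
    rw [sum_tensorI]
    rcases c with ⟨a, j⟩ | a
    · have h0 := t.bd ε a
      unfold Cpx.bdry at h0
      have h1 : ∀ i : Bool, (∑ b : K.B, (prismX t ε (Sum.inl (b, i)) : ℤ) *
          (tensorI K).bd (Sum.inl (b, i)) (Sum.inl (a, j))) =
          if i = j ∧ i = !(ε ^^ decide (K.dim a % 2 = 1)) then
            (t.x true a : ℤ) - t.x false a else 0 := by
        intro i
        by_cases hi : i = j ∧ i = !(ε ^^ decide (K.dim a % 2 = 1))
        · rw [if_pos hi, ← h0]
          refine Finset.sum_congr rfl fun b _ => ?_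
          simp only [tensorI_bd_inl_inl, prismX_inl, if_pos hi.1]
          by_cases hb : K.bd b a = 0
          · simp [hb]
          · have hd := K.dim_of_bd b a hb
            have hpar : decide (K.dim b % 2 = 1) = !decide (K.dim a % 2 = 1) := by
              rcases Nat.mod_two_eq_zero_or_one (K.dim a) with h | h
              · have : K.dim b % 2 = 1 := by omega
                simp [h, this]
              · have : K.dim b % 2 = 0 := by omega
                simp [h, this]
            rw [hpar, if_pos]
            rw [hi.2]
            cases ε <;> cases decide (K.dim a % 2 = 1) <;> rfl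
        · rw [if_neg hi]
          refine Finset.sum_eq_zero fun b _ => ?_
          simp only [tensorI_bd_inl_inl, prismX_inl]
          by_cases hij : i = j
          · rw [if_pos hij]
            by_cases hb : K.bd b a = 0
            · simp [hb]
            · have hd := K.dim_of_bd b a hb
              have hpar : decide (K.dim b % 2 = 1) = !decide (K.dim a % 2 = 1) := by
                rcases Nat.mod_two_eq_zero_or_one (K.dim a) with h | h
                · have : K.dim b % 2 = 1 := by omega
                  simp [h, this]
                · have : K.dim b % 2 = 0 := by omega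
                  simp [h, this]
              rw [hpar, if_neg]
              · simp
              · intro h
                apply hi
                refine ⟨hij, ?_⟩
                rw [h]
                cases ε <;> cases decide (K.dim a % 2 = 1) <;> rfl
          · rw [if_neg hij]
            simp
      have h2 : (∑ b : K.B, (prismX t ε (Sum.inr b) : ℤ) *
          (tensorI K).bd (Sum.inr b) (Sum.inl (a, j))) =
          (t.x ε a : ℤ) * ((-1) ^ (K.dim a) * (if j then 1 else -1)) := by
        rw [Finset.sum_eq_single a]
        · simp
        · intro b _ hb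
          rw [tensorI_bd_inr_inl, if_neg (fun h => hb h.symm), mul_zero]
        · intro h
          exact absurd (Finset.mem_univ _) h
      rw [h1, h1, h2]
      simp only [prismX_inl]
      rcases Nat.mod_two_eq_zero_or_one (K.dim a) with h | h
      · have hp : (-1 : ℤ) ^ (K.dim a) = 1 := (Nat.even_iff.mpr h).neg_one_pow
        rw [hp]
        simp only [h]
        cases ε <;> cases j <;> (simp; try ring)
      · have hp : (-1 : ℤ) ^ (K.dim a) = -1 := (Nat.odd_iff.mpr h).neg_one_pow
        rw [hp]
        simp only [h]
        cases ε <;> cases j <;> (simp; try ring)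
    · simp only [tensorI_bd_inl_inr, mul_zero, Finset.sum_const_zero, zero_add,
        tensorI_bd_inr_inr, prismX_inr]
      exact t.bd ε a

@[simp] lemma Table.prism_x_inl {K : Cpx} (t : Table K) (ε : Bool) (b : K.B) (i : Bool) :
    t.prism.x ε (Sum.inl (b, i)) =
      if i = (ε ^^ decide (K.dim b % 2 = 1)) then t.x ε b else 0 := rfl

@[simp] lemma Table.prism_x_inr {K : Cpx} (t : Table K) (ε : Bool) (b : K.B) :
    t.prism.x ε (Sum.inr b) = t.x ε b := rfl

end Vale.Agent.P213
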