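import Mathlib
import Vale.Agent.Lib.P213.SSFilt

/-!
# Induction attaching one cell at a time, and filtered colimits
-/

open CategoryTheory MonoidalCategory CartesianMonoidalCategory Simplicial HomotopicalAlgebra Limits
open SSet SSet.modelCategoryQuillen MorphismProperty Opposite

universe u

namespace Vale.Agent.P213.SS

section cell

variable {X : SSet.{u}} {d : ℕ} {A : X.Subcomplex} {x : X _⦋d⦌}

lemma preimage_of_minimal (hxA : x ∉ A.obj _) (hA : ∀ n < d, A.obj (op ⦋n⦌) = ⊤) :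
    A.preimage (yonedaEquiv.symm x) = ∂Δ[d] := by
  rw [stdSimplex.eq_boundary_iff]
  refine ⟨?_, fun h ↦ hxA ?_⟩
  · rw [Subcomplex.le_iff_contains_nonDegenerate]
    rintro n ⟨y, hy₁⟩ hy₂
    have : n < d := dim_lt_of_nonDegenerate (X := ∂Δ[d])
      ⟨⟨y, hy₂⟩, (Subcomplex.mem_nonDegenerate_iff _ _).2 hy₁⟩ d
    simp [hA n this]
  · have := h.symm.le _ (show stdSimplex.objEquiv.symm (𝟙 ⦋d⦌) ∈ _ by simp)
    simpa using this

lemma isPushout_cell (hx : x ∈ X.nonDegenerate d) (hxA : x ∉ A.obj _)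
    (hA : ∀ n < d, A.obj (op ⦋n⦌) = ⊤) :
    ∃ (t : (∂Δ[d] : SSet.{u}) ⟶ (A : SSet.{u}))
      (b : Δ[d] ⟶ ((A ⊔ Subcomplex.ofSimplex x : X.Subcomplex) : SSet.{u})),
      IsPushout t ∂Δ[d].ι (Subcomplex.homOfLE le_sup_left) b := by
  have hpre := preimage_of_minimal hxA hA
  let q : (Δ[d] : SSet.{u}) ⟶ X := yonedaEquiv.symm x
  have hq : ∀ {n : SimplexCategory} (f : n ⟶ ⦋d⦌), q.app (op n) (stdSimplex.objEquiv.symm f) =
      X.map f.op x := fun f => yonedaEquiv_symm_app_objEquiv_symm _ _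
  let t : (∂Δ[d] : SSet.{u}) ⟶ (A : SSet.{u}) := Subcomplex.lift (∂Δ[d].ι ≫ q)
    (by simp [Subcomplex.range_comp, Subcomplex.image_le_iff, q, hpre])
  let b : Δ[d] ⟶ ((A ⊔ Subcomplex.ofSimplex x : X.Subcomplex) : SSet.{u}) :=
    Subcomplex.lift q (by
      rw [Subcomplex.range_eq_ofSimplex]
      simp [q])
  have ht : ∀ {n : SimplexCategoryᵒᵖ} (y : (∂Δ[d] : SSet.{u}).obj n),
    (t.app n y).1 = q.app n y.1 := fun y => rfl
  have hb : ∀ {n : SimplexCategoryᵒᵖ} (y : (Δ[d] : SSet.{u}).obj n),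
    (b.app n y).1 = q.app n y := fun y => rfl
  have w : t ≫ Subcomplex.homOfLE le_sup_left = ∂Δ[d].ι ≫ b := rfl
  refine ⟨t, b, ⟨⟨w⟩, ⟨evaluationJointlyReflectsColimits _ fun ⟨n⟩ => ?_⟩⟩⟩
  refine (isColimitMapCoconePushoutCoconeEquiv _ _).2 (IsPushout.isColimit ?_)
  refine Types.isPushout_of_isPullback_of_mono' ?_ ?_ ?_
  · rw [Types.isPullback_iff]
    refine ⟨NatTrans.congr_app w _, ?_, ?_⟩
    · rintro x₁ x₂ ⟨-, h⟩
      exact Subtype.ext h
    · rintro ⟨y, hy⟩ z h
      have h1 : y = q.app _ z := congrArg Subtype.val h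
      have h2 : z ∈ (A.preimage q).obj _ := by
        rw [Subcomplex.preimage_obj, Set.mem_preimage, ← h1]
        exact hy
      rw [hpre] at h2
      exact ⟨⟨z, h2⟩, Subtype.ext h1.symm, rfl⟩
  · rw [Set.eq_univ_iff_forall]
    rintro ⟨y, hy⟩
    obtain hy | ⟨f, rfl⟩ := hy
    · exact Or.inl ⟨⟨y, hy⟩, rfl⟩
    · exact Or.inr ⟨stdSimplex.objEquiv.symm f.unop, Subtype.ext (hq _)⟩
  · intro x₁ x₂ hx₁ hx₂ h
    have key : ∀ z : (Δ[d] : SSet.{u}).obj (op n), z ∉ Set.range (∂Δ[d].ι.app (op n)) →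
        Epi (stdSimplex.objEquiv z) := by
      intro z hz
      have hs : z ∉ (∂Δ[d] : (Δ[d] : SSet.{u}).Subcomplex).obj _ := fun hs => hz ⟨⟨z, hs⟩, rfl⟩
      rw [SimplexCategory.epi_iff_surjective]
      by_contra hcon
      exact hs hcon
    have e₁ := key x₁ hx₁
    have e₂ := key x₂ hx₂
    have h' : q.app (op n) x₁ = q.app (op n) x₂ := congrArg Subtype.val h
    obtain ⟨f₁, rfl⟩ := stdSimplex.objEquiv.symm.surjective x₁
    obtain ⟨f₂, rfl⟩ := stdSimplex.objEquiv.symm.surjective x₂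
    rw [Equiv.apply_symm_apply] at e₁ e₂
    rw [hq, hq] at h'
    congr 1
    exact X.unique_nonDegenerate_map _ f₁ ⟨x, hx⟩ rfl f₂ ⟨x, hx⟩ h'

end cell

/-- the union of a chain of subcomplexes is their colimit -/
lemma exists_colimit_sSup {X : SSet.{0}} (c : Set X.Subcomplex) (hc : IsChain (· ≤ ·) c)
    (hne : c.Nonempty) : ∃ (J : Type) (_ : SmallCategory J) (_ : IsFiltered J) (F : J ⥤ SSet.{0})
      (t : Cocone F) (_ : IsColimit t), t.pt = (sSup c : X.Subcomplex) ∧
        ∀ j, ∃ A ∈ c, F.obj j = (A : SSet.{0}) := by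
  have : Nonempty c := hne.to_subtype
  have : IsDirected c (· ≤ ·) := by
    constructor
    intro a b
    obtain h | h := hc.total a.2 b.2
    · exact ⟨b, h, le_rfl⟩
    · exact ⟨a, le_rfl, h⟩
  let f : c → X.Subcomplex := Subtype.val
  have hf : Monotone f := fun _ _ h => h
  let C := Preorder.colimitCoconeOfIsLUB hf.functor (pt := sSup c) (by
    have : Set.range hf.functor.obj = c := Subtype.range_val
    rw [this]
    exact isLUB_sSup c)
  exact ⟨c, inferInstance, inferInstance, hf.functor ⋙ Subcomplex.toSSetFunctor,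
    Subcomplex.toSSetFunctor.mapCocone C.cocone, isColimitOfPreserves _ C.isColimit, rfl,
    fun j => ⟨j.1, j.2, rfl⟩⟩

theorem cell_induction (P : SSet.{0} → Prop) (h_iso : ∀ X Y : SSet.{0}, (X ≅ Y) → P X → P Y)
    (h_empty : ∀ X : SSet.{0}, IsInitial X → P X)
    (h_cell : ∀ (n : ℕ) (X Y : SSet.{0}) (t : (∂Δ[n] : SSet.{0}) ⟶ X) (r : X ⟶ Y)
      (b : (Δ[n] : SSet.{0}) ⟶ Y), IsPushout t ∂Δ[n].ι r b → P ∂Δ[n] → P X → P Y)
    (h_colim : ∀ (J : Type) [SmallCategory J] [IsFiltered J] (F : J ⥤ SSet.{0}) (c : Cocone F),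
      IsColimit c → (∀ j, P (F.obj j)) → P c.pt)
    (X : SSet.{0}) : P X := by
  have key : ∀ X : SSet.{0}, (∀ n, (X.nonDegenerate n).Nonempty → P ∂Δ[n]) → P X := by
    intro X hX
    obtain ⟨A, hA⟩ := zorn_le₀ (Set.ofPred fun A : X.Subcomplex => P A) (by
      intro c hcs hc
      obtain rfl | hne := c.eq_empty_or_nonempty
      · exact ⟨⊥, h_empty _ Subcomplex.isInitialBot, by simp⟩
      · refine ⟨sSup c, ?_, fun z hz => le_sSup hz⟩
        obtain ⟨J, _, _, F, t, ht, h1, h2⟩ := exists_colimit_sSup c hc hne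
        change P _
        rw [← h1]
        refine h_colim J F t ht fun j => ?_
        obtain ⟨B, hB, h3⟩ := h2 j
        rw [h3]
        exact hcs hB)
    have htop : A = ⊤ := by
      by_contra hne
      have h1 : ∃ n, ∃ x : X _⦋n⦌, x ∉ A.obj _ := by
        by_contra hcon
        push Not at hcon
        apply hne
        rw [← top_le_iff]
        rintro ⟨n⟩ x -
        exact hcon n.len x
      classical
      let d := Nat.find h1
      obtain ⟨x, hx⟩ := Nat.find_spec h1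
      have hmin : ∀ n < d, A.obj (op ⦋n⦌) = ⊤ := by
        intro n hn
        rw [← top_le_iff]
        intro y _
        by_contra hy
        exact Nat.find_min h1 hn ⟨y, hy⟩
      have hnd : x ∈ X.nonDegenerate d := by
        rw [mem_nonDegenerate_iff_notMem_degenerate]
        intro hdeg
        rw [mem_degenerate_iff] at hdeg
        obtain ⟨m, hm, f, _, y, rfl⟩ := hdeg
        apply hx
        apply A.map
        have : A.obj (op ⦋m⦌) = ⊤ := hmin m hm
        rw [this]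
        trivial
      obtain ⟨t, b, sq⟩ := isPushout_cell hnd hx hmin
      have h2 : P ((A ⊔ Subcomplex.ofSimplex x : X.Subcomplex) : SSet.{0}) :=
        h_cell d _ _ _ _ _ sq (hX d ⟨x, hnd⟩) hA.prop
      have h3 : A ⊔ Subcomplex.ofSimplex x ≤ A := hA.2 h2 le_sup_left
      apply hx
      exact h3 _ (Or.inr (Subcomplex.mem_ofSimplex_obj x))
    subst htop
    exact h_iso _ _ (Subcomplex.topIso X) hA.prop
  have hbd : ∀ n, P ∂Δ[n] := by
    intro n
    induction n using Nat.strong_induction_on with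
    | _ n ih =>
      apply key
      rintro m ⟨x, hx⟩
      exact ih m (dim_lt_of_nonDegenerate (X := (∂Δ[n] : SSet.{0})) ⟨x, hx⟩ n)
  exact key X fun n _ => hbd n

/-- A natural transformation is a weak equivalence if it is so on standard simplices and both
functors send the attachment of one cell to homotopy pushouts. -/
theorem weq_natTrans_cell {F G : SSet.{0} ⥤ SSet.{0}} (α : F ⟶ G)
    [PreservesColimitsOfSize.{0, 0} F] (hF : ∀ n : ℕ, Mono (F.map (∂Δ[n] : Δ[n].Subcomplex).ι))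
    (hG : ∀ (J : Type) [SmallCategory J] [IsFiltered J], PreservesColimitsOfShape J G)
    (hGm : ∀ n : ℕ, Mono (G.map (∂Δ[n] : Δ[n].Subcomplex).ι))
    (hGi : ∀ X : SSet.{0}, IsInitial X → weq (α.app X))
    (hGp : ∀ (n : ℕ) (X Y : SSet.{0}) (t : (∂Δ[n] : SSet.{0}) ⟶ X) (r : X ⟶ Y)
      (b : (Δ[n] : SSet.{0}) ⟶ Y), IsPushout t ∂Δ[n].ι r b →
      ∀ (D : SSet.{0}) (inl : G.obj X ⟶ D) (inr : G.obj Δ[n] ⟶ D)
      (_ : IsPushout (G.map t) (G.map ∂Δ[n].ι) inl inr) (φ : D ⟶ G.obj Y),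
      inl ≫ φ = G.map r → inr ≫ φ = G.map b → weq φ)
    (h : ∀ n : ℕ, weq (α.app Δ[n])) (X : SSet.{0}) : weq (α.app X) := by
  refine cell_induction (fun X => weq (α.app X)) ?_ hGi ?_ ?_ X
  · intro X Y e hX
    have h1 : α.app Y = (F.mapIso e).inv ≫ α.app X ≫ (G.mapIso e).hom := by simp
    rw [h1]
    exact weq.comp_mem _ _ (weq_of_isIso _) (weq.comp_mem _ _ hX (weq_of_isIso _))
  · intro n X Y t r b sq hb hX
    have sqF := sq.map F
    let sqG := IsPushout.of_hasPushout (G.map t) (G.map (∂Δ[n] : Δ[n].Subcomplex).ι)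
    have := hF n
    have := hGm n
    let φ : pushout (G.map t) (G.map (∂Δ[n] : Δ[n].Subcomplex).ι) ⟶ G.obj Y :=
      pushout.desc (G.map r) (G.map b) (by rw [← G.map_comp, ← G.map_comp, sq.w])
    have hφ : weq φ := hGp n X Y t r b sq _ _ _ sqG φ (pushout.inl_desc _ _ _)
      (pushout.inr_desc _ _ _)
    let q : F.obj Y ⟶ pushout (G.map t) (G.map (∂Δ[n] : Δ[n].Subcomplex).ι) :=
      sqF.desc (α.app X ≫ pushout.inl _ _) (α.app Δ[n] ≫ pushout.inr _ _) (by
        rw [← Category.assoc, ← Category.assoc, α.naturality, α.naturality, Category.assoc,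
          Category.assoc, pushout.condition])
    have hq : weq q := gluing sqF.flip sqG.flip (α.app _) (α.app _) (α.app X) q
      (α.naturality _) (α.naturality _) (sqF.inr_desc _ _ _) (sqF.inl_desc _ _ _) hb (h n) hX
    have hc : α.app Y = q ≫ φ := by
      apply sqF.hom_ext
      · rw [sqF.inl_desc_assoc, Category.assoc, pushout.inl_desc, α.naturality]
      · rw [sqF.inr_desc_assoc, Category.assoc, pushout.inr_desc, α.naturality]
    change weq (α.app Y)
    rw [hc]
    exact weq.comp_mem _ _ hq hφ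
  · intro J _ _ K c hc hK
    have := hG J
    exact weq_of_filtered (isColimitOfPreserves F hc) (isColimitOfPreserves G hc)
      (Functor.whiskerLeft K α) hK _ (fun n => α.naturality _)

end Vale.Agent.P213.SS
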