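import Vale.Agent.Lib.P213.Poset
import Vale.Agent.Lib.P213.Colim
import Vale.Agent.Lib.P213.SSCell
import Vale.Agent.Lib.P213.SSKQ

/-!
# P213: pushouts of `c Sd²` of horns, and the Quillen equivalence
-/

open CategoryTheory Limits Simplicial HomotopicalAlgebra
open SSet.modelCategoryQuillen

namespace Vale.Agent.P213

/-- The statement of `sdsd_dwyer`. -/
def SdSdDwyer : Prop := ∀ (m : ℕ) (K : (Δ[m] : SSet.{0}).Subcomplex),
    ∃ (B : Type) (_ : PartialOrder B) (_ : Finite B) (A : LowerSet B), Dwyer A ∧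
      Nonempty (Arrow.mk (SSet.sd.map (SSet.sd.map K.ι)) ≅ Arrow.mk (pNerveMap (lowerVal A)))

section

variable {n : ℕ∞} {c : SSet.{0} ⥤ NCat n} (adj : c ⊣ streetNerve n)

/-- The statement of `unit_poset`. -/
def UnitPoset : Prop := ∀ (B : Type) [PartialOrder B] [Finite B], WeakEq (adj.unit.app (pNerve B))

variable (c) in
/-- The statement of `key_lemma`. -/
def KeyLemma : Prop := ∀ {B : Type} [PartialOrder B] [Finite B] (A : LowerSet B) (_ : Dwyer A)
    {C D : NCat n} (f : c.obj (pNerve A) ⟶ C) (g : c.obj (pNerve B) ⟶ D) (j : C ⟶ D)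
    (sq : IsPushout f (c.map (pNerveMap (lowerVal A))) j g)
    {P : SSet.{0}} (a : (streetNerve n).obj C ⟶ P) (b : (streetNerve n).obj (c.obj (pNerve B)) ⟶ P)
    (sq' : IsPushout ((streetNerve n).map f) ((streetNerve n).map (c.map (pNerveMap (lowerVal A))))
      a b),
    Mono ((streetNerve n).map j) ∧
    WeakEq (sq'.desc ((streetNerve n).map j) ((streetNerve n).map g)
      (by rw [← Functor.map_comp, ← Functor.map_comp, sq.w]))

variable {adj}

lemma key_sd (hD : SdSdDwyer) (hK : KeyLemma c) (m : ℕ) (K : (Δ[m] : SSet.{0}).Subcomplex)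
    {C D : NCat n} (f : c.obj (SSet.sd.obj (SSet.sd.obj K)) ⟶ C)
    (g : c.obj (SSet.sd.obj (SSet.sd.obj Δ[m])) ⟶ D) (j : C ⟶ D)
    (sq : IsPushout f (c.map (SSet.sd.map (SSet.sd.map K.ι))) j g)
    {P : SSet.{0}} (a : (streetNerve n).obj C ⟶ P)
    (b : (streetNerve n).obj (c.obj (SSet.sd.obj (SSet.sd.obj Δ[m]))) ⟶ P)
    (sq' : IsPushout ((streetNerve n).map f)
      ((streetNerve n).map (c.map (SSet.sd.map (SSet.sd.map K.ι)))) a b)
    (φ : P ⟶ (streetNerve n).obj D) (h₁ : a ≫ φ = (streetNerve n).map j)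
    (h₂ : b ≫ φ = (streetNerve n).map g) :
    Mono ((streetNerve n).map j) ∧ WeakEq φ := by
  obtain ⟨B, _, _, A, hA, ⟨e⟩⟩ := hD m K
  let el : SSet.sd.obj (SSet.sd.obj (K : SSet.{0})) ≅ pNerve A := Arrow.leftFunc.mapIso e
  let er : SSet.sd.obj (SSet.sd.obj (Δ[m] : SSet.{0})) ≅ pNerve B := Arrow.rightFunc.mapIso e
  have hw : SSet.sd.map (SSet.sd.map K.ι) ≫ er.hom = el.hom ≫ pNerveMap (lowerVal A) :=
    (Arrow.w e.hom).symm
  have sq1 : IsPushout ((c.mapIso el).inv ≫ f) (c.map (pNerveMap (lowerVal A))) j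
      ((c.mapIso er).inv ≫ g) := by
    refine IsPushout.of_iso sq (c.mapIso el) (Iso.refl _) (c.mapIso er) (Iso.refl _) ?_ ?_ ?_ ?_
    · simp
    · simp only [Functor.mapIso_hom, ← c.map_comp, hw]
    · simp
    · simp
  have hw' : (streetNerve n).map (c.map (SSet.sd.map (SSet.sd.map K.ι))) ≫
      (streetNerve n).map (c.map er.hom) = (streetNerve n).map (c.map el.hom) ≫
        (streetNerve n).map (c.map (pNerveMap (lowerVal A))) := by
    rw [← Functor.map_comp, ← Functor.map_comp, ← Functor.map_comp, ← Functor.map_comp, hw]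
  have sq2 : IsPushout ((streetNerve n).map ((c.mapIso el).inv ≫ f))
      ((streetNerve n).map (c.map (pNerveMap (lowerVal A)))) a
      (((streetNerve n).mapIso (c.mapIso er)).inv ≫ b) := by
    refine IsPushout.of_iso sq' ((streetNerve n).mapIso (c.mapIso el)) (Iso.refl _)
      ((streetNerve n).mapIso (c.mapIso er)) (Iso.refl _) ?_ hw' ?_ ?_
    · simp only [Iso.refl_hom, Category.comp_id, Functor.mapIso_hom, Functor.mapIso_inv,
        ← Functor.map_comp]
      simp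
    · simp
    · simp
  obtain ⟨h3, h4⟩ := hK A hA _ _ j sq1 _ _ sq2
  refine ⟨h3, ?_⟩
  convert h4 using 1
  apply sq2.hom_ext
  · rw [sq2.inl_desc, h₁]
  · rw [sq2.inr_desc, Category.assoc, h₂, Functor.map_comp]
    rfl

lemma key_sd' (hD : SdSdDwyer) (hK : KeyLemma c) (m : ℕ) (K : (Δ[m] : SSet.{0}).Subcomplex)
    {C D : NCat n} (f : c.obj (SSet.sd.obj (SSet.sd.obj K)) ⟶ C)
    (g : c.obj (SSet.sd.obj (SSet.sd.obj Δ[m])) ⟶ D) (j : C ⟶ D)
    (sq : IsPushout f (c.map (SSet.sd.map (SSet.sd.map K.ι))) j g) :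
    Mono ((streetNerve n).map j) := by
  refine (key_sd hD hK m K f g j sq _ _ (IsPushout.of_hasPushout _ _)
    (pushout.desc ((streetNerve n).map j) ((streetNerve n).map g) ?_)
    (pushout.inl_desc _ _ _) (pushout.inr_desc _ _ _)).1
  rw [← Functor.map_comp, ← Functor.map_comp, sq.w]

lemma mono_sd (hD : SdSdDwyer) (hK : KeyLemma c) (m : ℕ) (K : (Δ[m] : SSet.{0}).Subcomplex) :
    Mono ((streetNerve n).map (c.map (SSet.sd.map (SSet.sd.map K.ι)))) :=
  key_sd' hD hK m K (𝟙 _) (𝟙 _) _ (IsPushout.of_horiz_isIso ⟨by simp⟩)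

lemma unit_iso {X Y : SSet.{0}} (e : X ≅ Y) (h : WeakEq (adj.unit.app Y)) :
    WeakEq (adj.unit.app X) := by
  have h1 : adj.unit.app X = e.hom ≫ adj.unit.app Y ≫
      ((streetNerve n).mapIso (c.mapIso e)).inv := by
    have := adj.unit.naturality e.hom
    simp only [Functor.id_map] at this
    rw [← Category.assoc, this]
    simp
  rw [h1]
  exact SS.weq.comp_mem _ _ (SS.weq_of_isIso _) (SS.weq.comp_mem _ _ h (SS.weq_of_isIso _))

lemma unit_sd_sub (hD : SdSdDwyer) (hU : UnitPoset adj) (m : ℕ)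
    (K : (Δ[m] : SSet.{0}).Subcomplex) :
    WeakEq (adj.unit.app (SSet.sd.obj (SSet.sd.obj (K : SSet.{0})))) := by
  obtain ⟨B, _, _, A, hA, ⟨e⟩⟩ := hD m K
  exact unit_iso (Arrow.leftFunc.mapIso e) (hU A)

lemma unit_sd_simplex (hD : SdSdDwyer) (hU : UnitPoset adj) (m : ℕ) :
    WeakEq (adj.unit.app (SSet.sd.obj (SSet.sd.obj (Δ[m] : SSet.{0})))) := by
  obtain ⟨B, _, _, A, hA, ⟨e⟩⟩ := hD m ⊤
  exact unit_iso (Arrow.rightFunc.mapIso e) (hU B)

lemma pNerve_empty {k : SimplexCategoryᵒᵖ} (x : (pNerve PEmpty.{1}).obj k) : False :=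
  (OrderHom.toFun x 0).elim

/-- The unit `Sd² X ⟶ N c Sd² X` is a weak equivalence. -/
theorem weq_unit_sd (hD : SdSdDwyer) (hU : UnitPoset adj) (hK : KeyLemma c) (X : SSet.{0}) :
    WeakEq (adj.unit.app (SSet.sd.obj (SSet.sd.obj X))) := by
  have : c.IsLeftAdjoint := adj.isLeftAdjoint
  have h0 : ∀ m : ℕ, SS.weq.{0} ((Functor.whiskerLeft (SSet.sd.{0} ⋙ SSet.sd) adj.unit).app Δ[m]) :=
    unit_sd_simplex hD hU
  refine SS.weq_natTrans_cell (F := (SSet.sd.{0} ⋙ SSet.sd) ⋙ 𝟭 _)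
    (G := (SSet.sd ⋙ SSet.sd) ⋙ c ⋙ streetNerve n) (Functor.whiskerLeft _ adj.unit) ?_ ?_ ?_ ?_ ?_
    h0 X
  · intro m
    have := SS.sd_mono (∂Δ[m] : (Δ[m] : SSet.{0}).Subcomplex).ι
    exact SS.sd_mono _
  · intro J _ _
    infer_instance
  · intro m
    exact mono_sd hD hK m _
  · intro Y hY
    have h1 : IsInitial (SSet.sd.obj (SSet.sd.obj Y)) := (hY.isInitialObj SSet.sd).isInitialObj SSet.sd
    refine unit_iso (h1.uniqueUpToIso ?_) (hU PEmpty)
    refine IsInitial.ofUniqueHom (fun Z => { app := fun k => TypeCat.ofHom fun x =>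
                                               (pNerve_empty x).elim
                                             naturality := ?_ }) ?_
    · intro k k' f
      ext x
      exact (pNerve_empty x).elim
    · intro Z f
      ext k x
      exact (pNerve_empty x).elim
  · intro m X Y t r b sq D inl inr sq' φ h1 h2
    have sqc := ((sq.map SSet.sd).map SSet.sd).map c
    exact (key_sd hD hK m _ _ _ _ sqc inl inr sq' φ h1 h2).2

/-- `N c Sd² i` is a weak equivalence iff `i` is, given the units. -/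
lemma weq_nerve_sd {X Y : SSet.{0}} (i : X ⟶ Y)
    (hX : WeakEq (adj.unit.app (SSet.sd.obj (SSet.sd.obj X))))
    (hY : WeakEq (adj.unit.app (SSet.sd.obj (SSet.sd.obj Y)))) :
    WeakEq ((streetNerve n).map (c.map (SSet.sd.map (SSet.sd.map i)))) ↔ WeakEq i := by
  have h1 := adj.unit.naturality (SSet.sd.map (SSet.sd.map i))
  simp only [Functor.id_map] at h1
  have h2 : WeakEq (SSet.sd.map (SSet.sd.map i)) ↔ WeakEq i :=
    (SS.weq_sd_map_iff _).trans (SS.weq_sd_map_iff _)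
  rw [← h2]
  constructor
  · intro h
    have h3 : SS.weq (SSet.sd.map (SSet.sd.map i) ≫ adj.unit.app _) := by
      rw [h1]
      exact SS.weq.comp_mem _ _ hX h
    exact (SS.weq.postcomp_iff _ _ (show SS.weq _ from hY)).1 h3
  · intro h
    have h3 : SS.weq (adj.unit.app (SSet.sd.obj (SSet.sd.obj X)) ≫
        (streetNerve n).map (c.map (SSet.sd.map (SSet.sd.map i)))) := by
      change SS.weq (_ ≫ (c ⋙ streetNerve n).map _)
      rw [← h1]
      exact SS.weq.comp_mem _ _ h hY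
    exact (SS.weq.precomp_iff _ _ (show SS.weq _ from hX)).1 h3

theorem pushout_horn' (hD : SdSdDwyer) (hU : UnitPoset adj) (hK : KeyLemma c)
    (m : ℕ) (k : Fin (m + 2)) {C D : NCat n}
    (f : c.obj (SSet.sd.obj (SSet.sd.obj (Λ[m + 1, k] : SSet.{0}))) ⟶ C)
    (g : c.obj (SSet.sd.obj (SSet.sd.obj Δ[m + 1])) ⟶ D) (j : C ⟶ D)
    (sq : IsPushout f (c.map (SSet.sd.map (SSet.sd.map Λ[m + 1, k].ι))) j g) :
    Mono ((streetNerve n).map j) ∧ thomasonW n j := by
  let sq' := IsPushout.of_hasPushout ((streetNerve n).map f)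
    ((streetNerve n).map (c.map (SSet.sd.map (SSet.sd.map Λ[m + 1, k].ι))))
  let φ := pushout.desc ((streetNerve n).map j) ((streetNerve n).map g) (by
    rw [← Functor.map_comp, ← Functor.map_comp, sq.w])
  have hφ := key_sd hD hK (m + 1) _ f g j sq _ _ sq' φ (pushout.inl_desc _ _ _)
    (pushout.inr_desc _ _ _)
  refine ⟨hφ.1, ?_⟩
  have h1 : SS.tcof ((streetNerve n).map (c.map (SSet.sd.map (SSet.sd.map Λ[m + 1, k].ι)))) := by
    refine ⟨mono_sd hD hK (m + 1) _, ?_⟩
    refine (weq_nerve_sd (Λ[m + 1, k] : (Δ[m + 1] : SSet.{0}).Subcomplex).ι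
      (unit_sd_sub hD hU _ _) (unit_sd_simplex hD hU _)).2 ?_
    exact SS.weq_of_anodyne _ (SSet.anodyneExtensions.horn_ι k)
  have h2 : SS.tcof (pushout.inl ((streetNerve n).map f)
    ((streetNerve n).map (c.map (SSet.sd.map (SSet.sd.map Λ[m + 1, k].ι))))) :=
      MorphismProperty.of_isPushout sq' h1
  have h3 : (streetNerve n).map j = pushout.inl _ _ ≫ φ := (pushout.inl_desc _ _ _).symm
  change WeakEq _
  rw [h3]
  exact SS.weq.comp_mem _ _ h2.2 hφ.2

/-- `c Sd²` sends monomorphisms to cofibrations. -/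
theorem thomasonC_of_mono (adj : c ⊣ streetNerve n) {X Y : SSet.{0}} (i : X ⟶ Y) (hi : Mono i) :
    thomasonC n (c.map (SSet.sd.map (SSet.sd.map i))) := by
  intro E B p hp
  rw [adj.hasLiftingProperty_iff, SSet.sdExAdjunction.hasLiftingProperty_iff,
    SSet.sdExAdjunction.hasLiftingProperty_iff]
  have h1 : Fibration (SSet.ex.map (SSet.ex.map ((streetNerve n).map p))) :=
    (HomotopicalAlgebra.fibration_iff _).2 hp.1
  have h2 : SS.weq (SSet.ex.map (SSet.ex.map ((streetNerve n).map p))) :=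
    (SS.weq_ex_map_iff _).2 ((SS.weq_ex_map_iff _).2 hp.2)
  have h3 := SS.trivFib_of_weq _ h2
  have h4 : (I.{0}.rlp.llp) i := by
    rw [SS.llp_rlp_I]
    exact hi
  exact h4 _ h3

/-- `c Sd²` preserves (and reflects) weak equivalences. -/
theorem thomasonW_iff (hD : SdSdDwyer) (hU : UnitPoset adj) (hK : KeyLemma c) {X Y : SSet.{0}}
    (i : X ⟶ Y) : thomasonW n (c.map (SSet.sd.map (SSet.sd.map i))) ↔ WeakEq i :=
  weq_nerve_sd i (weq_unit_sd hD hU hK X) (weq_unit_sd hD hU hK Y)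

/-- The derived unit and counit are weak equivalences. -/
theorem thomasonW_iff_adjunct (hD : SdSdDwyer) (hU : UnitPoset adj) (hK : KeyLemma c)
    (X : SSet.{0}) (Y : NCat n) (f : c.obj (SSet.sd.obj (SSet.sd.obj X)) ⟶ Y) :
    thomasonW n f ↔
      WeakEq (((SSet.sdExAdjunction.comp (SSet.sdExAdjunction.comp adj)).homEquiv X Y) f) := by
  rw [Adjunction.homEquiv_unit]
  have h1 : SS.weq ((SSet.sdExAdjunction.comp (SSet.sdExAdjunction.comp adj)).unit.app X) := by
    rw [Adjunction.comp_unit_app, Adjunction.comp_unit_app]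
    refine SS.weq.comp_mem _ _ (SS.weq_unit X) ((SS.weq_ex_map_iff _).2 ?_)
    exact SS.weq.comp_mem _ _ (SS.weq_unit _) ((SS.weq_ex_map_iff _).2 (weq_unit_sd hD hU hK X))
  have h2 := SS.weq.precomp_iff _ (((streetNerve n ⋙ SSet.ex) ⋙ SSet.ex).map f) h1
  have h3 : SS.weq (((streetNerve n ⋙ SSet.ex) ⋙ SSet.ex).map f) ↔ SS.weq ((streetNerve n).map f) :=
    (SS.weq_ex_map_iff _).trans (SS.weq_ex_map_iff _)
  exact (h2.trans h3).symm

end

end Vale.Agent.P213
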