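import Vale.Agent.Lib.P213.Trunc
import Vale.Agent.Lib.P213.CylUnit

/-!
# The representing property of `nu (K ⊗ I)`
-/

open CategoryTheory

namespace Vale.Agent.P213

namespace Rep

open OmegaCat CStream

variable {K : Cpx} {Y : OmegaCat}

/-! ### Dimensions -/

lemma dim_incl {n : ℕ} (i : Bool) {t : Table K} (ht : Table.face n false t = t) :
    Table.face n false (Table.map ((tensorIncl i).app K) t) =
      Table.map ((tensorIncl i).app K) t := by
  refine (Table.map_face ((tensorIncl i).app K) n false t).symm.trans ?_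
  exact congrArg _ ht

lemma x_zero_of_dim {n : ℕ} {t : Table K} (ht : Table.face n false t = t) {b : K.B}
    (hb : n < K.dim b) (ε : Bool) : t.x ε b = 0 := by
  rw [← ht, Table.face_x, if_neg (by omega), if_neg (by omega)]

lemma dim_prism {n : ℕ} {t : Table K} (ht : Table.face n false t = t) :
    Table.face (n + 1) false t.prism = t.prism := by
  have h2 : ∀ b, n ≤ K.dim b → t.x true b = t.x false b := by
    intro b hb
    rcases hb.lt_or_eq with h | h
    · rw [x_zero_of_dim ht h, x_zero_of_dim ht h]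
    · conv_lhs => rw [← ht]
      rw [Table.face_x, if_neg (by omega), if_pos h.symm]
  apply Table.ext
  funext ε y
  rcases y with ⟨b, i⟩ | b
  · rw [Table.face_inl]
    by_cases h1 : K.dim b < n + 1
    · rw [if_pos h1]
    · rw [if_neg h1, Table.prism_x_inl, Table.prism_x_inl, x_zero_of_dim ht (by omega),
        x_zero_of_dim ht (by omega)]
      simp
  · rw [Table.face_inr]
    by_cases h1 : K.dim b + 1 < n + 1
    · rw [if_pos h1]
    · rw [if_neg h1]
      by_cases h3 : K.dim b + 1 = n + 1
      · rw [if_pos h3, Table.prism_x_inr, Table.prism_x_inr]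
        cases ε
        · rfl
        · exact (h2 b (by omega)).symm
      · rw [if_neg h3, Table.prism_x_inr, x_zero_of_dim ht (by omega)]

lemma face_of_dim {n k : ℕ} {t : Table K} (ht : Table.face n false t = t) (h : n ≤ k) (ε : Bool) :
    Table.face k ε t = t := bd_of_dim (Y := nu K) (x := t) ht h ε

lemma dim_face {n k : ℕ} {t : Table K} (ht : Table.face n false t = t) (ε : Bool) :
    Table.face n false (Table.face k ε t) = Table.face k ε t := bd_dim (W := nu K) (x := t) ε ht

lemma dim_comp {n k : ℕ} {s t : Table K} (hs : Table.face n false s = s)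
    (ht : Table.face n false t = t) (h : Table.face k true s = Table.face k false t) :
    Table.face n false (Table.comp k s t) = Table.comp k s t :=
  comp_dim (W := nu K) (x := s) (y := t) hs ht h

/-- Lift of the universal cylinder to the truncation. -/
noncomputable def lcyl {n : ℕ} (t : Table K) (ht : Table.face n false t = t) :
    CylCell (trunc (n + 1) (nu (tensorI K))) :=
  liftCyl t.cyl
    (bd_of_dim (Y := nu (tensorI K)) (dim_incl false ht) (Nat.le_succ n) false)
    (bd_of_dim (Y := nu (tensorI K)) (dim_incl true ht) (Nat.le_succ n) false)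
    (fun i δ => dim_prism (dim_face ht δ))

lemma map_lcyl {n : ℕ} (t : Table K) (ht : Table.face n false t = t) :
    CylCell.map (truncIncl (n + 1) (nu (tensorI K))) (lcyl t ht) = t.cyl := rfl

lemma lcyl_face {n : ℕ} (t : Table K) (ht : Table.face n false t = t) (k : ℕ) (ε : Bool) :
    lcyl (Table.face k ε t) (dim_face ht ε) = CylCell.face k ε (lcyl t ht) := by
  apply map_truncIncl_injective
  rw [map_lcyl]
  refine (Table.cyl_face k ε t).trans ?_
  exact ((Gamma.map (truncIncl (n + 1) (nu (tensorI K)))).map_bd k ε (lcyl t ht)).symm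

lemma lcyl_comp {n : ℕ} (s t : Table K) (hs : Table.face n false s = s)
    (ht : Table.face n false t = t) (k : ℕ) (h : Table.face k true s = Table.face k false t) :
    lcyl (Table.comp k s t) (dim_comp hs ht h) = CylCell.comp k (lcyl s hs) (lcyl t ht) := by
  have hc : CylCell.face k true (lcyl s hs) = CylCell.face k false (lcyl t ht) := by
    rw [← lcyl_face, ← lcyl_face]
    congr 1
  apply map_truncIncl_injective
  rw [map_lcyl]
  refine (Table.cyl_comp k s t h).trans ?_
  exact ((Gamma.map (truncIncl (n + 1) (nu (tensorI K)))).map_comp k (lcyl s hs)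
    (lcyl t ht) hc).symm

variable (F : nu K ⟶ gammaObj Y)

open Classical in
/-- the truncated functor induced by `Φ` -/
noncomputable def psi {n : ℕ} {Φ : Table (tensorI K) → Y.Cell} (hΦ : FunctorialOn (n + 1) Φ)
    (t : Table K) : (gammaObj Y).Cell :=
  if h : Table.face n false t = t then CylCell.map (truncMap hΦ) (lcyl t h) else F.toFun t

lemma psi_eq {n : ℕ} {Φ : Table (tensorI K) → Y.Cell} (hΦ : FunctorialOn (n + 1) Φ)
    {t : Table K} (h : Table.face n false t = t) :
    psi F hΦ t = CylCell.map (truncMap hΦ) (lcyl t h) := dif_pos h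

lemma functorialOn_mono {L : Cpx} {n m : ℕ} {Φ : Table L → Y.Cell} (h : FunctorialOn n Φ)
    (hmn : m ≤ n) : FunctorialOn m Φ :=
  ⟨fun k ε t ht => h.1 k ε t (bd_of_dim (Y := nu L) (x := t) ht hmn false),
    fun k s t hs ht => h.2 k s t (bd_of_dim (Y := nu L) (x := s) hs hmn false)
      (bd_of_dim (Y := nu L) (x := t) ht hmn false)⟩

lemma psi_functorial {n : ℕ} {Φ : Table (tensorI K) → Y.Cell} (hΦ : FunctorialOn (n + 1) Φ) :
    FunctorialOn (Y := gammaObj Y) n (psi F hΦ) := by
  refine ⟨fun k ε t ht => ?_, fun k s t hs ht h => ?_⟩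
  · rw [psi_eq F hΦ ht, psi_eq F hΦ (dim_face ht ε), lcyl_face]
    exact (Gamma.map (truncMap hΦ)).map_bd k ε (lcyl t ht)
  · have hc : CylCell.face k true (lcyl s hs) = CylCell.face k false (lcyl t ht) := by
      rw [← lcyl_face, ← lcyl_face]
      congr 1
    rw [psi_eq F hΦ hs, psi_eq F hΦ ht, psi_eq F hΦ (dim_comp hs ht h), lcyl_comp s t hs ht k h]
    exact (Gamma.map (truncMap hΦ)).map_comp k (lcyl s hs) (lcyl t ht) hc

lemma psi_X {n : ℕ} {Φ : Table (tensorI K) → Y.Cell} (hΦ : FunctorialOn (n + 1) Φ)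
    {t : Table K} (h : Table.face n false t = t) :
    CylCell.X (psi F hΦ t) = Φ (Table.map ((tensorIncl false).app K) t) := by
  rw [psi_eq F hΦ h]
  rfl

lemma psi_Z {n : ℕ} {Φ : Table (tensorI K) → Y.Cell} (hΦ : FunctorialOn (n + 1) Φ)
    {t : Table K} (h : Table.face n false t = t) :
    CylCell.Z (psi F hΦ t) = Φ (Table.map ((tensorIncl true).app K) t) := by
  rw [psi_eq F hΦ h]
  rfl

lemma psi_u {n : ℕ} {Φ : Table (tensorI K) → Y.Cell} (hΦ : FunctorialOn (n + 1) Φ)
    {t : Table K} (h : Table.face n false t = t) (i : ℕ) (δ : Bool) :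
    CylCell.u (psi F hΦ t) i δ = Φ (Table.face i δ t).prism := by
  rw [psi_eq F hΦ h]
  change Φ (Table.face (0 + i) δ t).prism = _
  rw [Nat.zero_add]

/-- prescribed values on the atoms of `K ⊗ I` -/
noncomputable def yv (hK : Steiner K) : (tensorI K).B → Y.Cell
  | Sum.inl (b, false) => CylCell.X (F.toFun (hK.atom b))
  | Sum.inl (b, true) => CylCell.Z (F.toFun (hK.atom b))
  | Sum.inr b => CylCell.u (F.toFun (hK.atom b)) (K.dim b) false

variable (hK : Steiner K)

lemma F_u_of_dim {n : ℕ} {t : Table K} (ht : Table.face n false t = t) {i : ℕ} (hi : n ≤ i)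
    (δ : Bool) : CylCell.u (F.toFun t) i δ = CylCell.u (F.toFun t) n false := by
  have h1 : F.toFun t = CylCell.face n false (F.toFun t) := by
    conv_lhs => rw [← ht]
    exact F.map_bd n false t
  have h2 := congrFun (congrFun (congrArg CylCell.u h1) i) δ
  have h3 : CylCell.u (CylCell.face n false (F.toFun t)) i δ =
      CylCell.u (F.toFun t) n false := if_neg (by omega)
  exact h2.trans h3

lemma F_u_face (t : Table K) (i : ℕ) (δ δ' : Bool) :
    CylCell.u (F.toFun (Table.face i δ t)) i δ' = CylCell.u (F.toFun t) i δ := by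
  have h1 : F.toFun (Table.face i δ t) = CylCell.face i δ (F.toFun t) := F.map_bd i δ t
  rw [h1]
  exact if_neg (lt_irrefl i)

lemma atom_dim (b : K.B) {n : ℕ} (h : K.dim b ≤ n) :
    Table.face n false (hK.atom b) = hK.atom b := Free.face_of_triv (Free.triv_atom hK h)

/-- the values of `Φ` compute `F` in lower dimension -/
lemma agree {n : ℕ} {Φ : Table (tensorI K) → Y.Cell} (hΦ : FunctorialOn (n + 1) Φ)
    (hy : ∀ b, (tensorI K).dim b ≤ n + 1 → Φ ((tensorSteiner K hK).atom b) = yv F hK b) :
    ∀ m ≤ n, ∀ t : Table K, Table.face m false t = t → psi F hΦ t = F.toFun t := by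
  intro m
  induction m using Nat.strong_induction_on with
  | _ m ih =>
  intro hmn
  refine functor_ext_trunc hK (Y := gammaObj Y) m _ _
    (functorialOn_mono (psi_functorial F hΦ) hmn) (functorialOn_of_hom F m) ?_
  intro b hb
  have hbn := atom_dim hK b (hb.trans hmn)
  refine CylCell.ext ?_ ?_ ?_
  · rw [psi_X F hΦ hbn]
    exact hy (Sum.inl (b, false)) (by
      change K.dim b ≤ n + 1
      omega)
  · rw [psi_Z F hΦ hbn]
    exact hy (Sum.inl (b, true)) (by
      change K.dim b ≤ n + 1
      omega)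
  · funext i δ
    rw [psi_u F hΦ hbn]
    rcases Nat.lt_or_ge i (K.dim b) with hi | hi
    · have h1 : Table.face i false (Table.face i δ (hK.atom b)) = Table.face i δ (hK.atom b) :=
        (nu K).bd_bd_ge _ _ _ le_rfl
      have h2 := ih i (by omega) (by omega) _ h1
      rw [← F_u_face F (hK.atom b) i δ false, ← h2,
        psi_u F hΦ (bd_of_dim (Y := nu K) h1 (by omega) false)]
      congr 2
      exact ((nu K).bd_bd_ge _ _ _ le_rfl).symm
    · rw [face_of_dim (atom_dim hK b le_rfl) hi, F_u_of_dim F (atom_dim hK b le_rfl) hi]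
      exact hy (Sum.inr b) (by
        change K.dim b + 1 ≤ n + 1
        omega)

/-! ### Iterated sources and targets -/

/-- iterated source and target -/
def it (A B : Y.Cell) (u : CStream Y) : ℕ → Y.Cell × Y.Cell
  | 0 => (A, B)
  | k + 1 => (Y.comp k (u k false) (it A B u k).2, Y.comp k (it A B u k).1 (u k true))

lemma isCyl_it {A B : Y.Cell} {u : CStream Y} (h : IsCyl 0 A B u) (k : ℕ) :
    IsCyl k (it A B u k).1 (it A B u k).2 (fun i => u (k + i)) := by
  induction k with
  | zero =>
    have : (fun i => u (0 + i)) = u := by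
      funext i
      rw [Nat.zero_add]
    rw [this]
    exact h
  | succ k ih =>
    have h1 := ih.tail
    have h2 : shift (fun i => u (k + i)) = fun i => u (k + 1 + i) := by
      funext i
      change u (k + (i + 1)) = u (k + 1 + i)
      rw [show k + (i + 1) = k + 1 + i by omega]
    rw [h2] at h1
    exact h1

/-- the iterated sources and targets are preserved by truncated functors -/
lemma it_map {L : Cpx} {n : ℕ} {Φ : Table L → Y.Cell} (hΦ : FunctorialOn n Φ)
    (x : CylCell (nu L)) (y : CylCell Y) (hX : (nu L).bd n false x.X = x.X)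
    (hZ : (nu L).bd n false x.Z = x.Z)
    (h1 : Φ x.X = y.X) (h2 : Φ x.Z = y.Z) (h3 : ∀ i < n, ∀ δ, Φ (x.u i δ) = y.u i δ) (k : ℕ)
    (hk : k ≤ n) :
    (nu L).bd n false (it x.X x.Z x.u k).1 = (it x.X x.Z x.u k).1 ∧
    (nu L).bd n false (it x.X x.Z x.u k).2 = (it x.X x.Z x.u k).2 ∧
    Φ (it x.X x.Z x.u k).1 = (it y.X y.Z y.u k).1 ∧
    Φ (it x.X x.Z x.u k).2 = (it y.X y.Z y.u k).2 := by
  induction k with
  | zero => exact ⟨hX, hZ, h1, h2⟩
  | succ k ih =>
    obtain ⟨i1, i2, i3, i4⟩ := ih (by omega)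
    have hc := isCyl_it x.isCyl k
    have hd : ∀ δ, (nu L).bd n false (x.u k δ) = x.u k δ := fun δ =>
      bd_of_dim (Y := nu L) (hc.head.dim δ) hk false
    have c1 : (nu L).bd k true (x.u k false) = (nu L).bd k false (it x.X x.Z x.u k).2 :=
      hc.head.comp_src
    have c2 : (nu L).bd k true (it x.X x.Z x.u k).1 = (nu L).bd k false (x.u k true) :=
      hc.head.comp_tgt
    refine ⟨comp_dim (hd false) i2 c1, comp_dim i1 (hd true) c2, ?_, ?_⟩
    · refine (hΦ.2 k _ _ (hd false) i2 c1).trans ?_
      rw [h3 k (by omega), i4]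
      rfl
    · refine (hΦ.2 k _ _ i1 (hd true) c2).trans ?_
      rw [h3 k (by omega), i3]
      rfl

lemma yv_dim (b : (tensorI K).B) :
    Y.bd ((tensorI K).dim b) false (yv F hK b) = yv F hK b := by
  rcases b with ⟨b, i⟩ | b
  · have h1 : CylCell.face (K.dim b) false (F.toFun (hK.atom b)) = F.toFun (hK.atom b) := by
      refine (F.map_bd (K.dim b) false (hK.atom b)).symm.trans ?_
      exact congrArg F.toFun (atom_dim hK b le_rfl)
    cases i
    · exact congrArg CylCell.X h1
    · exact congrArg CylCell.Z h1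
  · exact (isCyl_it (CylCell.isCyl (F.toFun (hK.atom b))) (K.dim b)).head.dim false

lemma functorialOn_incl {n : ℕ} {Φ : Table (tensorI K) → Y.Cell} (hΦ : FunctorialOn n Φ)
    (i : Bool) : FunctorialOn n (fun t : Table K => Φ (Table.map ((tensorIncl i).app K) t)) := by
  refine ⟨fun k ε t ht => ?_, fun k s t hs ht h => ?_⟩
  · refine Eq.trans ?_ (hΦ.1 k ε _ (dim_incl i ht))
    exact congrArg Φ (Table.map_face _ _ _ _)
  · refine Eq.trans ?_ (hΦ.2 k _ _ (dim_incl i hs) (dim_incl i ht) ?_)
    · exact congrArg Φ (Table.map_comp _ _ _ _ h)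
    · refine (Table.map_face _ _ _ _).symm.trans (Eq.trans ?_ (Table.map_face _ _ _ _))
      exact congrArg _ h

lemma bd_inl {n : ℕ} {Φ : Table (tensorI K) → Y.Cell} (hΦ : FunctorialOn n Φ) (i : Bool)
    (f : gammaObj Y ⟶ Y)
    (hy : ∀ b, K.dim b ≤ n → Φ (Table.map ((tensorIncl i).app K) (hK.atom b)) =
      f.toFun (F.toFun (hK.atom b))) (b : K.B) (ε : Bool) :
    Y.bd n ε (f.toFun (F.toFun (hK.atom b))) =
      Φ (Table.face n ε (Table.map ((tensorIncl i).app K) (hK.atom b))) := by
  have h1 := functor_ext_trunc hK n _ _ (functorialOn_incl hΦ i)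
    (functorialOn_of_hom (F ≫ f) n) hy (Table.face n ε (hK.atom b))
    ((nu K).bd_bd_ge _ _ _ le_rfl)
  have h2 : f.toFun (F.toFun (Table.face n ε (hK.atom b))) =
      Y.bd n ε (f.toFun (F.toFun (hK.atom b))) := (F ≫ f).map_bd n ε (hK.atom b)
  rw [← h2]
  refine h1.symm.trans ?_
  exact congrArg Φ (Table.map_face _ _ _ _)

lemma bd_inr {n : ℕ} {Φ : Table (tensorI K) → Y.Cell} (hΦ : FunctorialOn n Φ)
    (hy : ∀ b, (tensorI K).dim b ≤ n → Φ ((tensorSteiner K hK).atom b) = yv F hK b)
    (b : K.B) (hb : K.dim b = n) (ε : Bool) :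
    Y.bd n ε (CylCell.u (F.toFun (hK.atom b)) (K.dim b) false) =
      Φ (Table.face n ε (hK.atom b).prism) := by
  have hd : Table.face n false (hK.atom b) = hK.atom b := atom_dim hK b hb.le
  have h3 : ∀ i < n, ∀ δ, Φ ((hK.atom b).cyl.u i δ) = CylCell.u (F.toFun (hK.atom b)) i δ := by
    intro i hi δ
    obtain ⟨n', rfl⟩ : ∃ n', n = n' + 1 := ⟨n - 1, by omega⟩
    have h1 : Table.face i false (Table.face i δ (hK.atom b)) = Table.face i δ (hK.atom b) :=
      (nu K).bd_bd_ge _ _ _ le_rfl
    have h2 := agree F hK hΦ hy i (by omega) _ h1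
    rw [← F_u_face F (hK.atom b) i δ false, ← h2,
      psi_u F hΦ (bd_of_dim (Y := nu K) h1 (by omega) false)]
    change Φ (Table.face (0 + i) δ (hK.atom b)).prism = _
    rw [Nat.zero_add]
    congr 2
    exact ((nu K).bd_bd_ge _ _ _ le_rfl).symm
  have hm := it_map hΦ (hK.atom b).cyl (F.toFun (hK.atom b)) (dim_incl false hd)
    (dim_incl true hd) (hy (Sum.inl (b, false)) hb.le) (hy (Sum.inl (b, true)) hb.le) h3 n le_rfl
  obtain ⟨i1, i2, i3, i4⟩ := hm
  have hx := isCyl_it (hK.atom b).cyl.isCyl n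
  have hy' := isCyl_it (CylCell.isCyl (F.toFun (hK.atom b))) n
  have e1 : (hK.atom b).cyl.u n false = (hK.atom b).prism := by
    change (Table.face (0 + n) false (hK.atom b)).prism = _
    rw [Nat.zero_add, hd]
  rw [hb]
  cases ε
  · refine (hy'.head.src false).trans ?_
    rw [← i3]
    refine (hΦ.1 n false _ i1).symm.trans ?_
    rw [← e1]
    exact congrArg Φ (hx.head.src false).symm
  · refine (hy'.head.tgt false).trans ?_
    rw [← i4]
    refine (hΦ.1 n false _ i2).symm.trans ?_
    rw [← e1]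
    exact congrArg Φ (hx.head.tgt false).symm

lemma exists_rep : ∃ G : nu (tensorI K) ⟶ Y, ∀ b, G.toFun ((tensorSteiner K hK).atom b) =
    yv F hK b := by
  refine exists_functor (tensorSteiner K hK) (yv F hK) (yv_dim F hK) ?_
  intro n Φ hΦ hy b hb ε
  rcases b with ⟨b, i⟩ | b
  · cases i
    · exact bd_inl F hK hΦ false (Gamma.e0.app Y) (fun b' hb' => hy (Sum.inl (b', false)) hb') b ε
    · exact bd_inl F hK hΦ true (Gamma.e1.app Y) (fun b' hb' => hy (Sum.inl (b', true)) hb') b ε
  · have hb' : K.dim b = n := by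
      have : K.dim b + 1 = n + 1 := hb
      omega
    exact bd_inr F hK hΦ hy b hb' ε

end Rep

open Vale.Agent.P213.Rep in
/-- `Γ` is represented by `- ⊗ I`. -/
theorem cyl_rep {K : Cpx} (hK : Steiner K) {Y : OmegaCat} (F : nuFunctor.obj K ⟶ Gamma.obj Y) :
    ∃! G : nuFunctor.obj (tensorFunctor.obj K) ⟶ Y, cylUnit.app K ≫ Gamma.map G = F := by
  obtain ⟨G, hG⟩ := exists_rep F hK
  refine ⟨G, ?_, ?_⟩
  · apply OmegaCat.hom_ext
    intro t
    obtain ⟨n, hn⟩ := (nu K).finite_dim t
    have hn' : Table.face n false t = t := hn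
    have hΦ : FunctorialOn (n + 1) G.toFun := functorialOn_of_hom G (n + 1)
    have h1 := agree F hK hΦ (fun b _ => hG b) n le_rfl t hn'
    refine Eq.trans ?_ h1
    refine CylCell.ext ?_ ?_ ?_
    · exact (psi_X F hΦ hn').symm
    · exact (psi_Z F hΦ hn').symm
    · funext i δ
      refine Eq.trans ?_ (psi_u F hΦ hn' i δ).symm
      change G.toFun (Table.face (0 + i) δ t).prism = _
      rw [Nat.zero_add]
  · intro G' hG'
    refine functor_ext (tensorSteiner K hK) G' G (fun b => ?_)
    refine Eq.trans ?_ (hG b).symm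
    rcases b with ⟨b, i⟩ | b
    · have h1 : CylCell.map G' (hK.atom b).cyl = F.toFun (hK.atom b) :=
        by
          rw [← hG']
          rfl
      cases i
      · exact congrArg CylCell.X h1
      · exact congrArg CylCell.Z h1
    · have h1 : CylCell.map G' (hK.atom b).cyl = F.toFun (hK.atom b) :=
        by
          rw [← hG']
          rfl
      refine Eq.trans ?_ (congrFun (congrFun (congrArg CylCell.u h1) (K.dim b)) false)
      change G'.toFun (hK.atom b).prism = G'.toFun (Table.face (0 + K.dim b) false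
        (hK.atom b)).prism
      rw [Nat.zero_add, atom_dim hK b le_rfl]

end Vale.Agent.P213
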