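import Vale.Agent.Lib.P213.SSPoset

/-!
# The functors `sd` and `ex`: last vertex map, homotopies
-/

open CategoryTheory MonoidalCategory CartesianMonoidalCategory Simplicial HomotopicalAlgebra Limits
open SSet SSet.modelCategoryQuillen Opposite

universe u

namespace Vale.Agent.P213.SS

lemma ss_ext {X Y : SSet.{u}} {f g : X ⟶ Y} (h : ∀ m (x : X.obj m), f.app m x = g.app m x) :
    f = g := by
  ext m x
  exact h m x

/-- nonempty subsets of `{0,...,n}` -/
abbrev Ch (n : ℕ) : Type u := PartialOrder.NonemptyFiniteChains (ULift.{u} (Fin (n + 1)))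

/-- constructor for `Ch n` -/
def chMk {n : ℕ} (s : Finset (ULift.{u} (Fin (n + 1)))) (h : s.Nonempty) : Ch.{u} n where
  finset := s
  nonempty := h
  comparable a b := le_total a.1.down b.1.down

@[simp] lemma chMk_finset {n : ℕ} (s : Finset (ULift.{u} (Fin (n + 1)))) (h : s.Nonempty) :
    (chMk s h).finset = s := rfl

/-- functoriality of `Ch` -/
noncomputable def chMap {m n : ℕ} (f : Fin (m + 1) →o Fin (n + 1)) : Ch.{u} m →o Ch.{u} n :=
  PartialOrder.NonemptyFiniteChains.orderHomMap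
    ⟨fun i => ULift.up (f i.down), fun _ _ h => f.monotone h⟩

lemma mem_chMap {m n : ℕ} (f : Fin (m + 1) →o Fin (n + 1)) (c : Ch.{u} m)
    (y : ULift.{u} (Fin (n + 1))) :
    y ∈ (chMap f c).finset ↔ ∃ x, x ∈ c.finset ∧ f x.down = y.down := by
  unfold chMap
  simp only [PartialOrder.NonemptyFiniteChains.orderHomMap_coe,
    PartialOrder.NonemptyFiniteChains.mem_map_iff]
  constructor
  · rintro ⟨x, hx, rfl⟩
    exact ⟨x, hx, rfl⟩
  · rintro ⟨x, hx, h⟩
    exact ⟨x, hx, ULift.ext _ _ h⟩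

lemma ch_ext {n : ℕ} {c c' : Ch.{u} n} (h : ∀ x, x ∈ c.finset ↔ x ∈ c'.finset) : c = c' :=
  PartialOrder.NonemptyFiniteChains.ext (Finset.ext h)

lemma chMap_comp {l m n : ℕ} (f : Fin (l + 1) →o Fin (m + 1)) (g : Fin (m + 1) →o Fin (n + 1))
    (c : Ch.{u} l) : chMap g (chMap f c) = chMap (g.comp f) c := by
  apply ch_ext
  intro y
  simp only [mem_chMap, OrderHom.comp_coe, Function.comp_apply]
  constructor
  · rintro ⟨x, ⟨z, hz, h1⟩, h2⟩
    exact ⟨z, hz, by rw [h1, h2]⟩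
  · rintro ⟨z, hz, h⟩
    exact ⟨⟨f z.down⟩, ⟨z, hz, rfl⟩, h⟩

lemma sd_map_eq {m n : SimplexCategory} (φ : m ⟶ n) :
    SimplexCategory.sd.{u}.map φ = nm (chMap φ.toOrderHom) := rfl

/-- the last vertex -/
def chMax {n : ℕ} (c : Ch.{u} n) : Fin (n + 1) := c.finset.sup' c.nonempty ULift.down

lemma le_chMax {n : ℕ} {c : Ch.{u} n} {x : ULift.{u} (Fin (n + 1))} (h : x ∈ c.finset) :
    x.down ≤ chMax c := Finset.le_sup' ULift.down h

lemma chMax_mem {n : ℕ} (c : Ch.{u} n) : ULift.up (chMax c) ∈ c.finset := by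
  obtain ⟨x, hx, h⟩ := Finset.exists_mem_eq_sup' c.nonempty (ULift.down : ULift.{u} (Fin (n + 1)) → _)
  unfold chMax
  rw [h]
  exact hx

lemma chMax_mono {n : ℕ} : Monotone (chMax : Ch.{u} n → _) := fun c _ h => le_chMax (h (chMax_mem c))

lemma chMax_eq {n : ℕ} {c : Ch.{u} n} {i : Fin (n + 1)} (h1 : ULift.up i ∈ c.finset)
    (h2 : ∀ x ∈ c.finset, x.down ≤ i) : chMax c = i :=
  le_antisymm (h2 _ (chMax_mem c)) (le_chMax h1)

lemma chMax_chMap {m n : ℕ} (f : Fin (m + 1) →o Fin (n + 1)) (c : Ch.{u} m) :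
    chMax (chMap f c) = f (chMax c) := by
  apply chMax_eq
  · rw [mem_chMap]
    exact ⟨_, chMax_mem c, rfl⟩
  · intro y hy
    rw [mem_chMap] at hy
    obtain ⟨x, hx, h⟩ := hy
    rw [← h]
    exact f.monotone (le_chMax hx)

/-- the last vertex map on subdivided simplices -/
def lvN (n : SimplexCategory) : SimplexCategory.sd.{u}.obj n ⟶ SSet.stdSimplex.{u}.obj n where
  app m := ↾fun x => SSet.stdSimplex.objMk
    ⟨fun i => chMax ((show (nerve (Ch.{u} n.len)).obj m from x).obj i),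
      fun _ _ h => chMax_mono (nerve_mono (P := Ch.{u} n.len) x h)⟩
  naturality _ _ _ := rfl

lemma lvN_app {n : SimplexCategory} {m : SimplexCategoryᵒᵖ} (x : (nerve (Ch.{u} n.len)).obj m)
    (i : Fin (m.unop.len + 1)) :
    (SSet.stdSimplex.objEquiv ((lvN.{u} n).app m x)).toOrderHom i = chMax (x.obj i) := rfl

lemma std_ext {n : SimplexCategory} {m : SimplexCategoryᵒᵖ}
    {x y : (SSet.stdSimplex.{u}.obj n).obj m}
    (h : ∀ i, (SSet.stdSimplex.objEquiv x).toOrderHom i =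
      (SSet.stdSimplex.objEquiv y).toOrderHom i) : x = y := by
  apply SSet.stdSimplex.objEquiv.injective
  apply SimplexCategory.Hom.ext
  ext i : 2
  exact h i

lemma lvN_nat {n n' : SimplexCategory} (φ : n ⟶ n') :
    SimplexCategory.sd.{u}.map φ ≫ lvN n' = lvN n ≫ SSet.stdSimplex.map φ := by
  apply ss_ext
  intro m x
  apply std_ext
  intro i
  exact chMax_chMap φ.toOrderHom ((show (nerve (Ch.{u} n.len)).obj m from x).obj i)

/-- the initial segment -/
def chSeg {n : ℕ} (k : Fin (n + 1)) : Ch.{u} n :=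
  chMk (Finset.univ.filter (fun x => x.down ≤ k))
    (show Finset.Nonempty _ from ⟨⟨k⟩, Finset.mem_filter.2 ⟨Finset.mem_univ _, le_rfl⟩⟩)

lemma mem_chSeg {n : ℕ} (k : Fin (n + 1)) (x : ULift.{u} (Fin (n + 1))) :
    x ∈ (chSeg k).finset ↔ x.down ≤ k := by
  change x ∈ Finset.univ.filter (fun x : ULift.{u} (Fin (n + 1)) => x.down ≤ k) ↔ _
  rw [Finset.mem_filter]
  simp

lemma chSeg_mono {n : ℕ} : Monotone (chSeg : Fin (n + 1) → Ch.{u} n) := fun a b h x hx => by
  rw [mem_chSeg] at hx ⊢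
  exact hx.trans h

lemma chMax_chSeg {n : ℕ} (k : Fin (n + 1)) : chMax (chSeg.{u} k) = k :=
  chMax_eq ((mem_chSeg _ _).2 le_rfl) (fun _ hx => (mem_chSeg _ _).1 hx)

lemma le_chSeg {n : ℕ} (c : Ch.{u} n) : c ≤ chSeg (chMax c) := fun _ hx => by
  rw [mem_chSeg]
  exact le_chMax hx

/-- section of the last vertex map -/
def lvSec (n : SimplexCategory) : SSet.stdSimplex.{u}.obj n ⟶ SimplexCategory.sd.{u}.obj n where
  app m := ↾fun x => nmk (P := Ch.{u} n.len) (m := m)
    (fun i => chSeg ((SSet.stdSimplex.objEquiv x).toOrderHom i))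
    (fun _ _ h => chSeg_mono ((SSet.stdSimplex.objEquiv x).toOrderHom.monotone h))
  naturality _ _ _ := rfl

lemma lvSec_lvN (n : SimplexCategory) : lvSec.{u} n ≫ lvN n = 𝟙 _ := by
  apply ss_ext
  intro m x
  apply std_ext
  intro i
  exact chMax_chSeg _

instance (n : SimplexCategory) : Epi (lvN.{u} n) := epi_of_epi_fac (lvSec_lvN n)

/-- the composite of the last vertex map and its section -/
def segMax (n : ℕ) : Ch.{u} n →o Ch.{u} n := ⟨fun c => chSeg (chMax c), fun _ _ h =>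
  chSeg_mono (chMax_mono h)⟩

lemma lvN_lvSec (n : SimplexCategory) : lvN.{u} n ≫ lvSec n = nm (segMax n.len) := by
  apply ss_ext
  intro m x
  exact nerve_ext (P := Ch.{u} n.len) fun i => rfl

lemma weq_lvN (n : SimplexCategory) : weq (lvN.{u} n) := by
  refine weq_of_homotopyEquiv _ (lvSec n) ?_ ?_
  · rw [lvN_lvSec]
    exact (HR.he (HR_nm OrderHom.id (segMax n.len) le_chSeg)).symm
  · rw [lvSec_lvN]
    exact HE.refl _

section ex

variable {X Y Z : SSet.{u}}

/-- An element of `ex X` from a map. -/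
def exMk {m : SimplexCategoryᵒᵖ} (f : SimplexCategory.sd.{u}.obj m.unop ⟶ X) :
    (ex.obj X).obj m := ULift.up f

/-- The map corresponding to a simplex of `ex X`. -/
def exDown {m : SimplexCategoryᵒᵖ} (x : (ex.obj X).obj m) :
    SimplexCategory.sd.{u}.obj m.unop ⟶ X := ULift.down x

@[simp] lemma exDown_exMk {m : SimplexCategoryᵒᵖ} (f : SimplexCategory.sd.{u}.obj m.unop ⟶ X) :
    exDown (exMk f) = f := rfl

@[simp] lemma exMk_exDown {m : SimplexCategoryᵒᵖ} (x : (ex.obj X).obj m) :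
    exMk (exDown x) = x := rfl

lemma ex_ext {m : SimplexCategoryᵒᵖ} {x y : (ex.obj X).obj m} (h : exDown x = exDown y) :
    x = y := congrArg exMk h

lemma ex_map_app (f : X ⟶ Y) {m : SimplexCategoryᵒᵖ} (x : (ex.obj X).obj m) :
    exDown ((ex.map f).app m x) = exDown x ≫ f := rfl

lemma ex_obj_map {m m' : SimplexCategoryᵒᵖ} (φ : m ⟶ m') (x : (ex.obj X).obj m) :
    exDown ((ex.obj X).map φ x) = SimplexCategory.sd.map φ.unop ≫ exDown x := rfl

set_option backward.isDefEq.respectTransparency false in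
lemma homEquiv_app (f : sd.obj X ⟶ Y) {m : SimplexCategoryᵒᵖ} (z : X.obj m) :
    exDown ((sdExAdjunction.homEquiv X Y f).app m z) =
      SSet.stdSimplex.sdIso.inv.app m.unop ≫ sd.map (yonedaEquiv.symm z) ≫ f := by
  exact congrArg ULift.down (Presheaf.uliftYonedaAdjunction_homEquiv_app.{0, 0, u, 0, u + 1}
    (SSet.stdSimplex.{u}.leftKanExtension SimplexCategory.sd.{u})
    (SSet.stdSimplex.{u}.leftKanExtensionUnit SimplexCategory.sd.{u}) f z)

/-- the natural map `X ⟶ Ex X`. -/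
noncomputable def rhoApp (X : SSet.{u}) : X ⟶ ex.obj X where
  app m := ↾fun x => exMk (lvN m.unop ≫ yonedaEquiv.symm x)
  naturality m m' φ := by
    ext x
    apply ex_ext
    change lvN m'.unop ≫ yonedaEquiv.symm (X.map φ x) =
      SimplexCategory.sd.map φ.unop ≫ lvN m.unop ≫ yonedaEquiv.symm x
    rw [← Category.assoc, lvN_nat, Category.assoc, yonedaEquiv_symm_naturality_left]
    rfl

lemma rhoApp_app (X : SSet.{u}) {m : SimplexCategoryᵒᵖ} (x : X.obj m) :
    exDown ((rhoApp X).app m x) = lvN m.unop ≫ yonedaEquiv.symm x := rfl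

/-- The natural transformation `X ⟶ Ex X`. -/
noncomputable def rho : 𝟭 SSet.{u} ⟶ ex.{u} where
  app X := rhoApp X
  naturality X Y f := by
    apply ss_ext
    intro m x
    apply ex_ext
    change lvN m.unop ≫ yonedaEquiv.symm (f.app m x) =
      (lvN m.unop ≫ yonedaEquiv.symm x) ≫ f
    rw [Category.assoc, yonedaEquiv_symm_comp]

lemma rho_app (X : SSet.{u}) {m : SimplexCategoryᵒᵖ} (x : X.obj m) :
    exDown ((rho.app X).app m x) = lvN m.unop ≫ yonedaEquiv.symm x := rfl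

instance (X : SSet.{u}) : Mono (rho.app X) := by
  rw [NatTrans.mono_iff_mono_app]
  intro m
  rw [mono_iff_injective]
  intro x y hxy
  have h1 : lvN m.unop ≫ yonedaEquiv.symm x = lvN m.unop ≫ yonedaEquiv.symm y :=
    congrArg exDown hxy
  rw [cancel_epi] at h1
  exact yonedaEquiv.symm.injective h1

/-- The last vertex map `sd X ⟶ X`. -/
noncomputable def lv : sd.{u} ⟶ 𝟭 SSet.{u} where
  app X := (sdExAdjunction.homEquiv X X).symm (rho.app X)
  naturality X Y f := by
    apply (sdExAdjunction.homEquiv X Y).injective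
    rw [Adjunction.homEquiv_naturality_left, Adjunction.homEquiv_naturality_right]
    have h1 := (sdExAdjunction.homEquiv X X).apply_symm_apply (rho.app X)
    have h2 := (sdExAdjunction.homEquiv Y Y).apply_symm_apply (rho.app Y)
    exact (congrArg (fun z => f ≫ z) h2).trans ((rho.naturality f).trans
      (congrArg (fun z => z ≫ ex.map f) h1.symm))

lemma rho_eq (X : SSet.{u}) : rho.app X = sdExAdjunction.homEquiv X X (lv.app X) :=
  ((sdExAdjunction.homEquiv X X).apply_symm_apply _).symm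

lemma sdIso_inv_lv (n : SimplexCategory) :
    SSet.stdSimplex.sdIso.{u}.inv.app n ≫ lv.app (SSet.stdSimplex.obj n) = lvN n := by
  have h := homEquiv_app (lv.app (SSet.stdSimplex.{u}.obj n)) (m := op n)
    (SSet.stdSimplex.objEquiv.symm (𝟙 n))
  have h3 := rho_app (SSet.stdSimplex.{u}.obj n) (m := op n)
    (SSet.stdSimplex.objEquiv.symm (𝟙 n))
  rw [rho_eq] at h3
  have h4 := h.symm.trans h3
  have h2 : yonedaEquiv.symm (SSet.stdSimplex.objEquiv.{u}.symm (β := n ⟶ n) (𝟙 n)) =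
    𝟙 (SSet.stdSimplex.obj n) := yonedaEquiv_symm_stdSimplex_id n
  rw [h2, sd.map_id] at h4
  have h5 := Category.id_comp (lv.app (SSet.stdSimplex.{u}.obj n))
  have h6 := Category.comp_id (lvN.{u} n)
  exact (congrArg (fun z => SSet.stdSimplex.sdIso.{u}.inv.app n ≫ z) h5).symm.trans (h4.trans h6)

/-- the last vertex map of a standard simplex is a weak equivalence -/
lemma weq_sd_stdSimplex (n : ℕ) : weq (lv.app (Δ[n] : SSet.{u})) := by
  have h1 := sdIso_inv_lv.{u} ⦋n⦌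
  have h2 : lv.app (Δ[n] : SSet.{u}) = (SSet.stdSimplex.sdIso.{u}.app ⦋n⦌).hom ≫ lvN ⦋n⦌ := by
    rw [← h1]
    exact (Iso.hom_inv_id_app_assoc SSet.stdSimplex.sdIso.{u} ⦋n⦌ _).symm
  rw [h2]
  exact (MorphismProperty.cancel_left_of_respectsIso weq _ _).2 (weq_lvN _)

/-- the homotopy between the images under `ex` -/
noncomputable def exHtpy (h : X ⊗ Δ[1] ⟶ Y) : ex.obj X ⊗ Δ[1] ⟶ ex.obj Y where
  app m := ↾fun z => exMk (X := Y) (m := m) (CartesianMonoidalCategory.lift
    (exDown (show (ex.obj X).obj m from z.1))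
    (lvN m.unop ≫ yonedaEquiv.symm (show (Δ[1] : SSet.{u}).obj m from z.2)) ≫ h)
  naturality m m' φ := by
    ext ⟨x, t⟩
    apply ex_ext
    change CartesianMonoidalCategory.lift (SimplexCategory.sd.{u}.map φ.unop ≫ exDown x)
      (lvN m'.unop ≫ yonedaEquiv.symm ((Δ[1] : SSet.{u}).map φ t)) ≫ h =
      SimplexCategory.sd.{u}.map φ.unop ≫ CartesianMonoidalCategory.lift (exDown x)
      (lvN m.unop ≫ yonedaEquiv.symm t) ≫ h
    rw [← Category.assoc, comp_lift, ← Category.assoc, lvN_nat, Category.assoc,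
      yonedaEquiv_symm_naturality_left]
    rfl

lemma HR.ex {f g : X ⟶ Y} (h : HR f g) : HR (ex.map f) (ex.map g) := by
  obtain ⟨h, rfl, rfl⟩ := h
  refine ⟨exHtpy h, ?_, ?_⟩
  · apply ss_ext
    intro m x
    apply ex_ext
    apply ss_ext
    intro l y
    change h.app l _ = h.app l _
    congr 1
  · apply ss_ext
    intro m x
    apply ex_ext
    apply ss_ext
    intro l y
    change h.app l _ = h.app l _
    congr 1

/-! ### Vertices of simplices of subdivided simplices -/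

/-- the vertices of a simplex of the subdivision of a standard simplex -/
noncomputable def vt {m : SimplexCategory} {l : SimplexCategoryᵒᵖ} (y : (SimplexCategory.sd.{u}.obj m).obj l)
    (i : Fin (l.unop.len + 1)) : Ch.{u} m.len :=
  (show (nerve (Ch.{u} m.len)).obj l from y).obj i

lemma vt_mono {m : SimplexCategory} {l : SimplexCategoryᵒᵖ}
    (y : (SimplexCategory.sd.{u}.obj m).obj l) {i j : Fin (l.unop.len + 1)} (h : i ≤ j) :
    vt y i ≤ vt y j := nerve_mono (P := Ch.{u} m.len) y h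

lemma vt_ext {m : SimplexCategory} {l : SimplexCategoryᵒᵖ}
    {x y : (SimplexCategory.sd.{u}.obj m).obj l} (h : ∀ i, vt x i = vt y i) : x = y :=
  nerve_ext (P := Ch.{u} m.len) h

lemma vt_map {m : SimplexCategory} {l l' : SimplexCategoryᵒᵖ} (ψ : l ⟶ l')
    (y : (SimplexCategory.sd.{u}.obj m).obj l) (i : Fin (l'.unop.len + 1)) :
    vt ((SimplexCategory.sd.{u}.obj m).map ψ y) i = vt y (ψ.unop.toOrderHom i) := rfl

/-- map of subdivided simplices induced by a monotone map of the vertices -/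
noncomputable def nmS {m n : SimplexCategory} (f : Ch.{u} m.len →o Ch.{u} n.len) :
    SimplexCategory.sd.{u}.obj m ⟶ SimplexCategory.sd.{u}.obj n := nm f

lemma vt_nmS {m n : SimplexCategory} (f : Ch.{u} m.len →o Ch.{u} n.len) {l : SimplexCategoryᵒᵖ}
    (y : (SimplexCategory.sd.{u}.obj m).obj l) (i : Fin (l.unop.len + 1)) :
    vt ((nmS f).app l y) i = f (vt y i) := rfl

lemma sd_map_nmS {m n : SimplexCategory} (φ : m ⟶ n) :
    SimplexCategory.sd.{u}.map φ = nmS (chMap φ.toOrderHom) := rfl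

lemma vt_sd_map {m n : SimplexCategory} (φ : m ⟶ n) {l : SimplexCategoryᵒᵖ}
    (y : (SimplexCategory.sd.{u}.obj m).obj l) (i : Fin (l.unop.len + 1)) :
    vt ((SimplexCategory.sd.{u}.map φ).app l y) i = chMap φ.toOrderHom (vt y i) := rfl

lemma nmS_comp {m n p : SimplexCategory} (f : Ch.{u} m.len →o Ch.{u} n.len)
    (g : Ch.{u} n.len →o Ch.{u} p.len) : nmS f ≫ nmS g = nmS (g.comp f) := rfl

lemma lvN_vt {m : SimplexCategory} {l : SimplexCategoryᵒᵖ}
    (y : (SimplexCategory.sd.{u}.obj m).obj l) (i : Fin (l.unop.len + 1)) :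
    (SSet.stdSimplex.objEquiv ((lvN.{u} m).app l y)).toOrderHom i = chMax (vt y i) := rfl

/-! ### The homotopy between `ex ρ` and `ρ ex` -/

/-- Interpolation between `c ↦ {max (y i) | i ∈ c}` and `c ↦ y (max c)`. -/
noncomputable def chGamSet {m : SimplexCategory} (E : Fin (m.len + 1) → Prop)
    {l : SimplexCategoryᵒᵖ} (y : (SimplexCategory.sd.{u}.obj m).obj l) (c : Ch.{u} l.unop.len) :
    Finset (ULift.{u} (Fin (m.len + 1))) := by
  classical
  exact Finset.univ.filter (fun v => ∃ i ∈ c.finset,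
      (v ∈ (vt y i.down).finset ∧ E (chMax (vt y i.down))) ∨ v = ⟨chMax (vt y i.down)⟩)

lemma mem_chGamSet {m : SimplexCategory} (E : Fin (m.len + 1) → Prop) {l : SimplexCategoryᵒᵖ}
    (y : (SimplexCategory.sd.{u}.obj m).obj l) (c : Ch.{u} l.unop.len)
    (v : ULift.{u} (Fin (m.len + 1))) :
    v ∈ chGamSet E y c ↔ ∃ i ∈ c.finset,
      (v ∈ (vt y i.down).finset ∧ E (chMax (vt y i.down))) ∨ v = ⟨chMax (vt y i.down)⟩ := by
  simp only [chGamSet, Finset.mem_filter, Finset.mem_univ, true_and]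

/-- Interpolation between `c ↦ {max (y i) | i ∈ c}` and `c ↦ y (max c)`. -/
noncomputable def chGam {m : SimplexCategory} (E : Fin (m.len + 1) → Prop)
    {l : SimplexCategoryᵒᵖ} (y : (SimplexCategory.sd.{u}.obj m).obj l) :
    Ch.{u} l.unop.len →o Ch.{u} m.len where
  toFun c := chMk (chGamSet E y c)
    ⟨⟨chMax (vt y (chMax c))⟩, (mem_chGamSet _ _ _ _).2 ⟨⟨chMax c⟩, chMax_mem c, Or.inr rfl⟩⟩
  monotone' c c' h v hv := by
    change v ∈ chGamSet E y c at hv
    change v ∈ chGamSet E y c'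
    rw [mem_chGamSet] at hv ⊢
    obtain ⟨i, hi, hv⟩ := hv
    exact ⟨i, h hi, hv⟩

lemma mem_chGam {m : SimplexCategory} (E : Fin (m.len + 1) → Prop) {l : SimplexCategoryᵒᵖ}
    (y : (SimplexCategory.sd.{u}.obj m).obj l) (c : Ch.{u} l.unop.len)
    (v : ULift.{u} (Fin (m.len + 1))) :
    v ∈ (chGam E y c).finset ↔ ∃ i ∈ c.finset,
      (v ∈ (vt y i.down).finset ∧ E (chMax (vt y i.down))) ∨ v = ⟨chMax (vt y i.down)⟩ :=
  mem_chGamSet E y c v

lemma chGam_natl {m : SimplexCategory} (E : Fin (m.len + 1) → Prop) {l l' : SimplexCategoryᵒᵖ}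
    (ψ : l ⟶ l') (y : (SimplexCategory.sd.{u}.obj m).obj l) :
    chGam E ((SimplexCategory.sd.{u}.obj m).map ψ y) =
      (chGam E y).comp (chMap ψ.unop.toOrderHom) := by
  ext c : 2
  apply ch_ext
  intro v
  rw [OrderHom.comp_coe, Function.comp_apply, mem_chGam, mem_chGam]
  simp only [vt_map, mem_chMap]
  constructor
  · rintro ⟨i, hi, h⟩
    exact ⟨⟨ψ.unop.toOrderHom i.down⟩, ⟨i, hi, rfl⟩, h⟩
  · rintro ⟨j, ⟨i, hi, hj⟩, h⟩
    refine ⟨i, hi, ?_⟩
    rw [hj]
    exact h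

lemma chGam_natm {m m' : SimplexCategory} (φ : m' ⟶ m)
    (E : Fin (m.len + 1) → Prop)
    {l : SimplexCategoryᵒᵖ} (y : (SimplexCategory.sd.{u}.obj m').obj l) :
    chGam E ((SimplexCategory.sd.{u}.map φ).app l y) =
      (chMap φ.toOrderHom).comp (chGam (fun i => E (φ.toOrderHom i)) y) := by
  ext c : 2
  apply ch_ext
  intro v
  rw [OrderHom.comp_coe, Function.comp_apply, mem_chGam, mem_chMap]
  simp only [vt_sd_map, mem_chMap, mem_chGam, chMax_chMap]
  constructor
  · rintro ⟨i, hi, ⟨⟨x, hx, h1⟩, h⟩ | h⟩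
    · exact ⟨x, ⟨i, hi, Or.inl ⟨hx, h⟩⟩, h1⟩
    · exact ⟨⟨chMax (vt y i.down)⟩, ⟨i, hi, Or.inr rfl⟩, by rw [h]⟩
  · rintro ⟨x, ⟨i, hi, ⟨hx, h⟩ | h⟩, h1⟩
    · exact ⟨i, hi, Or.inl ⟨⟨x, hx, h1⟩, h⟩⟩
    · refine ⟨i, hi, Or.inr ?_⟩
      apply ULift.ext
      rw [← h1, h]

/-- auxiliary definition for `exRhoHtpy` -/
noncomputable def exRhoIn {m : SimplexCategory} (E : Fin (m.len + 1) → Prop)
    (s : SimplexCategory.sd.{u}.obj m ⟶ X) : SimplexCategory.sd.{u}.obj m ⟶ ex.obj X where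
  app l := ↾fun y => exMk (m := l) (nmS (chGam E y) ≫ s)
  naturality l l' ψ := by
    ext y
    apply ex_ext
    change nmS (chGam E ((SimplexCategory.sd.{u}.obj m).map ψ y)) ≫ s =
      SimplexCategory.sd.{u}.map ψ.unop ≫ nmS (chGam E y) ≫ s
    rw [chGam_natl, sd_map_nmS, ← Category.assoc, nmS_comp]

lemma exRhoIn_app {m : SimplexCategory} (E : Fin (m.len + 1) → Prop)
    (s : SimplexCategory.sd.{u}.obj m ⟶ X) {l : SimplexCategoryᵒᵖ}
    (y : (SimplexCategory.sd.{u}.obj m).obj l) :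
    exDown ((exRhoIn E s).app l y) = nmS (chGam E y) ≫ s := rfl

/-- The homotopy from `ρ_{ex X}` to `ex ρ_X`. -/
noncomputable def exRhoHtpy (X : SSet.{u}) : ex.obj X ⊗ Δ[1] ⟶ ex.obj (ex.obj X) where
  app m := ↾fun z => exMk (X := ex.obj X) (m := m)
    (exRhoIn (fun i => (SSet.stdSimplex.objEquiv z.2).toOrderHom i ≠ 0) (exDown z.1))
  naturality m m' φ := by
    ext ⟨x, t⟩
    apply ex_ext
    apply ss_ext
    intro l y
    apply ex_ext
    change nmS (chGam (fun i => (SSet.stdSimplex.objEquiv t).toOrderHom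
        (φ.unop.toOrderHom i) ≠ 0) y) ≫ (SimplexCategory.sd.{u}.map φ.unop ≫ exDown x) =
        nmS (chGam (fun i => (SSet.stdSimplex.objEquiv t).toOrderHom i ≠ 0)
          ((SimplexCategory.sd.{u}.map φ.unop).app l y)) ≫ exDown x
    rw [chGam_natm, sd_map_nmS, ← Category.assoc, nmS_comp]

lemma chGam_false {m : SimplexCategory} (E : Fin (m.len + 1) → Prop) (hE : ∀ i, ¬ E i)
    {l : SimplexCategoryᵒᵖ} (y : (SimplexCategory.sd.{u}.obj m).obj l) :
    chGam E y = chMap (SSet.stdSimplex.objEquiv ((lvN.{u} m).app l y)).toOrderHom := by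
  ext c : 2
  apply ch_ext
  intro v
  rw [mem_chGam, mem_chMap]
  constructor
  · rintro ⟨i, hi, ⟨-, h⟩ | h⟩
    · exact absurd h (hE _)
    · refine ⟨i, hi, ?_⟩
      rw [h]
      exact lvN_vt y _
  · rintro ⟨i, hi, h⟩
    exact ⟨i, hi, Or.inr (ULift.ext _ _ h.symm)⟩

lemma chGam_true {m : SimplexCategory} (E : Fin (m.len + 1) → Prop) (hE : ∀ i, E i)
    {l : SimplexCategoryᵒᵖ} (y : (SimplexCategory.sd.{u}.obj m).obj l) (c : Ch.{u} l.unop.len) :
    chGam E y c = vt y (chMax c) := by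
  apply ch_ext
  intro v
  rw [mem_chGam]
  constructor
  · rintro ⟨i, hi, ⟨h, -⟩ | h⟩
    · exact vt_mono y (le_chMax hi) h
    · rw [h]
      exact vt_mono y (le_chMax hi) (chMax_mem _)
  · intro h
    exact ⟨_, chMax_mem c, Or.inl ⟨h, hE _⟩⟩

lemma ex_rho_HR (X : SSet.{u}) : HR (rho.app (ex.obj X)) (ex.map (rho.app X)) := by
  refine ⟨exRhoHtpy X, ?_, ?_⟩
  · apply ss_ext
    intro m x
    apply ex_ext
    apply ss_ext
    intro l y
    apply ex_ext
    change nmS (chGam (fun i => (0 : Fin 2) ≠ 0) y) ≫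
      exDown x = SimplexCategory.sd.{u}.map
        (SSet.stdSimplex.objEquiv ((lvN m.unop).app l y)) ≫ exDown x
    rw [chGam_false _ (by simp), sd_map_nmS]
  · apply ss_ext
    intro m x
    apply ex_ext
    apply ss_ext
    intro l y
    apply ex_ext
    change nmS (chGam (fun i => (1 : Fin 2) ≠ 0) y) ≫
      exDown x = lvN l.unop ≫ yonedaEquiv.symm ((exDown x).app l y)
    rw [← yonedaEquiv_symm_comp, ← Category.assoc]
    congr 1
    apply ss_ext
    intro k z
    apply vt_ext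
    intro i
    rw [vt_nmS, chGam_true _ (by simp)]
    rfl

end ex

end Vale.Agent.P213.SS
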