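import Vale.Agent.Lib.P213.SSEx

/-!
# Maps from subcomplexes of a simplex to `ex X`
-/

open CategoryTheory MonoidalCategory CartesianMonoidalCategory Simplicial HomotopicalAlgebra Limits
open SSet SSet.modelCategoryQuillen Opposite

universe u

namespace Vale.Agent.P213.SS

/-- the full set of vertices -/
def chTop (n : ℕ) : Ch.{u} n := chMk Finset.univ ⟨⟨0⟩, Finset.mem_univ _⟩

lemma mem_chTop {n : ℕ} (x : ULift.{u} (Fin (n + 1))) : x ∈ (chTop.{u} n).finset :=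
  Finset.mem_univ _

lemma le_chTop {n : ℕ} (c : Ch.{u} n) : c ≤ chTop n := fun _ _ => Finset.mem_univ _

lemma exists_emb {n : ℕ} (c : Ch.{u} n) : ∃ (d : ℕ) (f : Fin (d + 1) →o Fin (n + 1)),
    Function.Injective f ∧ ∀ v, ULift.up v ∈ c.finset ↔ ∃ j, f j = v := by
  classical
  let s : Finset (Fin (n + 1)) := c.finset.image ULift.down
  have hs : s.Nonempty := c.nonempty.image _
  have hcard : s.card = (s.card - 1) + 1 := by
    have := hs.card_pos
    omega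
  refine ⟨s.card - 1, (s.orderEmbOfFin hcard).toOrderHom, (s.orderEmbOfFin hcard).injective, ?_⟩
  intro v
  have h1 := s.range_orderEmbOfFin hcard
  constructor
  · intro hv
    have : v ∈ (s : Set (Fin (n + 1))) := Finset.mem_image.2 ⟨_, hv, rfl⟩
    rw [← h1] at this
    exact this
  · rintro ⟨j, hj⟩
    have : v ∈ (s : Set (Fin (n + 1))) := by
      rw [← h1]
      exact ⟨j, hj⟩
    obtain ⟨w, hw, h2⟩ := Finset.mem_image.1 (Finset.mem_coe.1 this)
    have h3 : w = ULift.up v := ULift.ext _ _ h2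
    rwa [← h3]

lemma chMap_le_of_le {d n : ℕ} {f : Fin (d + 1) →o Fin (n + 1)} (hf : Function.Injective f)
    {a b : Ch.{u} d} (h : chMap f a ≤ chMap f b) : a ≤ b := by
  intro x hx
  have h1 : ULift.up (f x.down) ∈ (chMap f a).finset := (mem_chMap _ _ _).2 ⟨x, hx, rfl⟩
  obtain ⟨y, hy, h2⟩ := (mem_chMap _ _ _).1 (h h1)
  have h3 : y = x := ULift.ext _ _ (hf h2)
  rwa [← h3]

lemma chMap_injective {d n : ℕ} {f : Fin (d + 1) →o Fin (n + 1)} (hf : Function.Injective f)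
    {a b : Ch.{u} d} (h : chMap f a = chMap f b) : a = b :=
  le_antisymm (chMap_le_of_le hf h.le) (chMap_le_of_le hf h.ge)

/-- preimage of a set of vertices -/
def chPre {d n : ℕ} (f : Fin (d + 1) →o Fin (n + 1)) (c : Ch.{u} n)
    (h : ∀ x ∈ c.finset, ∃ j, f j = x.down) : Ch.{u} d :=
  chMk (Finset.univ.filter (fun j => ULift.up (f j.down) ∈ c.finset)) (by
    obtain ⟨x, hx⟩ := c.nonempty
    obtain ⟨j, hj⟩ := h x hx
    exact ⟨⟨j⟩, Finset.mem_filter.2 ⟨Finset.mem_univ _, by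
      change ULift.up (f j) ∈ _
      rw [hj]
      exact hx⟩⟩)

lemma chMap_chPre {d n : ℕ} (f : Fin (d + 1) →o Fin (n + 1)) (c : Ch.{u} n)
    (h : ∀ x ∈ c.finset, ∃ j, f j = x.down) : chMap f (chPre f c h) = c := by
  apply ch_ext
  intro v
  rw [mem_chMap]
  constructor
  · rintro ⟨x, hx, h1⟩
    have h2 : x ∈ Finset.univ.filter (fun j => ULift.up (f j.down) ∈ c.finset) := hx
    rw [Finset.mem_filter] at h2
    have h3 : ULift.up (f x.down) = v := ULift.ext _ _ h1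
    rw [← h3]
    exact h2.2
  · intro hv
    obtain ⟨j, hj⟩ := h v hv
    refine ⟨⟨j⟩, Finset.mem_filter.2 ⟨Finset.mem_univ _, ?_⟩, hj⟩
    change ULift.up (f j) ∈ _
    rw [hj]
    exact hv

lemma exists_lift_simplex {d : ℕ} {M : SimplexCategory} (f : Fin (d + 1) →o Fin (M.len + 1))
    (hf : Function.Injective f) {l : SimplexCategoryᵒᵖ} (y : (SimplexCategory.sd.{u}.obj M).obj l)
    (h : ∀ i, ∀ x ∈ (vt y i).finset, ∃ j, f j = x.down) :
    ∃ z : (SimplexCategory.sd.{u}.obj ⦋d⦌).obj l,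
      (SimplexCategory.sd.{u}.map (SimplexCategory.Hom.mk (a := ⦋d⦌) (b := M) f)).app l z = y := by
  refine ⟨nmk (P := Ch.{u} d) (m := l) (fun i => chPre f (vt y i) (h i)) ?_, ?_⟩
  · intro i j hij
    apply chMap_le_of_le hf
    rw [chMap_chPre, chMap_chPre]
    exact vt_mono y hij
  · apply vt_ext
    intro i
    exact chMap_chPre f (vt y i) (h i)

section glue

variable {n : ℕ} {K : (Δ[n] : SSet.{u}).Subcomplex} {Fc : Set (Ch.{u} n)}

/-- `Fc` is the set of faces of the subcomplex `K`. -/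
def Faces (K : (Δ[n] : SSet.{u}).Subcomplex) (Fc : Set (Ch.{u} n)) : Prop :=
  IsLowerSet Fc ∧ ∀ {m : SimplexCategoryᵒᵖ} (σ : (Δ[n] : SSet.{u}).obj m),
    σ ∈ K.obj m ↔ chMap (SSet.stdSimplex.objEquiv σ).toOrderHom (chTop _) ∈ Fc

lemma Faces.mem (hK : Faces K Fc) {m : SimplexCategoryᵒᵖ} {σ : (Δ[n] : SSet.{u}).obj m}
    (hσ : σ ∈ K.obj m) (c : Ch.{u} m.unop.len) :
    chMap (SSet.stdSimplex.objEquiv σ).toOrderHom c ∈ Fc :=
  hK.1 ((chMap _).monotone (le_chTop c)) ((hK.2 σ).1 hσ)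

/-- the map of posets of faces induced by a simplex -/
noncomputable def toP (hK : Faces K Fc) {m : SimplexCategoryᵒᵖ} {σ : (Δ[n] : SSet.{u}).obj m}
    (hσ : σ ∈ K.obj m) : Ch.{u} m.unop.len →o Fc where
  toFun c := ⟨chMap (SSet.stdSimplex.objEquiv σ).toOrderHom c, hK.mem hσ c⟩
  monotone' _ _ h := (chMap (SSet.stdSimplex.objEquiv σ).toOrderHom).monotone h

/-- the map of nerves induced by a simplex -/
noncomputable def toN (hK : Faces K Fc) {m : SimplexCategoryᵒᵖ} {σ : (Δ[n] : SSet.{u}).obj m}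
    (hσ : σ ∈ K.obj m) : SimplexCategory.sd.{u}.obj m.unop ⟶ nerve Fc := nm (toP hK hσ)

lemma toN_obj (hK : Faces K Fc) {m : SimplexCategoryᵒᵖ} {σ : (Δ[n] : SSet.{u}).obj m}
    (hσ : σ ∈ K.obj m) {l : SimplexCategoryᵒᵖ} (y : (SimplexCategory.sd.{u}.obj m.unop).obj l)
    (i : Fin (l.unop.len + 1)) : (((toN hK hσ).app l y).obj i : Ch.{u} n) =
      chMap (SSet.stdSimplex.objEquiv σ).toOrderHom (vt y i) := rfl

variable {X : SSet.{u}} (g : (K : SSet.{u}) ⟶ ex.obj X)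

/-- the value of `g` on a simplex -/
noncomputable def gv {m : SimplexCategoryᵒᵖ} (σ : (Δ[n] : SSet.{u}).obj m) (hσ : σ ∈ K.obj m) :
    SimplexCategory.sd.{u}.obj m.unop ⟶ X := exDown (g.app m ⟨σ, hσ⟩)

lemma gv_nat {m m' : SimplexCategoryᵒᵖ} (φ : m ⟶ m') (σ : (Δ[n] : SSet.{u}).obj m)
    (hσ : σ ∈ K.obj m) (hσ' : (Δ[n] : SSet.{u}).map φ σ ∈ K.obj m') :
    gv g ((Δ[n] : SSet.{u}).map φ σ) hσ' = SimplexCategory.sd.map φ.unop ≫ gv g σ hσ := by
  have := g.naturality_apply φ ⟨σ, hσ⟩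
  exact congrArg exDown this

lemma gv_congr {m : SimplexCategoryᵒᵖ} {σ σ' : (Δ[n] : SSet.{u}).obj m} (h : σ = σ')
    (hσ : σ ∈ K.obj m) (hσ' : σ' ∈ K.obj m) : gv g σ hσ = gv g σ' hσ' := by
  subst h
  rfl

/-- A presentation of a simplex of the nerve of `Fc`. -/
structure Pres (K : (Δ[n] : SSet.{u}).Subcomplex) {Fc : Set (Ch.{u} n)} {l : SimplexCategoryᵒᵖ}
    (x : (nerve Fc).obj l) where
  m : SimplexCategoryᵒᵖ
  σ : (Δ[n] : SSet.{u}).obj m
  hσ : σ ∈ K.obj m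
  y : (SimplexCategory.sd.{u}.obj m.unop).obj l
  hy : ∀ i, chMap (SSet.stdSimplex.objEquiv σ).toOrderHom (vt y i) = (x.obj i).1

/-- the value of `g` on a presentation -/
noncomputable def Pres.val {l : SimplexCategoryᵒᵖ} {x : (nerve Fc).obj l} (p : Pres K x) :
    X.obj l := (gv g p.σ p.hσ).app l p.y

lemma mem_of_range (hK : Faces K Fc) {c : Ch.{u} n} (hc : c ∈ Fc) {e : ℕ}
    (f : Fin (e + 1) →o Fin (n + 1)) (hr : ∀ v, ULift.up v ∈ c.finset ↔ ∃ j, f j = v) :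
    (SSet.stdSimplex.objMk (n := ⦋n⦌) (m := op ⦋e⦌) f : (Δ[n] : SSet.{u}) _⦋e⦌) ∈
      K.obj (op ⦋e⦌) := by
  rw [hK.2]
  have : chMap (SSet.stdSimplex.objEquiv (SSet.stdSimplex.objMk (n := ⦋n⦌) (m := op ⦋e⦌) f :
      (Δ[n] : SSet.{u}) _⦋e⦌)).toOrderHom (chTop _) = c := by
    apply ch_ext
    intro v
    rw [mem_chMap]
    constructor
    · rintro ⟨x, -, h⟩
      exact (hr v.down).2 ⟨x.down, h⟩
    · intro hv
      obtain ⟨j, hj⟩ := (hr v.down).1 hv
      exact ⟨⟨j⟩, mem_chTop _, hj⟩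
  rw [this]
  exact hc

lemma Pres.canon (hK : Faces K Fc) {l : SimplexCategoryᵒᵖ} {x : (nerve Fc).obj l} (p : Pres K x)
    {e : ℕ} (f : Fin (e + 1) →o Fin (n + 1)) (hf : Function.Injective f)
    (hr : ∀ v, ULift.up v ∈ (x.obj (Fin.last _)).1.finset ↔ ∃ j, f j = v) :
    ∃ z : (SimplexCategory.sd.{u}.obj ⦋e⦌).obj l, (∀ i, chMap f (vt z i) = (x.obj i).1) ∧
      p.val g = (gv g (SSet.stdSimplex.objMk (n := ⦋n⦌) (m := op ⦋e⦌) f)
        (mem_of_range hK (x.obj (Fin.last _)).2 f hr)).app l z := by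
  obtain ⟨m, σ, hσ, y, hy⟩ := p
  obtain ⟨d, ft, hft, hrt⟩ := exists_emb (vt y (Fin.last _))
  obtain ⟨yt, hyt⟩ := exists_lift_simplex ft hft y (by
    intro i x hx
    exact (hrt x.down).1 (vt_mono y (Fin.le_last i) hx))
  -- the factorization
  have hfac : ∀ i, ∃ j, f j = (SSet.stdSimplex.objEquiv σ).toOrderHom (ft i) := by
    intro i
    rw [← hr, ← hy, mem_chMap]
    exact ⟨⟨ft i⟩, (hrt _).2 ⟨i, rfl⟩, rfl⟩
  choose π hπ using hfac
  have hπm : Monotone π := by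
    intro i j hij
    have h1 : f (π i) ≤ f (π j) := by
      rw [hπ, hπ]
      exact (SSet.stdSimplex.objEquiv σ).toOrderHom.monotone (ft.monotone hij)
    by_contra hcon
    rw [not_le] at hcon
    exact hcon.ne (hf (le_antisymm (f.monotone hcon.le) h1))
  let Φ : ⦋d⦌ ⟶ m.unop := SimplexCategory.Hom.mk ft
  let Θ : ⦋d⦌ ⟶ ⦋e⦌ := SimplexCategory.Hom.mk ⟨π, hπm⟩
  have hσ' : (Δ[n] : SSet.{u}).map Φ.op σ ∈ K.obj (op ⦋d⦌) := K.map Φ.op hσ
  have hmem := mem_of_range hK (x.obj (Fin.last _)).2 f hr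
  have hmem' : (Δ[n] : SSet.{u}).map Θ.op (SSet.stdSimplex.objMk (n := ⦋n⦌) (m := op ⦋e⦌) f) ∈
      K.obj (op ⦋d⦌) := K.map Θ.op hmem
  have heq : (Δ[n] : SSet.{u}).map Φ.op σ =
      (Δ[n] : SSet.{u}).map Θ.op (SSet.stdSimplex.objMk (n := ⦋n⦌) (m := op ⦋e⦌) f) := by
    apply std_ext
    intro i
    exact (hπ i).symm
  refine ⟨(SimplexCategory.sd.{u}.map Θ).app l yt, ?_, ?_⟩
  · intro i
    rw [← hy, ← hyt, vt_sd_map, vt_sd_map, chMap_comp, chMap_comp]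
    congr 2
    ext j : 2
    exact hπ j
  · have h1 := gv_nat g Φ.op σ hσ hσ'
    have h2 := gv_nat g Θ.op _ hmem hmem'
    rw [gv_congr g heq hσ' hmem', h2] at h1
    change (gv g σ hσ).app l y = _
    rw [← hyt]
    exact (congrArg (fun k => k.app l yt) h1).symm

lemma Pres.val_eq (hK : Faces K Fc) {l : SimplexCategoryᵒᵖ} {x : (nerve Fc).obj l}
    (p q : Pres K x) : p.val g = q.val g := by
  obtain ⟨e, f, hf, hr⟩ := exists_emb (x.obj (Fin.last _)).1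
  obtain ⟨z, hz, h1⟩ := p.canon g hK f hf hr
  obtain ⟨z', hz', h2⟩ := q.canon g hK f hf hr
  have : z = z' := vt_ext fun i => chMap_injective hf (by rw [hz, hz'])
  rw [h1, h2, this]

lemma exists_pres (hK : Faces K Fc) {l : SimplexCategoryᵒᵖ} (x : (nerve Fc).obj l) :
    Nonempty (Pres K x) := by
  obtain ⟨e, f, hf, hr⟩ := exists_emb (x.obj (Fin.last _)).1
  have h : ∀ i, ∀ v ∈ (x.obj i).1.finset, ∃ j, f j = v.down := fun i v hv =>
    (hr v.down).1 (nerve_mono x (Fin.le_last i) hv)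
  refine ⟨⟨op ⦋e⦌, SSet.stdSimplex.objMk (n := ⦋n⦌) (m := op ⦋e⦌) f,
    mem_of_range hK (x.obj (Fin.last _)).2 f hr,
    nmk (P := Ch.{u} e) (m := l) (fun i => chPre f (x.obj i).1 (h i)) ?_, ?_⟩⟩
  · intro i j hij
    apply chMap_le_of_le hf
    rw [chMap_chPre, chMap_chPre]
    exact nerve_mono x hij
  · intro i
    exact chMap_chPre f (x.obj i).1 (h i)

/-- The glued map. -/
noncomputable def glueEx (hK : Faces K Fc) : nerve Fc ⟶ X where
  app l := ↾fun x => (exists_pres (K := K) hK x).some.val g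
  naturality l l' ψ := by
    ext x
    let p := (exists_pres (K := K) hK x).some
    let q : Pres K ((nerve Fc).map ψ x) :=
      ⟨p.m, p.σ, p.hσ, (SimplexCategory.sd.{u}.obj p.m.unop).map ψ p.y, fun i => p.hy _⟩
    change (exists_pres (K := K) hK ((nerve Fc).map ψ x)).some.val g = X.map ψ (p.val g)
    rw [Pres.val_eq g hK _ q]
    exact (gv g p.σ p.hσ).naturality_apply ψ p.y

lemma glueEx_app (hK : Faces K Fc) {l : SimplexCategoryᵒᵖ} (x : (nerve Fc).obj l)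
    (q : Pres K x) : (glueEx g hK).app l x = q.val g := Pres.val_eq g hK _ q

lemma toN_glueEx (hK : Faces K Fc) {m : SimplexCategoryᵒᵖ} {σ : (Δ[n] : SSet.{u}).obj m}
    (hσ : σ ∈ K.obj m) : toN hK hσ ≫ glueEx g hK = exDown (g.app m ⟨σ, hσ⟩) := by
  apply ss_ext
  intro l y
  exact glueEx_app g hK ((toN hK hσ).app l y) ⟨m, σ, hσ, y, fun i => toN_obj hK hσ y i⟩

end glue

end Vale.Agent.P213.SS
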