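import Vale.Agent.Lib.P213.SieveC

/-!
# P213: Street nerve of a sieve cover of `C ⊔_{O(A)} O(B)`
-/

open CategoryTheory Limits Opposite

namespace Vale.Agent.P213

open OmegaCat

section Glue

variable {n : ℕ∞} {c : SSet.{0} ⥤ NCat n} (adj : c ⊣ streetNerve n)
variable {B : Type} [PartialOrder B] [HasPushouts (NCat n)]

omit [HasPushouts (NCat n)] in
lemma agree_comp {B' B'' : LowerSet B} (h' : B' ≤ B'') {k : ℕ} (σ : Fin (k + 1) →o B') :
    Agree ((lowerIncl h').comp σ) σ := fun _ _ => rfl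

omit [HasPushouts (NCat n)] in
lemma comp_homN {X Y Z : NCat n} (f : X ⟶ Y) (g : Y ⟶ Z) : (f ≫ g).hom = f.hom ≫ g.hom := rfl

omit [HasPushouts (NCat n)] in
lemma extendAt_incl {B' B'' : LowerSet B} (h' : B' ≤ B'') {Y : NCat n}
    (g : pNerve B' ⟶ (streetNerve n).obj Y) {m : SimplexCategory}
    (σ : Fin (m.len + 1) →o B') :
    extendAt g ((lowerIncl h').comp σ) = ev g m σ ≫ coneInl _ := by
  rw [extendAt_eq_hat g _ σ (agree_comp h' σ)]
  exact hat_of_forall _ _ (fun t => (σ (tv true t)).2)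

/-- The inclusion in the cone, in `n`-categories. -/
def inlN (hn : 1 ≤ n) (Y : NCat n) : Y ⟶ coneN hn Y := ObjectProperty.homMk (coneInl Y.obj)

@[reassoc]
lemma glueInl_glueMap {A : LowerSet B} {C : NCat n}
    (f : c.obj (pNerve A) ⟶ C) {B' B'' : LowerSet B} (h : A ≤ B') (h' : B' ≤ B'') :
    glueInl f B' h ≫ glueMap f h h' = glueInl f B'' (h.trans h') := pushout.inl_desc _ _ _

@[reassoc]
lemma glueInr_glueMap {A : LowerSet B} {C : NCat n}
    (f : c.obj (pNerve A) ⟶ C) {B' B'' : LowerSet B} (h : A ≤ B') (h' : B' ≤ B'') :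
    glueInr f B' h ≫ glueMap f h h' =
      c.map (pNerveMap (lowerIncl h')) ≫ glueInr f B'' (h.trans h') := pushout.inr_desc _ _ _

lemma glue_hom_ext {A : LowerSet B} {C : NCat n}
    (f : c.obj (pNerve A) ⟶ C) {B' : LowerSet B} (h : A ≤ B') {Y : NCat n}
    {u v : glue f B' h ⟶ Y} (h1 : glueInl f B' h ≫ u = glueInl f B' h ≫ v)
    (h2 : ∀ m (σ : Fin (m.len + 1) →o B'), cellOf adj m σ ≫ (glueInr f B' h).hom ≫ u.hom =
      cellOf adj m σ ≫ (glueInr f B' h).hom ≫ v.hom) : u = v := by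
  refine pushout.hom_ext h1 (hom_ext_cellOf adj fun m σ => ?_)
  exact h2 m σ

/-- The simplices of `C ⊔ O(B')` coming from `B'`. -/
noncomputable def gcell {A : LowerSet B} {C : NCat n}
    (f : c.obj (pNerve A) ⟶ C) {B' : LowerSet B} (h : A ≤ B') (m : SimplexCategory)
    (σ : Fin (m.len + 1) →o B') : orientalFunctor.obj m ⟶ (glue f B' h).obj :=
  cellOf adj m σ ≫ (glueInr f B' h).hom

lemma gcell_glueMap {A : LowerSet B} {C : NCat n}
    (f : c.obj (pNerve A) ⟶ C) {B' B'' : LowerSet B} (h : A ≤ B') (h' : B' ≤ B'')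
    (m : SimplexCategory) (σ : Fin (m.len + 1) →o B') :
    gcell adj f h m σ ≫ (glueMap f h h').hom =
      gcell adj f (h.trans h') m ((lowerIncl h').comp σ) := by
  have h1 := congrArg InducedCategory.Hom.hom (glueInr_glueMap f h h')
  rw [ObjectProperty.FullSubcategory.comp_hom, ObjectProperty.FullSubcategory.comp_hom] at h1
  rw [gcell, Category.assoc, h1, ← Category.assoc, cellOf_map]
  rfl

/-- The simplicial map `N B' → N (C ⊔ O(B'))`. -/
noncomputable def gmap {A : LowerSet B} {C : NCat n}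
    (f : c.obj (pNerve A) ⟶ C) {B' : LowerSet B} (h : A ≤ B') :
    pNerve B' ⟶ (streetNerve n).obj (glue f B' h) :=
  adj.homEquiv _ _ (glueInr f B' h)

lemma ev_gmap {A : LowerSet B} {C : NCat n}
    (f : c.obj (pNerve A) ⟶ C) {B' : LowerSet B} (h : A ≤ B') (m : SimplexCategory)
    (σ : Fin (m.len + 1) →o B') : ev (gmap adj f h) m σ = gcell adj f h m σ :=
  cellOf_homEquiv adj _ m σ

lemma gcell_congr {A : LowerSet B} {C : NCat n}
    (f : c.obj (pNerve A) ⟶ C) {B' : LowerSet B} (h : A ≤ B') {m : SimplexCategory}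
    (σ τ : Fin (m.len + 1) →o B') (t : (orientalFunctor.obj m).Cell)
    (h1 : ∀ v, v ≤ tv true t → σ v = τ v) :
    (gcell adj f h m σ).toFun t = (gcell adj f h m τ).toFun t := by
  rw [← ev_gmap, ← ev_gmap]
  exact ev_congr _ σ τ t h1

/-- The functor from `C ⊔ O(B'')` to the cone of `C ⊔ O(B')`. -/
noncomputable def retr (hn : 1 ≤ n) {A : LowerSet B} {C : NCat n}
    (f : c.obj (pNerve A) ⟶ C) {B' B'' : LowerSet B} (h : A ≤ B') (h' : B' ≤ B'') :
    glue f B'' (h.trans h') ⟶ coneN hn (glue f B' h) :=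
  pushout.desc (glueInl f B' h ≫ inlN hn _)
    ((adj.homEquiv _ _).symm (extend hn B'' (gmap adj f h))) (by
      apply hom_ext_cellOf adj
      intro m σ
      rw [comp_homN, comp_homN, comp_homN, ← Category.assoc (cellOf adj m σ),
        ← Category.assoc (cellOf adj m σ), cellOf_map, cellOf_homEquiv_symm, ev_extend,
        extendAt_eq_hat _ ((lowerIncl (h.trans h')).comp σ) ((lowerIncl h).comp σ)
          (fun _ _ => rfl),
        hat_of_forall, ev_gmap, gcell, ← cellOf_map]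
      · have h1 := congrArg InducedCategory.Hom.hom (glue_condition f B' h)
        exact congrArg (fun F : (c.obj (pNerve A)).obj ⟶ (glue f B' h).obj =>
          cellOf adj m σ ≫ F ≫ coneInl (glue f B' h).obj) h1
      · intro t
        exact h (σ (tv true t)).2)

lemma glueInl_retr (hn : 1 ≤ n) {A : LowerSet B} {C : NCat n}
    (f : c.obj (pNerve A) ⟶ C) {B' B'' : LowerSet B} (h : A ≤ B') (h' : B' ≤ B'') :
    glueInl f B'' (h.trans h') ≫ retr adj hn f h h' = glueInl f B' h ≫ inlN hn _ :=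
  pushout.inl_desc _ _ _

lemma glueInr_retr (hn : 1 ≤ n) {A : LowerSet B} {C : NCat n}
    (f : c.obj (pNerve A) ⟶ C) {B' B'' : LowerSet B} (h : A ≤ B') (h' : B' ≤ B'') :
    glueInr f B'' (h.trans h') ≫ retr adj hn f h h' =
      (adj.homEquiv _ _).symm (extend hn B'' (gmap adj f h)) :=
  pushout.inr_desc _ _ _

lemma gcell_retr (hn : 1 ≤ n) {A : LowerSet B} {C : NCat n}
    (f : c.obj (pNerve A) ⟶ C) {B' B'' : LowerSet B} (h : A ≤ B') (h' : B' ≤ B'')
    (m : SimplexCategory) (σ : Fin (m.len + 1) →o B'') :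
    gcell adj f (h.trans h') m σ ≫ (retr adj hn f h h').hom = extendAt (gmap adj f h) σ := by
  have h1 := congrArg InducedCategory.Hom.hom (glueInr_retr adj hn f h h')
  have h2 := congrArg (fun F : (c.obj (pNerve B'')).obj ⟶ (coneN hn (glue f B' h)).obj =>
    cellOf adj m σ ≫ F) h1
  exact h2.trans (cellOf_homEquiv_symm adj (extend hn B'' (gmap adj f h)) m σ)

/-- `retr` restricts to the inclusion. -/
lemma glueMap_retr (hn : 1 ≤ n) {A : LowerSet B} {C : NCat n}
    (f : c.obj (pNerve A) ⟶ C) {B' B'' : LowerSet B} (h : A ≤ B') (h' : B' ≤ B'') :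
    glueMap f h h' ≫ retr adj hn f h h' = inlN hn _ := by
  apply glue_hom_ext adj f h
  · rw [glueInl_glueMap_assoc, glueInl_retr]
  · intro m σ
    have h1 := gcell_glueMap adj f h h' m σ
    have h2 := gcell_retr adj hn f h h' m ((lowerIncl h').comp σ)
    have h3 := congrArg (fun F : orientalFunctor.obj m ⟶ (glue f B'' (h.trans h')).obj =>
      F ≫ (retr adj hn f h h').hom) h1
    have h4 := extendAt_incl h' (gmap adj f h) σ
    rw [ev_gmap] at h4
    exact h3.trans (h2.trans h4)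

include adj in
theorem glueMap_injective (hn : 1 ≤ n) {A : LowerSet B} {C : NCat n}
    (f : c.obj (pNerve A) ⟶ C) {B' B'' : LowerSet B} (h : A ≤ B') (h' : B' ≤ B'') :
    Function.Injective (glueMap f h h').hom.toFun := by
  intro x y hxy
  have h1 := glueMap_retr adj hn f h h'
  have h2 : ∀ z, (retr adj hn f h h').hom.toFun ((glueMap f h h').hom.toFun z) =
      RCell.base z := fun z =>
    congrArg (fun F : glue f B' h ⟶ coneN hn (glue f B' h) => F.hom.toFun z) h1
  exact RCell.base.inj ((h2 x).symm.trans ((congrArg _ hxy).trans (h2 y)))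

/-- The sieve of `C ⊔ O(B'')` attached to `B'`. -/
def gsieve (hn : 1 ≤ n) {A : LowerSet B} {C : NCat n}
    (f : c.obj (pNerve A) ⟶ C) {B' B'' : LowerSet B} (h : A ≤ B') (h' : B' ≤ B'') :
    (glue f B'' (h.trans h')).obj.Cell → Prop :=
  baseSieve (Y := (glue f B' h).obj) (retr adj hn f h h').hom

lemma isSieve_gsieve (hn : 1 ≤ n) {A : LowerSet B} {C : NCat n}
    (f : c.obj (pNerve A) ⟶ C) {B' B'' : LowerSet B} (h : A ≤ B') (h' : B' ≤ B'') :
    IsSieve _ (gsieve adj hn f h h') := isSieve_baseSieve (Y := (glue f B' h).obj) _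

lemma gsieve_inl (hn : 1 ≤ n) {A : LowerSet B} {C : NCat n}
    (f : c.obj (pNerve A) ⟶ C) {B' B'' : LowerSet B} (h : A ≤ B') (h' : B' ≤ B'')
    (x : C.obj.Cell) : gsieve adj hn f h h' ((glueInl f B'' (h.trans h')).hom.toFun x) :=
  ⟨_, congrArg (fun F : C ⟶ coneN hn (glue f B' h) => F.hom.toFun x)
    (glueInl_retr adj hn f h h')⟩

lemma gsieve_gcell (hn : 1 ≤ n) {A : LowerSet B} {C : NCat n}
    (f : c.obj (pNerve A) ⟶ C) {B' B'' : LowerSet B} (h : A ≤ B') (h' : B' ≤ B'')
    (m : SimplexCategory) (σ : Fin (m.len + 1) →o B'') (t : (orientalFunctor.obj m).Cell) :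
    gsieve adj hn f h h' ((gcell adj f (h.trans h') m σ).toFun t) ↔
      ((σ (tv true t) : B'') : B) ∈ B' := by
  have h1 : (retr adj hn f h h').hom.toFun ((gcell adj f (h.trans h') m σ).toFun t) =
      (extendAt (gmap adj f h) σ).toFun t :=
    congrArg (fun F : orientalFunctor.obj m ⟶ (coneN hn (glue f B' h)).obj => F.toFun t)
      (gcell_retr adj hn f h h' m σ)
  unfold gsieve baseSieve
  rw [h1]
  by_cases h0 : ((σ 0 : B'') : B) ∈ B'
  · obtain ⟨τ, hτ⟩ := exists_agree σ h0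
    rw [extendAt_eq_hat _ σ τ hτ, hat_toFun]
    by_cases h2 : sieveOf B' σ t
    · rw [hatFun_base _ h2]
      exact ⟨fun _ => h2, fun _ => ⟨_, rfl⟩⟩
    · refine ⟨?_, fun h3 => absurd h3 h2⟩
      rintro ⟨y, hy⟩
      by_cases h3 : sieveOf B' σ ((orientalFunctor.obj m).bd 0 false t)
      · rw [hatFun_arr _ h2 h3] at hy
        cases hy
      · rw [hatFun_star _ h2 h3] at hy
        cases hy
  · rw [extendAt_eq_star _ _ h0]
    refine ⟨?_, fun h3 => absurd h3 (not_sieveOf B' σ h0 t)⟩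
    rintro ⟨y, hy⟩
    cases hy

/-- The map `C ⊔ O(B'') → R(C ⊔ O(B'')) ` attached to the sieve. -/
lemma retr_coneMap (hn : 1 ≤ n) {A : LowerSet B} {C : NCat n}
    (f : c.obj (pNerve A) ⟶ C) {B' B'' : LowerSet B} (h : A ≤ B') (h' : B' ≤ B'') :
    retr adj hn f h h' ≫ ObjectProperty.homMk (X := coneN hn _) (Y := coneN hn _)
      (coneMap (glueMap f h h').hom) =
    ObjectProperty.homMk (Y := coneN hn _) (hat (isSieve_gsieve adj hn f h h') (𝟙 _)) := by
  apply glue_hom_ext adj f (h.trans h')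
  · rw [← Category.assoc, glueInl_retr]
    apply ObjectProperty.hom_ext
    apply hom_ext
    intro x
    have h1 : (glueMap f h h').hom.toFun ((glueInl f B' h).hom.toFun x) =
        (glueInl f B'' (h.trans h')).hom.toFun x :=
      congrArg (fun F : C ⟶ glue f B'' (h.trans h') => F.hom.toFun x) (glueInl_glueMap f h h')
    change RCell.base ((glueMap f h h').hom.toFun ((glueInl f B' h).hom.toFun x)) =
      hatFun (gsieve adj hn f h h') (𝟙 _) ((glueInl f B'' (h.trans h')).hom.toFun x)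
    rw [hatFun_base _ (gsieve_inl adj hn f h h' x), h1]
    rfl
  · intro m σ
    have h1 := gcell_retr adj hn f h h' m σ
    have h2 : (gcell adj f (h.trans h') m σ ≫ (retr adj hn f h h').hom) ≫
        coneMap (glueMap f h h').hom =
        gcell adj f (h.trans h') m σ ≫ hat (isSieve_gsieve adj hn f h h') (𝟙 _) := by
      refine (congrArg (fun F : orientalFunctor.obj m ⟶ cone (glue f B' h).obj =>
        F ≫ coneMap (glueMap f h h').hom) h1).trans ?_
      rw [comp_hat _ (gcell adj f (h.trans h') m σ) _ (isSieve_sieveOf B' σ)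
        (fun t => (gsieve_gcell adj hn f h h' m σ t).symm)]
      by_cases h0 : ((σ 0 : B'') : B) ∈ B'
      · obtain ⟨τ, hτ⟩ := exists_agree σ h0
        rw [extendAt_eq_hat _ σ τ hτ, hat_comp, ev_gmap, gcell_glueMap]
        refine hat_congr _ _ _ _ (fun _ => Iff.rfl) fun t ht => ?_
        refine gcell_congr adj f (h.trans h') _ σ t fun v hv => ?_
        exact Subtype.ext (hτ v (B'.lower (σ.monotone hv) ht))
      · rw [extendAt_eq_star _ _ h0, hat_of_forall_not _ _ (not_sieveOf B' σ h0)]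
        rfl
    exact h2

lemma exists_glueMap_iff (hn : 1 ≤ n) {A : LowerSet B} {C : NCat n}
    (f : c.obj (pNerve A) ⟶ C) {B' B'' : LowerSet B} (h : A ≤ B') (h' : B' ≤ B'')
    (x : (glue f B'' (h.trans h')).obj.Cell) :
    (∃ y, (glueMap f h h').hom.toFun y = x) ↔ gsieve adj hn f h h' x := by
  constructor
  · rintro ⟨y, rfl⟩
    exact ⟨y, congrArg (fun F : glue f B' h ⟶ coneN hn (glue f B' h) => F.hom.toFun y)
      (glueMap_retr adj hn f h h')⟩
  · intro hx
    have h1 := congrArg (fun F : glue f B'' (h.trans h') ⟶ coneN hn (glue f B'' (h.trans h')) =>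
      F.hom.toFun x) (retr_coneMap adj hn f h h')
    obtain ⟨y, hy⟩ := hx
    have h2 : (coneMap (glueMap f h h').hom).toFun ((retr adj hn f h h').hom.toFun x) =
      hatFun (gsieve adj hn f h h') (𝟙 _) x := h1
    rw [hatFun_base _ ⟨y, hy⟩, hy] at h2
    exact ⟨y, RCell.base.inj h2⟩

/-- A sieve of `C ⊔ O(B')` is determined by its restrictions to `C` and `O(B')`. -/
lemma sieve_ext (hn : 1 ≤ n) {A : LowerSet B} {C : NCat n}
    (f : c.obj (pNerve A) ⟶ C) {B' : LowerSet B} (h : A ≤ B')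
    {P Q : (glue f B' h).obj.Cell → Prop} (hP : IsSieve _ P) (hQ : IsSieve _ Q)
    (h1 : ∀ x, P ((glueInl f B' h).hom.toFun x) ↔ Q ((glueInl f B' h).hom.toFun x))
    (h2 : ∀ m (σ : Fin (m.len + 1) →o B') (t : (orientalFunctor.obj m).Cell),
      P ((gcell adj f h m σ).toFun t) ↔ Q ((gcell adj f h m σ).toFun t)) (x) : P x ↔ Q x := by
  have key : ObjectProperty.homMk (Y := coneN hn (glue f B' h)) (hat hP (𝟙 _)) =
      ObjectProperty.homMk (Y := coneN hn (glue f B' h)) (hat hQ (𝟙 _)) := by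
    apply glue_hom_ext adj f h
    · apply ObjectProperty.hom_ext
      change (glueInl f B' h).hom ≫ hat hP (𝟙 _) = (glueInl f B' h).hom ≫ hat hQ (𝟙 _)
      rw [comp_hat hP _ _ (IsSieve.comap hP _) (fun _ => Iff.rfl),
        comp_hat hQ _ _ (IsSieve.comap hP _) h1]
    · intro m σ
      change gcell adj f h m σ ≫ hat hP (𝟙 _) = gcell adj f h m σ ≫ hat hQ (𝟙 _)
      rw [comp_hat hP _ _ (IsSieve.comap hP _) (fun _ => Iff.rfl),
        comp_hat hQ _ _ (IsSieve.comap hP _) (h2 m σ)]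
  have h3 : hatFun P (𝟙 _) x = hatFun Q (𝟙 _) x :=
    congrArg (fun F : glue f B' h ⟶ coneN hn (glue f B' h) => F.hom.toFun x) key
  have h4 : ∀ {R : (glue f B' h).obj.Cell → Prop}, R x ↔ ∃ y, hatFun R (𝟙 _) x = .base y := by
    intro R
    constructor
    · intro hR
      exact ⟨_, hatFun_base _ hR⟩
    · rintro ⟨y, hy⟩
      by_contra hR
      by_cases hR' : R ((glue f B' h).obj.bd 0 false x)
      · rw [hatFun_arr _ hR hR'] at hy
        cases hy
      · rw [hatFun_star _ hR hR'] at hy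
        cases hy
  rw [h4 (R := P), h4 (R := Q), h3]

lemma glueMap_comp {A : LowerSet B} {C : NCat n}
    (f : c.obj (pNerve A) ⟶ C) {B₁ B₂ B₃ : LowerSet B} (h : A ≤ B₁) (h' : B₁ ≤ B₂)
    (h'' : B₂ ≤ B₃) :
    glueMap f h h' ≫ glueMap f (h.trans h') h'' = glueMap f h (h'.trans h'') := by
  apply pushout.hom_ext
  · change glueInl f B₁ h ≫ _ = glueInl f B₁ h ≫ _
    rw [glueInl_glueMap_assoc, glueInl_glueMap, glueInl_glueMap]
  · change glueInr f B₁ h ≫ _ = glueInr f B₁ h ≫ _
    rw [glueInr_glueMap_assoc, glueInr_glueMap, glueInr_glueMap, ← Category.assoc, ← c.map_comp]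
    rfl

lemma glueMap_refl {A : LowerSet B} {C : NCat n}
    (f : c.obj (pNerve A) ⟶ C) {B' : LowerSet B} (h : A ≤ B') :
    glueMap f h le_rfl = 𝟙 (glue f B' h) := by
  apply pushout.hom_ext
  · change glueInl f B' h ≫ _ = glueInl f B' h ≫ _
    rw [glueInl_glueMap, Category.comp_id]
  · change glueInr f B' h ≫ _ = glueInr f B' h ≫ _
    rw [glueInr_glueMap, Category.comp_id]
    change c.map (𝟙 _) ≫ _ = _
    rw [c.map_id, Category.id_comp]

include adj in
theorem glueMap_mono (hn : 1 ≤ n) {A : LowerSet B} {C : NCat n}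
    (f : c.obj (pNerve A) ⟶ C) {B' B'' : LowerSet B} (h : A ≤ B') (h' : B' ≤ B'') :
    Mono ((streetNerve n).map (glueMap f h h')) := by
  have : Mono (glueMap f h h') := by
    refine ⟨fun u v huv => ?_⟩
    apply ObjectProperty.hom_ext
    apply hom_ext
    intro x
    apply glueMap_injective adj hn f h h'
    exact congrArg (fun F : _ ⟶ glue f B'' (h.trans h') => F.hom.toFun x) huv
  have : (streetNerve n).PreservesMonomorphisms :=
    CategoryTheory.Functor.preservesMonomorphisms_of_adjunction adj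
  infer_instance

lemma isIso_glueInl_self {A : LowerSet B} {C : NCat n} (f : c.obj (pNerve A) ⟶ C) :
    IsIso (glueInl f A le_rfl) := by
  have : IsIso (c.map (pNerveMap (lowerIncl (le_refl A)))) := by
    change IsIso (c.map (𝟙 _))
    infer_instance
  exact IsPushout.isIso_inl_of_isIso (IsPushout.of_hasPushout f _)

include adj in
theorem glueInl_mono (hn : 1 ≤ n) {A : LowerSet B} {C : NCat n}
    (f : c.obj (pNerve A) ⟶ C) (B' : LowerSet B) (h : A ≤ B') :
    Mono ((streetNerve n).map (glueInl f B' h)) := by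
  have h1 := glueInl_glueMap f le_rfl h
  have := isIso_glueInl_self f
  have := glueMap_mono adj hn f le_rfl h
  rw [← h1, Functor.map_comp]
  infer_instance

lemma gsieve_union (hn : 1 ≤ n) {A : LowerSet B} {C : NCat n}
    (f : c.obj (pNerve A) ⟶ C) (B₁ B₂ : LowerSet B) (h₁ : A ≤ B₁) (h₂ : A ≤ B₂)
    (x : (glue f (B₁ ⊔ B₂) (h₁.trans le_sup_left)).obj.Cell) :
    gsieve adj hn f h₁ (B'' := B₁ ⊔ B₂) le_sup_left x ∨
      gsieve adj hn f h₂ (B'' := B₁ ⊔ B₂) le_sup_right x := by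
  refine (sieve_ext adj hn f (h₁.trans le_sup_left) (isSieve_true _)
    ((isSieve_gsieve adj hn f h₁ le_sup_left).union
      (isSieve_gsieve adj hn f h₂ le_sup_right)) (fun x => ?_) (fun m σ t => ?_) x).1 trivial
  · exact ⟨fun _ => Or.inl (gsieve_inl adj hn f h₁ le_sup_left x), fun _ => trivial⟩
  · refine ⟨fun _ => ?_, fun _ => trivial⟩
    rcases (σ (tv true t)).2 with h | h
    · exact Or.inl ((gsieve_gcell adj hn f h₁ le_sup_left m σ t).2 h)
    · exact Or.inr ((gsieve_gcell adj hn f h₂ le_sup_right m σ t).2 h)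

lemma gsieve_inter (hn : 1 ≤ n) {A : LowerSet B} {C : NCat n}
    (f : c.obj (pNerve A) ⟶ C) (B₁ B₂ : LowerSet B) (h₁ : A ≤ B₁) (h₂ : A ≤ B₂)
    (x : (glue f (B₁ ⊔ B₂) (h₁.trans le_sup_left)).obj.Cell)
    (hx₁ : gsieve adj hn f h₁ (B'' := B₁ ⊔ B₂) le_sup_left x)
    (hx₂ : gsieve adj hn f h₂ (B'' := B₁ ⊔ B₂) le_sup_right x) :
    gsieve adj hn f (le_inf h₁ h₂) (B'' := B₁ ⊔ B₂) (inf_le_left.trans le_sup_left) x := by
  refine (sieve_ext adj hn f (h₁.trans le_sup_left)
    ((isSieve_gsieve adj hn f h₁ le_sup_left).inter (isSieve_gsieve adj hn f h₂ le_sup_right))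
    (isSieve_gsieve adj hn f (le_inf h₁ h₂) (inf_le_left.trans le_sup_left))
    (fun x => ?_) (fun m σ t => ?_) x).1 ⟨hx₁, hx₂⟩
  · exact ⟨fun _ => gsieve_inl adj hn f _ _ x,
      fun _ => ⟨gsieve_inl adj hn f _ _ x, gsieve_inl adj hn f _ _ x⟩⟩
  · have e1 := gsieve_gcell adj hn f h₁ (B'' := B₁ ⊔ B₂) le_sup_left m σ t
    have e2 := gsieve_gcell adj hn f h₂ (B'' := B₁ ⊔ B₂) le_sup_right m σ t
    have e3 := gsieve_gcell adj hn f (le_inf h₁ h₂) (B'' := B₁ ⊔ B₂)
      (inf_le_left.trans le_sup_left) m σ t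
    exact (and_congr e1 e2).trans e3.symm

/-- Lifting of simplices to the sieve. -/
lemma exists_lift (hn : 1 ≤ n) {A : LowerSet B} {C : NCat n}
    (f : c.obj (pNerve A) ⟶ C) {B' B'' : LowerSet B} (h : A ≤ B') (h' : B' ≤ B'')
    {X : OmegaCat} (F : X ⟶ (glue f B'' (h.trans h')).obj)
    (hF : ∀ t, gsieve adj hn f h h' (F.toFun t)) :
    ∃ F' : X ⟶ (glue f B' h).obj, F' ≫ (glueMap f h h').hom = F :=
  exists_lift_of_injective _ (glueMap_injective adj hn f h h') F
    fun t => (exists_glueMap_iff adj hn f h h' _).2 (hF t)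

lemma gsieve_glueMap (hn : 1 ≤ n) {A : LowerSet B} {C : NCat n}
    (f : c.obj (pNerve A) ⟶ C) {B' B'' : LowerSet B} (h : A ≤ B') (h' : B' ≤ B'')
    {X : OmegaCat} (F' : X ⟶ (glue f B' h).obj) (t : X.Cell) :
    gsieve adj hn f h h' ((F' ≫ (glueMap f h h').hom).toFun t) :=
  (exists_glueMap_iff adj hn f h h' _).1 ⟨_, rfl⟩

include adj in
/-- Street nerve of a sieve cover. -/
theorem glue_isPushout (hn : 1 ≤ n) {A : LowerSet B} {C : NCat n}
    (f : c.obj (pNerve A) ⟶ C) (B₁ B₂ : LowerSet B) (h₁ : A ≤ B₁) (h₂ : A ≤ B₂) :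
    IsPushout
      ((streetNerve n).map (glueMap (B' := B₁ ⊓ B₂) (B'' := B₁) f (le_inf h₁ h₂) inf_le_left))
      ((streetNerve n).map (glueMap (B' := B₁ ⊓ B₂) (B'' := B₂) f (le_inf h₁ h₂) inf_le_right))
      ((streetNerve n).map (glueMap (B' := B₁) (B'' := B₁ ⊔ B₂) f h₁ le_sup_left))
      ((streetNerve n).map (glueMap (B' := B₂) (B'' := B₁ ⊔ B₂) f h₂ le_sup_right)) where
  w := by
    rw [← Functor.map_comp, ← Functor.map_comp, glueMap_comp, glueMap_comp]
  isColimit' := ⟨evaluationJointlyReflectsColimits _ (fun ⟨m⟩ => by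
    have w : glueMap (B' := B₁ ⊓ B₂) (B'' := B₁) f (le_inf h₁ h₂) inf_le_left ≫
        glueMap (B' := B₁) (B'' := B₁ ⊔ B₂) f h₁ le_sup_left =
        glueMap (B' := B₁ ⊓ B₂) (B'' := B₂) f (le_inf h₁ h₂) inf_le_right ≫
        glueMap (B' := B₂) (B'' := B₁ ⊔ B₂) f h₂ le_sup_right := by
      rw [glueMap_comp, glueMap_comp]
    have w' := glueMap_comp f (le_inf h₁ h₂) inf_le_left (le_sup_left (a := B₁) (b := B₂))
    -- injectivity on simplices
    have inj : ∀ {B' B'' : LowerSet B} (h : A ≤ B') (h' : B' ≤ B'')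
        (F G : orientalFunctor.obj m ⟶ (glue f B' h).obj),
        F ≫ (glueMap f h h').hom = G ≫ (glueMap f h h').hom → F = G := by
      intro B' B'' h h' F G hFG
      apply hom_ext
      intro x
      apply glueMap_injective adj hn f h h'
      exact congrArg (fun H : orientalFunctor.obj m ⟶ (glue f B'' (h.trans h')).obj =>
        H.toFun x) hFG
    refine (isColimitMapCoconePushoutCoconeEquiv _ _).symm (IsPushout.isColimit ?_)
    have m1 := glueMap_mono adj hn f h₁ (le_sup_left (a := B₁) (b := B₂))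
    refine Types.isPushout_of_isPullback_of_mono' ?_ ?_ ?_
    · rw [Types.isPullback_iff]
      refine ⟨?_, ?_, ?_⟩
      · rw [← Functor.map_comp, ← Functor.map_comp, ← Functor.map_comp, ← Functor.map_comp, w]
      · rintro F G ⟨h1, -⟩
        exact inj _ _ F G h1
      · intro F G hFG
        have hFG' : F ≫ (glueMap (B' := B₁) (B'' := B₁ ⊔ B₂) f h₁ le_sup_left).hom =
          G ≫ (glueMap (B' := B₂) (B'' := B₁ ⊔ B₂) f h₂ le_sup_right).hom := hFG
        obtain ⟨H, hH⟩ := exists_lift adj hn f (le_inf h₁ h₂)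
          (inf_le_left.trans (le_sup_left (a := B₁) (b := B₂)))
          (F ≫ (glueMap (B' := B₁) (B'' := B₁ ⊔ B₂) f h₁ le_sup_left).hom) (fun t => by
            refine gsieve_inter adj hn f B₁ B₂ h₁ h₂ _ (gsieve_glueMap adj hn f h₁ _ F t) ?_
            rw [hFG']
            exact gsieve_glueMap adj hn f h₂ _ G t)
        refine ⟨H, ?_, ?_⟩
        · apply inj h₁ (le_sup_left (a := B₁) (b := B₂))
          rw [← hH, ← w']
          rfl
        · apply inj h₂ (le_sup_right (a := B₁) (b := B₂))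
          rw [← hFG', ← hH, ← w', w]
          rfl
    · ext F
      refine ⟨fun _ => trivial, fun _ => ?_⟩
      change orientalFunctor.obj m ⟶ (glue f (B₁ ⊔ B₂) (h₁.trans le_sup_left)).obj at F
      obtain ⟨e, -, he⟩ := exists_edge (m := m) 0 (Fin.last m.len) (Fin.zero_le _)
      rcases gsieve_union adj hn f B₁ B₂ h₁ h₂ (F.toFun e) with h | h
      · obtain ⟨G, hG⟩ := exists_lift adj hn f h₁ (le_sup_left (a := B₁) (b := B₂)) F
          (forall_of_last (isSieve_gsieve adj hn f h₁ le_sup_left) F e he h)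
        exact Or.inl ⟨G, hG⟩
      · obtain ⟨G, hG⟩ := exists_lift adj hn f h₂ (le_sup_right (a := B₁) (b := B₂)) F
          (forall_of_last (isSieve_gsieve adj hn f h₂ le_sup_right) F e he h)
        exact Or.inr ⟨G, hG⟩
    · intro F G _ _ hFG
      exact inj h₂ (le_sup_right (a := B₁) (b := B₂)) F G hFG)⟩

end Glue

end Vale.Agent.P213
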