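import Vale.Agent.Lib.P213.Poset

/-!
# P213: the cone `R(Y)` and extension of functors along sieves

`cone Y` is the strict `ω`-category obtained from `Y` by adding a new object `star` and exactly
one cell (an arrow) from each object of `Y` to `star`. A functor defined on a sieve of `X` with
values in `Y` extends uniquely to a functor `X ⟶ cone Y` sending everything outside of the sieve
to the new cells.
-/

open CategoryTheory Limits

namespace Vale.Agent.P213

namespace OmegaCat

lemma bd_lt_comp_sv {Y : OmegaCat} {j k : ℕ} (hjk : j < k) {x y : Y.Cell}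
    (h : Y.bd k true x = Y.bd k false y) (ε : Bool) :
    Y.bd j ε (Y.comp k x y) = Y.bd j ε x := by
  rw [← Y.bd_bd_lt ε false (Y.comp k x y) hjk, Y.bd_source_comp h, Y.bd_bd_lt _ _ _ hjk]

lemma bd_lt_eq {Y : OmegaCat} {j k : ℕ} (hjk : j < k) {x y : Y.Cell}
    (h : Y.bd k true x = Y.bd k false y) (ε : Bool) :
    Y.bd j ε x = Y.bd j ε y := by
  rw [← Y.bd_bd_lt ε true x hjk, h, Y.bd_bd_lt _ _ _ hjk]

/-- The cells of the cone. -/
inductive RCell (Y : OmegaCat) : Type
  | base (y : Y.Cell) : RCell Y
  | arr (y : Y.Cell) (h : Y.bd 0 false y = y) : RCell Y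
  | star : RCell Y

namespace RCell

variable {Y : OmegaCat}

/-- Source and target operators of the cone. -/
def bd (k : ℕ) (ε : Bool) : RCell Y → RCell Y
  | .base y => .base (Y.bd k ε y)
  | .arr y h => if k = 0 then (if ε then .star else .base y) else .arr y h
  | .star => .star

/-- Compositions of the cone. -/
def comp (k : ℕ) : RCell Y → RCell Y → RCell Y
  | .base x, .base y => .base (Y.comp k x y)
  | .base x, .arr _ _ => .arr (Y.bd 0 false x) (Y.bd_bd_ge _ _ _ le_rfl)
  | .base _, .star => .star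
  | .arr y h, _ => .arr y h
  | .star, _ => .star

@[simp] lemma bd_base (k : ℕ) (ε : Bool) (y : Y.Cell) : bd k ε (base y) = base (Y.bd k ε y) := rfl
@[simp] lemma bd_arr_zero_true (y : Y.Cell) (h) : bd 0 true (arr y h) = star := rfl
@[simp] lemma bd_arr_zero_false (y : Y.Cell) (h) : bd 0 false (arr y h) = base y := rfl
@[simp] lemma bd_arr_succ (k : ℕ) (ε : Bool) (y : Y.Cell) (h) :
    bd (k + 1) ε (arr y h) = arr y h := rfl
@[simp] lemma bd_star (k : ℕ) (ε : Bool) : bd k ε (star : RCell Y) = star := rfl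
@[simp] lemma comp_base_base (k : ℕ) (x y : Y.Cell) :
    comp k (base x) (base y) = base (Y.comp k x y) := rfl
@[simp] lemma comp_base_arr (k : ℕ) (x y : Y.Cell) (h) :
    comp k (base x) (arr y h) = arr (Y.bd 0 false x) (Y.bd_bd_ge _ _ _ le_rfl) := rfl
@[simp] lemma comp_base_star (k : ℕ) (x : Y.Cell) :
    comp k (base x) star = star := rfl
@[simp] lemma comp_arr (k : ℕ) (y : Y.Cell) (h) (u : RCell Y) :
    comp k (arr y h) u = arr y h := rfl
@[simp] lemma comp_star (k : ℕ) (u : RCell Y) :
    comp k star u = star := rfl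

lemma obj_bd {y : Y.Cell} (h : Y.bd 0 false y = y) (j : ℕ) (η : Bool) : Y.bd j η y = y := by
  rw [← h, Y.bd_bd_ge _ _ _ (Nat.zero_le j)]

end RCell

open RCell in
/-- The cone `R(Y)`. -/
def cone (Y : OmegaCat) : OmegaCat where
  Cell := RCell Y
  bd := RCell.bd
  comp := RCell.comp
  bd_bd_lt {j k} η ε x hjk := by
    obtain ⟨k, rfl⟩ : ∃ k', k = k' + 1 := ⟨k - 1, by omega⟩
    rcases x with y | ⟨y, h⟩ | _
    · simp [Y.bd_bd_lt _ _ _ hjk]
    · simp
    · simp
  bd_bd_ge {j k} η ε x hkj := by
    rcases x with y | ⟨y, h⟩ | _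
    · simp [Y.bd_bd_ge _ _ _ hkj]
    · rcases k with _ | k
      · cases ε
        · simp [obj_bd h]
        · simp
      · obtain ⟨j, rfl⟩ : ∃ j', j = j' + 1 := ⟨j - 1, by omega⟩
        simp
    · simp
  bd_source_comp {k x y} h := by
    rcases x with x | ⟨x, hx⟩ | _ <;> rcases y with y | ⟨y, hy⟩ | _ <;> rcases k with _ | k <;>
      simp_all [Y.bd_source_comp]
  bd_target_comp {k x y} h := by
    rcases x with x | ⟨x, hx⟩ | _ <;> rcases y with y | ⟨y, hy⟩ | _ <;> rcases k with _ | k <;>
      simp_all [Y.bd_target_comp]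
  bd_comp {j k} ε x y hkj h := by
    obtain ⟨j, rfl⟩ : ∃ j', j = j' + 1 := ⟨j - 1, by omega⟩
    rcases x with x | ⟨x, hx⟩ | _ <;> rcases y with y | ⟨y, hy⟩ | _ <;> rcases k with _ | k <;>
      simp_all [Y.bd_comp, Y.bd_bd_lt]
  comp_target k x := by
    rcases x with x | ⟨x, hx⟩ | _ <;> rcases k with _ | k <;> simp [Y.comp_target]
  source_comp k x := by
    rcases x with x | ⟨x, hx⟩ | _
    · simp [Y.source_comp]
    · rcases k with _ | k <;> simp [hx]
    · simp
  comp_assoc {k x y z} h h' := by
    rcases x with x | ⟨x, hx⟩ | _ <;> rcases y with y | ⟨y, hy⟩ | _ <;>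
      rcases z with z | ⟨z, hz⟩ | _ <;> rcases k with _ | k <;>
      simp_all [Y.comp_assoc, Y.bd_source_comp]
  interchange {j k x y x' y'} hjk h1 h2 h3 h4 := by
    obtain ⟨k, rfl⟩ : ∃ k', k = k' + 1 := ⟨k - 1, by omega⟩
    rcases x with x | ⟨x, hx⟩ | _ <;> rcases y with y | ⟨y, hy⟩ | _ <;>
      rcases x' with x' | ⟨x', hx'⟩ | _ <;> rcases y' with y' | ⟨y', hy'⟩ | _ <;>
      rcases j with _ | j <;> simp_all
    · exact Y.interchange (Nat.succ_pos _) h1 h2 h3 h4
    · exact Y.interchange (Nat.succ_lt_succ hjk) h1 h2 h3 h4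
    · exact bd_lt_comp_sv (Nat.succ_pos _) h1 false
  finite_dim x := by
    rcases x with x | ⟨x, hx⟩ | _
    · obtain ⟨n, hn⟩ := Y.finite_dim x
      exact ⟨n, by simp [hn]⟩
    · exact ⟨1, by simp⟩
    · exact ⟨0, by simp⟩

lemma cone_isNCat {n : ℕ∞} (hn : 1 ≤ n) {Y : OmegaCat} (hY : IsNCat n Y) :
    IsNCat n (cone Y) := by
  intro k hk x
  obtain ⟨k, rfl⟩ : ∃ k', k = k' + 1 := by
    refine ⟨k - 1, ?_⟩
    have h1 : (1 : ℕ∞) ≤ (k : ℕ∞) := hn.trans hk
    have h2 : 1 ≤ k := by exact_mod_cast h1
    omega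
  rcases x with x | ⟨x, hx⟩ | _
  · change RCell.base _ = RCell.base _
    rw [hY _ hk]
  · rfl
  · rfl

/-- The inclusion of `Y` in its cone. -/
def coneInl (Y : OmegaCat) : Y ⟶ cone Y where
  toFun := RCell.base
  map_bd _ _ _ := rfl
  map_comp _ _ _ _ := rfl

/-- Functoriality of the cone. -/
def coneMap {X Y : OmegaCat} (f : X ⟶ Y) : cone X ⟶ cone Y where
  toFun x := match x with
    | .base x => .base (f.toFun x)
    | .arr x h => .arr (f.toFun x) (by rw [← f.map_bd, h])
    | .star => .star
  map_bd k ε x := by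
    rcases x with x | ⟨x, hx⟩ | _
    · change RCell.base _ = RCell.base _
      rw [f.map_bd]
    · rcases k with _ | k <;> cases ε <;> rfl
    · rfl
  map_comp k x y h := by
    rcases x with x | ⟨x, hx⟩ | _ <;> rcases y with y | ⟨y, hy⟩ | _
    · change RCell.base _ = RCell.base _
      rw [f.map_comp _ _ _ (RCell.base.inj h)]
    · simp only [cone, RCell.comp_base_arr, f.map_bd]
    all_goals rfl

/-- The constant functor with value the new object. -/
def coneStar (X Y : OmegaCat) : X ⟶ cone Y where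
  toFun _ := .star
  map_bd _ _ _ := rfl
  map_comp _ _ _ _ := rfl

/-- Sieves: sets of cells determined by a down-closed set of objects. -/
structure IsSieve (X : OmegaCat) (P : X.Cell → Prop) : Prop where
  target : ∀ x, P (X.bd 0 true x) ↔ P x
  source : ∀ x, P x → P (X.bd 0 false x)

namespace IsSieve

variable {X Y : OmegaCat} {P : X.Cell → Prop} (hP : IsSieve X P)

include hP

lemma bd_succ (k : ℕ) (ε : Bool) (x : X.Cell) : P (X.bd (k + 1) ε x) ↔ P x := by
  rw [← hP.target, X.bd_bd_lt _ _ _ (Nat.succ_pos k), hP.target]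

lemma comp_zero {x y : X.Cell} (h : X.bd 0 true x = X.bd 0 false y) :
    P (X.comp 0 x y) ↔ P y := by
  rw [← hP.target, X.bd_target_comp h, hP.target]

lemma comp_succ {k : ℕ} {x y : X.Cell} (h : X.bd (k + 1) true x = X.bd (k + 1) false y) :
    P (X.comp (k + 1) x y) ↔ P x := by
  rw [← hP.target, bd_lt_comp_sv (Nat.succ_pos k) h, hP.target]

lemma iff_of_composable {k : ℕ} {x y : X.Cell}
    (h : X.bd (k + 1) true x = X.bd (k + 1) false y) : P x ↔ P y := by
  rw [← hP.target x, ← hP.target y, bd_lt_eq (Nat.succ_pos k) h]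

end IsSieve

open Classical in
/-- The cell map of `hat`. -/
noncomputable def hatFun {X Y : OmegaCat} (P : X.Cell → Prop) (G : X ⟶ Y) (x : X.Cell) :
    RCell Y :=
  if P x then .base (G.toFun x) else if P (X.bd 0 false x) then
    .arr (G.toFun (X.bd 0 false x)) (by rw [← G.map_bd, X.bd_bd_ge _ _ _ le_rfl]) else .star

lemma hatFun_base {X Y : OmegaCat} {P : X.Cell → Prop} (G : X ⟶ Y) {x : X.Cell} (h : P x) :
    hatFun P G x = .base (G.toFun x) := if_pos h

lemma hatFun_arr {X Y : OmegaCat} {P : X.Cell → Prop} (G : X ⟶ Y) {x : X.Cell} (h : ¬ P x)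
    (h' : P (X.bd 0 false x)) :
    hatFun P G x = .arr (G.toFun (X.bd 0 false x)) (by rw [← G.map_bd, X.bd_bd_ge _ _ _ le_rfl]) := by
  rw [hatFun, if_neg h, if_pos h']

lemma hatFun_star {X Y : OmegaCat} {P : X.Cell → Prop} (G : X ⟶ Y) {x : X.Cell} (h : ¬ P x)
    (h' : ¬ P (X.bd 0 false x)) :
    hatFun P G x = .star := by
  rw [hatFun, if_neg h, if_neg h']

/-- The extension to `X` of the restriction of `G` to the sieve `P`. -/
noncomputable def hat {X Y : OmegaCat} {P : X.Cell → Prop} (hP : IsSieve X P) (G : X ⟶ Y) :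
    X ⟶ cone Y where
  toFun := hatFun P G
  map_bd k ε x := by
    rcases k with _ | k
    · by_cases h1 : P x
      · have h2 : P (X.bd 0 ε x) := by
          cases ε
          · exact hP.source x h1
          · exact (hP.target x).2 h1
        rw [hatFun_base _ h1, hatFun_base _ h2, G.map_bd]
        rfl
      · by_cases h2 : P (X.bd 0 false x)
        · cases ε
          · rw [hatFun_base _ h2, hatFun_arr _ h1 h2]
            rfl
          · rw [hatFun_arr _ h1 h2, hatFun_star _ (by rwa [hP.target])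
              (by rwa [X.bd_bd_ge _ _ _ le_rfl, hP.target])]
            rfl
        · rw [hatFun_star _ h1 h2, hatFun_star]
          · rfl
          · cases ε
            · exact h2
            · rwa [hP.target]
          · rw [X.bd_bd_ge _ _ _ le_rfl]
            cases ε
            · exact h2
            · rwa [hP.target]
    · by_cases h1 : P x
      · rw [hatFun_base _ h1, hatFun_base _ ((hP.bd_succ k ε x).2 h1), G.map_bd]
        rfl
      · by_cases h2 : P (X.bd 0 false x)
        · rw [hatFun_arr _ h1 h2, hatFun_arr _ (by rwa [hP.bd_succ])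
            (by rwa [X.bd_bd_lt _ _ _ (Nat.succ_pos k)])]
          simp only [X.bd_bd_lt _ _ _ (Nat.succ_pos k)]
          rfl
        · rw [hatFun_star _ h1 h2, hatFun_star _ (by rwa [hP.bd_succ])
            (by rwa [X.bd_bd_lt _ _ _ (Nat.succ_pos k)])]
          rfl
  map_comp k x y h := by
    rcases k with _ | k
    · by_cases h1 : P y
      · have h2 : P x := by
          rw [← hP.target, h]
          exact hP.source y h1
        rw [hatFun_base _ h1, hatFun_base _ h2, hatFun_base _ ((hP.comp_zero h).2 h1),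
          G.map_comp _ _ _ h]
        rfl
      · by_cases h2 : P (X.bd 0 false y)
        · have h3 : P x := by rwa [← hP.target, h]
          have h4 : P (X.bd 0 false (X.comp 0 x y)) := by
            rw [X.bd_source_comp h]
            exact hP.source x h3
          rw [hatFun_base _ h3, hatFun_arr _ h1 h2, hatFun_arr _ (by rwa [hP.comp_zero h]) h4]
          simp only [X.bd_source_comp h, G.map_bd]
          rfl
        · have h3 : ¬ P x := by rwa [← hP.target, h]
          rw [hatFun_star _ h1 h2]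
          by_cases h4 : P (X.bd 0 false x)
          · rw [hatFun_arr _ h3 h4, hatFun_arr _ (by rwa [hP.comp_zero h])
              (by rwa [X.bd_source_comp h])]
            simp only [X.bd_source_comp h]
            rfl
          · rw [hatFun_star _ h3 h4, hatFun_star _ (by rwa [hP.comp_zero h])
              (by rwa [X.bd_source_comp h])]
            rfl
    · have h0 := hP.iff_of_composable h
      have h5 := hP.comp_succ h
      have h6 := bd_lt_comp_sv (Nat.succ_pos k) h false
      have h7 := bd_lt_eq (Nat.succ_pos k) h false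
      by_cases h1 : P x
      · rw [hatFun_base _ h1, hatFun_base _ (h0.1 h1), hatFun_base _ (h5.2 h1),
          G.map_comp _ _ _ h]
        rfl
      · have h1' : ¬ P y := by rwa [← h0]
        have h1'' : ¬ P (X.comp (k + 1) x y) := by rwa [h5]
        by_cases h2 : P (X.bd 0 false x)
        · rw [hatFun_arr _ h1 h2, hatFun_arr _ h1'' (by rwa [h6])]
          simp only [h6]
          rfl
        · rw [hatFun_star _ h1 h2, hatFun_star _ h1'' (by rwa [h6])]
          rfl

@[simp] lemma hat_toFun {X Y : OmegaCat} {P : X.Cell → Prop} (hP : IsSieve X P) (G : X ⟶ Y)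
    (x : X.Cell) : (hat hP G).toFun x = hatFun P G x := rfl

/-- The value of `hatFun` only depends on the values of `G` at `x` and its source. -/
lemma hatFun_congr {X Y : OmegaCat} {P Q : X.Cell → Prop} (G G' : X ⟶ Y) (x : X.Cell)
    (h1 : P x ↔ Q x) (h2 : P (X.bd 0 false x) ↔ Q (X.bd 0 false x))
    (h3 : P x → G.toFun x = G'.toFun x)
    (h4 : P (X.bd 0 false x) → G.toFun (X.bd 0 false x) = G'.toFun (X.bd 0 false x)) :
    hatFun P G x = hatFun Q G' x := by
  by_cases h : P x
  · rw [hatFun_base _ h, hatFun_base _ (h1.1 h), h3 h]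
  · by_cases h' : P (X.bd 0 false x)
    · rw [hatFun_arr _ h h', hatFun_arr _ (by rwa [← h1]) (h2.1 h')]
      simp only [h4 h']
    · rw [hatFun_star _ h h', hatFun_star _ (by rwa [← h1]) (by rwa [← h2])]

/-- A functor to the cone determines a sieve. -/
def baseSieve {X Y : OmegaCat} (F : X ⟶ cone Y) (x : X.Cell) : Prop :=
  ∃ y, F.toFun x = .base y

lemma isSieve_baseSieve {X Y : OmegaCat} (F : X ⟶ cone Y) : IsSieve X (baseSieve F) where
  target x := by
    unfold baseSieve
    rw [F.map_bd]
    constructor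
    · rintro ⟨y, hy⟩
      rcases hx : F.toFun x with z | ⟨z, hz⟩ | _
      · exact ⟨z, rfl⟩
      · rw [hx] at hy
        cases hy
      · rw [hx] at hy
        cases hy
    · rintro ⟨y, hy⟩
      rw [hy]
      exact ⟨_, rfl⟩
  source x := by
    unfold baseSieve
    rw [F.map_bd]
    rintro ⟨y, hy⟩
    rw [hy]
    exact ⟨_, rfl⟩

lemma IsSieve.union {X : OmegaCat} {P Q : X.Cell → Prop} (hP : IsSieve X P) (hQ : IsSieve X Q) :
    IsSieve X (fun x => P x ∨ Q x) where
  target x := or_congr (hP.target x) (hQ.target x)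
  source x := Or.imp (hP.source x) (hQ.source x)

lemma IsSieve.inter {X : OmegaCat} {P Q : X.Cell → Prop} (hP : IsSieve X P) (hQ : IsSieve X Q) :
    IsSieve X (fun x => P x ∧ Q x) where
  target x := and_congr (hP.target x) (hQ.target x)
  source x := And.imp (hP.source x) (hQ.source x)

lemma isSieve_true (X : OmegaCat) : IsSieve X (fun _ => True) where
  target _ := Iff.rfl
  source _ := id

/-- Factorization of a functor through an injective functor. -/
lemma exists_lift_of_injective {X Y Z : OmegaCat} (j : X ⟶ Y) (hj : Function.Injective j.toFun)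
    (F : Z ⟶ Y) (hF : ∀ z, ∃ x, j.toFun x = F.toFun z) : ∃ F' : Z ⟶ X, F' ≫ j = F := by
  choose g hg using hF
  refine ⟨⟨g, fun k ε z => ?_, fun k x y h => ?_⟩, ?_⟩
  · apply hj
    rw [hg, F.map_bd, j.map_bd, hg]
  · apply hj
    rw [hg, F.map_comp _ _ _ h, j.map_comp, hg, hg]
    apply hj
    rw [j.map_bd, j.map_bd, hg, hg, ← F.map_bd, ← F.map_bd, h]
  · apply hom_ext
    exact hg

end OmegaCat

end Vale.Agent.P213
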