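import Vale.Agent.Lib.P213.Poset

/-!
# P213: supports of the cells of the orientals

If the `0`-target of a cell `t` of the oriental `𝒪_m` is the vertex `i` then all the faces which
appear in `t` have all their vertices `≤ i`.
-/

open CategoryTheory Limits

namespace Vale.Agent.P213

section Support

variable {m : ℕ}

/-- `σ` has a vertex above `i`. -/
def Bad (i : Fin (m + 1)) (σ : Finset (Fin (m + 1))) : Prop := ∃ v ∈ σ, i < v

lemma simplexBd_of_min {n : ℕ} {σ τ : Finset (Fin n)} {j : Fin n} (hj : j ∈ σ)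
    (h : σ.erase j = τ) (hmin : ∀ v ∈ σ, j ≤ v) : simplexBd σ τ = 1 := by
  unfold simplexBd
  rw [Finset.sum_eq_single j]
  · rw [if_pos h]
    have : σ.filter (· < j) = ∅ := by
      ext v
      simp only [Finset.mem_filter, Finset.notMem_empty, iff_false, not_and, not_lt]
      exact hmin v
    rw [this]
    simp
  · intro k hk hne
    rw [if_neg]
    intro h'
    have : k ∈ σ.erase j := Finset.mem_erase.2 ⟨hne, hk⟩
    rw [h, ← h'] at this
    exact (Finset.notMem_erase k σ) this
  · intro h'
    exact absurd hj h'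

lemma exists_erase_of_simplexBd_ne {n : ℕ} {σ τ : Finset (Fin n)} (h : simplexBd σ τ ≠ 0) :
    ∃ j ∈ σ, σ.erase j = τ := by
  obtain ⟨j, hj, hne⟩ := Finset.exists_ne_zero_of_sum_ne_zero h
  refine ⟨j, hj, ?_⟩
  by_contra hcon
  exact hne (if_neg hcon)

/-- The key step: a positive chain whose boundary is nonpositive on all bad faces has no bad
faces. -/
lemma bad_step (i : Fin (m + 1)) (c : SimplexBasis m → ℕ) (d : ℕ)
    (hc : ∀ a : SimplexBasis m, a.1.card = d + 1 → Bad i a.1 → (simplexCpx m).bdry c a ≤ 0) :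
    ∀ b : SimplexBasis m, b.1.card = d + 2 → Bad i b.1 → c b = 0 := by
  classical
  by_contra hcon
  push Not at hcon
  obtain ⟨b₀, hb₀, hbad₀, hc₀⟩ := hcon
  let S : Finset (SimplexBasis m) :=
    Finset.univ.filter fun b => b.1.card = d + 2 ∧ Bad i b.1 ∧ c b ≠ 0
  have hS : S.Nonempty := ⟨b₀, by simp [S, hb₀, hbad₀, hc₀]⟩
  obtain ⟨b, hbS, hmax⟩ := Finset.exists_max_image S (fun b => b.1.min' b.2) hS
  simp only [S, Finset.mem_filter, Finset.mem_univ, true_and] at hbS
  obtain ⟨hb, ⟨v, hv, hiv⟩, hcb⟩ := hbS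
  set v₀ := b.1.min' b.2 with hv₀
  have hv₀b : v₀ ∈ b.1 := Finset.min'_mem _ _
  have hcard : (b.1.erase v₀).card = d + 1 := by
    rw [Finset.card_erase_of_mem hv₀b, hb]
    rfl
  have hne : (b.1.erase v₀).Nonempty := by
    rw [← Finset.card_pos, hcard]
    exact Nat.succ_pos d
  let a : SimplexBasis m := ⟨b.1.erase v₀, hne⟩
  have hlt : ∀ w ∈ a.1, v₀ < w := by
    intro w hw
    have hw' := Finset.mem_erase.1 hw
    exact lt_of_le_of_ne (Finset.min'_le _ _ hw'.2) hw'.1.symm
  have hbada : Bad i a.1 := by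
    by_cases hvv : v = v₀
    · obtain ⟨w, hw⟩ := hne
      exact ⟨w, hw, hiv.trans (hvv ▸ hlt w hw)⟩
    · exact ⟨v, Finset.mem_erase.2 ⟨hvv, hv⟩, hiv⟩
  have h1 := hc a hcard hbada
  have h2 : ∀ b' : SimplexBasis m, 0 ≤ (c b' : ℤ) * (simplexCpx m).bd b' a := by
    intro b'
    by_cases hcb' : c b' = 0
    · simp [hcb']
    by_cases hbd : (simplexCpx m).bd b' a = 0
    · simp [hbd]
    have hbd' : simplexBd b'.1 a.1 ≠ 0 := hbd
    obtain ⟨j, hj, hja⟩ := exists_erase_of_simplexBd_ne hbd'
    have hsub : ∀ w ∈ a.1, w ∈ b'.1 := by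
      intro w hw
      rw [← hja] at hw
      exact Finset.mem_of_mem_erase hw
    have hb'S : b' ∈ S := by
      simp only [S, Finset.mem_filter, Finset.mem_univ, true_and]
      refine ⟨?_, ?_, hcb'⟩
      · have := Finset.card_erase_of_mem hj
        rw [hja] at this
        have h3 : a.1.card = d + 1 := hcard
        have h4 : 0 < b'.1.card := Finset.card_pos.2 ⟨j, hj⟩
        omega
      · obtain ⟨w, hw, hiw⟩ := hbada
        exact ⟨w, hsub w hw, hiw⟩
    have h5 := hmax b' hb'S
    have h6 : b'.1.min' b'.2 = j := by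
      by_contra hne'
      have h7 : b'.1.min' b'.2 ∈ a.1 := by
        rw [← hja]
        exact Finset.mem_erase.2 ⟨hne', Finset.min'_mem _ _⟩
      exact absurd (hlt _ h7) (not_lt.2 h5)
    have h8 : simplexBd b'.1 a.1 = 1 := simplexBd_of_min hj hja fun w hw => by
      rw [← h6]
      exact Finset.min'_le _ _ hw
    change 0 ≤ (c b' : ℤ) * simplexBd b'.1 a.1
    rw [h8]
    positivity
  have h3 : (c b : ℤ) * (simplexCpx m).bd b a ≤ (simplexCpx m).bdry c a :=
    Finset.single_le_sum (f := fun b' => (c b' : ℤ) * (simplexCpx m).bd b' a)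
      (fun b' _ => h2 b') (Finset.mem_univ b)
  have h4 : (simplexCpx m).bd b a = 1 := simplexBd_of_min hv₀b rfl fun w hw =>
    Finset.min'_le _ _ hw
  rw [h4, mul_one] at h3
  have h5 : (c b : ℤ) ≤ 0 := h3.trans h1
  exact hcb (by omega)

/-- If the `0`-target of `t` is the vertex `i` then all faces of `t` have their vertices `≤ i`. -/
lemma Table.le_of_mem {i : Fin (m + 1)} (t : Table (simplexCpx m))
    (h : ∀ a : SimplexBasis m, a.1.card = 1 → Bad i a.1 → t.x true a = 0) (δ : Bool)
    (b : SimplexBasis m) (hb : t.x δ b ≠ 0) : ∀ v ∈ b.1, v ≤ i := by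
  have key : ∀ d : ℕ, ∀ a : SimplexBasis m, a.1.card = d + 1 → Bad i a.1 →
      t.x true a = 0 := by
    intro d
    induction d with
    | zero => exact h
    | succ d ih =>
      refine bad_step i (t.x true) d fun a ha hbad => ?_
      rw [t.bd true a, ih a ha hbad]
      simp
  have key2 : ∀ d : ℕ, ∀ a : SimplexBasis m, a.1.card = d + 1 → Bad i a.1 →
      t.x false a = 0 := by
    intro d a ha hbad
    have h1 : (simplexCpx m).bdry (t.x true) a = 0 := by
      unfold Cpx.bdry
      refine Finset.sum_eq_zero fun b _ => ?_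
      by_cases hbd : (simplexCpx m).bd b a = 0
      · rw [hbd, mul_zero]
      have hbd' : simplexBd b.1 a.1 ≠ 0 := hbd
      obtain ⟨j, hj, hja⟩ := exists_erase_of_simplexBd_ne hbd'
      have h2 : t.x true b = 0 := by
        refine key (d + 1) b ?_ ?_
        · have := Finset.card_erase_of_mem hj
          rw [hja] at this
          have h4 : 0 < b.1.card := Finset.card_pos.2 ⟨j, hj⟩
          omega
        · obtain ⟨w, hw, hiw⟩ := hbad
          refine ⟨w, ?_, hiw⟩
          rw [← hja] at hw
          exact Finset.mem_of_mem_erase hw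
      rw [h2]
      simp
    have h3 := t.bd true a
    rw [h1, key d a ha hbad] at h3
    simp at h3
    exact h3
  intro v hv
  by_contra hcon
  have hbad : Bad i b.1 := ⟨v, hv, not_le.1 hcon⟩
  obtain ⟨d, hd⟩ : ∃ d, b.1.card = d + 1 :=
    ⟨b.1.card - 1, by have := b.2.card_pos; omega⟩
  cases δ
  · exact hb (key2 d b hd hbad)
  · exact hb (key d b hd hbad)

/-- The basis element of a vertex. -/
def vb (i : Fin (m + 1)) : SimplexBasis m := ⟨{i}, Finset.singleton_nonempty i⟩

lemma exists_vx (t : Table (simplexCpx m)) (ε : Bool) :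
    ∃ i, ∀ b : SimplexBasis m, b.1.card = 1 → t.x ε b = if b.1 = {i} then 1 else 0 := by
  have h0 : ∑ b : SimplexBasis m, (if b.1.card - 1 = 0 then t.x ε b else 0) = 1 := t.aug ε
  obtain ⟨b, hb, hne⟩ := Finset.exists_ne_zero_of_sum_ne_zero (by rw [h0]; exact one_ne_zero)
  have hd : b.1.card - 1 = 0 := by
    by_contra hcon
    exact hne (if_neg hcon)
  have hcard : b.1.card = 1 := by
    have := b.2.card_pos
    omega
  obtain ⟨i, hi⟩ := Finset.card_eq_one.1 hcard
  rw [if_pos hd] at hne
  rw [← Finset.add_sum_erase _ _ hb, if_pos hd] at h0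
  have h1 : t.x ε b = 1 := by omega
  have h2 : ∑ b ∈ Finset.univ.erase b, (if b.1.card - 1 = 0 then t.x ε b else 0) = 0 := by
    rw [h1] at h0
    exact Nat.add_left_cancel (h0.trans (Nat.add_zero 1).symm)
  rw [Finset.sum_eq_zero_iff] at h2
  refine ⟨i, fun b' hb' => ?_⟩
  by_cases h : b'.1 = {i}
  · rw [if_pos h, ← h1, Subtype.ext (h.trans hi.symm)]
  · rw [if_neg h]
    have h3 := h2 b' (Finset.mem_erase.2 ⟨fun h' => h (by rw [h', hi]), Finset.mem_univ _⟩)
    rwa [if_pos (by omega)] at h3

/-- The `0`-source (`ε = false`) or `0`-target (`ε = true`) of a cell of the oriental. -/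
noncomputable def vx (ε : Bool) (t : Table (simplexCpx m)) : Fin (m + 1) :=
  (exists_vx t ε).choose

lemma vx_spec (ε : Bool) (t : Table (simplexCpx m)) (b : SimplexBasis m) (hb : b.1.card = 1) :
    t.x ε b = if b.1 = {vx ε t} then 1 else 0 := (exists_vx t ε).choose_spec b hb

lemma x_vb (ε : Bool) (t : Table (simplexCpx m)) (i : Fin (m + 1)) :
    t.x ε (vb i) = if i = vx ε t then 1 else 0 := by
  rw [vx_spec ε t (vb i) (Finset.card_singleton i)]
  simp [vb]

lemma vx_eq {ε : Bool} {t : Table (simplexCpx m)} {i : Fin (m + 1)} (h : t.x ε (vb i) ≠ 0) :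
    vx ε t = i := by
  rw [x_vb] at h
  by_contra hcon
  exact h (if_neg fun h' => hcon h'.symm)

lemma vx_congr {ε δ : Bool} {t s : Table (simplexCpx m)}
    (h : ∀ b : SimplexBasis m, b.1.card = 1 → t.x ε b = s.x δ b) : vx ε t = vx δ s := by
  apply vx_eq
  rw [h _ (Finset.card_singleton _), x_vb, if_pos rfl]
  exact one_ne_zero

lemma vx_face_zero (ε δ : Bool) (t : Table (simplexCpx m)) :
    vx δ (Table.face 0 ε t) = vx ε t := by
  apply vx_congr
  intro b hb
  refine (Table.face_x 0 ε t δ b).trans ?_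
  rw [if_neg (Nat.not_lt_zero _), if_pos]
  change b.1.card - 1 = 0
  omega

lemma vx_face_succ (k : ℕ) (ε δ : Bool) (t : Table (simplexCpx m)) :
    vx δ (Table.face (k + 1) ε t) = vx δ t := by
  apply vx_congr
  intro b hb
  refine (Table.face_x (k + 1) ε t δ b).trans ?_
  rw [if_pos]
  change b.1.card - 1 < k + 1
  omega

lemma face_zero_eq {ε δ : Bool} {t s : Table (simplexCpx m)} (h : vx ε t = vx δ s) :
    Table.face 0 ε t = Table.face 0 δ s := by
  apply Table.ext
  funext η b
  rw [Table.face_x, Table.face_x]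
  rw [if_neg (Nat.not_lt_zero _), if_neg (Nat.not_lt_zero _)]
  by_cases hb : b.1.card = 1
  · have : (simplexCpx m).dim b = 0 := by
      change b.1.card - 1 = 0
      omega
    rw [if_pos this, if_pos this, vx_spec _ _ _ hb, vx_spec _ _ _ hb, h]
  · have : ¬ (simplexCpx m).dim b = 0 := by
      change ¬ b.1.card - 1 = 0
      have := b.2.card_pos
      omega
    rw [if_neg this, if_neg this]

lemma le_vx_true (t : Table (simplexCpx m)) (δ : Bool) (b : SimplexBasis m) (hb : t.x δ b ≠ 0) :
    ∀ v ∈ b.1, v ≤ vx true t := by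
  refine Table.le_of_mem t (fun a ha hbad => ?_) δ b hb
  rw [vx_spec _ _ _ ha, if_neg]
  intro h
  obtain ⟨v, hv, hlt⟩ := hbad
  rw [h, Finset.mem_singleton] at hv
  exact absurd hlt (by rw [hv]; exact lt_irrefl _)

lemma vx_false_le (t : Table (simplexCpx m)) : vx false t ≤ vx true t := by
  refine le_vx_true t false (vb (vx false t)) ?_ _ (Finset.mem_singleton_self _)
  rw [x_vb, if_pos rfl]
  exact one_ne_zero

lemma vx_map {n : ℕ} (φ : Fin (m + 1) →o Fin (n + 1)) (ε : Bool) (t : Table (simplexCpx m)) :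
    vx ε (Table.map (K := simplexCpx m) (L := simplexCpx n) (simplexCpxMap φ) t) =
      φ (vx ε t) := by
  apply vx_eq
  have h1 : t.x ε (vb (vx ε t)) * simplexMat φ (vb (vx ε t)) (vb (φ (vx ε t))) ≤
      ∑ b : SimplexBasis m, t.x ε b * simplexMat φ b (vb (φ (vx ε t))) :=
    Finset.single_le_sum (f := fun b : SimplexBasis m =>
      t.x ε b * simplexMat φ b (vb (φ (vx ε t)))) (fun _ _ => Nat.zero_le _)
      (Finset.mem_univ (vb (vx ε t)))
  have h2 : simplexMat φ (vb (vx ε t)) (vb (φ (vx ε t))) = 1 := by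
    unfold simplexMat
    rw [if_pos]
    simp [vb]
  rw [x_vb, if_pos rfl, one_mul, h2] at h1
  exact (Nat.pos_of_ne_zero (fun h => by
    have h3 : ∑ b : SimplexBasis m, t.x ε b * simplexMat φ b (vb (φ (vx ε t))) = 0 := h
    omega)).ne'

/-- Two monotone maps which agree on the vertices `≤` the `0`-target of `t` give the same
push-forward of `t`. -/
lemma map_congr_of_le {n : ℕ} (φ ψ : Fin (m + 1) →o Fin (n + 1)) (t : Table (simplexCpx m))
    (h : ∀ v, v ≤ vx true t → φ v = ψ v) :
    Table.map (K := simplexCpx m) (L := simplexCpx n) (simplexCpxMap φ) t =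
      Table.map (K := simplexCpx m) (L := simplexCpx n) (simplexCpxMap ψ) t := by
  apply Table.ext
  funext ε d
  rw [Table.map_x, Table.map_x]
  refine Finset.sum_congr rfl fun b _ => ?_
  by_cases hb : t.x ε b = 0
  · rw [hb, zero_mul, zero_mul]
  · have h1 : b.1.image φ = b.1.image ψ := by
      refine Finset.image_congr fun v hv => ?_
      exact h v (le_vx_true t ε b hb v hv)
    have h2 : simplexMat φ b d = simplexMat ψ b d := by
      unfold simplexMat
      rw [h1]
    exact congrArg (t.x ε b * ·) h2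

/-- The nondegenerate edge of the interval. -/
def edgeOne : Table (simplexCpx 1) where
  x δ b := if b.1 = {0, 1} then 1 else if b.1 = {if δ then 1 else 0} then 1 else 0
  aug ε := by
    cases ε <;> decide
  bd ε a := by
    cases ε <;> revert a <;> decide

lemma vx_edgeOne (ε : Bool) : vx ε edgeOne = if ε then 1 else 0 := by
  apply vx_eq
  cases ε <;> decide

/-- The map `[1] → [m]` given by a pair of comparable vertices. -/
def pairMap (i j : Fin (m + 1)) (h : i ≤ j) : Fin (1 + 1) →o Fin (m + 1) where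
  toFun v := if v = 0 then i else j
  monotone' := by
    intro a b hab
    dsimp only
    split_ifs with h1 h2
    · exact le_rfl
    · exact h
    · subst_vars
      exact absurd (Fin.le_zero_iff.1 hab) h1
    · exact le_rfl

/-- The edge between two comparable vertices. -/
def edge (i j : Fin (m + 1)) (h : i ≤ j) : Table (simplexCpx m) :=
  Table.map (K := simplexCpx 1) (L := simplexCpx m) (simplexCpxMap (pairMap i j h)) edgeOne

lemma vx_edge_false (i j : Fin (m + 1)) (h : i ≤ j) : vx false (edge i j h) = i := by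
  rw [edge, vx_map, vx_edgeOne]
  rfl

lemma vx_edge_true (i j : Fin (m + 1)) (h : i ≤ j) : vx true (edge i j h) = j := by
  rw [edge, vx_map, vx_edgeOne]
  rfl

/-- The monotone map `v ↦ min v i`. -/
def collapse (i : Fin (m + 1)) : Fin (m + 1) →o Fin (m + 1) where
  toFun v := min v i
  monotone' _ _ hab := min_le_min_right _ hab

lemma map_collapse (t : Table (simplexCpx m)) :
    Table.map (K := simplexCpx m) (L := simplexCpx m) (simplexCpxMap (collapse (vx true t))) t =
      t := by
  rw [map_congr_of_le (collapse (vx true t)) OrderHom.id t (fun v hv => min_eq_left hv)]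
  have := orientalFunctor.map_id (SimplexCategory.mk m)
  exact congrArg (fun F : OmegaCat.Hom (nu (simplexCpx m)) (nu (simplexCpx m)) => F.toFun t) this

end Support

end Vale.Agent.P213
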