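import Vale.Agent.Lib.P213.SieveA
import Vale.Agent.Lib.P213.SieveB

/-!
# P213: extension of simplicial maps from the nerve of a lower set to the cone
-/

open CategoryTheory Limits Opposite

namespace Vale.Agent.P213

open OmegaCat

/-- The cone in `n`-categories. -/
def coneN {n : ℕ∞} (hn : 1 ≤ n) (Y : NCat n) : NCat n := ⟨cone Y.obj, cone_isNCat hn Y.property⟩

section Hat

lemma OmegaCat.IsSieve.comap {X Y : OmegaCat} {P : Y.Cell → Prop} (hP : IsSieve Y P) (F : X ⟶ Y) :
    IsSieve X (fun x => P (F.toFun x)) where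
  target x := by
    rw [F.map_bd]
    exact hP.target _
  source x h := by
    rw [F.map_bd]
    exact hP.source _ h

lemma comp_hat {X Y Z : OmegaCat} {P : Y.Cell → Prop} (hP : IsSieve Y P) (F : X ⟶ Y) (G : Y ⟶ Z)
    {Q : X.Cell → Prop} (hQ : IsSieve X Q) (h : ∀ x, Q x ↔ P (F.toFun x)) :
    F ≫ hat hP G = hat hQ (F ≫ G) := by
  obtain rfl : Q = fun x => P (F.toFun x) := funext fun x => propext (h x)
  apply hom_ext
  intro x
  rw [comp_toFun, hat_toFun, hat_toFun]
  by_cases h1 : P (F.toFun x)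
  · rw [hatFun_base _ h1, hatFun_base (P := fun x => P (F.toFun x)) _ h1]
    rfl
  · by_cases h2 : P (Y.bd 0 false (F.toFun x))
    · rw [hatFun_arr _ h1 h2, hatFun_arr (P := fun x => P (F.toFun x)) _ h1
        (by rwa [F.map_bd])]
      simp only [comp_toFun, F.map_bd]
      rfl
    · rw [hatFun_star _ h1 h2, hatFun_star (P := fun x => P (F.toFun x)) _ h1
        (by rwa [F.map_bd])]

lemma hat_comp {X Y Z : OmegaCat} {P : X.Cell → Prop} (hP : IsSieve X P) (G : X ⟶ Y)
    (f : Y ⟶ Z) : hat hP G ≫ coneMap f = hat hP (G ≫ f) := by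
  apply hom_ext
  intro x
  rw [comp_toFun, hat_toFun, hat_toFun]
  by_cases h1 : P x
  · rw [hatFun_base _ h1, hatFun_base _ h1]
    rfl
  · by_cases h2 : P (X.bd 0 false x)
    · rw [hatFun_arr _ h1 h2, hatFun_arr _ h1 h2]
      rfl
    · rw [hatFun_star _ h1 h2, hatFun_star _ h1 h2]
      rfl

lemma hat_of_forall {X Y : OmegaCat} {P : X.Cell → Prop} (hP : IsSieve X P) (G : X ⟶ Y)
    (h : ∀ x, P x) : hat hP G = G ≫ coneInl Y := by
  apply hom_ext
  intro x
  rw [comp_toFun, hat_toFun, hatFun_base _ (h x)]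
  rfl

lemma hat_of_forall_not {X Y : OmegaCat} {P : X.Cell → Prop} (hP : IsSieve X P) (G : X ⟶ Y)
    (h : ∀ x, ¬ P x) : hat hP G = coneStar X Y := by
  apply hom_ext
  intro x
  rw [hat_toFun, hatFun_star _ (h x) (h _)]
  rfl

lemma hat_congr {X Y : OmegaCat} {P Q : X.Cell → Prop} (hP : IsSieve X P) (hQ : IsSieve X Q)
    (G G' : X ⟶ Y) (h1 : ∀ x, P x ↔ Q x) (h2 : ∀ x, P x → G.toFun x = G'.toFun x) :
    hat hP G = hat hQ G' := by
  apply hom_ext
  intro x
  exact hatFun_congr G G' x (h1 x) (h1 _) (h2 x) (h2 _)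

end Hat

section Ev

variable {n : ℕ∞} {Q : Type} [PartialOrder Q] {Y : NCat n}

/-- Evaluation of a simplicial map from the nerve of a poset to a Street nerve. -/
def ev (g : pNerve Q ⟶ (streetNerve n).obj Y) (m : SimplexCategory)
    (σ : Fin (m.len + 1) →o Q) : orientalFunctor.obj m ⟶ Y.obj := g.app (op m) σ

lemma ev_nat (g : pNerve Q ⟶ (streetNerve n).obj Y) {m m' : SimplexCategory} (φ : m' ⟶ m)
    (σ : Fin (m.len + 1) →o Q) :
    ev g m' (σ.comp φ.toOrderHom) = orientalFunctor.map φ ≫ ev g m σ := by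
  exact ConcreteCategory.congr_hom (g.naturality φ.op) σ

lemma ev_ext {g g' : pNerve Q ⟶ (streetNerve n).obj Y} (h : ∀ m σ, ev g m σ = ev g' m σ) :
    g = g' := by
  ext m σ
  exact h m.unop σ

/-- Constructor for simplicial maps. -/
def mkEv (F : ∀ (m : SimplexCategory), (Fin (m.len + 1) →o Q) → (orientalFunctor.obj m ⟶ Y.obj))
    (hF : ∀ {m m' : SimplexCategory} (φ : m' ⟶ m) (σ : Fin (m.len + 1) →o Q),
      F m' (σ.comp φ.toOrderHom) = orientalFunctor.map φ ≫ F m σ) :
    pNerve Q ⟶ (streetNerve n).obj Y where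
  app m := TypeCat.ofHom fun σ => F m.unop σ
  naturality m m' φ := by
    ext σ
    exact hF φ.unop σ

lemma ev_mkEv (F : ∀ (m : SimplexCategory), (Fin (m.len + 1) →o Q) →
      (orientalFunctor.obj m ⟶ Y.obj))
    (hF : ∀ {m m' : SimplexCategory} (φ : m' ⟶ m) (σ : Fin (m.len + 1) →o Q),
      F m' (σ.comp φ.toOrderHom) = orientalFunctor.map φ ≫ F m σ) (m : SimplexCategory)
    (σ : Fin (m.len + 1) →o Q) : ev (mkEv F hF) m σ = F m σ := rfl

end Ev

section Tv

variable {m m' : SimplexCategory}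

/-- The `0`-source or `0`-target of a cell of an oriental. -/
noncomputable def tv (ε : Bool) (t : (orientalFunctor.obj m).Cell) : Fin (m.len + 1) :=
  vx (m := m.len) ε t

lemma tv_bd_zero (ε δ : Bool) (t : (orientalFunctor.obj m).Cell) :
    tv δ ((orientalFunctor.obj m).bd 0 ε t) = tv ε t := vx_face_zero (m := m.len) ε δ t

lemma tv_bd_succ (k : ℕ) (ε δ : Bool) (t : (orientalFunctor.obj m).Cell) :
    tv δ ((orientalFunctor.obj m).bd (k + 1) ε t) = tv δ t :=
  vx_face_succ (m := m.len) k ε δ t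

lemma tv_false_le (t : (orientalFunctor.obj m).Cell) : tv false t ≤ tv true t :=
  vx_false_le (m := m.len) t

lemma tv_map (φ : m' ⟶ m) (ε : Bool) (t : (orientalFunctor.obj m').Cell) :
    tv ε ((orientalFunctor.map φ).toFun t) = φ.toOrderHom (tv ε t) :=
  vx_map (m := m'.len) (n := m.len) φ.toOrderHom ε t

lemma bd_zero_eq {ε δ : Bool} {t s : (orientalFunctor.obj m).Cell} (h : tv ε t = tv δ s) :
    (orientalFunctor.obj m).bd 0 ε t = (orientalFunctor.obj m).bd 0 δ s :=
  face_zero_eq (m := m.len) h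

lemma exists_collapse (t : (orientalFunctor.obj m).Cell) : ∃ r : m ⟶ m,
    (orientalFunctor.map r).toFun t = t ∧ ∀ v, r.toOrderHom v ≤ tv true t :=
  ⟨SimplexCategory.Hom.mk (collapse (tv true t)), map_collapse (m := m.len) t,
    fun _ => min_le_right _ _⟩

lemma exists_edge (i j : Fin (m.len + 1)) (h : i ≤ j) :
    ∃ e : (orientalFunctor.obj m).Cell, tv false e = i ∧ tv true e = j :=
  ⟨edge i j h, vx_edge_false i j h, vx_edge_true i j h⟩

/-- A functor from an oriental takes its values in a sieve as soon as it sends the last vertex to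
the sieve. -/
lemma forall_of_last {X : OmegaCat} {P : X.Cell → Prop} (hP : IsSieve X P)
    (F : orientalFunctor.obj m ⟶ X) (s : (orientalFunctor.obj m).Cell)
    (hs : tv true s = Fin.last m.len) (h : P (F.toFun s)) (t : (orientalFunctor.obj m).Cell) :
    P (F.toFun t) := by
  obtain ⟨e, he1, he2⟩ := exists_edge (m := m) (tv true t) (Fin.last m.len) (Fin.le_last _)
  have h1 : P (F.toFun e) := by
    rw [← hP.target, ← F.map_bd, bd_zero_eq (he2.trans hs.symm), F.map_bd, hP.target]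
    exact h
  rw [← hP.target, ← F.map_bd, ← bd_zero_eq he1, F.map_bd]
  exact hP.source _ h1

/-- The sieve of an oriental given by a down-closed set of vertices. -/
lemma isSieve_tv (q : Fin (m.len + 1) → Prop) (hq : ∀ i j, i ≤ j → q j → q i) :
    IsSieve (orientalFunctor.obj m) (fun t => q (tv true t)) where
  target t := by rw [tv_bd_zero]
  source t h := by
    rw [tv_bd_zero]
    exact hq _ _ (tv_false_le t) h

end Tv

section Ev

variable {n : ℕ∞} {Q : Type} [PartialOrder Q] {Y : NCat n}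

/-- If two simplices agree on the vertices `≤` the `0`-target of `t`, then their images agree
at `t`. -/
lemma ev_congr (g : pNerve Q ⟶ (streetNerve n).obj Y) {m : SimplexCategory}
    (σ τ : Fin (m.len + 1) →o Q) (t : (orientalFunctor.obj m).Cell)
    (h : ∀ v, v ≤ tv true t → σ v = τ v) :
    (ev g m σ).toFun t = (ev g m τ).toFun t := by
  obtain ⟨r, h1, hr⟩ := exists_collapse t
  have h2 : σ.comp r.toOrderHom = τ.comp r.toOrderHom := by
    ext v
    exact h _ (hr _)
  have h3 : ∀ ρ : Fin (m.len + 1) →o Q, (ev g m ρ).toFun t =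
      (ev g m (ρ.comp r.toOrderHom)).toFun t := by
    intro ρ
    rw [ev_nat, comp_toFun, h1]
  rw [h3 σ, h3 τ, h2]

end Ev

section Extend

variable {n : ℕ∞} (hn : 1 ≤ n) {B : Type} [PartialOrder B] {B' B'' : LowerSet B} (h' : B' ≤ B'')
  {Y : NCat n}

/-- The sieve of the oriental attached to a simplex `σ` of `B''`. -/
def sieveOf (B' : LowerSet B) {m : SimplexCategory} (σ : Fin (m.len + 1) →o B'')
    (t : (orientalFunctor.obj m).Cell) : Prop := ((σ (tv true t) : B'') : B) ∈ B'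

lemma isSieve_sieveOf (B' : LowerSet B) {m : SimplexCategory} (σ : Fin (m.len + 1) →o B'') :
    IsSieve (orientalFunctor.obj m) (sieveOf B' σ) :=
  isSieve_tv (fun i => ((σ i : B'') : B) ∈ B') fun _ _ hij hj => B'.lower (σ.monotone hij) hj

lemma sieveOf_comp (B' : LowerSet B) {m m' : SimplexCategory} (σ : Fin (m.len + 1) →o B'')
    (φ : m' ⟶ m) (t : (orientalFunctor.obj m').Cell) :
    sieveOf B' (m := m') (σ.comp φ.toOrderHom) t ↔
      sieveOf B' σ ((orientalFunctor.map φ).toFun t) := by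
  unfold sieveOf
  rw [tv_map]
  rfl

lemma not_sieveOf (B' : LowerSet B) {m : SimplexCategory} (σ : Fin (m.len + 1) →o B'')
    (h : ((σ 0 : B'') : B) ∉ B') (t : (orientalFunctor.obj m).Cell) : ¬ sieveOf B' σ t :=
  fun ht => h (B'.lower (σ.monotone (Fin.zero_le _)) ht)

/-- `τ` is a simplex of `B'` which agrees with the simplex `σ` of `B''` on the vertices in `B'`. -/
def Agree {k : ℕ} (σ : Fin (k + 1) →o B'') (τ : Fin (k + 1) →o B') : Prop :=
  ∀ v, ((σ v : B'') : B) ∈ B' → ((τ v : B') : B) = (σ v : B'')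

lemma exists_agree {k : ℕ} (σ : Fin (k + 1) →o B'') (h : ((σ 0 : B'') : B) ∈ B') :
    ∃ τ : Fin (k + 1) →o B', Agree σ τ := by
  classical
  let S : Finset (Fin (k + 1)) := Finset.univ.filter fun v => ((σ v : B'') : B) ∈ B'
  have hS : S.Nonempty := ⟨0, by simp [S, h]⟩
  have hw : ((σ (S.max' hS) : B'') : B) ∈ B' := (Finset.mem_filter.1 (S.max'_mem hS)).2
  refine ⟨⟨fun v => ⟨σ (min v (S.max' hS)), B'.lower (σ.monotone (min_le_right _ _)) hw⟩,
    fun a b hab => σ.monotone (min_le_min_right _ hab)⟩, fun v hv => ?_⟩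
  change ((σ (min v (S.max' hS)) : B'') : B) = _
  rw [min_eq_left (S.le_max' v (by simp [S, hv]))]

open Classical in
/-- The extension of a simplicial map `N B' → N Y` to `N B'' → N (R Y)`, on a simplex. -/
noncomputable def extendAt (g : pNerve B' ⟶ (streetNerve n).obj Y) {m : SimplexCategory}
    (σ : Fin (m.len + 1) →o B'') : orientalFunctor.obj m ⟶ cone Y.obj :=
  if h : ((σ 0 : B'') : B) ∈ B' then
    hat (isSieve_sieveOf B' σ) (ev g m (exists_agree σ h).choose)
  else coneStar _ _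

lemma hat_ev_congr (g : pNerve B' ⟶ (streetNerve n).obj Y) {m : SimplexCategory}
    (σ : Fin (m.len + 1) →o B'') (τ τ' : Fin (m.len + 1) →o B') (hτ : Agree σ τ)
    (hτ' : Agree σ τ') :
    hat (isSieve_sieveOf B' σ) (ev g m τ) = hat (isSieve_sieveOf B' σ) (ev g m τ') := by
  refine hat_congr _ _ _ _ (fun _ => Iff.rfl) fun t ht => ev_congr g τ τ' t fun v hv => ?_
  have h1 : ((σ v : B'') : B) ∈ B' := B'.lower (σ.monotone hv) ht
  exact Subtype.ext ((hτ v h1).trans (hτ' v h1).symm)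

lemma extendAt_eq_hat (g : pNerve B' ⟶ (streetNerve n).obj Y) {m : SimplexCategory}
    (σ : Fin (m.len + 1) →o B'') (τ : Fin (m.len + 1) →o B') (hτ : Agree σ τ) :
    extendAt g σ = hat (isSieve_sieveOf B' σ) (ev g m τ) := by
  by_cases h : ((σ 0 : B'') : B) ∈ B'
  · rw [extendAt, dif_pos h]
    exact hat_ev_congr g σ _ _ (exists_agree σ h).choose_spec hτ
  · rw [extendAt, dif_neg h, hat_of_forall_not]
    exact not_sieveOf B' σ h

lemma extendAt_eq_star (g : pNerve B' ⟶ (streetNerve n).obj Y) {m : SimplexCategory}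
    (σ : Fin (m.len + 1) →o B'') (h : ((σ 0 : B'') : B) ∉ B') :
    extendAt g σ = coneStar _ _ := dif_neg h

lemma extendAt_nat (g : pNerve B' ⟶ (streetNerve n).obj Y) {m m' : SimplexCategory}
    (φ : m' ⟶ m) (σ : Fin (m.len + 1) →o B'') :
    extendAt g (m := m') (σ.comp φ.toOrderHom) = orientalFunctor.map φ ≫ extendAt g σ := by
  by_cases h : ((σ 0 : B'') : B) ∈ B'
  · obtain ⟨τ, hτ⟩ := exists_agree σ h
    have h1 : Agree (σ.comp φ.toOrderHom) (τ.comp φ.toOrderHom) := fun v hv => hτ _ hv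
    rw [extendAt_eq_hat g σ τ hτ, extendAt_eq_hat g (m := m') _ _ h1, ev_nat,
      comp_hat _ _ _ _ (sieveOf_comp B' σ φ)]
  · have h2 : (((σ.comp φ.toOrderHom) 0 : B'') : B) ∉ B' :=
      fun h3 => h (B'.lower (σ.monotone (Fin.zero_le _)) h3)
    rw [extendAt_eq_star g σ h, extendAt_eq_star g (m := m') _ h2]
    rfl

/-- The extension of a simplicial map `N B' → N Y` to `N B'' → N (R Y)`. -/
noncomputable def extend (hn : 1 ≤ n) (B'' : LowerSet B)
    (g : pNerve B' ⟶ (streetNerve n).obj Y) :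
    pNerve B'' ⟶ (streetNerve n).obj (coneN hn Y) :=
  mkEv (fun _ σ => extendAt g σ) (fun φ σ => extendAt_nat g φ σ)

lemma ev_extend (hn : 1 ≤ n) (g : pNerve B' ⟶ (streetNerve n).obj Y) (m : SimplexCategory)
    (σ : Fin (m.len + 1) →o B'') : ev (extend hn B'' g) m σ = extendAt g σ := rfl

end Extend

section Cell

variable {n : ℕ∞} {c : SSet.{0} ⥤ NCat n} (adj : c ⊣ streetNerve n)
variable {Q Q' : Type} [PartialOrder Q] [PartialOrder Q'] {Y Z : NCat n}

/-- The functor from an oriental given by a simplex of the nerve of a poset. -/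
noncomputable def cellOf (m : SimplexCategory) (σ : Fin (m.len + 1) →o Q) :
    orientalFunctor.obj m ⟶ (c.obj (pNerve Q)).obj := ev (adj.unit.app (pNerve Q)) m σ

lemma cellOf_map (φ : Q →o Q') (m : SimplexCategory) (σ : Fin (m.len + 1) →o Q) :
    cellOf adj m σ ≫ (c.map (pNerveMap φ)).hom = cellOf adj m (φ.comp σ) := by
  have h := adj.unit.naturality (pNerveMap φ)
  have h1 := congrArg (fun g : pNerve Q ⟶ (streetNerve n).obj (c.obj (pNerve Q')) => ev g m σ) h
  exact h1.symm

lemma cellOf_homEquiv (u : c.obj (pNerve Q) ⟶ Y) (m : SimplexCategory)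
    (σ : Fin (m.len + 1) →o Q) : ev (adj.homEquiv _ _ u) m σ = cellOf adj m σ ≫ u.hom := by
  rw [adj.homEquiv_unit]
  rfl

lemma cellOf_homEquiv_symm (g : pNerve Q ⟶ (streetNerve n).obj Y) (m : SimplexCategory)
    (σ : Fin (m.len + 1) →o Q) :
    cellOf adj m σ ≫ ((adj.homEquiv _ _).symm g).hom = ev g m σ := by
  rw [← cellOf_homEquiv, Equiv.apply_symm_apply]

lemma hom_ext_cellOf {u v : c.obj (pNerve Q) ⟶ Y}
    (h : ∀ m (σ : Fin (m.len + 1) →o Q), cellOf adj m σ ≫ u.hom = cellOf adj m σ ≫ v.hom) :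
    u = v := by
  apply (adj.homEquiv _ _).injective
  apply ev_ext
  intro m σ
  rw [cellOf_homEquiv, cellOf_homEquiv, h]

end Cell

end Vale.Agent.P213
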