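import Vale.Agent.Lib.P213.Defs

/-! # `K ⊗ I` for the interval `I` with vertices `0`, `1` and edge `e` from `0` to `1` -/

open CategoryTheory

namespace Vale.Agent.P213

/-- The basis of `K ⊗ I`: `inl (b, false) = b ⊗ 0`, `inl (b, true) = b ⊗ 1`,
`inr b = b ⊗ e`. -/
abbrev TensorBasis (K : Cpx) : Type := (K.B × Bool) ⊕ K.B

/-- The boundary matrix of `K ⊗ I`. -/
def tensorBd (K : Cpx) : TensorBasis K → TensorBasis K → ℤ
  | Sum.inl (b, i), Sum.inl (a, j) => if i = j then K.bd b a else 0
  | Sum.inl _, Sum.inr _ => 0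
  | Sum.inr b, Sum.inr a => K.bd b a
  | Sum.inr b, Sum.inl (a, i) =>
      if a = b then (-1) ^ (K.dim b) * (if i then 1 else -1) else 0

def tensorDim (K : Cpx) : TensorBasis K → ℕ
  | Sum.inl (b, _) => K.dim b
  | Sum.inr b => K.dim b + 1

/-- `K ⊗ I`. -/
def tensorI (K : Cpx) : Cpx where
  B := TensorBasis K
  dim := tensorDim K
  bd := tensorBd K
  dim_of_bd := by
    rintro (⟨b, i⟩ | b) (⟨a, j⟩ | a) h
    · simp only [tensorBd] at h
      split_ifs at h with hij
      · exact K.dim_of_bd b a h
      · exact absurd rfl h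
    · exact absurd rfl h
    · simp only [tensorBd] at h
      split_ifs at h with hij
      · subst hij
        rfl
      · subst hij
        rfl
      · exact absurd rfl h
    · simp only [tensorBd] at h
      have := K.dim_of_bd b a h
      simp only [tensorDim]
      omega

/-- The matrix of `f ⊗ I`. -/
def tensorMat {K L : Cpx} (f : K ⟶ L) : TensorBasis K → TensorBasis L → ℕ
  | Sum.inl (b, i), Sum.inl (c, j) => if i = j then f.mat b c else 0
  | Sum.inl _, Sum.inr _ => 0
  | Sum.inr _, Sum.inl _ => 0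
  | Sum.inr b, Sum.inr c => f.mat b c

lemma sum_tensorBasis {K : Cpx} {M : Type*} [AddCommMonoid M] (g : TensorBasis K → M) :
    ∑ x : TensorBasis K, g x =
      (∑ b : K.B, g (Sum.inl (b, false))) + (∑ b : K.B, g (Sum.inl (b, true))) +
        ∑ b : K.B, g (Sum.inr b) := by
  rw [Fintype.sum_sum_type, Fintype.sum_prod_type]
  simp [Finset.sum_add_distrib, add_comm]

end Vale.Agent.P213
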