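import Vale.Agent.Lib.P213.Tensor

/-! # Functoriality of `K ⊗ I`, the two inclusions, the projection and the prism of a table -/

open CategoryTheory

namespace Vale.Agent.P213

@[simp] lemma tensorI_dim_inl (K : Cpx) (b : K.B) (i : Bool) :
    (tensorI K).dim (Sum.inl (b, i)) = K.dim b := rfl

@[simp] lemma tensorI_dim_inr (K : Cpx) (b : K.B) :
    (tensorI K).dim (Sum.inr b) = K.dim b + 1 := rfl

@[simp] lemma tensorI_bd_inl_inl (K : Cpx) (b a : K.B) (i j : Bool) :
    (tensorI K).bd (Sum.inl (b, i)) (Sum.inl (a, j)) = if i = j then K.bd b a else 0 := rfl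

@[simp] lemma tensorI_bd_inl_inr (K : Cpx) (b a : K.B) (i : Bool) :
    (tensorI K).bd (Sum.inl (b, i)) (Sum.inr a) = 0 := rfl

@[simp] lemma tensorI_bd_inr_inr (K : Cpx) (b a : K.B) :
    (tensorI K).bd (Sum.inr b) (Sum.inr a) = K.bd b a := rfl

@[simp] lemma tensorI_bd_inr_inl (K : Cpx) (b a : K.B) (i : Bool) :
    (tensorI K).bd (Sum.inr b) (Sum.inl (a, i)) =
      if a = b then (-1) ^ (K.dim b) * (if i then 1 else -1) else 0 := rfl

@[simp] lemma tensorMat_inl_inl {K L : Cpx} (f : K ⟶ L) (b : K.B) (c : L.B) (i j : Bool) :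
    tensorMat f (Sum.inl (b, i)) (Sum.inl (c, j)) = if i = j then f.mat b c else 0 := rfl

@[simp] lemma tensorMat_inl_inr {K L : Cpx} (f : K ⟶ L) (b : K.B) (c : L.B) (i : Bool) :
    tensorMat f (Sum.inl (b, i)) (Sum.inr c) = 0 := rfl

@[simp] lemma tensorMat_inr_inl {K L : Cpx} (f : K ⟶ L) (b : K.B) (c : L.B) (i : Bool) :
    tensorMat f (Sum.inr b) (Sum.inl (c, i)) = 0 := rfl

@[simp] lemma tensorMat_inr_inr {K L : Cpx} (f : K ⟶ L) (b : K.B) (c : L.B) :
    tensorMat f (Sum.inr b) (Sum.inr c) = f.mat b c := rfl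

lemma sum_tensorI {K : Cpx} {M : Type*} [AddCommMonoid M] (g : (tensorI K).B → M) :
    ∑ x : (tensorI K).B, g x =
      (∑ b : K.B, g (Sum.inl (b, false))) + (∑ b : K.B, g (Sum.inl (b, true))) +
        ∑ b : K.B, g (Sum.inr b) :=
  sum_tensorBasis (K := K) g

/-- `f ⊗ I`. -/
def tensorMap {K L : Cpx} (f : K ⟶ L) : Cpx.Hom (tensorI K) (tensorI L) where
  mat := tensorMat f
  dim_of_mat := by
    rintro (⟨b, i⟩ | b) (⟨c, j⟩ | c) h
    · simp only [tensorMat_inl_inl] at h
      split_ifs at h with hij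
      · exact f.dim_of_mat b c h
      · exact absurd rfl h
    · exact absurd rfl h
    · exact absurd rfl h
    · simp only [tensorI_dim_inr]
      rw [f.dim_of_mat b c h]
  aug_mat := by
    rintro (⟨b, i⟩ | b) h
    · refine (sum_tensorI _).trans ?_
      cases i
      · simpa using f.aug_mat b h
      · simpa using f.aug_mat b h
    · simp at h
  bd_mat := by
    rintro (⟨b, i⟩ | b) (⟨c, j⟩ | c)
    · rw [sum_tensorI, sum_tensorI]
      have := f.bd_mat b c
      cases i <;> cases j <;> simpa using this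
    · rw [sum_tensorI, sum_tensorI]
      simp
    · rw [sum_tensorI, sum_tensorI]
      simp only [tensorI_bd_inr_inl, tensorMat_inl_inl, tensorI_bd_inr_inr, tensorMat_inr_inl,
        tensorMat_inr_inr, Nat.cast_zero, mul_zero, zero_mul, Finset.sum_const_zero, add_zero,
        zero_add]
      by_cases hm : f.mat b c = 0
      · cases j <;> simp [hm]
      · have hd := f.dim_of_mat b c hm
        cases j <;> simp [hd, mul_comm]
    · rw [sum_tensorI, sum_tensorI]
      simpa using f.bd_mat b c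

/-- The functor `K ↦ K ⊗ I`. -/
def tensorFunctor : Cpx ⥤ Cpx where
  obj K := tensorI K
  map f := tensorMap f
  map_id K := by
    apply Cpx.Hom.ext
    funext x y
    rcases x with ⟨b, i⟩ | b <;> rcases y with ⟨c, j⟩ | c
    · change (if i = j then Cpx.Hom.mat (𝟙 K) b c else 0) =
        if (Sum.inl (b, i) : TensorBasis K) = Sum.inl (c, j) then 1 else 0
      rw [Cpx.id_mat]
      by_cases h1 : i = j <;> by_cases h2 : b = c <;> simp [h1, h2]
    · rfl
    · rfl
    · change Cpx.Hom.mat (𝟙 K) b c = if (Sum.inr b : TensorBasis K) = Sum.inr c then 1 else 0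
      rw [Cpx.id_mat]
      simp
  map_comp {K L M} f g := by
    apply Cpx.Hom.ext
    funext x y
    change tensorMat (f ≫ g) x y = ∑ z : (tensorI L).B, tensorMat f x z * tensorMat g z y
    rw [sum_tensorI]
    rcases x with ⟨b, i⟩ | b <;> rcases y with ⟨c, j⟩ | c
    · cases i <;> cases j <;> simp [Cpx.comp_mat]
    · simp
    · simp
    · simp [Cpx.comp_mat]

@[simp] lemma tensorFunctor_obj (K : Cpx) : tensorFunctor.obj K = tensorI K := rfl

lemma tensorFunctor_map_mat {K L : Cpx} (f : K ⟶ L) :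
    (tensorFunctor.map f).mat = tensorMat f := rfl

/-- The matrix of the inclusion `b ↦ b ⊗ i`. -/
def tensorInclMat (K : Cpx) (i : Bool) (b : K.B) : TensorBasis K → ℕ
  | Sum.inl (c, j) => if b = c ∧ i = j then 1 else 0
  | Sum.inr _ => 0

@[simp] lemma tensorInclMat_inl (K : Cpx) (i j : Bool) (b c : K.B) :
    tensorInclMat K i b (Sum.inl (c, j)) = if b = c ∧ i = j then 1 else 0 := rfl

@[simp] lemma tensorInclMat_inr (K : Cpx) (i : Bool) (b c : K.B) :
    tensorInclMat K i b (Sum.inr c) = 0 := rfl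

/-- The inclusion `b ↦ b ⊗ i`. -/
def tensorInclHom (K : Cpx) (i : Bool) : Cpx.Hom K (tensorI K) where
  mat := tensorInclMat K i
  dim_of_mat := by
    rintro b (⟨c, j⟩ | c) h
    · simp only [tensorInclMat_inl] at h
      split_ifs at h with hij
      · rw [hij.1]
        rfl
      · exact absurd rfl h
    · exact absurd rfl h
  aug_mat b _ := by
    refine (sum_tensorI _).trans ?_
    cases i <;> simp
  bd_mat b c := by
    rw [sum_tensorI]
    rcases c with ⟨c, j⟩ | c
    · cases i <;> cases j <;> simp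
    · cases i <;> simp

/-- The natural inclusion `b ↦ b ⊗ i`. -/
def tensorIncl (i : Bool) : 𝟭 Cpx ⟶ tensorFunctor where
  app K := tensorInclHom K i
  naturality K L f := by
    apply Cpx.Hom.ext
    funext b y
    change ∑ c : L.B, f.mat b c * tensorInclMat L i c y =
      ∑ z : (tensorI K).B, tensorInclMat K i b z * tensorMat f z y
    rw [sum_tensorI]
    rcases y with ⟨c, j⟩ | c
    · cases i <;> cases j <;> simp
    · cases i <;> simp

/-- The matrix of the projection `b ⊗ i ↦ b`, `b ⊗ e ↦ 0`. -/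
def tensorProjMat (K : Cpx) : TensorBasis K → K.B → ℕ
  | Sum.inl (b, _), c => if b = c then 1 else 0
  | Sum.inr _, _ => 0

@[simp] lemma tensorProjMat_inl (K : Cpx) (i : Bool) (b c : K.B) :
    tensorProjMat K (Sum.inl (b, i)) c = if b = c then 1 else 0 := rfl

@[simp] lemma tensorProjMat_inr (K : Cpx) (b c : K.B) :
    tensorProjMat K (Sum.inr b) c = 0 := rfl

/-- The projection `b ⊗ i ↦ b`, `b ⊗ e ↦ 0`. -/
def tensorProjHom (K : Cpx) : Cpx.Hom (tensorI K) K where
  mat := tensorProjMat K
  dim_of_mat := by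
    rintro (⟨c, j⟩ | c) b h
    · simp only [tensorProjMat_inl] at h
      split_ifs at h with hij
      · rw [← hij]
        rfl
      · exact absurd rfl h
    · exact absurd rfl h
  aug_mat := by
    rintro (⟨c, j⟩ | c) h
    · simp
    · simp at h
  bd_mat := by
    rintro (⟨c, j⟩ | c) b
    · rw [sum_tensorI]
      cases j <;> simp
    · rw [sum_tensorI]
      by_cases h : b = c
      · simp [h]
      · simp [h]

/-- The natural projection `b ⊗ i ↦ b`, `b ⊗ e ↦ 0`. -/
def tensorProj : tensorFunctor ⟶ 𝟭 Cpx where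
  app K := tensorProjHom K
  naturality K L f := by
    apply Cpx.Hom.ext
    funext x c
    change ∑ z : (tensorI L).B, tensorMat f x z * tensorProjMat L z c =
      ∑ b : K.B, tensorProjMat K x b * f.mat b c
    rw [sum_tensorI]
    rcases x with ⟨b, j⟩ | b
    · cases j <;> simp
    · simp

@[reassoc (attr := simp)]
lemma tensorIncl_proj (i : Bool) : tensorIncl i ≫ tensorProj = 𝟙 _ := by
  apply NatTrans.ext
  funext K
  apply Cpx.Hom.ext
  funext b c
  change ∑ z : (tensorI K).B, tensorInclMat K i b z * tensorProjMat K z c =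
    if b = c then 1 else 0
  rw [sum_tensorI]
  cases i <;> simp

@[reassoc (attr := simp)]
lemma tensorIncl_proj_app (i : Bool) (K : Cpx) :
    (tensorIncl i).app K ≫ tensorProj.app K = 𝟙 K := by
  have := congrArg (fun a : 𝟭 Cpx ⟶ 𝟭 Cpx => a.app K) (tensorIncl_proj i)
  exact this

end Vale.Agent.P213
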