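import Vale.Agent.Lib.P213.Good
import Vale.Agent.Lib.P213.SSGlue

/-!
# Transfer of the Kan-Quillen model structure along a right adjoint (abstract form)
-/

open CategoryTheory Limits MorphismProperty Simplicial HomotopicalAlgebra

namespace Vale.Agent.P213.Transfer

section Acyclic

universe v v' u u'

variable {C : Type u} [Category.{v} C] {D : Type u'} [Category.{v'} D]
  (N : C ⥤ D) (T : MorphismProperty D)

/-- Relative cell complexes built from good morphisms are sent into `T`. -/
theorem cells_le [HasColimitsOfSize.{0, 0} C] [T.IsStableUnderRetracts]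
    [PreservesFilteredColimitsOfSize.{0, 0} N]
    [IsStableUnderFilteredColimits.{0, 0} T] [IsStableUnderTransfiniteComposition.{0} T]
    [T.RespectsIso] [T.IsMultiplicative]
    (J' : MorphismProperty C) (hJ' : J' ≤ Good N T) :
    (transfiniteCompositions.{0} (coproducts.{0} J').pushouts).retracts ≤ T.inverseImage N := by
  have h1 : (coproducts.{0} J').pushouts ≤ T.inverseImage N := by
    refine le_trans ?_ (fun _ _ j (hj : Good N T j) => hj.self)
    rw [pushouts_le_iff, coproducts_le_iff]
    exact hJ'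
  rw [retracts_le_iff]
  intro X Y f hf
  rw [transfiniteCompositions_iff] at hf
  obtain ⟨J, _, _, _, _, hf⟩ := hf
  have : PreservesWellOrderContinuousOfShape J N :=
    { preservesColimitsOfShape := fun j hj => by
        have : Nonempty (Set.Iio j) := by
          obtain ⟨i, hi⟩ := not_isMin_iff.1 hj.1
          exact ⟨⟨i, hi⟩⟩
        infer_instance }
  have h2 := transfiniteCompositionsOfShape_monotone J h1 _ hf
  exact T.transfiniteCompositionsOfShape_le J _
    (transfiniteCompositionsOfShape_map_of_preserves J N f h2)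

end Acyclic

open SSet SSet.modelCategoryQuillen SS

attribute [local instance] Cardinal.fact_isRegular_aleph0
  Cardinal.orderBotAleph0OrdToType

variable {C : Type 1} [Category.{0} C]
  (N : C ⥤ SSet.{0}) {c : SSet.{0} ⥤ C} (adj : c ⊣ N)

/-- The right adjoint `Ex² N`. -/
noncomputable abbrev U : C ⥤ SSet.{0} := N ⋙ SSet.ex ⋙ SSet.ex

/-- The left adjoint `c Sd²`. -/
noncomputable abbrev F (c : SSet.{0} ⥤ C) : SSet.{0} ⥤ C := SSet.sd ⋙ SSet.sd ⋙ c

variable {N} in
/-- The adjunction. -/
noncomputable def adjU : F c ⊣ U N := SSet.sdExAdjunction.comp (SSet.sdExAdjunction.comp adj)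

/-- Weak equivalences. -/
def W : MorphismProperty C := weq.inverseImage N

instance : (W N).HasTwoOutOfThreeProperty :=
  inferInstanceAs ((weq.inverseImage N).HasTwoOutOfThreeProperty)

/-- Fibrations. -/
def Fib : MorphismProperty C := J.rlp.inverseImage (U N)

/-- Cofibrations. -/
def Cof : MorphismProperty C := (Fib N ⊓ W N).llp

/-- Generating cofibrations. -/
noncomputable def I' (c : SSet.{0} ⥤ C) : MorphismProperty C :=
  ofHoms (fun n : ℕ => (F c).map (∂Δ[n] : (Δ[n] : SSet.{0}).Subcomplex).ι)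

/-- Generating trivial cofibrations. -/
noncomputable def J' (c : SSet.{0} ⥤ C) : MorphismProperty C :=
  ofHoms (fun p : (Σ n : ℕ, Fin (n + 2)) =>
    (F c).map (Λ[p.1 + 1, p.2] : (Δ[p.1 + 1] : SSet.{0}).Subcomplex).ι)

include adj in
lemma rlp_J' : (J' c).rlp = Fib N := by
  ext X Y p
  constructor
  · intro hp A B i hi
    simp only [J, iSup_iff] at hi
    obtain ⟨n, ⟨k⟩⟩ := hi
    rw [← (adjU adj).hasLiftingProperty_iff]
    exact hp _ (ofHoms.mk (⟨n, k⟩ : (Σ n : ℕ, Fin (n + 2))))
  · rintro hp A B i ⟨n, k⟩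
    rw [(adjU adj).hasLiftingProperty_iff]
    exact hp _ (horn_ι_mem_J (n + 1) k)

include adj in
lemma rlp_I' : (I' c).rlp = I.rlp.inverseImage (U N) := by
  ext X Y p
  constructor
  · rintro hp A B i ⟨n⟩
    rw [← (adjU adj).hasLiftingProperty_iff]
    exact hp _ (ofHoms.mk n)
  · rintro hp A B i ⟨n⟩
    rw [(adjU adj).hasLiftingProperty_iff]
    exact hp _ (boundary_ι_mem_I n)

lemma fib_inf_W (hTF : I.{0}.rlp = J.rlp ⊓ weq)
    (hEx : ∀ {X Y : SSet.{0}} (f : X ⟶ Y), weq (SSet.ex.map f) ↔ weq f) :
    Fib N ⊓ W N = I.rlp.inverseImage (U N) := by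
  ext X Y p
  rw [hTF]
  have h : weq ((U N).map p) ↔ weq (N.map p) := (hEx _).trans (hEx _)
  exact ⟨fun ⟨h1, h2⟩ => ⟨h1, h.2 h2⟩, fun ⟨h1, h2⟩ => ⟨h1, h.1 h2⟩⟩

section SmallObject

variable [HasColimitsOfSize.{0, 0} C]
  [PreservesFilteredColimitsOfSize.{0, 0} N]
  [PreservesFilteredColimitsOfSize.{0, 0} SSet.ex.{0}]

omit [HasColimitsOfSize.{0, 0} C] in
lemma isCardinalAccessible_U : (U N).IsCardinalAccessible Cardinal.aleph0.{0} := by
  have h : PreservesFilteredColimitsOfSize.{0, 0} (U N) := ⟨fun J _ _ => inferInstance⟩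
  exact Functor.IsFinitelyAccessible_iff_preservesFilteredColimitsOfSize.2 h

omit [HasColimitsOfSize.{0, 0} C] in
include adj in
lemma isFinitelyPresentable_F (A : SSet.{0}) [A.Finite] :
    IsFinitelyPresentable.{0} ((F c).obj A) :=
  have := isCardinalAccessible_U N
  (adjU adj).isCardinalPresentable_leftAdjoint_obj Cardinal.aleph0.{0} A

include adj in
lemma hasSmallObjectArgument_I' : HasSmallObjectArgument.{0} (I' c) := by
  have : IsSmall.{0} (I' c) := isSmall_ofHoms ..
  have : IsCardinalForSmallObjectArgument (I' c) Cardinal.aleph0.{0} :=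
    { preservesColimit := by
        rintro A B X Y i ⟨n⟩ f hf
        have := isFinitelyPresentable_F N adj ((∂Δ[n] : (Δ[n] : SSet.{0}).Subcomplex) : SSet.{0})
        infer_instance }
  exact ⟨.aleph0, inferInstance, inferInstance, inferInstance⟩

include adj in
lemma hasSmallObjectArgument_J' : HasSmallObjectArgument.{0} (J' c) := by
  have : IsSmall.{0} (J' c) := isSmall_ofHoms ..
  have : IsCardinalForSmallObjectArgument (J' c) Cardinal.aleph0.{0} :=
    { preservesColimit := by
        rintro A B X Y i ⟨n, k⟩ f hf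
        have := isFinitelyPresentable_F N adj
          ((Λ[n + 1, k] : (Δ[n + 1] : SSet.{0}).Subcomplex) : SSet.{0})
        infer_instance }
  exact ⟨.aleph0, inferInstance, inferInstance, inferInstance⟩

end SmallObject

section Model

variable [HasColimitsOfSize.{0, 0} C] [PreservesFilteredColimitsOfSize.{0, 0} N]
  [PreservesFilteredColimitsOfSize.{0, 0} SSet.ex.{0}]
  [IsStableUnderFilteredColimits.{0, 0} weq.{0}]

instance : IsStableUnderFilteredColimits.{0, 0} tcof.{0} where
  isStableUnderColimitsOfShape _ _ _ :=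
    { condition := fun _ _ _ _ h₁ h₂ f hf φ hφ =>
        ⟨IsStableUnderColimitsOfShape.condition (W := monomorphisms SSet.{0}) _ _ _ _ h₁ h₂ f
          (fun j => (hf j).1) φ hφ,
         IsStableUnderColimitsOfShape.condition (W := weq.{0}) _ _ _ _ h₁ h₂ f
          (fun j => (hf j).2) φ hφ⟩ }

include adj in
/-- Acyclicity. -/
theorem llp_fib_le (hhorn : J' c ≤ Good N tcof) : (Fib N).llp ≤ W N := by
  have := hasSmallObjectArgument_J' N adj
  rw [← rlp_J' N adj, llp_rlp_of_hasSmallObjectArgument]
  exact (cells_le N tcof (J' c) hhorn).trans (fun _ _ _ h => h.2)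

variable (hTF : I.{0}.rlp = J.rlp ⊓ weq)
    (hEx : ∀ {X Y : SSet.{0}} (f : X ⟶ Y), weq (SSet.ex.map f) ↔ weq f)
    (hhorn : J' c ≤ Good N tcof)

omit [IsStableUnderFilteredColimits.{0, 0} weq.{0}] in
include adj hTF hEx in
theorem wfs_cof : IsWeakFactorizationSystem (Cof N) (Fib N ⊓ W N) := by
  have := hasSmallObjectArgument_I' N adj
  have h1 : (I' c).rlp = Fib N ⊓ W N := by
    rw [rlp_I' N adj, fib_inf_W N hTF hEx]
  have h2 : Cof N = (I' c).rlp.llp := by rw [h1]; rfl
  rw [h2, ← h1]
  exact { rlp := rlp_llp_rlp _, llp := rfl }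

include adj hTF hEx hhorn in
theorem trivCof_eq : Cof N ⊓ W N = (Fib N).llp := by
  have := hasSmallObjectArgument_J' N adj
  apply le_antisymm
  · intro X Y f hf
    have hfac := factorizationData (J' c).rlp.llp (J' c).rlp f
    have h1 : (Fib N).llp hfac.i := by rw [← rlp_J' N adj]; exact hfac.hi
    have h2 : Fib N hfac.p := by rw [← rlp_J' N adj]; exact hfac.hp
    have h3 : W N hfac.i := llp_fib_le N adj hhorn _ h1
    have h4 : W N hfac.p := by
      refine (W N).of_precomp _ _ h3 ?_
      rw [hfac.fac]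
      exact hf.2
    have h5 : HasLiftingProperty f hfac.p := hf.1 _ ⟨h2, h4⟩
    exact (Fib N).llp.of_retract (RetractArrow.ofLeftLiftingProperty hfac.fac) h1
  · intro X Y f hf
    exact ⟨antitone_llp inf_le_left _ hf, llp_fib_le N adj hhorn _ hf⟩

include adj hTF hEx hhorn in
theorem wfs_fib : IsWeakFactorizationSystem (Cof N ⊓ W N) (Fib N) := by
  have := hasSmallObjectArgument_J' N adj
  rw [trivCof_eq N adj hTF hEx hhorn, ← rlp_J' N adj]
  exact { rlp := rlp_llp_rlp _, llp := rfl }

include adj hTF hEx hhorn in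
/-- The transferred model structure. -/
theorem exists_modelCategory [HasFiniteLimits C] :
    ∃ M : ModelCategory C, weakEquivalences C = W N ∧ fibrations C = Fib N ∧
      cofibrations C = Cof N := by
  let _ : CategoryWithFibrations C := ⟨Fib N⟩
  let _ : CategoryWithCofibrations C := ⟨Cof N⟩
  let _ : CategoryWithWeakEquivalences C := ⟨W N⟩
  have h1 : (weakEquivalences C).HasTwoOutOfThreeProperty :=
    inferInstanceAs ((W N).HasTwoOutOfThreeProperty)
  have h2 : IsWeakFactorizationSystem (cofibrations C) (trivialFibrations C) :=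
    wfs_cof N adj hTF hEx
  have h3 : IsWeakFactorizationSystem (trivialCofibrations C) (fibrations C) :=
    wfs_fib N adj hTF hEx hhorn
  have h4 : HasFiniteColimits C := inferInstance
  exact ⟨ModelCategory.mk' C, rfl, rfl, rfl⟩

end Model

end Vale.Agent.P213.Transfer
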