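import Vale.Agent.Lib.P213.TransferModel
import Vale.Agent.Lib.P213.CellInduction

/-!
# The unit of the transferred adjunction is a weak equivalence
-/

open CategoryTheory Limits MorphismProperty Simplicial HomotopicalAlgebra

namespace Vale.Agent.P213.Transfer

open SSet SSet.modelCategoryQuillen SS

variable {C : Type 1} [Category.{0} C]
  {N : C ⥤ SSet.{0}} {c : SSet.{0} ⥤ C} (adj : c ⊣ N)

/-- The double subdivision. -/
noncomputable abbrev Sd2 : SSet.{0} ⥤ SSet.{0} := SSet.sd ⋙ SSet.sd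

/-- The property of the main theorem. -/
def UnitWeq : ObjectProperty SSet.{0} := fun X => weq (adj.unit.app (Sd2.obj X))

instance : (UnitWeq adj).IsClosedUnderIsomorphisms where
  of_iso {X Y} e hX := by
    refine (weq.arrow_mk_iso_iff (Arrow.isoMk (Sd2.mapIso e) ((Sd2 ⋙ c ⋙ N).mapIso e) ?_)).1 hX
    exact adj.unit.naturality (Sd2.map e.hom)

variable [PreservesFilteredColimitsOfSize.{0, 0} N] [IsStableUnderFilteredColimits.{0, 0} weq.{0}]

lemma unitWeq_colimit (J : Type) [SmallCategory J] [IsFiltered J] (G : J ⥤ SSet.{0})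
    (s : Cocone G) (hs : IsColimit s) (h : ∀ j, UnitWeq adj (G.obj j)) : UnitWeq adj s.pt := by
  have : PreservesColimitsOfSize.{0, 0} c := adj.leftAdjoint_preservesColimits
  have h1 := isColimitOfPreserves Sd2 hs
  have h2 := isColimitOfPreserves (Sd2 ⋙ c ⋙ N) hs
  refine IsStableUnderColimitsOfShape.condition (W := weq.{0}) (J := J) _ _ _ _ h1 h2
    (Functor.whiskerLeft (G ⋙ Sd2) adj.unit) (fun j => h j) _ ?_
  intro j
  exact adj.unit.naturality (Sd2.map (s.ι.app j))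

omit [PreservesFilteredColimitsOfSize.{0, 0} N] [IsStableUnderFilteredColimits.{0, 0} weq.{0}] in
lemma unitWeq_cell {A B X Y : SSet.{0}} {i : A ⟶ B} (hi : Mono (Sd2.map i))
    (hi' : Mono (N.map (c.map (Sd2.map i))))
    {f : A ⟶ X} {g : B ⟶ Y} {j : X ⟶ Y} (sq : IsPushout f i j g)
    (hA : UnitWeq adj A) (hB : UnitWeq adj B) (hX : UnitWeq adj X)
    (hkey : ∀ {P : SSet.{0}} (a : N.obj (c.obj (Sd2.obj X)) ⟶ P)
      (b : N.obj (c.obj (Sd2.obj B)) ⟶ P)
      (sq' : IsPushout (N.map (c.map (Sd2.map f))) (N.map (c.map (Sd2.map i))) a b),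
      weq (sq'.desc (N.map (c.map (Sd2.map j))) (N.map (c.map (Sd2.map g)))
        (by simp only [← Functor.map_comp, sq.w]))) : UnitWeq adj Y := by
  have sq1 : IsPushout (Sd2.map f) (Sd2.map i) (Sd2.map j) (Sd2.map g) := sq.map Sd2
  have sq' := IsPushout.of_hasPushout (N.map (c.map (Sd2.map f))) (N.map (c.map (Sd2.map i)))
  have hk := hkey _ _ sq'
  set k := sq'.desc (N.map (c.map (Sd2.map j))) (N.map (c.map (Sd2.map g)))
        (by simp only [← Functor.map_comp, sq.w]) with hkdef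
  have hnat : ∀ {V V' : SSet.{0}} (u : V ⟶ V'), Sd2.map u ≫ adj.unit.app (Sd2.obj V') =
      adj.unit.app (Sd2.obj V) ≫ N.map (c.map (Sd2.map u)) := fun u =>
    adj.unit.naturality (Sd2.map u)
  let p : Sd2.obj Y ⟶ pushout (N.map (c.map (Sd2.map f))) (N.map (c.map (Sd2.map i))) :=
    sq1.desc (adj.unit.app (Sd2.obj X) ≫ pushout.inl _ _)
      (adj.unit.app (Sd2.obj B) ≫ pushout.inr _ _) (by
      rw [← Category.assoc, ← Category.assoc, hnat, hnat, Category.assoc, Category.assoc, sq'.w])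
  have hp : weq p := by
    refine gluing sq1.flip sq'.flip (adj.unit.app (Sd2.obj A)) (adj.unit.app (Sd2.obj B))
      (adj.unit.app (Sd2.obj X)) p
      (hnat i) (hnat f) (sq1.inr_desc _ _ _) (sq1.inl_desc _ _ _) hA hB hX
  have hpk : p ≫ k = adj.unit.app (Sd2.obj Y) := by
    apply sq1.hom_ext
    · rw [← Category.assoc, sq1.inl_desc, Category.assoc, sq'.inl_desc, hnat]
    · rw [← Category.assoc, sq1.inr_desc, Category.assoc, sq'.inr_desc, hnat]
  change weq (adj.unit.app (Sd2.obj Y))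
  rw [← hpk]
  exact weq.comp_mem _ _ hp hk

/-- The unit of `c ⊣ N` is a weak equivalence at every double subdivision. -/
theorem unitWeq_all
    (hmono : ∀ d : ℕ, Mono (Sd2.map (∂Δ[d] : (Δ[d] : SSet.{0}).Subcomplex).ι))
    (hK : ∀ (m : ℕ) (K : (Δ[m] : SSet.{0}).Subcomplex), UnitWeq adj K)
    (hkey : ∀ (d : ℕ) {X Y : C} (f : c.obj (Sd2.obj (∂Δ[d] : (Δ[d] : SSet.{0}).Subcomplex)) ⟶ X)
      (g : c.obj (Sd2.obj (Δ[d] : SSet.{0})) ⟶ Y) (j : X ⟶ Y)
      (sq : IsPushout f (c.map (Sd2.map (∂Δ[d] : (Δ[d] : SSet.{0}).Subcomplex).ι)) j g)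
      {P : SSet.{0}} (a : N.obj X ⟶ P) (b : N.obj (c.obj (Sd2.obj (Δ[d] : SSet.{0}))) ⟶ P)
      (sq' : IsPushout (N.map f)
        (N.map (c.map (Sd2.map (∂Δ[d] : (Δ[d] : SSet.{0}).Subcomplex).ι))) a b),
      Mono (N.map j) ∧ weq (sq'.desc (N.map j) (N.map g) (by simp only [← Functor.map_comp, sq.w])))
    (X : SSet.{0}) : UnitWeq adj X := by
  have : PreservesColimitsOfSize.{0, 0} c := adj.leftAdjoint_preservesColimits
  apply Cells.cell_induction (UnitWeq adj)
  · intro X hX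
    have h := hK 0 ⊥
    exact (UnitWeq adj).prop_of_iso (SSet.Subcomplex.isInitialBot.uniqueUpToIso hX) h
  · intro d X Y f g j sq hX
    have sq1 := (sq.map Sd2).map c
    have hmono' : Mono (N.map (c.map (Sd2.map (∂Δ[d] : (Δ[d] : SSet.{0}).Subcomplex).ι))) := by
      have sq2 : IsPushout (𝟙 _) (c.map (Sd2.map (∂Δ[d] : (Δ[d] : SSet.{0}).Subcomplex).ι))
        (c.map (Sd2.map (∂Δ[d] : (Δ[d] : SSet.{0}).Subcomplex).ι)) (𝟙 _) :=
          IsPushout.of_horiz_isIso ⟨by simp⟩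
      exact (hkey d _ _ _ sq2 _ _ (IsPushout.of_hasPushout _ _)).1
    refine unitWeq_cell adj (hmono d) hmono' sq (hK d _) ?_ hX ?_
    · exact (UnitWeq adj).prop_of_iso (SSet.Subcomplex.topIso _) (hK d ⊤)
    · intro P a b sq'
      exact (hkey d _ _ _ sq1 a b sq').2
  · intro J _ _ G s hs h
    exact unitWeq_colimit adj J G s hs h

omit [PreservesFilteredColimitsOfSize.{0, 0} N] [IsStableUnderFilteredColimits.{0, 0} weq.{0}] in
lemma adjU_unit_app (X : SSet.{0}) : (adjU adj).unit.app X =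
    SSet.sdExAdjunction.unit.app X ≫ SSet.ex.map (SSet.sdExAdjunction.unit.app (SSet.sd.obj X) ≫
      SSet.ex.map (adj.unit.app (SSet.sd.obj (SSet.sd.obj X)))) := by
  simp [adjU, Adjunction.comp_unit_app]

omit [PreservesFilteredColimitsOfSize.{0, 0} N] [IsStableUnderFilteredColimits.{0, 0} weq.{0}] in
/-- The adjunction `c Sd² ⊣ Ex² N` is a Quillen equivalence. -/
theorem weq_homEquiv_iff
    (hEx : ∀ {X Y : SSet.{0}} (f : X ⟶ Y), weq (SSet.ex.map f) ↔ weq f)
    (hu : ∀ X : SSet.{0}, weq (SSet.sdExAdjunction.unit.app X))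
    (hunit : ∀ X : SSet.{0}, UnitWeq adj X) (X : SSet.{0}) (Y : C) (f : (F c).obj X ⟶ Y) :
    W N f ↔ weq ((adjU adj).homEquiv X Y f) := by
  have h1 : weq ((adjU adj).unit.app X) := by
    rw [adjU_unit_app]
    refine weq.comp_mem _ _ (hu _) ((hEx _).2 ?_)
    exact weq.comp_mem _ _ (hu _) ((hEx _).2 (hunit X))
  have h2 : weq ((U N).map f) ↔ weq (N.map f) := (hEx _).trans (hEx _)
  rw [Adjunction.homEquiv_unit]
  constructor
  · intro h
    exact weq.comp_mem _ _ h1 (h2.2 h)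
  · intro h
    exact h2.1 (weq.of_precomp _ _ h1 h)

end Vale.Agent.P213.Transfer
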