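import Vale.Agent.Lib.P213.Cyl
import Vale.Agent.Lib.P213.Free

/-!
# Truncations of strict omega-categories
-/

open CategoryTheory

namespace Vale.Agent.P213

open OmegaCat

variable {W : OmegaCat}

lemma comp_dim {n k : ℕ} {x y : W.Cell} (hx : W.bd n false x = x) (hy : W.bd n false y = y)
    (h : W.bd k true x = W.bd k false y) : W.bd n false (W.comp k x y) = W.comp k x y := by
  rcases Nat.lt_or_ge k n with hk | hk
  · rw [W.bd_comp false hk h, hx, hy]
  · rw [bd_of_dim hx hk, bd_of_dim hy hk] at h
    subst h
    rw [comp_self_of_dim hx hk, hx]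

lemma bd_dim {n k : ℕ} {x : W.Cell} (ε : Bool) (hx : W.bd n false x = x) :
    W.bd n false (W.bd k ε x) = W.bd k ε x := by
  rcases Nat.lt_or_ge n k with hk | hk
  · rw [bd_of_dim hx hk.le, hx]
  · exact W.bd_bd_ge _ _ _ hk

open Classical in
/-- composition in the truncation -/
noncomputable def truncComp (n : ℕ) (W : OmegaCat) (k : ℕ)
    (x y : {x : W.Cell // W.bd n false x = x}) : {x : W.Cell // W.bd n false x = x} :=
  if h : W.bd n false (W.comp k x.1 y.1) = W.comp k x.1 y.1 then ⟨_, h⟩ else x

lemma truncComp_val {n : ℕ} {k : ℕ} {x y : {x : W.Cell // W.bd n false x = x}}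
    (h : W.bd k true x.1 = W.bd k false y.1) : (truncComp n W k x y).1 = W.comp k x.1 y.1 := by
  unfold truncComp
  rw [dif_pos (comp_dim x.2 y.2 h)]

/-- The sub-omega-category of cells of dimension at most `n`. -/
noncomputable def trunc (n : ℕ) (W : OmegaCat) : OmegaCat where
  Cell := {x : W.Cell // W.bd n false x = x}
  bd k ε x := ⟨W.bd k ε x.1, bd_dim ε x.2⟩
  comp k x y := truncComp n W k x y
  bd_bd_lt η ε x h := Subtype.ext (W.bd_bd_lt η ε x.1 h)
  bd_bd_ge η ε x h := Subtype.ext (W.bd_bd_ge η ε x.1 h)
  bd_source_comp {k x y} h := by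
    have h' := congrArg Subtype.val h
    apply Subtype.ext
    change W.bd k false (truncComp n W k x y).1 = W.bd k false x.1
    rw [truncComp_val h', W.bd_source_comp h']
  bd_target_comp {k x y} h := by
    have h' := congrArg Subtype.val h
    apply Subtype.ext
    change W.bd k true (truncComp n W k x y).1 = W.bd k true y.1
    rw [truncComp_val h', W.bd_target_comp h']
  bd_comp {j k} ε x y hkj h := by
    have h' := congrArg Subtype.val h
    have h'' : W.bd k true (W.bd j ε x.1) = W.bd k false (W.bd j ε y.1) := by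
      rw [W.bd_bd_lt _ _ _ hkj, W.bd_bd_lt _ _ _ hkj]
      exact h'
    apply Subtype.ext
    refine Eq.trans ?_ (truncComp_val (x := ⟨W.bd j ε x.1, bd_dim ε x.2⟩)
      (y := ⟨W.bd j ε y.1, bd_dim ε y.2⟩) h'').symm
    change W.bd j ε (truncComp n W k x y).1 = _
    rw [truncComp_val h', W.bd_comp ε hkj h']
  comp_target k x := by
    apply Subtype.ext
    refine (truncComp_val (y := ⟨W.bd k true x.1, bd_dim true x.2⟩)
      (W.bd_bd_ge _ _ _ le_rfl).symm).trans ?_
    exact W.comp_target k x.1
  source_comp k x := by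
    apply Subtype.ext
    refine (truncComp_val (x := ⟨W.bd k false x.1, bd_dim false x.2⟩)
      (W.bd_bd_ge _ _ _ le_rfl)).trans ?_
    exact W.source_comp k x.1
  comp_assoc {k x y z} h h' := by
    have g := congrArg Subtype.val h
    have g' := congrArg Subtype.val h'
    have e1 : W.bd k true (truncComp n W k x y).1 = W.bd k false z.1 := by
      rw [truncComp_val g, W.bd_target_comp g]
      exact g'
    have e2 : W.bd k true x.1 = W.bd k false (truncComp n W k y z).1 := by
      rw [truncComp_val g', W.bd_source_comp g']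
      exact g
    apply Subtype.ext
    rw [truncComp_val e1, truncComp_val g, truncComp_val e2, truncComp_val g', W.comp_assoc g g']
  interchange {j k x y x' y'} hjk h h' g g' := by
    have h1 := congrArg Subtype.val h
    have h2 := congrArg Subtype.val h'
    have g1 := congrArg Subtype.val g
    have g2 := congrArg Subtype.val g'
    have g1' : W.bd j true x.1 = W.bd j false x'.1 := g1
    have g2' : W.bd j true y.1 = W.bd j false y'.1 := g2
    have h1' : W.bd k true x.1 = W.bd k false y.1 := h1
    have h2' : W.bd k true x'.1 = W.bd k false y'.1 := h2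
    have e1 : W.bd j true (truncComp n W k x y).1 = W.bd j false (truncComp n W k x' y').1 := by
      rw [truncComp_val h1, truncComp_val h2, bd_lt_comp true hjk h1', bd_lt_comp false hjk h2']
      exact g1
    have e2 : W.bd k true (truncComp n W j x x').1 = W.bd k false (truncComp n W j y y').1 := by
      rw [truncComp_val g1, truncComp_val g2, W.bd_comp true hjk g1', W.bd_comp false hjk g2',
        h1', h2']
    apply Subtype.ext
    rw [truncComp_val e1, truncComp_val h1, truncComp_val h2, truncComp_val e2, truncComp_val g1,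
      truncComp_val g2, W.interchange hjk h1 h2 g1 g2]
  finite_dim x := ⟨n, Subtype.ext x.2⟩

lemma trunc_comp_val {n : ℕ} {k : ℕ} {x y : (trunc n W).Cell}
    (h : W.bd k true x.1 = W.bd k false y.1) : ((trunc n W).comp k x y).1 = W.comp k x.1 y.1 :=
  truncComp_val h

/-- the inclusion of the truncation -/
noncomputable def truncIncl (n : ℕ) (W : OmegaCat) : trunc n W ⟶ W where
  toFun x := x.1
  map_bd _ _ _ := rfl
  map_comp _ _ _ h := truncComp_val (congrArg Subtype.val h)

/-- A function functorial in dimensions at most `n` gives a functor on the truncation. -/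
noncomputable def truncMap {K : Cpx} {Y : OmegaCat} {n : ℕ} {Φ : Table K → Y.Cell}
    (hΦ : FunctorialOn n Φ) : trunc n (nu K) ⟶ Y where
  toFun x := Φ x.1
  map_bd k ε x := hΦ.1 k ε x.1 x.2
  map_comp k x y h := by
    have h' := congrArg Subtype.val h
    exact (congrArg Φ (truncComp_val h')).trans (hΦ.2 k x.1 y.1 x.2 y.2 h')

lemma isCyl_trunc {n : ℕ} {m : ℕ} {A B : (trunc n W).Cell} {u : CStream (trunc n W)}
    (h : CStream.IsCyl (Y := W) m A.1 B.1 (fun i δ => (u i δ).1)) :
    CStream.IsCyl m A B u := by
  refine CStream.IsCyl.coind (Y := trunc n W) (fun m A B u => CStream.IsCyl (Y := W) m A.1 B.1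
    (fun i δ => (u i δ).1)) ?_ h
  intro m A B u h
  refine ⟨⟨?_, ?_, ?_, ?_⟩, ?_⟩
  · intro j hj ε
    exact Subtype.ext (h.head.par j hj ε)
  · intro ε
    exact Subtype.ext (h.head.src ε)
  · intro ε
    exact Subtype.ext (h.head.tgt ε)
  · intro ε
    exact Subtype.ext (h.head.dim ε)
  · have h1 := h.tail
    rw [trunc_comp_val h.head.comp_src, trunc_comp_val h.head.comp_tgt]
    exact h1

lemma map_truncIncl_injective {n : ℕ} {x y : CylCell (trunc n W)}
    (h : CylCell.map (truncIncl n W) x = CylCell.map (truncIncl n W) y) : x = y := by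
  refine CylCell.ext ?_ ?_ ?_
  · exact Subtype.ext (congrArg CylCell.X h)
  · exact Subtype.ext (congrArg CylCell.Z h)
  · funext i δ
    exact Subtype.ext (congrFun (congrFun (congrArg CylCell.u h) i) δ)

/-- Lift of a cylinder to the truncation. -/
noncomputable def liftCyl {n : ℕ} (x : CylCell W) (hX : W.bd n false x.X = x.X)
    (hZ : W.bd n false x.Z = x.Z) (hu : ∀ i δ, W.bd n false (x.u i δ) = x.u i δ) :
    CylCell (trunc n W) where
  X := ⟨x.X, hX⟩
  Z := ⟨x.Z, hZ⟩
  u i δ := ⟨x.u i δ, hu i δ⟩
  isCyl := isCyl_trunc x.isCyl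
  fin := by
    obtain ⟨m, h1, h2, h3⟩ := x.fin
    refine ⟨m, Subtype.ext h1, Subtype.ext h2, ?_⟩
    funext i δ
    apply Subtype.ext
    have h4 := congrFun (congrFun h3 i) δ
    by_cases hi : i < m
    · exact congrArg Subtype.val (if_pos hi)
    · have h5 : CStream.fs m false x.u i δ = x.u m false := if_neg hi
      refine Eq.trans (congrArg Subtype.val (if_neg hi)) ?_
      exact h5.symm.trans h4

lemma map_liftCyl {n : ℕ} (x : CylCell W) (hX : W.bd n false x.X = x.X)
    (hZ : W.bd n false x.Z = x.Z) (hu : ∀ i δ, W.bd n false (x.u i δ) = x.u i δ) :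
    CylCell.map (truncIncl n W) (liftCyl x hX hZ hu) = x := rfl

end Vale.Agent.P213
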